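import Mathlib

/-!
# Row 197, module T5: abstract builder of a CW structure

From a family of characteristic maps `Φ n i : (Fin n → ℝ) → X` into a Hausdorff space we build a
`Topology.CWComplex` structure on the whole space.
-/

set_option autoImplicit false

open Set Metric

namespace Crest.Agent.R197

section aux

variable {X : Type} [TopologicalSpace X] [T2Space X] {n : ℕ} (f : (Fin n → ℝ) → X)

/-- the inverse of a saturated injective map on the open ball is continuous -/
theorem cw_build_symm (cont : ContinuousOn f (closedBall 0 1)) (inj : InjOn f (ball 0 1))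
    (sat : ∀ x y, x ∈ ball (0 : Fin n → ℝ) 1 → y ∈ sphere (0 : Fin n → ℝ) 1 → f x ≠ f y) :
    ContinuousOn (inj.toPartialEquiv f (ball 0 1)).symm
      (inj.toPartialEquiv f (ball 0 1)).target := by
  set e := inj.toPartialEquiv f (ball 0 1) with he
  have hsource : e.source = ball 0 1 := rfl
  have htarget : e.target = f '' ball 0 1 := rfl
  have hcoe : (e : (Fin n → ℝ) → X) = f := rfl
  rw [continuousOn_iff_isClosed]
  intro K hK
  -- the closed set in `X`
  refine ⟨f '' (K ∩ closedBall 0 1), ?_, ?_⟩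
  · have hcomp : IsCompact (K ∩ closedBall (0 : Fin n → ℝ) 1) :=
      (isCompact_closedBall 0 1).inter_left hK
    exact (hcomp.image_of_continuousOn (cont.mono inter_subset_right)).isClosed
  · ext x
    constructor
    · rintro ⟨hxK, hxt⟩
      refine ⟨⟨e.symm x, ⟨hxK, ?_⟩, ?_⟩, hxt⟩
      · exact ball_subset_closedBall (hsource ▸ e.map_target hxt)
      · exact e.right_inv hxt
    · rintro ⟨⟨y, ⟨hyK, hyB⟩, hyx⟩, hxt⟩
      refine ⟨?_, hxt⟩
      -- `y` lies in the open ball
      have hx' : x ∈ f '' ball 0 1 := htarget ▸ hxt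
      obtain ⟨z, hz, hzx⟩ := hx'
      have hy : y ∈ ball (0 : Fin n → ℝ) 1 := by
        by_contra hy
        have hys : y ∈ sphere (0 : Fin n → ℝ) 1 := by
          rw [mem_sphere]
          rw [mem_closedBall] at hyB
          rw [mem_ball] at hy
          exact le_antisymm hyB (not_lt.mp hy)
        exact sat z y hz hys (hzx.trans hyx.symm)
      have : e.symm x = y := by
        rw [← hyx]
        exact e.left_inv (hsource ▸ hy)
      show e.symm x ∈ K
      rw [this]
      exact hyK

end aux

theorem cw_build {X : Type} [TopologicalSpace X] [T2Space X] (cell : ℕ → Type)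
    (Φ : ∀ n, cell n → (Fin n → ℝ) → X)
    (cont : ∀ n i, ContinuousOn (Φ n i) (Metric.closedBall 0 1))
    (inj : ∀ n i, Set.InjOn (Φ n i) (Metric.ball 0 1))
    (sat : ∀ n i x y, x ∈ Metric.ball (0 : Fin n → ℝ) 1 → y ∈ Metric.sphere (0 : Fin n → ℝ) 1 →
      Φ n i x ≠ Φ n i y)
    (disj : ∀ n m i j x y, x ∈ Metric.ball (0 : Fin n → ℝ) 1 → y ∈ Metric.ball (0 : Fin m → ℝ) 1 →
      Φ n i x = Φ m j y → (⟨n, i⟩ : Σ n, cell n) = ⟨m, j⟩)
    (bd : ∀ n i, ∃ I : Π m, Finset (cell m), ∀ x ∈ Metric.sphere (0 : Fin n → ℝ) 1,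
      ∃ m, m < n ∧ ∃ j ∈ I m, ∃ y ∈ Metric.closedBall (0 : Fin m → ℝ) 1, Φ m j y = Φ n i x)
    (weak : ∀ A : Set X, (∀ n i, IsClosed (Φ n i ⁻¹' A ∩ Metric.closedBall 0 1)) → IsClosed A)
    (un : ∀ x, ∃ n i, ∃ y ∈ Metric.closedBall (0 : Fin n → ℝ) 1, Φ n i y = x) :
    ∃ C : _root_.Topology.CWComplex (Set.univ : Set X),
      ∀ n, IsEmpty (cell n) → IsEmpty (_root_.Topology.RelCWComplex.cell (Set.univ : Set X) n) := by
  let C : _root_.Topology.CWComplex (Set.univ : Set X) :=
    { cell := cell
      map := fun n i => (inj n i).toPartialEquiv (Φ n i) (ball 0 1)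
      source_eq := fun n i => rfl
      continuousOn := fun n i => cont n i
      continuousOn_symm := fun n i => cw_build_symm (Φ n i) (cont n i) (inj n i) (sat n i)
      pairwiseDisjoint' := by
        rintro ⟨n, i⟩ - ⟨m, j⟩ - hne
        rw [Function.onFun, Set.disjoint_left]
        rintro x ⟨y, hy, hyx⟩ ⟨z, hz, hzx⟩
        exact hne (disj n m i j y z hy hz (hyx.trans hzx.symm))
      mapsTo' := by
        intro n i
        obtain ⟨I, hI⟩ := bd n i
        refine ⟨I, fun x hx => ?_⟩
        obtain ⟨m, hm, j, hj, y, hy, hyx⟩ := hI x hx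
        simp only [mem_iUnion]
        exact ⟨m, hm, j, hj, y, hy, hyx⟩
      closed' := by
        intro A _ hA
        refine weak A fun n i => ?_
        have h1 : IsClosed (A ∩ Φ n i '' closedBall 0 1) := hA n i
        have h2 := (cont n i).preimage_isClosed_of_isClosed isClosed_closedBall h1
        have h3 : closedBall (0 : Fin n → ℝ) 1 ∩ Φ n i ⁻¹' (A ∩ Φ n i '' closedBall 0 1) =
            Φ n i ⁻¹' A ∩ closedBall 0 1 := by
          ext x
          constructor
          · rintro ⟨hx, hxA, -⟩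
            exact ⟨hxA, hx⟩
          · rintro ⟨hxA, hx⟩
            exact ⟨hx, hxA, mem_image_of_mem _ hx⟩
        rw [← h3]
        exact h2
      union' := by
        rw [eq_univ_iff_forall]
        intro x
        obtain ⟨n, i, y, hy, hyx⟩ := un x
        simp only [mem_iUnion]
        exact ⟨n, i, y, hy, hyx⟩ }
  exact ⟨C, fun n h => h⟩

end Crest.Agent.R197
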