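import Mathlib

/-! Row 197, module R (part 1): path permutations, free groups are residually finite, and free factors
are separable. -/

set_option autoImplicit false

namespace Crest.Agent.R197

/-- A partial bijection of a finite type extends to a permutation. -/
theorem exists_perm_extends {T : Type*} [Finite T] (R : T → T → Prop)
    (hf : ∀ s t t', R s t → R s t' → t = t') (hi : ∀ s s' t, R s t → R s' t → s = s') :
    ∃ e : Equiv.Perm T, ∀ s t, R s t → e s = t := by
  classical
  have := Fintype.ofFinite T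
  let p : T → Prop := fun s => ∃ t, R s t
  let q : T → Prop := fun t => ∃ s, R s t
  let e0 : {s // p s} ≃ {t // q t} :=
    { toFun := fun s => ⟨s.2.choose, ⟨s.1, s.2.choose_spec⟩⟩
      invFun := fun t => ⟨t.2.choose, ⟨t.1, t.2.choose_spec⟩⟩
      left_inv := by
        intro s
        apply Subtype.ext
        have h1 := s.2.choose_spec
        have hq : q s.2.choose := ⟨s.1, h1⟩
        exact hi _ _ _ hq.choose_spec h1
      right_inv := by
        intro t
        apply Subtype.ext
        have h1 := t.2.choose_spec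
        have hp : p t.2.choose := ⟨t.1, h1⟩
        exact hf _ _ _ hp.choose_spec h1 }
  refine ⟨e0.extendSubtype, fun s t hst => ?_⟩
  have hs : p s := ⟨t, hst⟩
  rw [Equiv.extendSubtype_apply_of_mem e0 s hs]
  exact hf _ _ _ hs.choose_spec hst

/-- Path permutations: a reduced labelled path of length `k` is realised by permutations of
`Fin (k+1)`. -/
theorem exists_perm_path {I : Type*} (k : ℕ) (a : ℕ → I) (e : ℕ → Bool)
    (h : ∀ m, m + 1 < k → a m = a (m + 1) → e m = e (m + 1)) :
    ∃ π : I → Equiv.Perm (Fin (k + 1)), ∀ (m : ℕ) (hm : m < k),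
      (e m = true → π (a m) ⟨m, by omega⟩ = ⟨m + 1, by omega⟩) ∧
      (e m = false → π (a m) ⟨m + 1, by omega⟩ = ⟨m, by omega⟩) := by
  classical
  let R : I → Fin (k + 1) → Fin (k + 1) → Prop := fun i s t =>
    (s.1 < k ∧ a s.1 = i ∧ e s.1 = true ∧ t.1 = s.1 + 1) ∨
    (t.1 < k ∧ a t.1 = i ∧ e t.1 = false ∧ s.1 = t.1 + 1)
  have key : ∀ i, ∃ f : Equiv.Perm (Fin (k + 1)), ∀ s t, R i s t → f s = t := by
    intro i
    apply exists_perm_extends
    · rintro s t t' (⟨h1, h2, h3, h4⟩ | ⟨h1, h2, h3, h4⟩) (⟨g1, g2, g3, g4⟩ | ⟨g1, g2, g3, g4⟩)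
      · apply Fin.ext; omega
      · exfalso
        have : t'.1 + 1 < k := by omega
        have hh := h t'.1 this (by rw [g2, ← g4, h2])
        rw [g3, ← g4, h3] at hh
        exact Bool.noConfusion hh
      · exfalso
        have : t.1 + 1 < k := by omega
        have hh := h t.1 this (by rw [h2, ← h4, g2])
        rw [h3, ← h4, g3] at hh
        exact Bool.noConfusion hh
      · apply Fin.ext; omega
    · rintro s s' t (⟨h1, h2, h3, h4⟩ | ⟨h1, h2, h3, h4⟩) (⟨g1, g2, g3, g4⟩ | ⟨g1, g2, g3, g4⟩)
      · apply Fin.ext; omega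
      · exfalso
        have : s.1 + 1 < k := by omega
        have hh := h s.1 this (by rw [h2, ← h4, g2])
        rw [h3, ← h4, g3] at hh
        exact Bool.noConfusion hh
      · exfalso
        have : s'.1 + 1 < k := by omega
        have hh := h s'.1 this (by rw [g2, ← g4, h2])
        rw [g3, ← g4, h3] at hh
        exact Bool.noConfusion hh
      · apply Fin.ext; omega
  choose π hπ using key
  refine ⟨π, fun m hm => ⟨fun he => ?_, fun he => ?_⟩⟩
  · exact hπ _ _ _ (Or.inl ⟨hm, rfl, he, rfl⟩)
  · exact hπ _ _ _ (Or.inr ⟨hm, rfl, he, rfl⟩)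

/-- Free groups are residually finite (permutation form). -/
theorem freeGroup_exists_perm {I : Type*} (w : FreeGroup I) (hw : w ≠ 1) :
    ∃ (k : ℕ) (ψ : FreeGroup I →* Equiv.Perm (Fin (k + 1))), ψ w ≠ 1 := by
  classical
  set L := w.toWord with hL
  have hred : FreeGroup.IsReduced L := FreeGroup.isReduced_toWord
  have hne : L ≠ [] := by
    intro h
    exact hw (FreeGroup.toWord_eq_nil_iff.mp h)
  obtain ⟨d, hd⟩ := List.exists_mem_of_ne_nil L hne
  set k := L.length with hk
  have hkpos : 0 < k := List.length_pos_iff.mpr hne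
  let a : ℕ → I := fun m => (L.getD (k - 1 - m) d).1
  let e : ℕ → Bool := fun m => (L.getD (k - 1 - m) d).2
  obtain ⟨π, hπ⟩ := exists_perm_path k a e (by
    intro m hm h
    have h1 : k - 1 - m < L.length := by omega
    have h2 : k - 1 - (m + 1) < L.length := by omega
    simp only [a, e, List.getD_eq_getElem _ _ h1, List.getD_eq_getElem _ _ h2] at h ⊢
    have h3 := List.isChain_iff_getElem.mp hred (k - 1 - (m + 1)) (by omega)
    have h4 : k - 1 - (m + 1) + 1 = k - 1 - m := by omega
    simp only [h4] at h3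
    exact (h3 h.symm).symm)
  refine ⟨k, FreeGroup.lift π, ?_⟩
  have key : ∀ m (hm : m ≤ k),
      ((L.drop (k - m)).map fun x => cond x.2 (π x.1) (π x.1)⁻¹).prod ⟨0, by omega⟩ =
        ⟨m, by omega⟩ := by
    intro m
    induction m with
    | zero => intro _; simp [hk]
    | succ m ih =>
      intro hm
      have h1 : k - (m + 1) < L.length := by omega
      have h2 : k - (m + 1) + 1 = k - m := by omega
      rw [List.drop_eq_getElem_cons h1, h2, List.map_cons, List.prod_cons, Equiv.Perm.mul_apply,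
        ih (by omega)]
      have h3 := hπ m (by omega)
      have h4 : k - 1 - m = k - (m + 1) := by omega
      simp only [a, e, h4, List.getD_eq_getElem _ _ h1] at h3
      rcases hb : (L[k - (m + 1)]).2 with _ | _
      · simp only [cond_false]
        rw [Equiv.Perm.inv_eq_iff_eq]
        exact (h3.2 hb).symm
      · simp only [cond_true]
        exact h3.1 hb
  intro h1
  have h2 := key k le_rfl
  rw [Nat.sub_self, List.drop_zero, ← FreeGroup.lift_mk, hL, FreeGroup.mk_toWord, h1] at h2
  simp only [Equiv.Perm.coe_one, id_eq, Fin.mk.injEq] at h2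
  omega

/-- `g` can be separated from `W` by a subgroup of finite index. -/
def Sep {G : Type*} [Group G] (W : Subgroup G) (g : G) : Prop :=
  ∃ M : Subgroup G, M.FiniteIndex ∧ W ≤ M ∧ g ∉ M

theorem Sep.comap {G H : Type*} [Group G] [Group H] {W : Subgroup H} (f : G →* H) {g : G}
    (h : Sep W (f g)) {V : Subgroup G} (hV : V ≤ W.comap f) : Sep V g := by
  obtain ⟨M, hM, hW, hg⟩ := h
  refine ⟨M.comap f, ⟨?_⟩, hV.trans (Subgroup.comap_mono hW), hg⟩
  have h1 := Subgroup.relIndex_comap_ne_zero f (J := M) (K := ⊤)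
    (by rw [Subgroup.relIndex_top_right]; exact hM.index_ne_zero)
  rwa [Subgroup.comap_top, Subgroup.relIndex_top_right] at h1

theorem Sep.map {G H : Type*} [Group G] [Group H] {W : Subgroup G} (f : G →* H)
    (hf : Function.Injective f) (hr : f.range.FiniteIndex) {g : G} (h : Sep W g) :
    Sep (W.map f) (f g) := by
  obtain ⟨M, hM, hW, hg⟩ := h
  refine ⟨M.map f, ⟨?_⟩, Subgroup.map_mono hW, ?_⟩
  · rw [Subgroup.index_map_of_injective _ hf]
    exact mul_ne_zero hM.index_ne_zero hr.index_ne_zero
  · rintro ⟨m, hm, hmg⟩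
    exact hg (hf hmg ▸ hm)

/-- free factors are separable -/
theorem sep_freeFactor {I : Type*} (A : Set I) (w : FreeGroup I)
    (hw : w ∉ Subgroup.closure (FreeGroup.of '' A)) :
    Sep (Subgroup.closure (FreeGroup.of '' A)) w := by
  classical
  let ρ : FreeGroup I →* FreeGroup I := FreeGroup.lift fun i => if i ∈ A then FreeGroup.of i else 1
  have hρ1 : ∀ i ∈ A, ρ (FreeGroup.of i) = FreeGroup.of i := by
    intro i hi; simp [ρ, hi]
  have hρ2 : ∀ v, ρ v ∈ Subgroup.closure (FreeGroup.of '' A) := by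
    intro v
    have : ρ.range ≤ Subgroup.closure (FreeGroup.of '' A) := by
      rw [FreeGroup.range_lift_eq_closure, Subgroup.closure_le]
      rintro _ ⟨i, rfl⟩
      by_cases hi : i ∈ A
      · simp only [hi, if_true]
        exact Subgroup.subset_closure ⟨i, hi, rfl⟩
      · simp only [hi, if_false]
        exact Subgroup.one_mem _
    exact this ⟨v, rfl⟩
  have hne : w⁻¹ * ρ w ≠ 1 := by
    intro h
    apply hw
    rw [inv_mul_eq_one] at h
    rw [h]
    exact hρ2 w
  obtain ⟨k, ψ, hψ⟩ := freeGroup_exists_perm _ hne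
  refine ⟨MonoidHom.eqLocus ψ (ψ.comp ρ), ?_, ?_, ?_⟩
  · have h1 : (ψ.ker ⊓ (ψ.comp ρ).ker).FiniteIndex := inferInstance
    refine Subgroup.finiteIndex_of_le (H := ψ.ker ⊓ (ψ.comp ρ).ker) ?_
    intro v hv
    rw [Subgroup.mem_inf, MonoidHom.mem_ker, MonoidHom.mem_ker] at hv
    show ψ v = (ψ.comp ρ) v
    rw [hv.1, hv.2]
  · rw [Subgroup.closure_le]
    rintro _ ⟨i, hi, rfl⟩
    show ψ _ = ψ (ρ _)
    rw [hρ1 i hi]
  · intro h
    apply hψ
    have h' : ψ w = ψ (ρ w) := h
    rw [map_mul, map_inv, h', inv_mul_cancel]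

end Crest.Agent.R197
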