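import Mathlib
import Crest.Agent.R197.Defs

/-! Row 197, module F': an aspherical presentation gives the extension property. -/

set_option autoImplicit false

namespace Crest.Agent.R197

namespace AsphExt

/-! ### finite supports -/

section supp
variable {I : Type}

open Classical in
/-- retraction `F(I) → F(I')` -/
noncomputable def ret (I' : Set I) : FreeGroup I →* FreeGroup I' :=
  FreeGroup.lift (fun i => if h : i ∈ I' then FreeGroup.of ⟨i, h⟩ else 1)

/-- inclusion `F(I') → F(I)` -/
def inc (I' : Set I) : FreeGroup I' →* FreeGroup I := FreeGroup.map Subtype.val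

theorem ret_inc (I' : Set I) (w : FreeGroup I') : ret I' (inc I' w) = w := by
  have : (ret I').comp (inc I') = MonoidHom.id _ := by
    apply FreeGroup.ext_hom
    intro i
    simp [ret, inc]
  exact DFunLike.congr_fun this w

def Supp (I' : Set I) (w : FreeGroup I) : Prop := inc I' (ret I' w) = w

theorem supp_mono {I' I'' : Set I} (h : I' ⊆ I'') (w : FreeGroup I) (hw : Supp I' w) :
    Supp I'' w := by
  have key : ∀ u : FreeGroup I', inc I' u = inc I'' (FreeGroup.map (Set.inclusion h) u) := by
    intro u
    have : inc I' = (inc I'').comp (FreeGroup.map (Set.inclusion h)) := by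
      apply FreeGroup.ext_hom
      intro i
      simp [inc]
    rw [this]; rfl
  unfold Supp at *
  rw [← hw, key, ret_inc]

theorem supp_mul {I' : Set I} {a b : FreeGroup I} (ha : Supp I' a) (hb : Supp I' b) :
    Supp I' (a * b) := by
  unfold Supp at *
  rw [map_mul, map_mul, ha, hb]

theorem supp_inv {I' : Set I} {a : FreeGroup I} (ha : Supp I' a) : Supp I' a⁻¹ := by
  unfold Supp at *
  rw [map_inv, map_inv, ha]

theorem supp_of {I' : Set I} {i : I} (hi : i ∈ I') : Supp I' (FreeGroup.of i) := by
  simp [Supp, ret, inc, hi]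

theorem exists_supp (w : FreeGroup I) : ∃ I' : Set I, I'.Finite ∧ Supp I' w := by
  induction w using FreeGroup.induction_on with
  | C1 => exact ⟨∅, Set.finite_empty, by simp [Supp]⟩
  | of i => exact ⟨{i}, Set.finite_singleton i, supp_of rfl⟩
  | inv_of i h =>
    obtain ⟨I', h1, h2⟩ := h
    exact ⟨I', h1, supp_inv h2⟩
  | mul a b ha hb =>
    obtain ⟨I1, h1, h1'⟩ := ha
    obtain ⟨I2, h2, h2'⟩ := hb
    exact ⟨I1 ∪ I2, h1.union h2, supp_mul (supp_mono Set.subset_union_left _ h1')
      (supp_mono Set.subset_union_right _ h2')⟩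

theorem exists_supp_family {K : Type} (hK : Finite K) (w : K → FreeGroup I) :
    ∃ I' : Set I, I'.Finite ∧ ∀ k, Supp I' (w k) := by
  choose f hf hf' using fun k => exists_supp (w k)
  exact ⟨⋃ k, f k, Set.finite_iUnion hf, fun k => supp_mono (Set.subset_iUnion f k) _ (hf' k)⟩

end supp

/-! ### finitely many relators -/

theorem exists_finite_relators {F J : Type} [Group F] (r : J → F) (w : F)
    (hw : w ∈ Subgroup.normalClosure (Set.range r)) :
    ∃ J' : Set J, J'.Finite ∧ w ∈ Subgroup.normalClosure (r '' J') := by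
  let N : Subgroup F :=
    { carrier := {w | ∃ J' : Set J, J'.Finite ∧ w ∈ Subgroup.normalClosure (r '' J')}
      one_mem' := ⟨∅, Set.finite_empty, one_mem _⟩
      mul_mem' := by
        rintro a b ⟨J1, h1, h1'⟩ ⟨J2, h2, h2'⟩
        exact ⟨J1 ∪ J2, h1.union h2, mul_mem
          (Subgroup.normalClosure_mono (Set.image_mono Set.subset_union_left) h1')
          (Subgroup.normalClosure_mono (Set.image_mono Set.subset_union_right) h2')⟩
      inv_mem' := by
        rintro a ⟨J1, h1, h1'⟩
        exact ⟨J1, h1, inv_mem h1'⟩ }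
  have hN : N.Normal := ⟨by
    rintro a ⟨J1, h1, h1'⟩ g
    exact ⟨J1, h1, Subgroup.normalClosure_normal.conj_mem a h1' g⟩⟩
  have : Subgroup.normalClosure (Set.range r) ≤ N := by
    apply Subgroup.normalClosure_le_normal
    rintro _ ⟨j, rfl⟩
    exact ⟨{j}, Set.finite_singleton j, Subgroup.subset_normalClosure ⟨j, rfl, rfl⟩⟩
  exact this hw

theorem exists_finite_relators_family {F J K : Type} [Group F] (hK : Finite K) (r : J → F)
    (w : K → F) (hw : ∀ k, w k ∈ Subgroup.normalClosure (Set.range r)) :
    ∃ J' : Set J, J'.Finite ∧ ∀ k, w k ∈ Subgroup.normalClosure (r '' J') := by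
  choose f hf hf' using fun k => exists_finite_relators r (w k) (hw k)
  exact ⟨⋃ k, f k, Set.finite_iUnion hf, fun k =>
    Subgroup.normalClosure_mono (Set.image_mono (Set.subset_iUnion f k)) (hf' k)⟩

/-! ### the extension of `G` -/

section ext
variable {G : Type} [Group G] {V : Type} [AddCommGroup V] [DistribMulAction G V]

/-- action on `Multiplicative V` through `f` -/
def act {Γ : Type} [Group Γ] (V : Type) [AddCommGroup V] [DistribMulAction G V] (f : Γ →* G) :
    Γ →* MulAut (Multiplicative V) :=
  { toFun := fun w => AddEquiv.toMultiplicative (DistribMulAction.toAddEquiv V (f w))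
    map_one' := by
      ext v
      change Multiplicative.ofAdd (f 1 • Multiplicative.toAdd v) = v
      simp
    map_mul' := by
      intro a b
      ext v
      change Multiplicative.ofAdd (f (a * b) • Multiplicative.toAdd v) =
        Multiplicative.ofAdd (f a • (f b • Multiplicative.toAdd v))
      rw [map_mul, mul_smul] }

theorem act_apply {Γ : Type} [Group Γ] (f : Γ →* G) (w : Γ) (v : V) :
    act V f w (Multiplicative.ofAdd v) = Multiplicative.ofAdd (f w • v) := rfl

variable {F : Type} [Group F] (π : F →* G) (s : F → V)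

/-- the normal subgroup `{(-s a, a)}` -/
def nn (h1 : ∀ a b, π a = 1 → π b = 1 → s (a * b) = s a + s b)
    (_h2 : ∀ w a, π a = 1 → s (w * a * w⁻¹) = π w • s a) :
    Subgroup (Multiplicative V ⋊[act V π] F) where
  carrier := {p | π p.right = 1 ∧ p.left = Multiplicative.ofAdd (- s p.right)}
  one_mem' := by
    have : s 1 = 0 := by
      have := h1 1 1 (map_one _) (map_one _)
      simpa using this
    simp [this]
  mul_mem' := by
    rintro ⟨v, a⟩ ⟨v', b⟩ ⟨ha, hv⟩ ⟨hb, hv'⟩
    simp only at ha hv hb hv'
    refine ⟨by simp [ha, hb], ?_⟩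
    simp only [SemidirectProduct.mul_left, SemidirectProduct.mul_right, hv, hv', act_apply, ha,
      one_smul, h1 a b ha hb, ← ofAdd_add]
    congr 1
    abel
  inv_mem' := by
    rintro ⟨v, a⟩ ⟨ha, hv⟩
    simp only at ha hv
    have h0 : s 1 = 0 := by
      have := h1 1 1 (map_one _) (map_one _)
      simpa using this
    have hi : s a⁻¹ = - s a := by
      have := h1 a a⁻¹ ha (by simp [ha])
      rw [mul_inv_cancel, h0] at this
      exact (neg_eq_of_add_eq_zero_right this.symm).symm
    refine ⟨by simp [ha], ?_⟩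
    simp only [SemidirectProduct.inv_left, SemidirectProduct.inv_right, hv, hi, ← ofAdd_neg,
      act_apply]
    simp [ha]

theorem nn_normal (h1 : ∀ a b, π a = 1 → π b = 1 → s (a * b) = s a + s b)
    (h2 : ∀ w a, π a = 1 → s (w * a * w⁻¹) = π w • s a) : (nn π s h1 h2).Normal := by
  constructor
  rintro ⟨v, a⟩ ⟨ha, hv⟩ ⟨u, w⟩
  simp only at ha hv
  refine ⟨by simp [ha], ?_⟩
  have e : (⟨u, w⟩ : Multiplicative V ⋊[act V π] F)⁻¹
      = ⟨Multiplicative.ofAdd (- ((π w)⁻¹ • Multiplicative.toAdd u)), w⁻¹⟩ := by
    ext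
    · simp only [SemidirectProduct.inv_left]
      rw [← ofAdd_toAdd u, ← ofAdd_neg, act_apply]
      simp
    · simp
  rw [e]
  obtain ⟨u, rfl⟩ : ∃ u' : V, u = Multiplicative.ofAdd u' := ⟨Multiplicative.toAdd u, rfl⟩
  simp only [SemidirectProduct.mul_left, SemidirectProduct.mul_right, hv, act_apply,
    h2 w a ha, ← ofAdd_add, toAdd_ofAdd]
  congr 1
  simp [ha, smul_neg, smul_smul]

/-- the extension of `G` by `V` determined by `s` -/
def extX (hπ : Function.Surjective π)
    (h1 : ∀ a b, π a = 1 → π b = 1 → s (a * b) = s a + s b)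
    (h2 : ∀ w a, π a = 1 → s (w * a * w⁻¹) = π w • s a) : ExtVia (MonoidHom.id G) V :=
  haveI := nn_normal π s h1 h2
  { U := (Multiplicative V ⋊[act V π] F) ⧸ nn π s h1 h2
    ι := (QuotientGroup.mk' (nn π s h1 h2)).comp SemidirectProduct.inl
    κ := QuotientGroup.lift (nn π s h1 h2) (π.comp SemidirectProduct.rightHom) (by
      rintro ⟨v, a⟩ ⟨ha, -⟩
      simpa using ha)
    inj := by
      rw [injective_iff_map_eq_one]
      intro v hv
      have : (SemidirectProduct.inl v : Multiplicative V ⋊[act V π] F) ∈ nn π s h1 h2 :=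
        (QuotientGroup.eq_one_iff _).mp hv
      obtain ⟨-, h⟩ := this
      have h0 : s 1 = 0 := by
        have := h1 1 1 (map_one _) (map_one _)
        simpa using this
      simpa [h0] using h
    surj := by
      intro g
      obtain ⟨w, rfl⟩ := hπ g
      exact ⟨QuotientGroup.mk' _ (SemidirectProduct.inr w), by simp⟩
    exact := by
      intro u
      obtain ⟨⟨v, w⟩, rfl⟩ := QuotientGroup.mk'_surjective _ u
      constructor
      · intro h
        have hw : π w = 1 := by simpa using h
        refine ⟨v * Multiplicative.ofAdd (s w), ?_⟩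
        apply QuotientGroup.eq.mpr
        refine ⟨by simpa using hw, ?_⟩
        obtain ⟨v, rfl⟩ : ∃ u' : V, v = Multiplicative.ofAdd u' := ⟨Multiplicative.toAdd v, rfl⟩
        simp [← ofAdd_add, ← ofAdd_neg]
      · rintro ⟨v', h⟩
        rw [← h]
        simp
    act := by
      intro u v
      obtain ⟨⟨u, w⟩, rfl⟩ := QuotientGroup.mk'_surjective _ u
      rw [MonoidHom.comp_apply, MonoidHom.comp_apply, ← map_inv, ← map_mul, ← map_mul]
      congr 1
      ext
      · obtain ⟨u, rfl⟩ : ∃ u' : V, u = Multiplicative.ofAdd u' := ⟨Multiplicative.toAdd u, rfl⟩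
        simp only [SemidirectProduct.mul_left, SemidirectProduct.mul_right,
          SemidirectProduct.inv_left, SemidirectProduct.left_inl, SemidirectProduct.right_inl,
          ← ofAdd_neg, act_apply, ← ofAdd_add, mul_one]
        simp [smul_smul]
      · simp }

end ext

end AsphExt

open AsphExt

/-- module F' -/
theorem extProp_of_asph (G : Type) [Group G] (h : AsphericalPresentation G) : ExtProp G := by
  classical
  obtain ⟨I, J, π, r, hπ, hker, hs⟩ := h
  intro E₁ _ hE₁ g
  obtain ⟨n, φ, hφ, T, hTfin, hT⟩ := hE₁.out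
  haveI : Finite T := hTfin
  choose w hw using fun i : Fin n => hπ (g (φ (FreeGroup.of i)))
  let ψ : FreeGroup (Fin n) →* FreeGroup I := FreeGroup.lift w
  have hψ : π.comp ψ = g.comp φ := by
    apply FreeGroup.ext_hom
    intro i
    simp [ψ, hw]
  have hψ' : ∀ u, π (ψ u) = g (φ u) := fun u => DFunLike.congr_fun hψ u
  have hTr : ∀ t : T, ψ t ∈ Subgroup.normalClosure (Set.range r) := by
    intro t
    rw [← hker, MonoidHom.mem_ker, hψ']
    have : (t : FreeGroup (Fin n)) ∈ φ.ker := hT ▸ Subgroup.subset_normalClosure t.2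
    rw [MonoidHom.mem_ker.mp this, map_one]
  obtain ⟨J', hJ', hJt⟩ := exists_finite_relators_family (inferInstance : Finite T) r _ hTr
  haveI : Finite J' := hJ'
  obtain ⟨I1, hI1, hI1w⟩ := exists_supp_family (inferInstance : Finite (Fin n)) w
  obtain ⟨I2, hI2, hI2r⟩ := exists_supp_family (inferInstance : Finite J') (fun j : J' => r j)
  let I' := I1 ∪ I2
  haveI : Finite I' := hI1.union hI2
  have hwI : ∀ i, Supp I' (w i) := fun i => supp_mono Set.subset_union_left _ (hI1w i)
  have hrI : ∀ j : J', Supp I' (r j) := fun j => supp_mono Set.subset_union_right _ (hI2r j)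
  let r' : J' → FreeGroup I' := fun j => ret I' (r j)
  have hr' : ∀ j : J', inc I' (r' j) = r j := fun j => hrI j
  -- the finitely presented group
  let E' := PresentedGroup (Set.range r')
  let mk : FreeGroup I' →* E' := PresentedGroup.mk (Set.range r')
  have hmk : Function.Surjective mk := PresentedGroup.mk_surjective _
  have hmkker : mk.ker = Subgroup.normalClosure (Set.range r') := QuotientGroup.ker_mk' _
  have hπr : ∀ j, π (r j) = 1 := by
    intro j
    rw [← MonoidHom.mem_ker, hker]
    exact Subgroup.subset_normalClosure ⟨j, rfl⟩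
  let g₂ : E' →* G := QuotientGroup.lift _ (π.comp (inc I')) (by
    have : Subgroup.normalClosure (Set.range r') ≤ (π.comp (inc I')).ker := by
      apply Subgroup.normalClosure_le_normal
      rintro _ ⟨j, rfl⟩
      simp only [SetLike.mem_coe, MonoidHom.mem_ker, MonoidHom.comp_apply, hr', hπr]
    intro x hx
    exact this hx)
  have hg₂ : ∀ u, g₂ (mk u) = π (inc I' u) := fun u => rfl
  -- the map from E₁
  let ψ₁ : FreeGroup (Fin n) →* E' := (mk.comp (ret I')).comp ψ
  have hψ₁T : φ.ker ≤ ψ₁.ker := by
    rw [← hT]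
    apply Subgroup.normalClosure_le_normal
    intro t ht
    have h1 := hJt ⟨t, ht⟩
    have h2 : Subgroup.normalClosure (r '' J') ≤ (mk.comp (ret I')).ker := by
      apply Subgroup.normalClosure_le_normal
      rintro _ ⟨j, hj, rfl⟩
      have : ret I' (r j) = r' ⟨j, hj⟩ := rfl
      simp only [SetLike.mem_coe, MonoidHom.mem_ker, MonoidHom.comp_apply, this]
      rw [← MonoidHom.mem_ker, hmkker]
      exact Subgroup.subset_normalClosure ⟨_, rfl⟩
    exact h2 h1
  let g₁ : E₁ →* E' := MonoidHom.liftOfSurjective φ hφ ⟨ψ₁, hψ₁T⟩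
  have hg₁ : ∀ u, g₁ (φ u) = ψ₁ u := fun u =>
    MonoidHom.liftOfRightInverse_comp_apply φ _ (Function.rightInverse_surjInv hφ) ⟨ψ₁, hψ₁T⟩ u
  haveI : Finite (Set.range r') := Set.finite_range r'
  refine ⟨E', inferInstance, inferInstance, g₁, g₂, ?_, ?_⟩
  · apply MonoidHom.ext
    intro e
    obtain ⟨u, rfl⟩ := hφ e
    rw [MonoidHom.comp_apply, hg₁]
    have hψI : ∀ u, Supp I' (ψ u) := by
      intro u
      have : ((inc I').comp (ret I')).comp ψ = ψ := by
        apply FreeGroup.ext_hom
        intro i
        have := hwI i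
        unfold Supp at this
        simpa [ψ] using this
      exact DFunLike.congr_fun this u
    change g₂ (mk (ret I' (ψ u))) = _
    rw [hg₂, hψI u, hψ']
  · intro V _ _ X'
    -- lifts of the generators
    choose z hz using fun i : I' => X'.surj (mk (FreeGroup.of i))
    let σ : FreeGroup I' →* X'.U := FreeGroup.lift z
    have hσ' : X'.κ.comp σ = mk := by
      apply FreeGroup.ext_hom
      intro i
      simp [σ, hz]
    have hσ : ∀ u, X'.κ (σ u) = mk u := fun u => DFunLike.congr_fun hσ' u
    have hex : ∀ j : J', ∃ v : Multiplicative V, X'.ι v = σ (r' j) := by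
      intro j
      apply (X'.exact _).mp
      rw [hσ, ← MonoidHom.mem_ker, hmkker]
      exact Subgroup.subset_normalClosure ⟨_, rfl⟩
    choose vj hvj using hex
    obtain ⟨s, h1, h2, h3⟩ := hs V (fun j => if hj : j ∈ J' then Multiplicative.toAdd (vj ⟨j, hj⟩)
      else 0)
    have h0 : s 1 = 0 := by
      have := h1 1 1 (map_one _) (map_one _)
      simpa using this
    -- key: σ on the kernel
    have hkey : ∀ a ∈ mk.ker, π (inc I' a) = 1 ∧ σ a = X'.ι (Multiplicative.ofAdd (s (inc I' a))) := by
      intro a ha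
      rw [hmkker] at ha
      let N : Subgroup (FreeGroup I') :=
        { carrier := {a | π (inc I' a) = 1 ∧ σ a = X'.ι (Multiplicative.ofAdd (s (inc I' a)))}
          one_mem' := by simp [h0]
          mul_mem' := by
            rintro a b ⟨ha, ha'⟩ ⟨hb, hb'⟩
            refine ⟨by simp [ha, hb], ?_⟩
            rw [map_mul, ha', hb', map_mul, h1 _ _ ha hb, ofAdd_add, map_mul]
          inv_mem' := by
            rintro a ⟨ha, ha'⟩
            refine ⟨by simp [ha], ?_⟩
            have hi : s (inc I' a)⁻¹ = - s (inc I' a) := by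
              have := h1 (inc I' a) (inc I' a)⁻¹ ha (by simp [ha])
              rw [mul_inv_cancel, h0] at this
              exact (neg_eq_of_add_eq_zero_right this.symm).symm
            rw [map_inv, ha', map_inv, hi, ofAdd_neg, map_inv] }
      have hN : N.Normal := ⟨by
        rintro a ⟨ha, ha'⟩ w
        refine ⟨by simp [ha], ?_⟩
        rw [map_mul, map_mul, ha', map_inv, X'.act, hσ, hg₂, map_mul, map_mul, map_inv,
          h2 _ _ ha]⟩
      have : Subgroup.normalClosure (Set.range r') ≤ N := by
        apply Subgroup.normalClosure_le_normal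
        rintro _ ⟨j, rfl⟩
        refine ⟨by rw [hr', hπr], ?_⟩
        rw [hr', h3, dif_pos j.2, ← hvj]
        rfl
      exact this ha
    refine ⟨extX π s hπ h1 h2, ?_⟩
    -- the surjection from the semidirect product
    let P : Multiplicative V ⋊[act V (π.comp (inc I'))] (FreeGroup I') →* X'.U :=
      SemidirectProduct.lift X'.ι σ (by
        intro w
        apply MonoidHom.ext
        intro v
        have h := X'.act (σ w) (Multiplicative.toAdd v)
        rw [hσ, hg₂] at h
        exact h.symm)
    have hP : Function.Surjective P := by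
      intro u
      obtain ⟨w, hw⟩ := hmk (X'.κ u)
      have : X'.κ (u * (σ w)⁻¹) = 1 := by
        rw [map_mul, map_inv, hσ, hw, mul_inv_cancel]
      obtain ⟨v, hv⟩ := (X'.exact _).mp this
      refine ⟨⟨v, w⟩, ?_⟩
      change X'.ι v * σ w = u
      rw [hv]; group
    let Q₀ : Multiplicative V ⋊[act V (π.comp (inc I'))] (FreeGroup I') →*
        Multiplicative V ⋊[act V π] (FreeGroup I) :=
      SemidirectProduct.map (MonoidHom.id _) (inc I') (by intro w; rfl)
    haveI := nn_normal π s h1 h2
    let Q : Multiplicative V ⋊[act V (π.comp (inc I'))] (FreeGroup I') →* (extX π s hπ h1 h2).U :=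
      (QuotientGroup.mk' (nn π s h1 h2)).comp Q₀
    have hPQ : P.ker ≤ Q.ker := by
      rintro ⟨v, a⟩ h
      have h' : X'.ι v * σ a = 1 := h
      have ha : a ∈ mk.ker := by
        rw [MonoidHom.mem_ker, ← hσ]
        have := congrArg X'.κ h'
        rw [map_mul, map_one, (X'.exact _).mpr ⟨v, rfl⟩, one_mul] at this
        exact this
      obtain ⟨hk1, hk2⟩ := hkey a ha
      rw [hk2, ← map_mul] at h'
      have h'' := X'.inj (h'.trans (map_one _).symm)
      rw [MonoidHom.mem_ker]
      apply (QuotientGroup.eq_one_iff _).mpr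
      refine ⟨hk1, ?_⟩
      change v = Multiplicative.ofAdd (- s (inc I' a))
      rw [ofAdd_neg]
      exact eq_inv_of_mul_eq_one_left h''
    let Θ : X'.U →* (extX π s hπ h1 h2).U := MonoidHom.liftOfSurjective P hP ⟨Q, hPQ⟩
    have hΘ : ∀ p, Θ (P p) = Q p := fun p =>
      MonoidHom.liftOfRightInverse_comp_apply P _ (Function.rightInverse_surjInv hP) ⟨Q, hPQ⟩ p
    refine ⟨Θ, ?_, ?_⟩
    · intro v
      have : X'.ι v = P (SemidirectProduct.inl v) := by simp [P]
      rw [this, hΘ]
      rfl
    · intro u
      obtain ⟨⟨v, a⟩, rfl⟩ := hP u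
      rw [hΘ]
      change π (inc I' a) = g₂ (X'.κ (X'.ι v * σ a))
      rw [map_mul, (X'.exact _).mpr ⟨v, rfl⟩, one_mul, hσ, hg₂]

end Crest.Agent.R197
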