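import Mathlib

/-! Row 197: two-dimensional cell complexes: common definitions for the F-tasks. -/

set_option autoImplicit false

open scoped unitInterval

namespace Crest.Agent.R197

/-- interior of the unit interval -/
def Iint : Set I := Set.Ioo 0 1
/-- interior of the unit square -/
def Sint : Set (I × I) := Iint ×ˢ Iint

/-- Cell structure of dimension at most two, with `I`, `I × I` as model cells. -/
structure TwoCx (X : Type) [TopologicalSpace X] where
  O : Type
  E : Type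
  J : Type
  v : O → X
  e : E → C(I, X)
  f : J → C(I × I, X)
  src : E → O
  tgt : E → O
  e_zero : ∀ i, e i 0 = v (src i)
  e_one : ∀ i, e i 1 = v (tgt i)
  v_inj : Function.Injective v
  e_inj : ∀ i i' s s', s ∈ Iint → s' ∈ Iint → e i s = e i' s' → i = i' ∧ s = s'
  e_ne_v : ∀ i s o, s ∈ Iint → e i s ≠ v o
  f_inj : ∀ j j' s s', s ∈ Sint → s' ∈ Sint → f j s = f j' s' → j = j' ∧ s = s'
  f_ne_v : ∀ j s o, s ∈ Sint → f j s ≠ v o
  f_ne_e : ∀ j s i s', s ∈ Sint → f j s ≠ e i s'
  f_bd : ∀ j s, s ∉ Sint → (∃ o, f j s = v o) ∨ ∃ i s', f j s = e i s'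
  cover : ∀ x, (∃ o, x = v o) ∨ (∃ i s, s ∈ Iint ∧ x = e i s) ∨ ∃ j s, s ∈ Sint ∧ x = f j s
  /-- weak topology -/
  closed2 : ∀ A : Set X, (∀ i, IsClosed (e i ⁻¹' A)) → (∀ j, IsClosed (f j ⁻¹' A)) → IsClosed A
  /-- weak topology of the 1-skeleton -/
  closed1 : ∀ A : Set X, (∀ x ∈ A, (∃ o, x = v o) ∨ ∃ i s, x = e i s) →
    (∀ i, IsClosed (e i ⁻¹' A)) → IsClosed A

namespace TwoCx
variable {X : Type} [TopologicalSpace X] (C : TwoCx X)

/-- the 1-skeleton -/
def X1 : Set X := {x | (∃ o, x = C.v o) ∨ ∃ i s, x = C.e i s}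

/-- inclusion of the 1-skeleton -/
def incl : C(C.X1, X) := ⟨Subtype.val, continuous_subtype_val⟩

/-- vertices in the 1-skeleton -/
def v1 (o : C.O) : C.X1 := ⟨C.v o, Or.inl ⟨o, rfl⟩⟩

/-- edges as paths in the 1-skeleton -/
def e1 (i : C.E) : Path (C.v1 (C.src i)) (C.v1 (C.tgt i)) where
  toFun s := ⟨C.e i s, Or.inr ⟨i, s, rfl⟩⟩
  continuous_toFun := Continuous.subtype_mk (C.e i).continuous _
  source' := Subtype.ext (C.e_zero i)
  target' := Subtype.ext (C.e_one i)

/-- edges as paths in `X` -/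
def eX (i : C.E) : Path (C.v (C.src i)) (C.v (C.tgt i)) where
  toFun s := C.e i s
  continuous_toFun := (C.e i).continuous
  source' := C.e_zero i
  target' := C.e_one i

/-- letters of edge words -/
abbrev Wd : Type := List (C.E × Bool)

/-- the free group element of an edge word -/
def wordOf : C.Wd → FreeGroup C.E
  | [] => 1
  | (i, true) :: w => FreeGroup.of i * wordOf w
  | (i, false) :: w => (FreeGroup.of i)⁻¹ * wordOf w

/-- `Rep o o' w γ`: the edge word `w` is an edge path from `o` to `o'` with homotopy class `γ` in the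
1-skeleton. -/
inductive Rep : (o o' : C.O) → C.Wd → Path.Homotopic.Quotient (C.v1 o) (C.v1 o') → Prop
  | nil (o : C.O) : Rep o o [] (Path.Homotopic.Quotient.refl _)
  | fwd (i : C.E) (o' : C.O) (w : C.Wd) (γ : Path.Homotopic.Quotient (C.v1 (C.tgt i)) (C.v1 o')) :
      Rep (C.tgt i) o' w γ →
      Rep (C.src i) o' ((i, true) :: w)
        (Path.Homotopic.Quotient.trans (Path.Homotopic.Quotient.mk (C.e1 i)) γ)
  | bwd (i : C.E) (o' : C.O) (w : C.Wd) (γ : Path.Homotopic.Quotient (C.v1 (C.src i)) (C.v1 o')) :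
      Rep (C.src i) o' w γ →
      Rep (C.tgt i) o' ((i, false) :: w)
        (Path.Homotopic.Quotient.trans
          (Path.Homotopic.Quotient.symm (Path.Homotopic.Quotient.mk (C.e1 i))) γ)

/-- corner of a 2-cell, in the 1-skeleton -/
def c1 (j : C.J) : C.X1 := ⟨C.f j (0, 0), by
  have h := C.f_bd j (0, 0) (by
    intro h
    exact lt_irrefl _ (h.1.1))
  rcases h with ⟨o, h⟩ | ⟨i, s, h⟩
  · exact Or.inl ⟨o, h⟩
  · exact Or.inr ⟨i, s, h⟩⟩

/-- the boundary curve of the square: a loop at `(0,0)` going once around. -/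
noncomputable def bdSq : Path ((0, 0) : I × I) (0, 0) :=
  (((⟨⟨fun s => (s, 0), by fun_prop⟩, rfl, rfl⟩ : Path ((0, 0) : I × I) (1, 0)).trans
    (⟨⟨fun s => (1, s), by fun_prop⟩, rfl, rfl⟩ : Path ((1, 0) : I × I) (1, 1))).trans
    (⟨⟨fun s => (unitInterval.symm s, 1), by fun_prop⟩, by simp, by simp⟩ :
      Path ((1, 1) : I × I) (0, 1))).trans
    (⟨⟨fun s => (0, unitInterval.symm s), by fun_prop⟩, by simp, by simp⟩ :
      Path ((0, 1) : I × I) (0, 0))

theorem bdSq_notMem (s : I) : bdSq s ∉ Sint := by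
  rw [bdSq]
  simp only [Path.trans_apply]
  intro h
  split_ifs at h <;> simp [Sint, Iint] at h

theorem f_bdSq_mem (j : C.J) (s : I) : C.f j (bdSq s) ∈ C.X1 := by
  rcases C.f_bd j _ (bdSq_notMem s) with ⟨o, h⟩ | ⟨i, s, h⟩
  · exact Or.inl ⟨o, h⟩
  · exact Or.inr ⟨i, s, h⟩

/-- `bdSq` as a loop in the boundary of the square (as a subtype) -/
noncomputable def bdS : Path (⟨(0, 0), by simp [Sint, Iint]⟩ : {s : I × I // s ∉ Sint})
    ⟨(0, 0), by simp [Sint, Iint]⟩ where
  toFun s := ⟨bdSq s, bdSq_notMem s⟩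
  continuous_toFun := Continuous.subtype_mk bdSq.continuous _
  source' := Subtype.ext bdSq.source
  target' := Subtype.ext bdSq.target

/-- the boundary loop of a 2-cell in the 1-skeleton -/
noncomputable def bd1 (j : C.J) : Path (C.c1 j) (C.c1 j) where
  toFun s := ⟨C.f j (bdSq s), C.f_bdSq_mem j s⟩
  continuous_toFun := Continuous.subtype_mk ((C.f j).continuous.comp bdSq.continuous) _
  source' := Subtype.ext (congrArg (C.f j) bdSq.source)
  target' := Subtype.ext (congrArg (C.f j) bdSq.target)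

/-- Edge words representing the attaching loops. -/
structure RelData where
  bo : C.J → C.O
  w : C.J → C.Wd
  τ : ∀ j, Path (C.v1 (bo j)) (C.c1 j)
  rep : ∀ j, C.Rep (bo j) (bo j) (w j)
    (Path.Homotopic.Quotient.mk (((τ j).trans (C.bd1 j)).trans (τ j).symm))

/-- evaluation of an edge cochain `κ` (defined on edges of the universal cover, i.e. pairs of an edge
and a class of paths from the base vertex to its source) along an edge word -/
inductive Ev (o₀ : C.O) (κ : ∀ i : C.E, Path.Homotopic.Quotient (C.v o₀) (C.v (C.src i)) → ℂ) :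
    (o : C.O) → Path.Homotopic.Quotient (C.v o₀) (C.v o) → C.Wd → ℂ → Prop
  | nil (o : C.O) (c : Path.Homotopic.Quotient (C.v o₀) (C.v o)) : Ev o₀ κ o c [] 0
  | fwd (i : C.E) (c : Path.Homotopic.Quotient (C.v o₀) (C.v (C.src i))) (w : C.Wd) (z : ℂ) :
      Ev o₀ κ (C.tgt i) (Path.Homotopic.Quotient.trans c (Path.Homotopic.Quotient.mk (C.eX i))) w z →
      Ev o₀ κ (C.src i) c ((i, true) :: w) (κ i c + z)
  | bwd (i : C.E) (c : Path.Homotopic.Quotient (C.v o₀) (C.v (C.tgt i))) (w : C.Wd) (z : ℂ) :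
      Ev o₀ κ (C.src i) (Path.Homotopic.Quotient.trans c
        (Path.Homotopic.Quotient.symm (Path.Homotopic.Quotient.mk (C.eX i)))) w z →
      Ev o₀ κ (C.tgt i) c ((i, false) :: w)
        (- κ i (Path.Homotopic.Quotient.trans c
          (Path.Homotopic.Quotient.symm (Path.Homotopic.Quotient.mk (C.eX i)))) + z)

/-! ### The three topological outputs (to be proved in the F-modules) -/

/-- (out1) every homotopy class of paths between vertices is represented by an edge word -/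
def Out1 : Prop := ∀ (o o' : C.O) (c : Path.Homotopic.Quotient (C.v o) (C.v o')),
  ∃ (w : C.Wd) (γ : Path.Homotopic.Quotient (C.v1 o) (C.v1 o')), C.Rep o o' w γ ∧ γ.map C.incl = c

/-- (out2) null-homotopic edge loops are killed by homomorphisms killing the relators -/
def Out2 (D : C.RelData) : Prop := ∀ (Γ : Type) [Group Γ] (ψ : FreeGroup C.E →* Γ),
  (∀ j, ψ (C.wordOf (D.w j)) = 1) →
  ∀ (o : C.O) (w : C.Wd) (γ : Path.Homotopic.Quotient (C.v1 o) (C.v1 o)), C.Rep o o w γ →
    γ.map C.incl = Path.Homotopic.Quotient.refl _ → ψ (C.wordOf w) = 1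

/-- (out3) dual cochains: no two-dimensional cycles in the universal cover -/
def Out3 (D : C.RelData) (o₀ : C.O) : Prop :=
  ∀ (S : Set (Σ j : C.J, Path.Homotopic.Quotient (C.v o₀) (C.v (D.bo j)))), S.Finite →
    ∀ s₀ ∈ S, ∃ κ : ∀ i : C.E, Path.Homotopic.Quotient (C.v o₀) (C.v (C.src i)) → ℂ,
      C.Ev o₀ κ (D.bo s₀.1) s₀.2 (D.w s₀.1) 1 ∧
      ∀ s ∈ S, s ≠ s₀ → C.Ev o₀ κ (D.bo s.1) s.2 (D.w s.1) 0

end TwoCx

end Crest.Agent.R197
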