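import Mathlib
import Crest.Agent.R197.CW2Defs

/-!
# Row 197, F0: a T2 CW complex of dimension at most two gives a `TwoCx` (helper430)
-/

set_option autoImplicit false

open Set Metric Topology
open scoped unitInterval

namespace Crest.Agent.R197

namespace CW2

/-- affine parametrisation of the 1-dimensional cube -/
noncomputable def a1 (s : I) : Fin 1 → ℝ := fun _ => 2 * (s : ℝ) - 1

/-- affine parametrisation of the 2-dimensional cube -/
noncomputable def a2 (s : I × I) : Fin 2 → ℝ := ![2 * (s.1 : ℝ) - 1, 2 * (s.2 : ℝ) - 1]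

theorem continuous_a1 : Continuous a1 := by
  unfold a1; fun_prop

theorem continuous_a2 : Continuous a2 := by
  unfold a2
  refine continuous_pi fun i => ?_
  fin_cases i
  · show Continuous fun s : I × I => 2 * (s.1 : ℝ) - 1
    fun_prop
  · show Continuous fun s : I × I => 2 * (s.2 : ℝ) - 1
    fun_prop

theorem a1_mem_closedBall (s : I) : a1 s ∈ closedBall (0 : Fin 1 → ℝ) 1 := by
  rw [mem_closedBall_zero_iff, pi_norm_le_iff_of_nonneg zero_le_one]
  intro i
  rw [a1, Real.norm_eq_abs, abs_le]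
  have h0 := s.2.1
  have h1 := s.2.2
  constructor <;> linarith

theorem a2_mem_closedBall (s : I × I) : a2 s ∈ closedBall (0 : Fin 2 → ℝ) 1 := by
  rw [mem_closedBall_zero_iff, pi_norm_le_iff_of_nonneg zero_le_one]
  intro i
  have h0 := s.1.2.1
  have h1 := s.1.2.2
  have h2 := s.2.2.1
  have h3 := s.2.2.2
  fin_cases i
  · show ‖2 * (s.1 : ℝ) - 1‖ ≤ 1
    rw [Real.norm_eq_abs, abs_le]
    constructor <;> linarith
  · show ‖2 * (s.2 : ℝ) - 1‖ ≤ 1
    rw [Real.norm_eq_abs, abs_le]
    constructor <;> linarith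

theorem mem_Iint {s : I} : s ∈ Iint ↔ 0 < (s : ℝ) ∧ (s : ℝ) < 1 := by
  unfold Iint
  rw [mem_Ioo, ← unitInterval.coe_pos, ← unitInterval.coe_lt_one]

theorem a1_mem_ball (s : I) : a1 s ∈ ball (0 : Fin 1 → ℝ) 1 ↔ s ∈ Iint := by
  rw [mem_ball_zero_iff, pi_norm_lt_iff zero_lt_one, mem_Iint]
  constructor
  · intro h
    have := h 0
    rw [a1, Real.norm_eq_abs, abs_lt] at this
    constructor <;> linarith [this.1, this.2]
  · rintro ⟨h1, h2⟩ i
    rw [a1, Real.norm_eq_abs, abs_lt]
    constructor <;> linarith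

theorem a2_mem_ball (s : I × I) : a2 s ∈ ball (0 : Fin 2 → ℝ) 1 ↔ s ∈ Sint := by
  rw [mem_ball_zero_iff, pi_norm_lt_iff zero_lt_one, Sint, mem_prod, mem_Iint, mem_Iint]
  constructor
  · intro h
    have h0 : ‖2 * (s.1 : ℝ) - 1‖ < 1 := h 0
    have h1 : ‖2 * (s.2 : ℝ) - 1‖ < 1 := h 1
    rw [Real.norm_eq_abs, abs_lt] at h0 h1
    refine ⟨⟨?_, ?_⟩, ⟨?_, ?_⟩⟩ <;> linarith [h0.1, h0.2, h1.1, h1.2]
  · rintro ⟨⟨h1, h2⟩, ⟨h3, h4⟩⟩ i
    fin_cases i
    · show ‖2 * (s.1 : ℝ) - 1‖ < 1
      rw [Real.norm_eq_abs, abs_lt]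
      constructor <;> linarith
    · show ‖2 * (s.2 : ℝ) - 1‖ < 1
      rw [Real.norm_eq_abs, abs_lt]
      constructor <;> linarith

theorem a1_injective : Function.Injective a1 := by
  intro s s' h
  have := congrFun h 0
  unfold a1 at this
  exact Subtype.ext (by linarith)

theorem a2_injective : Function.Injective a2 := by
  intro s s' h
  have h0 : 2 * (s.1 : ℝ) - 1 = 2 * (s'.1 : ℝ) - 1 := congrFun h 0
  have h1 : 2 * (s.2 : ℝ) - 1 = 2 * (s'.2 : ℝ) - 1 := congrFun h 1
  exact Prod.ext (Subtype.ext (by linarith)) (Subtype.ext (by linarith))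

theorem a1_surj {x : Fin 1 → ℝ} (hx : x ∈ closedBall (0 : Fin 1 → ℝ) 1) : ∃ s, a1 s = x := by
  rw [mem_closedBall_zero_iff, pi_norm_le_iff_of_nonneg zero_le_one] at hx
  have h := hx 0
  rw [Real.norm_eq_abs, abs_le] at h
  refine ⟨⟨(x 0 + 1) / 2, by linarith [h.1], by linarith [h.2]⟩, ?_⟩
  funext i
  have : i = 0 := Subsingleton.elim _ _
  subst this
  show 2 * ((x 0 + 1) / 2) - 1 = x 0
  ring

theorem a2_surj {x : Fin 2 → ℝ} (hx : x ∈ closedBall (0 : Fin 2 → ℝ) 1) : ∃ s, a2 s = x := by
  rw [mem_closedBall_zero_iff, pi_norm_le_iff_of_nonneg zero_le_one] at hx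
  have h := hx 0
  have h' := hx 1
  rw [Real.norm_eq_abs, abs_le] at h h'
  refine ⟨(⟨(x 0 + 1) / 2, by linarith [h.1], by linarith [h.2]⟩,
    ⟨(x 1 + 1) / 2, by linarith [h'.1], by linarith [h'.2]⟩), ?_⟩
  funext i
  fin_cases i
  · show 2 * ((x 0 + 1) / 2) - 1 = x 0
    ring
  · show 2 * ((x 1 + 1) / 2) - 1 = x 1
    ring

end CW2

open CW2 CWComplex

section

variable {X : Type} [TopologicalSpace X] [T2Space X] [CWComplex (univ : Set X)]

/-- vertices -/
noncomputable def cv (o : cell (univ : Set X) 0) : X := map 0 o ![]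

/-- edges -/
noncomputable def ce (i : cell (univ : Set X) 1) : C(I, X) :=
  ⟨fun s => map 1 i (a1 s), (continuousOn 1 i).comp_continuous continuous_a1 a1_mem_closedBall⟩

/-- 2-cells -/
noncomputable def cellf (j : cell (univ : Set X) 2) : C(I × I, X) :=
  ⟨fun s => map 2 j (a2 s), (continuousOn 2 j).comp_continuous continuous_a2 a2_mem_closedBall⟩

omit [T2Space X] in
theorem cv_mem (o : cell (univ : Set X) 0) : cv o ∈ openCell 0 o := by
  rw [CWComplex.openCell_zero_eq_singleton]; rfl

omit [T2Space X] in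
theorem ce_mem {i : cell (univ : Set X) 1} {s : I} (hs : s ∈ Iint) : ce i s ∈ openCell 1 i :=
  mem_image_of_mem _ ((a1_mem_ball s).2 hs)

omit [T2Space X] in
theorem cellf_mem {j : cell (univ : Set X) 2} {s : I × I} (hs : s ∈ Sint) : cellf j s ∈ openCell 2 j :=
  mem_image_of_mem _ ((a2_mem_ball s).2 hs)

omit [T2Space X] in
theorem ce_mem_frontier {i : cell (univ : Set X) 1} {s : I} (hs : s ∉ Iint) :
    ce i s ∈ cellFrontier 1 i := by
  refine mem_image_of_mem _ ?_
  rw [mem_sphere]
  exact le_antisymm (mem_closedBall.1 (a1_mem_closedBall s))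
    (not_lt.1 fun h => hs ((a1_mem_ball s).1 h))

omit [T2Space X] in
theorem cf_mem_frontier {j : cell (univ : Set X) 2} {s : I × I} (hs : s ∉ Sint) :
    cellf j s ∈ cellFrontier 2 j := by
  refine mem_image_of_mem _ ?_
  rw [mem_sphere]
  exact le_antisymm (mem_closedBall.1 (a2_mem_closedBall s))
    (not_lt.1 fun h => hs ((a2_mem_ball s).1 h))

omit [T2Space X] in
theorem closedCell_one (i : cell (univ : Set X) 1) : closedCell 1 i = range (ce i) := by
  ext x
  constructor
  · rintro ⟨y, hy, rfl⟩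
    obtain ⟨s, rfl⟩ := a1_surj hy
    exact ⟨s, rfl⟩
  · rintro ⟨s, rfl⟩
    exact mem_image_of_mem _ (a1_mem_closedBall s)

omit [T2Space X] in
theorem closedCell_two (j : cell (univ : Set X) 2) : closedCell 2 j = range (cellf j) := by
  ext x
  constructor
  · rintro ⟨y, hy, rfl⟩
    obtain ⟨s, rfl⟩ := a2_surj hy
    exact ⟨s, rfl⟩
  · rintro ⟨s, rfl⟩
    exact mem_image_of_mem _ (a2_mem_closedBall s)

omit [T2Space X] in
theorem closedCell_zero (o : cell (univ : Set X) 0) : closedCell 0 o = {cv o} :=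
  CWComplex.closedCell_zero_eq_singleton

omit [T2Space X] in
theorem eq_of_mem_openCell {n m : ℕ} {i : cell (univ : Set X) n} {j : cell (univ : Set X) m} {x : X}
    (h : x ∈ openCell n i) (h' : x ∈ openCell m j) :
    (⟨n, i⟩ : Σ n, cell (univ : Set X) n) = ⟨m, j⟩ :=
  CWComplex.eq_of_not_disjoint_openCell (not_disjoint_iff.2 ⟨x, h, h'⟩)

omit [T2Space X] in
theorem exists_end {i : cell (univ : Set X) 1} {s : I} (hs : s ∉ Iint) : ∃ o, ce i s = cv o := by
  obtain ⟨F, hF⟩ := CWComplex.cellFrontier_subset_finite_closedCell 1 i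
  have h := hF (ce_mem_frontier hs)
  simp only [mem_iUnion] at h
  obtain ⟨m, hm, o, _, ho⟩ := h
  obtain rfl : m = 0 := by omega
  rw [closedCell_zero] at ho
  exact ⟨o, ho⟩

omit [T2Space X] in
theorem exists_bd {j : cell (univ : Set X) 2} {s : I × I} (hs : s ∉ Sint) :
    (∃ o, cellf j s = cv o) ∨ ∃ i s', cellf j s = ce i s' := by
  obtain ⟨F, hF⟩ := CWComplex.cellFrontier_subset_finite_closedCell 2 j
  have h := hF (cf_mem_frontier hs)
  simp only [mem_iUnion] at h
  obtain ⟨m, hm, o, _, ho⟩ := h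
  obtain rfl | rfl : m = 0 ∨ m = 1 := by omega
  · rw [closedCell_zero] at ho
    exact Or.inl ⟨o, ho⟩
  · rw [closedCell_one] at ho
    obtain ⟨s', hs'⟩ := ho
    exact Or.inr ⟨o, s', hs'.symm⟩

theorem isClosed_inter_zero (A : Set X) (o : cell (univ : Set X) 0) :
    IsClosed (A ∩ closedCell 0 o) := by
  rw [closedCell_zero]
  exact ((finite_singleton (cv o)).subset inter_subset_right).isClosed

theorem isClosed_inter_one (A : Set X) (i : cell (univ : Set X) 1) (h : IsClosed (ce i ⁻¹' A)) :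
    IsClosed (A ∩ closedCell 1 i) := by
  rw [closedCell_one, ← image_preimage_eq_inter_range]
  exact (h.isCompact.image (ce i).continuous).isClosed

theorem isClosed_inter_two (A : Set X) (j : cell (univ : Set X) 2) (h : IsClosed (cellf j ⁻¹' A)) :
    IsClosed (A ∩ closedCell 2 j) := by
  rw [closedCell_two, ← image_preimage_eq_inter_range]
  exact (h.isCompact.image (cellf j).continuous).isClosed

end

/-- **F0.** -/
theorem exists_twoCx (X : Type) [TopologicalSpace X] [T2Space X]
    [Topology.CWComplex (Set.univ : Set X)]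
    (h : ∀ n, 2 < n → IsEmpty (Topology.RelCWComplex.cell (Set.univ : Set X) n)) :
    Nonempty (TwoCx X) := by
  have h0 : (0 : I) ∉ Iint := fun h => lt_irrefl _ h.1
  have h1 : (1 : I) ∉ Iint := fun h => lt_irrefl _ h.2
  choose src hsrc using fun i : cell (univ : Set X) 1 => exists_end (i := i) h0
  choose tgt htgt using fun i : cell (univ : Set X) 1 => exists_end (i := i) h1
  have hends : ∀ (i : cell (univ : Set X) 1) (s : I), s ∉ Iint → ∃ o, ce i s = cv o :=
    fun i s hs => exists_end hs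
  refine ⟨{
    O := cell (univ : Set X) 0
    E := cell (univ : Set X) 1
    J := cell (univ : Set X) 2
    v := cv
    e := ce
    f := cellf
    src := src
    tgt := tgt
    e_zero := hsrc
    e_one := htgt
    v_inj := CWComplex.injective_map_zero (univ : Set X)
    e_inj := ?_
    e_ne_v := ?_
    f_inj := ?_
    f_ne_v := ?_
    f_ne_e := ?_
    f_bd := fun j s hs => exists_bd hs
    cover := ?_
    closed2 := ?_
    closed1 := ?_ }⟩
  · intro i i' s s' hs hs' he
    have h2 := eq_of_mem_openCell (ce_mem (i := i) hs) (he ▸ ce_mem (i := i') hs')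
    simp only [Sigma.mk.injEq, heq_eq_eq, true_and] at h2
    subst h2
    refine ⟨rfl, a1_injective ?_⟩
    refine (map 1 i).injOn ?_ ?_ he
    · rw [source_eq]; exact (a1_mem_ball s).2 hs
    · rw [source_eq]; exact (a1_mem_ball s').2 hs'
  · intro i s o hs he
    have h2 := eq_of_mem_openCell (ce_mem (i := i) hs) (he ▸ cv_mem o)
    simp at h2
  · intro j j' s s' hs hs' he
    have h2 := eq_of_mem_openCell (cellf_mem (j := j) hs) (he ▸ cellf_mem (j := j') hs')
    simp only [Sigma.mk.injEq, heq_eq_eq, true_and] at h2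
    subst h2
    refine ⟨rfl, a2_injective ?_⟩
    refine (map 2 j).injOn ?_ ?_ he
    · rw [source_eq]; exact (a2_mem_ball s).2 hs
    · rw [source_eq]; exact (a2_mem_ball s').2 hs'
  · intro j s o hs he
    have h2 := eq_of_mem_openCell (cellf_mem (j := j) hs) (he ▸ cv_mem o)
    simp at h2
  · intro j s i s' hs he
    by_cases hs' : s' ∈ Iint
    · have h2 := eq_of_mem_openCell (cellf_mem (j := j) hs) (he ▸ ce_mem (i := i) hs')
      simp at h2
    · obtain ⟨o, ho⟩ := hends i s' hs'
      rw [ho] at he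
      have h2 := eq_of_mem_openCell (cellf_mem (j := j) hs) (he ▸ cv_mem o)
      simp at h2
  · intro x
    have hx : x ∈ ⋃ (n : ℕ) (j : cell (univ : Set X) n), openCell n j := by
      rw [CWComplex.iUnion_openCell_eq_complex]; exact mem_univ x
    simp only [mem_iUnion] at hx
    obtain ⟨n, c, hc⟩ := hx
    rcases Nat.lt_or_ge 2 n with hn | hn
    · exact ((h n hn).false c).elim
    obtain rfl | rfl | rfl : n = 0 ∨ n = 1 ∨ n = 2 := by omega
    · rw [CWComplex.openCell_zero_eq_singleton] at hc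
      exact Or.inl ⟨c, hc⟩
    · obtain ⟨y, hy, rfl⟩ := hc
      obtain ⟨s, rfl⟩ := a1_surj (ball_subset_closedBall hy)
      exact Or.inr (Or.inl ⟨c, s, (a1_mem_ball s).1 hy, rfl⟩)
    · obtain ⟨y, hy, rfl⟩ := hc
      obtain ⟨s, rfl⟩ := a2_surj (ball_subset_closedBall hy)
      exact Or.inr (Or.inr ⟨c, s, (a2_mem_ball s).1 hy, rfl⟩)
  · intro A hA1 hA2
    rw [CWComplex.closed (univ : Set X) A (subset_univ _)]
    intro n c
    rcases Nat.lt_or_ge 2 n with hn | hn
    · exact ((h n hn).false c).elim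
    obtain rfl | rfl | rfl : n = 0 ∨ n = 1 ∨ n = 2 := by omega
    · exact isClosed_inter_zero A c
    · exact isClosed_inter_one A c (hA1 c)
    · exact isClosed_inter_two A c (hA2 c)
  · intro A hA hA1
    rw [CWComplex.closed (univ : Set X) A (subset_univ _)]
    intro n c
    rcases Nat.lt_or_ge 2 n with hn | hn
    · exact ((h n hn).false c).elim
    obtain rfl | rfl | rfl : n = 0 ∨ n = 1 ∨ n = 2 := by omega
    · exact isClosed_inter_zero A c
    · exact isClosed_inter_one A c (hA1 c)
    · obtain ⟨F, hF⟩ := CWComplex.cellFrontier_subset_finite_closedCell 2 c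
      have hdisj : ∀ x ∈ A, x ∉ openCell 2 c := by
        intro x hx hx'
        rcases hA x hx with ⟨o, rfl⟩ | ⟨i, s, rfl⟩
        · have h2 := eq_of_mem_openCell hx' (cv_mem o)
          simp at h2
        · by_cases hs : s ∈ Iint
          · have h2 := eq_of_mem_openCell hx' (ce_mem (i := i) hs)
            simp at h2
          · obtain ⟨o, ho⟩ := hends i s hs
            rw [ho] at hx'
            have h2 := eq_of_mem_openCell hx' (cv_mem o)
            simp at h2
      have : A ∩ closedCell 2 c = ⋃ (m : Fin 2), ⋃ (j ∈ F m),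
          (A ∩ closedCell (m : ℕ) j) ∩ cellFrontier 2 c := by
        ext x
        simp only [mem_iUnion, mem_inter_iff]
        constructor
        · rintro ⟨hx, hx'⟩
          rw [← CWComplex.cellFrontier_union_openCell_eq_closedCell] at hx'
          rcases hx' with hx' | hx'
          · have h2 := hF hx'
            simp only [mem_iUnion] at h2
            obtain ⟨m, hm, j, hj, hj'⟩ := h2
            exact ⟨⟨m, hm⟩, j, hj, ⟨hx, hj'⟩, hx'⟩
          · exact absurd hx' (hdisj x hx)
        · rintro ⟨m, j, hj, ⟨hx, _⟩, hx'⟩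
          exact ⟨hx, CWComplex.cellFrontier_subset_closedCell 2 c hx'⟩
      rw [this]
      refine isClosed_iUnion_of_finite fun m => ?_
      refine (F m).finite_toSet.isClosed_biUnion fun j _ => ?_
      refine IsClosed.inter ?_ CWComplex.isClosed_cellFrontier
      obtain ⟨m, hm⟩ := m
      obtain rfl | rfl : m = 0 ∨ m = 1 := by omega
      · exact isClosed_inter_zero A j
      · exact isClosed_inter_one A j (hA1 j)

end Crest.Agent.R197
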