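import Crest.Agent.R197.CW2Defs

/-! Row 197, task F5: a classifying space of a discrete group (as a set of functions on `[0,1)` with
the distance "outer measure of the set where they differ", modulo the group), and the extension of
null-homotopic boundary loops of the square. -/

set_option autoImplicit false

open scoped unitInterval
open MeasureTheory Topology

namespace Crest.Agent.R197

/-! ### extension over the square -/

namespace SqExt

/-- coordinates of the boundary curve -/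
theorem bdSq_apply (s : I) : ((TwoCx.bdSq s).1 : ℝ) =
      (if (s : ℝ) ≤ 1 / 8 then 8 * (s : ℝ) else if (s : ℝ) ≤ 1 / 4 then 1 else
        if (s : ℝ) ≤ 1 / 2 then 2 - 4 * (s : ℝ) else 0) ∧
    ((TwoCx.bdSq s).2 : ℝ) =
      (if (s : ℝ) ≤ 1 / 8 then 0 else if (s : ℝ) ≤ 1 / 4 then 8 * (s : ℝ) - 1 else
        if (s : ℝ) ≤ 1 / 2 then 1 else 2 - 2 * (s : ℝ)) := by
  have h0 : 0 ≤ (s : ℝ) := s.2.1
  have h1 : (s : ℝ) ≤ 1 := s.2.2
  rw [TwoCx.bdSq]
  simp only [Path.trans_apply]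
  constructor
  · split_ifs <;> first
      | (exfalso; linarith)
      | (simp only [Path.coe_mk_mk, unitInterval.coe_symm_eq]; simp; done)
      | (simp only [Path.coe_mk_mk, unitInterval.coe_symm_eq]; linarith)
  · split_ifs <;> first
      | (exfalso; linarith)
      | (simp only [Path.coe_mk_mk, unitInterval.coe_symm_eq]; simp; done)
      | (simp only [Path.coe_mk_mk, unitInterval.coe_symm_eq]; linarith)

theorem bdSq_inj {s s' : I} (h : TwoCx.bdSq s = TwoCx.bdSq s') :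
    s = s' ∨ ((s = 0 ∨ s = 1) ∧ (s' = 0 ∨ s' = 1)) := by
  obtain ⟨a1, a2⟩ := bdSq_apply s
  obtain ⟨b1, b2⟩ := bdSq_apply s'
  rw [h] at a1 a2
  rw [a1] at b1
  rw [a2] at b2
  have h0 : 0 ≤ (s : ℝ) := s.2.1
  have h1 : (s : ℝ) ≤ 1 := s.2.2
  have h0' : 0 ≤ (s' : ℝ) := s'.2.1
  have h1' : (s' : ℝ) ≤ 1 := s'.2.2
  have key : (s : ℝ) = s' ∨ (((s : ℝ) = 0 ∨ (s : ℝ) = 1) ∧ ((s' : ℝ) = 0 ∨ (s' : ℝ) = 1)) := by
    by_cases e : (s : ℝ) = s'
    · exact Or.inl e
    right
    split_ifs at b1 b2 <;> first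
      | (exfalso; apply e; linarith)
      | (exfalso; linarith)
      | (refine ⟨Or.inl ?_, Or.inr ?_⟩ <;> linarith)
      | (refine ⟨Or.inr ?_, Or.inl ?_⟩ <;> linarith)
  rcases key with h | ⟨h | h, h' | h'⟩
  · exact Or.inl (Subtype.ext h)
  · exact Or.inr ⟨Or.inl (Subtype.ext h), Or.inl (Subtype.ext h')⟩
  · exact Or.inr ⟨Or.inl (Subtype.ext h), Or.inr (Subtype.ext h')⟩
  · exact Or.inr ⟨Or.inr (Subtype.ext h), Or.inl (Subtype.ext h')⟩
  · exact Or.inr ⟨Or.inr (Subtype.ext h), Or.inr (Subtype.ext h')⟩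

theorem bdSq_surj {w : I × I} (hw : w ∉ Sint) : ∃ s, TwoCx.bdSq s = w := by
  obtain ⟨⟨a, ha0, ha1⟩, ⟨b, hb0, hb1⟩⟩ := w
  have hcase : a = 0 ∨ a = 1 ∨ b = 0 ∨ b = 1 := by
    by_contra hc
    push Not at hc
    obtain ⟨h1, h2, h3, h4⟩ := hc
    apply hw
    refine ⟨⟨?_, ?_⟩, ⟨?_, ?_⟩⟩
    · exact lt_of_le_of_ne (show (0 : I) ≤ ⟨a, ha0, ha1⟩ from ha0) fun h => h1 (congrArg Subtype.val h).symm
    · exact lt_of_le_of_ne (show (⟨a, ha0, ha1⟩ : I) ≤ 1 from ha1) fun h => h2 (congrArg Subtype.val h)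
    · exact lt_of_le_of_ne (show (0 : I) ≤ ⟨b, hb0, hb1⟩ from hb0) fun h => h3 (congrArg Subtype.val h).symm
    · exact lt_of_le_of_ne (show (⟨b, hb0, hb1⟩ : I) ≤ 1 from hb1) fun h => h4 (congrArg Subtype.val h)
  have fin : ∀ s : I, ((TwoCx.bdSq s).1 : ℝ) = a → ((TwoCx.bdSq s).2 : ℝ) = b →
      TwoCx.bdSq s = (⟨a, ha0, ha1⟩, ⟨b, hb0, hb1⟩) := fun s h1 h2 =>
    Prod.ext (Subtype.ext h1) (Subtype.ext h2)
  rcases hcase with h | h | h | h
  · refine ⟨⟨1 - b / 2, by linarith, by linarith⟩, fin _ ?_ ?_⟩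
    · rw [(bdSq_apply _).1]; simp only
      split_ifs <;> linarith
    · rw [(bdSq_apply _).2]; simp only
      split_ifs <;> linarith
  · refine ⟨⟨1 / 8 + b / 8, by linarith, by linarith⟩, fin _ ?_ ?_⟩
    · rw [(bdSq_apply _).1]; simp only
      split_ifs <;> linarith
    · rw [(bdSq_apply _).2]; simp only
      split_ifs <;> linarith
  · refine ⟨⟨a / 8, by linarith, by linarith⟩, fin _ ?_ ?_⟩
    · rw [(bdSq_apply _).1]; simp only
      split_ifs <;> linarith
    · rw [(bdSq_apply _).2]; simp only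
      split_ifs <;> linarith
  · refine ⟨⟨(2 - a) / 4, by linarith, by linarith⟩, fin _ ?_ ?_⟩
    · rw [(bdSq_apply _).1]; simp only
      split_ifs <;> linarith
    · rw [(bdSq_apply _).2]; simp only
      split_ifs <;> linarith

/-- `x ↦ (1-t) x + t/2` on the interval -/
noncomputable def mid (t x : I) : I :=
  ⟨(1 - (t : ℝ)) * x + t / 2, by
    have h1 := t.2.1; have h2 := t.2.2; have h3 := x.2.1; have h4 := x.2.2
    constructor
    · nlinarith [mul_nonneg (sub_nonneg.mpr h2) h3]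
    · nlinarith [mul_le_mul_of_nonneg_left h4 (sub_nonneg.mpr h2)]⟩

lemma continuous_mid : Continuous fun q : I × I => mid q.1 q.2 := by
  unfold mid
  fun_prop

/-- polar coordinates of the square -/
noncomputable def polar : C(I × I, I × I) where
  toFun q := (mid q.1 (TwoCx.bdSq q.2).1, mid q.1 (TwoCx.bdSq q.2).2)
  continuous_toFun := by
    have h1 : Continuous fun q : I × I => (q.1, (TwoCx.bdSq q.2).1) := by fun_prop
    have h2 : Continuous fun q : I × I => (q.1, (TwoCx.bdSq q.2).2) := by fun_prop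
    exact (continuous_mid.comp h1).prodMk (continuous_mid.comp h2)

lemma polar_fst (t s : I) : ((polar (t, s)).1 : ℝ) =
    (1 - (t : ℝ)) * (TwoCx.bdSq s).1 + t / 2 := rfl

lemma polar_snd (t s : I) : ((polar (t, s)).2 : ℝ) =
    (1 - (t : ℝ)) * (TwoCx.bdSq s).2 + t / 2 := rfl

lemma polar_zero (s : I) : polar (0, s) = TwoCx.bdSq s := by
  apply Prod.ext
  · apply Subtype.ext; rw [polar_fst]; simp
  · apply Subtype.ext; rw [polar_snd]; simp

lemma notMem_Sint {w : I × I} (hw : w ∉ Sint) :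
    (w.1 : ℝ) = 0 ∨ (w.1 : ℝ) = 1 ∨ (w.2 : ℝ) = 0 ∨ (w.2 : ℝ) = 1 := by
  obtain ⟨⟨a, ha0, ha1⟩, ⟨b, hb0, hb1⟩⟩ := w
  by_contra hc
  push Not at hc
  obtain ⟨h1, h2, h3, h4⟩ := hc
  apply hw
  refine ⟨⟨?_, ?_⟩, ⟨?_, ?_⟩⟩
  · exact lt_of_le_of_ne (show (0 : I) ≤ ⟨a, ha0, ha1⟩ from ha0) fun h => h1 (congrArg Subtype.val h).symm
  · exact lt_of_le_of_ne (show (⟨a, ha0, ha1⟩ : I) ≤ 1 from ha1) fun h => h2 (congrArg Subtype.val h)
  · exact lt_of_le_of_ne (show (0 : I) ≤ ⟨b, hb0, hb1⟩ from hb0) fun h => h3 (congrArg Subtype.val h).symm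
  · exact lt_of_le_of_ne (show (⟨b, hb0, hb1⟩ : I) ≤ 1 from hb1) fun h => h4 (congrArg Subtype.val h)

/-- the sup-norm of the centred boundary curve is `1/2` -/
lemma max_bdSq (s : I) :
    max |((TwoCx.bdSq s).1 : ℝ) - 1 / 2| |((TwoCx.bdSq s).2 : ℝ) - 1 / 2| = 1 / 2 := by
  have h := notMem_Sint (TwoCx.bdSq_notMem s)
  have a0 := (TwoCx.bdSq s).1.2.1
  have a1 := (TwoCx.bdSq s).1.2.2
  have b0 := (TwoCx.bdSq s).2.2.1
  have b1 := (TwoCx.bdSq s).2.2.2
  have ha : |((TwoCx.bdSq s).1 : ℝ) - 1 / 2| ≤ 1 / 2 := by rw [abs_le]; constructor <;> linarith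
  have hb : |((TwoCx.bdSq s).2 : ℝ) - 1 / 2| ≤ 1 / 2 := by rw [abs_le]; constructor <;> linarith
  apply le_antisymm (max_le ha hb)
  rcases h with h | h | h | h
  · apply le_max_of_le_left; rw [h]; norm_num
  · apply le_max_of_le_left; rw [h]; norm_num
  · apply le_max_of_le_right; rw [h]; norm_num
  · apply le_max_of_le_right; rw [h]; norm_num

lemma polar_radius (t s : I) :
    max |((polar (t, s)).1 : ℝ) - 1 / 2| |((polar (t, s)).2 : ℝ) - 1 / 2| = (1 - (t : ℝ)) / 2 := by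
  have ht : 0 ≤ 1 - (t : ℝ) := sub_nonneg.mpr t.2.2
  have h1 : ((polar (t, s)).1 : ℝ) - 1 / 2 = (1 - (t : ℝ)) * (((TwoCx.bdSq s).1 : ℝ) - 1 / 2) := by
    rw [polar_fst]; ring
  have h2 : ((polar (t, s)).2 : ℝ) - 1 / 2 = (1 - (t : ℝ)) * (((TwoCx.bdSq s).2 : ℝ) - 1 / 2) := by
    rw [polar_snd]; ring
  rw [h1, h2, abs_mul, abs_mul, abs_of_nonneg ht, ← mul_max_of_nonneg _ _ ht, max_bdSq]
  ring

lemma polar_eq {t s t' s' : I} (h : polar (t, s) = polar (t', s')) :
    t = t' ∧ (t = 1 ∨ TwoCx.bdSq s = TwoCx.bdSq s') := by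
  have h1 := polar_radius t s
  rw [h, polar_radius t' s'] at h1
  have ht : t = t' := Subtype.ext (by linarith)
  refine ⟨ht, ?_⟩
  by_cases h2 : t = 1
  · exact Or.inl h2
  right
  have h3 : (1 - (t : ℝ)) ≠ 0 := by
    intro h4
    exact h2 (Subtype.ext (by rw [Set.Icc.coe_one]; linarith))
  have e1 : ((polar (t, s)).1 : ℝ) = ((polar (t', s')).1 : ℝ) := by rw [h]
  have e2 : ((polar (t, s)).2 : ℝ) = ((polar (t', s')).2 : ℝ) := by rw [h]
  rw [polar_fst, polar_fst, ← ht] at e1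
  rw [polar_snd, polar_snd, ← ht] at e2
  apply Prod.ext
  · apply Subtype.ext
    apply mul_left_cancel₀ h3; linarith
  · apply Subtype.ext
    apply mul_left_cancel₀ h3; linarith

lemma polar_surjective : Function.Surjective polar := by
  intro z
  set r : ℝ := 2 * max |(z.1 : ℝ) - 1 / 2| |(z.2 : ℝ) - 1 / 2| with hr
  have a0 := z.1.2.1
  have a1 := z.1.2.2
  have b0 := z.2.2.1
  have b1 := z.2.2.2
  have ha : |(z.1 : ℝ) - 1 / 2| ≤ 1 / 2 := by rw [abs_le]; constructor <;> linarith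
  have hb : |(z.2 : ℝ) - 1 / 2| ≤ 1 / 2 := by rw [abs_le]; constructor <;> linarith
  have hr1 : r ≤ 1 := by
    have := max_le ha hb
    linarith
  have hr0 : 0 ≤ r := by
    have : 0 ≤ max |(z.1 : ℝ) - 1 / 2| |(z.2 : ℝ) - 1 / 2| := le_max_of_le_left (abs_nonneg _)
    linarith
  have hA : |(z.1 : ℝ) - 1 / 2| ≤ r / 2 := by
    have := le_max_left |(z.1 : ℝ) - 1 / 2| |(z.2 : ℝ) - 1 / 2|
    linarith
  have hB : |(z.2 : ℝ) - 1 / 2| ≤ r / 2 := by
    have := le_max_right |(z.1 : ℝ) - 1 / 2| |(z.2 : ℝ) - 1 / 2|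
    linarith
  rcases eq_or_lt_of_le hr0 with h0 | h0
  · refine ⟨(1, 0), ?_⟩
    rw [← h0] at hA hB
    have e1 : (z.1 : ℝ) = 1 / 2 := by
      have := abs_nonpos_iff.mp (by linarith : |(z.1 : ℝ) - 1 / 2| ≤ 0)
      linarith
    have e2 : (z.2 : ℝ) = 1 / 2 := by
      have := abs_nonpos_iff.mp (by linarith : |(z.2 : ℝ) - 1 / 2| ≤ 0)
      linarith
    apply Prod.ext
    · apply Subtype.ext; rw [polar_fst, e1]; simp
    · apply Subtype.ext; rw [polar_snd, e2]; simp
  · rw [abs_le] at hA hB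
    have m1 : (1 / 2 + ((z.1 : ℝ) - 1 / 2) / r) ∈ Set.Icc (0 : ℝ) 1 := by
      constructor
      · have : -(1 / 2) ≤ ((z.1 : ℝ) - 1 / 2) / r := by rw [le_div_iff₀ h0]; linarith [hA.1]
        linarith
      · have : ((z.1 : ℝ) - 1 / 2) / r ≤ 1 / 2 := by rw [div_le_iff₀ h0]; linarith [hA.2]
        linarith
    have m2 : (1 / 2 + ((z.2 : ℝ) - 1 / 2) / r) ∈ Set.Icc (0 : ℝ) 1 := by
      constructor
      · have : -(1 / 2) ≤ ((z.2 : ℝ) - 1 / 2) / r := by rw [le_div_iff₀ h0]; linarith [hB.1]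
        linarith
      · have : ((z.2 : ℝ) - 1 / 2) / r ≤ 1 / 2 := by rw [div_le_iff₀ h0]; linarith [hB.2]
        linarith
    set w : I × I := (⟨_, m1⟩, ⟨_, m2⟩) with hw
    have hwS : w ∉ Sint := by
      intro hS
      obtain ⟨⟨p1, p2⟩, ⟨p3, p4⟩⟩ := hS
      have q1 : (0 : ℝ) < 1 / 2 + ((z.1 : ℝ) - 1 / 2) / r := p1
      have q2 : 1 / 2 + ((z.1 : ℝ) - 1 / 2) / r < (1 : ℝ) := p2
      have q3 : (0 : ℝ) < 1 / 2 + ((z.2 : ℝ) - 1 / 2) / r := p3
      have q4 : 1 / 2 + ((z.2 : ℝ) - 1 / 2) / r < (1 : ℝ) := p4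
      have s1 : |(z.1 : ℝ) - 1 / 2| < r / 2 := by
        rw [abs_lt]
        constructor
        · have : -(1 / 2) < ((z.1 : ℝ) - 1 / 2) / r := by linarith
          rw [lt_div_iff₀ h0] at this; linarith
        · have : ((z.1 : ℝ) - 1 / 2) / r < 1 / 2 := by linarith
          rw [div_lt_iff₀ h0] at this; linarith
      have s2 : |(z.2 : ℝ) - 1 / 2| < r / 2 := by
        rw [abs_lt]
        constructor
        · have : -(1 / 2) < ((z.2 : ℝ) - 1 / 2) / r := by linarith
          rw [lt_div_iff₀ h0] at this; linarith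
        · have : ((z.2 : ℝ) - 1 / 2) / r < 1 / 2 := by linarith
          rw [div_lt_iff₀ h0] at this; linarith
      have := max_lt s1 s2
      linarith
    obtain ⟨s, hs⟩ := bdSq_surj hwS
    refine ⟨(⟨1 - r, by linarith, by linarith⟩, s), ?_⟩
    apply Prod.ext
    · apply Subtype.ext
      rw [polar_fst, hs]
      simp only [hw]
      field_simp
      ring
    · apply Subtype.ext
      rw [polar_snd, hs]
      simp only [hw]
      field_simp
      ring

lemma isQuotientMap_polar : IsQuotientMap polar :=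
  (polar.continuous.isClosedMap).isQuotientMap polar.continuous polar_surjective

/-- A map on the boundary of the square whose boundary loop is null-homotopic extends. -/
theorem exists_ext {B : Type*} [TopologicalSpace B] (β : C({s : I × I // s ∉ Sint}, B))
    (h : Path.Homotopic (TwoCx.bdS.map β.continuous) (Path.refl _)) :
    ∃ F : C(I × I, B), ∀ s : {s : I × I // s ∉ Sint}, F s.1 = β s := by
  obtain ⟨H⟩ := h
  have h0 : ∀ s, H (0, s) = β (TwoCx.bdS s) := fun s => H.apply_zero s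
  have h1 : ∀ s, H (1, s) = β (TwoCx.bdS 0) := fun s => by
    rw [H.apply_one]; simp
  have hs0 : ∀ t, H (t, 0) = β (TwoCx.bdS 0) := fun t => by
    rw [H.source]; simp
  have hs1 : ∀ t, H (t, 1) = β (TwoCx.bdS 0) := fun t => by
    rw [H.target]; simp
  have hfac : Function.FactorsThrough (H : I × I → B) polar := by
    rintro ⟨t, s⟩ ⟨t', s'⟩ he
    obtain ⟨rfl, h2⟩ := polar_eq he
    rcases h2 with rfl | h2
    · rw [h1, h1]
    · rcases bdSq_inj h2 with rfl | ⟨h3, h4⟩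
      · rfl
      · rcases h3 with rfl | rfl <;> rcases h4 with rfl | rfl <;> simp only [hs0, hs1]
  refine ⟨isQuotientMap_polar.lift H.toContinuousMap hfac, ?_⟩
  intro w
  obtain ⟨s, hs⟩ := bdSq_surj w.2
  have e1 : polar (0, s) = w.1 := by rw [polar_zero, hs]
  rw [← e1]
  have e2 : (isQuotientMap_polar.lift H.toContinuousMap hfac) (polar (0, s)) = H (0, s) :=
    congrArg (fun g : C(I × I, B) => g (0, s)) (isQuotientMap_polar.lift_comp _ hfac)
  rw [e2, h0]
  congr 1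
  exact Subtype.ext hs

end SqExt

/-! ### the space of functions -/

/-- all functions from `[0,1)` to the group -/
def EG (Γ : Type) : Type := Set.Ico (0 : ℝ) 1 → Γ

namespace EG

variable {Γ : Type}

/-- the set where two functions differ, as a set of reals -/
def df (f g : EG Γ) : Set ℝ := {t | ∃ h : t ∈ Set.Ico (0 : ℝ) 1, f ⟨t, h⟩ ≠ g ⟨t, h⟩}

lemma df_subset (f g : EG Γ) : df f g ⊆ Set.Ico (0 : ℝ) 1 := fun _ ⟨h, _⟩ => h

lemma vol_df_le (f g : EG Γ) : volume (df f g) ≤ 1 := by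
  refine (measure_mono (df_subset f g)).trans ?_
  simp

lemma vol_df_ne_top (f g : EG Γ) : volume (df f g) ≠ ⊤ :=
  ne_top_of_le_ne_top ENNReal.one_ne_top (vol_df_le f g)

lemma df_self (f : EG Γ) : df f f = ∅ := by
  ext t; simp [df]

lemma df_comm (f g : EG Γ) : df f g = df g f := by
  ext t
  constructor
  · rintro ⟨h, h1⟩; exact ⟨h, h1.symm⟩
  · rintro ⟨h, h1⟩; exact ⟨h, h1.symm⟩

lemma df_triangle (f g k : EG Γ) : df f k ⊆ df f g ∪ df g k := by
  rintro t ⟨h, h1⟩
  by_cases h2 : f ⟨t, h⟩ = g ⟨t, h⟩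
  · right; exact ⟨h, by rwa [← h2]⟩
  · left; exact ⟨h, h2⟩

noncomputable instance : PseudoMetricSpace (EG Γ) where
  dist f g := (volume (df f g)).toReal
  dist_self f := by rw [df_self]; simp
  dist_comm f g := by rw [df_comm]
  dist_triangle f g k := by
    rw [← ENNReal.toReal_add (vol_df_ne_top f g) (vol_df_ne_top g k)]
    apply ENNReal.toReal_mono
    · exact ENNReal.add_ne_top.mpr ⟨vol_df_ne_top f g, vol_df_ne_top g k⟩
    · exact (measure_mono (df_triangle f g k)).trans (measure_union_le _ _)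

lemma dist_def (f g : EG Γ) : dist f g = (volume (df f g)).toReal := rfl

variable [Group Γ]

instance : MulAction Γ (EG Γ) where
  smul γ f := fun t => γ * f t
  one_smul f := by funext t; exact one_mul _
  mul_smul a b f := by funext t; exact mul_assoc _ _ _

lemma smul_apply (γ : Γ) (f : EG Γ) (t : Set.Ico (0 : ℝ) 1) : (γ • f) t = γ * f t := rfl

lemma df_smul (γ : Γ) (f g : EG Γ) : df (γ • f) (γ • g) = df f g := by
  ext t
  constructor
  · rintro ⟨h, h1⟩
    exact ⟨h, fun h2 => h1 (by rw [smul_apply, smul_apply, h2])⟩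
  · rintro ⟨h, h1⟩
    exact ⟨h, fun h2 => h1 (by rw [smul_apply, smul_apply] at h2; exact mul_left_cancel h2)⟩

lemma dist_smul_smul (γ : Γ) (f g : EG Γ) : dist (γ • f) (γ • g) = dist f g := by
  rw [dist_def, dist_def, df_smul]

instance : ContinuousConstSMul Γ (EG Γ) where
  continuous_const_smul γ := (Isometry.of_dist_eq fun f g => dist_smul_smul γ f g).continuous

lemma dist_smul_self {γ : Γ} (hγ : γ ≠ 1) (f : EG Γ) : dist (γ • f) f = 1 := by
  have : df (γ • f) f = Set.Ico (0 : ℝ) 1 := by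
    apply Set.Subset.antisymm (df_subset _ _)
    intro t ht
    refine ⟨ht, fun h => hγ ?_⟩
    rw [smul_apply] at h
    exact mul_eq_right.mp h
  rw [dist_def, this]
  simp

open Classical in
/-- the contraction -/
noncomputable def K (s : ℝ) (f : EG Γ) : EG Γ := fun t => if (t : ℝ) < s then 1 else f t

lemma df_K (s s' : ℝ) (f f' : EG Γ) :
    df (K s f) (K s' f') ⊆ Set.Ico (min s s') (max s s') ∪ df f f' := by
  rintro t ⟨h, h1⟩
  by_cases h2 : t ∈ Set.Ico (min s s') (max s s')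
  · exact Or.inl h2
  right
  refine ⟨h, fun h3 => h1 ?_⟩
  unfold K
  simp only
  rw [Set.mem_Ico, not_and_or, not_le, not_lt] at h2
  rcases h2 with h2 | h2
  · rw [if_pos (lt_of_lt_of_le h2 (min_le_left _ _)), if_pos (lt_of_lt_of_le h2 (min_le_right _ _))]
  · rw [if_neg (not_lt.mpr ((le_max_left _ _).trans h2)),
      if_neg (not_lt.mpr ((le_max_right _ _).trans h2)), h3]

lemma dist_K (s s' : ℝ) (f f' : EG Γ) : dist (K s f) (K s' f') ≤ |s - s'| + dist f f' := by
  rw [dist_def, dist_def]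
  have h1 : volume (df (K s f) (K s' f')) ≤ ENNReal.ofReal |s - s'| + volume (df f f') := by
    refine (measure_mono (df_K s s' f f')).trans ((measure_union_le _ _).trans ?_)
    gcongr
    rw [Real.volume_Ico, max_sub_min_eq_abs']
  calc (volume (df (K s f) (K s' f'))).toReal
      ≤ (ENNReal.ofReal |s - s'| + volume (df f f')).toReal :=
        ENNReal.toReal_mono (ENNReal.add_ne_top.mpr ⟨ENNReal.ofReal_ne_top, vol_df_ne_top _ _⟩) h1
    _ = |s - s'| + (volume (df f f')).toReal := by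
        rw [ENNReal.toReal_add ENNReal.ofReal_ne_top (vol_df_ne_top _ _),
          ENNReal.toReal_ofReal (abs_nonneg _)]

lemma continuous_K : Continuous fun q : I × EG Γ => K (q.1 : ℝ) q.2 := by
  rw [Metric.continuous_iff]
  rintro ⟨s, f⟩ ε hε
  refine ⟨ε / 2, by positivity, ?_⟩
  rintro ⟨s', f'⟩ h
  rw [Prod.dist_eq, max_lt_iff] at h
  refine lt_of_le_of_lt (dist_K _ _ _ _) ?_
  have h1 : |(s' : ℝ) - s| < ε / 2 := h.1
  have h2 : dist f' f < ε / 2 := h.2
  simp only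
  linarith

lemma K_zero (f : EG Γ) : K 0 f = f := by
  funext t
  unfold K
  rw [if_neg (not_lt.mpr t.2.1)]

lemma K_one (f : EG Γ) : K 1 f = fun _ => 1 := by
  funext t
  unfold K
  rw [if_pos t.2.2]

instance : ContractibleSpace (EG Γ) := by
  rw [contractible_iff_id_nullhomotopic]
  refine ⟨fun _ => 1, ⟨?_⟩⟩
  exact
    { toFun := fun q => K (q.1 : ℝ) q.2
      continuous_toFun := continuous_K
      map_zero_left := fun f => K_zero f
      map_one_left := fun f => K_one f }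

variable (Γ) in
/-- the classifying space -/
abbrev BG : Type := MulAction.orbitRel.Quotient Γ (EG Γ)

theorem quotCover : IsQuotientCoveringMap (Quotient.mk _ : EG Γ → BG Γ) Γ where
  toIsQuotientMap := isQuotientMap_quotient_mk'
  continuous_const_smul := fun γ => continuous_const_smul γ
  apply_eq_iff_mem_orbit := Quotient.eq
  disjoint f := by
    refine ⟨Metric.ball f (1 / 2), Metric.ball_mem_nhds f (by norm_num), fun γ hγ => ?_⟩
    obtain ⟨_, ⟨x, hx, rfl⟩, hx'⟩ := hγ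
    by_contra hne
    rw [Metric.mem_ball] at hx hx'
    have h1 := dist_smul_self hne x
    have h2 : dist (γ • x) x ≤ dist (γ • x) f + dist x f := dist_triangle_right _ _ _
    linarith

end EG

theorem exists_classifying (Γ : Type) [Group Γ] : ∃ (B : Type) (_ : TopologicalSpace B) (b₀ : B)
    (_ : FundamentalGroup B b₀ ≃* Γ), ∀ β : C({s : I × I // s ∉ Sint}, B),
      Path.Homotopic (TwoCx.bdS.map β.continuous) (Path.refl _) →
        ∃ F : C(I × I, B), ∀ s, F s.1 = β s := by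
  let x₀ : EG Γ := fun _ => 1
  refine ⟨EG.BG Γ, inferInstance, Quotient.mk _ x₀,
    (EG.quotCover.fundamentalGroupEquiv ⟨x₀, rfl⟩).trans (MulEquiv.inv' Γ).symm, ?_⟩
  intro β h
  exact SqExt.exists_ext β h

end Crest.Agent.R197
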