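import Mathlib
import Crest.Agent.R197.CW2Defs

/-! Row 197, F1: weak topology of coverings of a two-dimensional cell complex. -/

set_option autoImplicit false

open scoped unitInterval Topology

namespace Crest.Agent.R197

theorem contractibleSpace_I : ContractibleSpace I :=
  (convex_Icc (0 : ℝ) 1).contractibleSpace ⟨0, by simp⟩

theorem locallyPathConnectedSpace_I : LocallyPathConnectedSpace I :=
  (convex_Icc (0 : ℝ) 1).locallyPathConnectedSpace

theorem simplyConnectedSpace_I : SimplyConnectedSpace I := by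
  have := contractibleSpace_I
  infer_instance

theorem simplyConnectedSpace_II : SimplyConnectedSpace (I × I) := by
  have := contractibleSpace_I
  infer_instance

/-- lifts of paths through a given point at a given time -/
theorem exists_lift_I {X E : Type} [TopologicalSpace X] [TopologicalSpace E] {p : E → X}
    (hp : IsCoveringMap p) (f : C(I, X)) (s : I) (y : E) (h : p y = f s) :
    ∃ u : C(I, E), u s = y ∧ ∀ t, p (u t) = f t := by
  have := contractibleSpace_I
  have := locallyPathConnectedSpace_I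
  obtain ⟨u, ⟨h1, h2⟩, -⟩ := hp.existsUnique_continuousMap_lifts f s y h
  exact ⟨u, h1, fun t => congrFun h2 t⟩

/-- lifts of maps of the square through a given point -/
theorem exists_lift_II {X E : Type} [TopologicalSpace X] [TopologicalSpace E] {p : E → X}
    (hp : IsCoveringMap p) (f : C(I × I, X)) (s : I × I) (y : E) (h : p y = f s) :
    ∃ u : C(I × I, E), u s = y ∧ ∀ t, p (u t) = f t := by
  have := contractibleSpace_I
  have := locallyPathConnectedSpace_I
  obtain ⟨u, ⟨h1, h2⟩, -⟩ := hp.existsUnique_continuousMap_lifts f s y h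
  exact ⟨u, h1, fun t => congrFun h2 t⟩

/-- uniqueness of lifts -/
theorem lift_unique {A X E : Type} [TopologicalSpace A] [PreconnectedSpace A]
    [TopologicalSpace X] [TopologicalSpace E] {p : E → X}
    (hp : IsCoveringMap p) (f : C(A, X)) (u u' : C(A, E)) (hu : ∀ t, p (u t) = f t)
    (hu' : ∀ t, p (u' t) = f t) (s : A) (h : u s = u' s) : u = u' := by
  have := hp.eq_of_comp_eq u.continuous u'.continuous
    (funext fun t => (hu t).trans (hu' t).symm) s h
  exact ContinuousMap.ext (congrFun this)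

theorem lift_unique_I {X E : Type} [TopologicalSpace X] [TopologicalSpace E] {p : E → X}
    (hp : IsCoveringMap p) (f : C(I, X)) (u u' : C(I, E)) (hu : ∀ t, p (u t) = f t)
    (hu' : ∀ t, p (u' t) = f t) (s : I) (h : u s = u' s) : u = u' := by
  have := contractibleSpace_I
  exact lift_unique hp f u u' hu hu' s h

theorem lift_unique_II {X E : Type} [TopologicalSpace X] [TopologicalSpace E] {p : E → X}
    (hp : IsCoveringMap p) (f : C(I × I, X)) (u u' : C(I × I, E)) (hu : ∀ t, p (u t) = f t)
    (hu' : ∀ t, p (u' t) = f t) (s : I × I) (h : u s = u' s) : u = u' := by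
  have := contractibleSpace_I
  exact lift_unique hp f u u' hu hu' s h

namespace TwoCx
variable {X E : Type} [TopologicalSpace X] [TopologicalSpace E] (C : TwoCx X)

theorem f_mem_open_iff {j j' : C.J} {s s' : I × I} (hs : s' ∈ Sint) (h : C.f j s = C.f j' s') :
    j = j' ∧ s = s' := by
  by_cases hs0 : s ∈ Sint
  · exact C.f_inj j j' s s' hs0 hs h
  · exfalso
    rcases C.f_bd j s hs0 with ⟨o, ho⟩ | ⟨i, t, ht⟩
    · exact C.f_ne_v j' s' o hs (h.symm.trans ho)
    · exact C.f_ne_e j' s' i t hs (h.symm.trans ht)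

/-- open 2-cells of the cover: a point of the interior of a lifted 2-cell determines everything -/
theorem lift_f_eq {p : E → X} (hp : IsCoveringMap p) {j j' : C.J} (u u' : C(I × I, E))
    (hu : ∀ s, p (u s) = C.f j s) (hu' : ∀ s, p (u' s) = C.f j' s) {s s' : I × I}
    (hs : s' ∈ Sint) (h : u s = u' s') : j = j' ∧ s = s' ∧ u = u' := by
  have h1 : C.f j s = C.f j' s' := by rw [← hu, ← hu', h]
  obtain ⟨rfl, rfl⟩ := C.f_mem_open_iff hs h1
  exact ⟨rfl, rfl, lift_unique_II hp _ u u' hu hu' s h⟩

/-- points of lifted edges are not in the open lifted 2-cells -/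
theorem lift_e_ne_f {p : E → X} {i : C.E} {j : C.J} (u : C(I, E))
    (u' : C(I × I, E)) (hu : ∀ s, p (u s) = C.e i s) (hu' : ∀ s, p (u' s) = C.f j s) (s : I)
    {s' : I × I} (hs : s' ∈ Sint) : u s ≠ u' s' := by
  intro h
  have h1 : C.f j s' = C.e i s := by rw [← hu, ← hu', h]
  exact C.f_ne_e j s' i s hs h1

theorem mem_X1_iff_notMem (x : X) : x ∈ C.X1 ↔ ∀ j s, s ∈ Sint → x ≠ C.f j s := by
  constructor
  · rintro (⟨o, rfl⟩ | ⟨i, t, rfl⟩) j s hs h
    · exact C.f_ne_v j s o hs h.symm
    · exact C.f_ne_e j s i t hs h.symm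
  · intro h
    rcases C.cover x with ⟨o, ho⟩ | ⟨i, s, -, hs⟩ | ⟨j, s, hs, hx⟩
    · exact Or.inl ⟨o, ho⟩
    · exact Or.inr ⟨i, s, hs⟩
    · exact absurd hx (h j s hs)

/-- a point outside `X1` is in a unique open 2-cell -/
theorem exists_of_notMem_X1 {x : X} (h : x ∉ C.X1) : ∃ j s, s ∈ Sint ∧ x = C.f j s := by
  rw [mem_X1_iff_notMem] at h
  push Not at h
  exact h

/-- lifts of points of `E` outside `p ⁻¹' X1` -/
theorem exists_lift_of_notMem {p : E → X} (hp : IsCoveringMap p) {y : E} (h : p y ∉ C.X1) :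
    ∃ (j : C.J) (u : C(I × I, E)) (s : I × I), (∀ t, p (u t) = C.f j t) ∧ s ∈ Sint ∧ u s = y := by
  obtain ⟨j, s, hs, hx⟩ := C.exists_of_notMem_X1 h
  obtain ⟨u, hu, hu'⟩ := exists_lift_II hp (C.f j) s y hx
  exact ⟨j, u, s, hu', hs, hu⟩

theorem isOpen_of_preimages {W : Set X} (h1 : ∀ i, IsOpen (C.e i ⁻¹' W))
    (h2 : ∀ j, IsOpen (C.f j ⁻¹' W)) : IsOpen W := by
  rw [← isClosed_compl_iff]
  refine C.closed2 _ (fun i => ?_) (fun j => ?_)
  · rw [Set.preimage_compl, isClosed_compl_iff]; exact h1 i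
  · rw [Set.preimage_compl, isClosed_compl_iff]; exact h2 j

end TwoCx

/-- Key local statement: along a lift `u` of `c`, the sheet through `y` is followed. -/
theorem eventually_sheet {A X E F : Type} [TopologicalSpace A] [TopologicalSpace X]
    [TopologicalSpace E] [TopologicalSpace F] [DiscreteTopology F] {p : E → X}
    (t : Bundle.Trivialization F p) (u : A → E) (hu : Continuous u) (s₀ : A)
    (hs : p (u s₀) ∈ t.baseSet) :
    ∀ᶠ s in 𝓝 s₀, p (u s) ∈ t.baseSet ∧ u s = t.toOpenPartialHomeomorph.symm (p (u s), (t (u s₀)).2) := by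
  have hmem : u s₀ ∈ t.source := t.mem_source.2 hs
  have h1 : ∀ᶠ s in 𝓝 s₀, u s ∈ t.source :=
    hu.continuousAt.eventually (t.open_source.mem_nhds hmem)
  have hc : ContinuousAt (fun s => (t (u s)).2) s₀ :=
    (continuous_snd.continuousAt).comp
      ((t.continuousOn_toFun.continuousAt (t.open_source.mem_nhds hmem)).comp hu.continuousAt)
  have h2 : ∀ᶠ s in 𝓝 s₀, (t (u s)).2 = (t (u s₀)).2 :=
    hc.eventually ((isOpen_discrete {(t (u s₀)).2}).mem_nhds rfl)
  filter_upwards [h1, h2] with s hs1 hs2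
  refine ⟨t.mem_source.1 hs1, ?_⟩
  rw [← hs2]
  exact (t.symm_apply_mk_proj hs1).symm

/-- The covering space carries the weak topology with respect to lifted cells. -/
theorem cover_continuous {X E Y : Type} [TopologicalSpace X] [TopologicalSpace E]
    [TopologicalSpace Y] (C : TwoCx X) (p : E → X) (hp : IsCoveringMap p) (g : E → Y)
    (h1 : ∀ i (u : C(I, E)), (∀ s, p (u s) = C.e i s) → Continuous (g ∘ u))
    (h2 : ∀ j (u : C(I × I, E)), (∀ s, p (u s) = C.f j s) → Continuous (g ∘ u)) :
    Continuous g := by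
  rw [continuous_def]
  intro V hV
  rw [isOpen_iff_mem_nhds]
  intro y hy
  -- trivialization
  have hdisc : DiscreteTopology (p ⁻¹' {p y}) := (hp (p y)).1
  have : Nonempty (p ⁻¹' {p y}) := ⟨⟨y, rfl⟩⟩
  let t := (hp (p y)).toTrivialization
  have hyb : p y ∈ t.baseSet := (hp (p y)).mem_toTrivialization_baseSet
  have hys : y ∈ t.source := t.mem_source.2 hyb
  let W : Set X := {x | x ∈ t.baseSet ∧ g (t.toOpenPartialHomeomorph.symm (x, (t y).2)) ∈ V}
  have key : ∀ {A : Type} [TopologicalSpace A] (c : C(A, X))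
      (_ : ∀ (s₀ : A) (y₀ : E), p y₀ = c s₀ → ∃ u : C(A, E), u s₀ = y₀ ∧ (∀ s, p (u s) = c s) ∧
        Continuous (g ∘ u)), IsOpen (c ⁻¹' W) := by
    intro A _ c hc
    rw [isOpen_iff_mem_nhds]
    intro s₀ hs₀
    obtain ⟨hb, hgV⟩ := hs₀
    obtain ⟨u, hu0, hu, hgu⟩ := hc s₀ (t.toOpenPartialHomeomorph.symm (c s₀, (t y).2))
      (t.proj_symm_apply' hb)
    have hcoord : (t (u s₀)).2 = (t y).2 := by
      rw [hu0]
      have := t.apply_symm_apply' (x := (t y).2) hb
      rw [this]
    have hev := eventually_sheet t u u.continuous s₀ (by rw [hu]; exact hb)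
    have hgV' : g (u s₀) ∈ V := by rw [hu0]; exact hgV
    have hev2 : ∀ᶠ s in 𝓝 s₀, g (u s) ∈ V :=
      hgu.continuousAt.eventually (hV.mem_nhds hgV')
    filter_upwards [hev, hev2] with s hs1 hs2
    refine ⟨?_, ?_⟩
    · have := hs1.1; rwa [hu] at this
    · have := hs1.2
      rw [hu, hcoord] at this
      show g (t.toOpenPartialHomeomorph.symm (c s, (t y).2)) ∈ V
      rw [← this]
      exact hs2
  have hW : IsOpen W := by
    refine C.isOpen_of_preimages (fun i => ?_) (fun j => ?_)
    · refine key (C.e i) (fun s₀ y₀ hy₀ => ?_)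
      obtain ⟨u, hu, hu'⟩ := exists_lift_I hp (C.e i) s₀ y₀ hy₀
      exact ⟨u, hu, hu', h1 i u hu'⟩
    · refine key (C.f j) (fun s₀ y₀ hy₀ => ?_)
      obtain ⟨u, hu, hu'⟩ := exists_lift_II hp (C.f j) s₀ y₀ hy₀
      exact ⟨u, hu, hu', h2 j u hu'⟩
  have hyW : p y ∈ W := by
    refine ⟨hyb, ?_⟩
    have : t.toOpenPartialHomeomorph.symm (p y, (t y).2) = y := t.symm_apply_mk_proj hys
    rw [this]; exact hy
  have hev := eventually_sheet t (id : E → E) continuous_id y hyb
  have hev2 : ∀ᶠ z in 𝓝 y, p z ∈ W := hp.continuous.continuousAt.eventually (hW.mem_nhds hyW)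
  filter_upwards [hev, hev2] with z hz1 hz2
  have h3 := hz1.2
  simp only [id] at h3
  show g z ∈ V
  rw [h3]
  exact hz2.2

/-- predicate version: a predicate constant along lifted closed cells is constant -/
theorem cover_const {X E : Type} [TopologicalSpace X] [TopologicalSpace E]
    [PreconnectedSpace E] (C : TwoCx X) (p : E → X) (hp : IsCoveringMap p) (P : E → Prop)
    (h1 : ∀ i (u : C(I, E)), (∀ s, p (u s) = C.e i s) → ∀ s s', P (u s) → P (u s'))
    (h2 : ∀ j (u : C(I × I, E)), (∀ s, p (u s) = C.f j s) → ∀ s s', P (u s) → P (u s'))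
    (y y' : E) (h : P y) : P y' := by
  classical
  let g : E → Bool := fun y => decide (P y)
  have hg : Continuous g := by
    refine cover_continuous C p hp g (fun i u hu => ?_) (fun j u hu => ?_)
    · have : g ∘ u = fun _ => g (u 0) := by
        funext s
        show decide (P (u s)) = decide (P (u 0))
        rw [decide_eq_decide]
        exact ⟨h1 i u hu s 0, h1 i u hu 0 s⟩
      rw [this]; exact continuous_const
    · have : g ∘ u = fun _ => g (u 0) := by
        funext s
        show decide (P (u s)) = decide (P (u 0))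
        rw [decide_eq_decide]
        exact ⟨h2 j u hu s 0, h2 j u hu 0 s⟩
      rw [this]; exact continuous_const
  have := PreconnectedSpace.constant (inferInstance : PreconnectedSpace E) hg (x := y) (y := y')
  have h3 : decide (P y) = decide (P y') := this
  rw [decide_eq_decide] at h3
  exact h3.1 h

end Crest.Agent.R197
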