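import Mathlib
import Crest.Agent.R197.CW2Defs
import Crest.Agent.R197.WT
import Crest.Agent.R197.FClass
import Crest.Agent.R197.EdgePath

/-! Row 197, F4: every class of paths between vertices is represented by an edge word. -/

set_option autoImplicit false

open scoped unitInterval

namespace Crest.Agent.R197

namespace OutOne

variable {X E : Type} [TopologicalSpace X] [TopologicalSpace E] (C : TwoCx X) (p : E → X)

/-- reachability from `a` inside the preimage of the 1-skeleton -/
def Reach (a y : E) : Prop := JoinedIn (p ⁻¹' C.X1) a y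

/-- extended to all points of `E` -/
def ReachExt (a y : E) : Prop :=
  Reach C p a y ∨ ∃ (j : C.J) (u : C(I × I, E)) (s : I × I), (∀ t, p (u t) = C.f j t) ∧
    s ∈ Sint ∧ u s = y ∧ Reach C p a (u (0, 0))

variable {C p}

theorem reach_mem {a y : E} (h : Reach C p a y) : p y ∈ C.X1 := h.target_mem

theorem joined_edge {i : C.E} (u : C(I, E)) (hu : ∀ s, p (u s) = C.e i s) (s s' : I) :
    JoinedIn (p ⁻¹' C.X1) (u s) (u s') := by
  have := contractibleSpace_I
  let q : Path s s' := PathConnectedSpace.somePath s s'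
  refine ⟨q.map u.continuous, fun t => ?_⟩
  show p (u (q t)) ∈ C.X1
  rw [hu]
  exact Or.inr ⟨i, _, rfl⟩

theorem joined_bd {j : C.J} (u : C(I × I, E)) (hu : ∀ s, p (u s) = C.f j s) (s : I × I)
    (hs : s ∉ Sint) : JoinedIn (p ⁻¹' C.X1) (u (0, 0)) (u s) := by
  obtain ⟨t, rfl⟩ := SqExt.bdSq_surj hs
  have := contractibleSpace_I
  let q : Path (0 : I) t := PathConnectedSpace.somePath 0 t
  let r : Path (TwoCx.bdSq 0) (TwoCx.bdSq t) := q.map TwoCx.bdSq.continuous
  have h0 : TwoCx.bdSq 0 = (0, 0) := TwoCx.bdSq.source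
  have h1 : JoinedIn (p ⁻¹' C.X1) (u (TwoCx.bdSq 0)) (u (TwoCx.bdSq t)) := by
    refine ⟨r.map u.continuous, fun t' => ?_⟩
    show p (u (TwoCx.bdSq (q t'))) ∈ C.X1
    rw [hu]
    exact C.f_bdSq_mem j _
  rwa [h0] at h1

theorem reachExt_edge (a : E) (i : C.E) (u : C(I, E))
    (hu : ∀ s, p (u s) = C.e i s) (s s' : I) (h : ReachExt C p a (u s)) :
    ReachExt C p a (u s') := by
  rcases h with h | ⟨j, u', s₁, h1, h2, h3, -⟩
  · exact Or.inl (h.trans (joined_edge u hu s s'))
  · exact absurd h3.symm (C.lift_e_ne_f u u' hu h1 s h2)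

theorem reachExt_face_iff (hp : IsCoveringMap p) (a : E) (j : C.J) (u : C(I × I, E))
    (hu : ∀ s, p (u s) = C.f j s) (s : I × I) :
    ReachExt C p a (u s) ↔ Reach C p a (u (0, 0)) := by
  constructor
  · intro h
    rcases h with h | ⟨j', u', s₁, h1, h2, h3, h4⟩
    · by_cases hs : s ∈ Sint
      · exfalso
        have h5 := reach_mem h
        rw [hu, C.mem_X1_iff_notMem] at h5
        exact h5 j s hs rfl
      · exact h.trans (joined_bd u hu s hs).symm
    · obtain ⟨-, -, rfl⟩ := C.lift_f_eq hp u u' hu h1 h2 h3.symm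
      exact h4
  · intro h
    by_cases hs : s ∈ Sint
    · exact Or.inr ⟨j, u, s, hu, hs, rfl, h⟩
    · exact Or.inl (h.trans (joined_bd u hu s hs))

/-- every point over the 1-skeleton is reachable -/
theorem reach_all (hp : IsCoveringMap p) [PreconnectedSpace E] (a b : E) (ha : p a ∈ C.X1)
    (hb : p b ∈ C.X1) : Reach C p a b := by
  have h := cover_const C p hp (ReachExt C p a) (fun i u hu s s' => reachExt_edge a i u hu s s')
    (fun j u hu s s' h => by
      rw [reachExt_face_iff hp a j u hu] at h ⊢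
      exact h) a b (Or.inl (JoinedIn.refl ha))
  rcases h with h | ⟨j, u, s, h1, h2, h3, h4⟩
  · exact h
  · exfalso
    rw [← h3, h1, C.mem_X1_iff_notMem] at hb
    exact hb j s h2 rfl

theorem out1_of (hrep : ∀ (o o' : C.O) (γ : Path.Homotopic.Quotient (C.v1 o) (C.v1 o')),
      ∃ w, C.Rep o o' w γ)
    (hp : IsCoveringMap p) (hs : Function.Surjective p) [ContractibleSpace E] : C.Out1 := by
  intro o o' c
  obtain ⟨c, rfl⟩ := Path.Homotopic.Quotient.mk_surjective c
  obtain ⟨a, ha⟩ := hs (C.v o)
  obtain ⟨Γ, hΓ0, hΓ⟩ := exists_lift_I hp c.toContinuousMap 0 a (ha.trans c.source.symm)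
  have hb : p (Γ 1) = C.v o' := (hΓ 1).trans c.target
  have h1 : Reach C p a (Γ 1) := reach_all hp a (Γ 1) (by rw [ha]; exact Or.inl ⟨o, rfl⟩)
    (by rw [hb]; exact Or.inl ⟨o', rfl⟩)
  obtain ⟨Δ, hΔ⟩ := h1
  let Γ' : Path a (Γ 1) := ⟨Γ, hΓ0, rfl⟩
  have h2 : Γ'.Homotopic Δ := SimplyConnectedSpace.paths_homotopic _ _
  -- the path in the 1-skeleton
  let δ : Path (C.v1 o) (C.v1 o') :=
    { toFun := fun s => ⟨p (Δ s), hΔ s⟩
      continuous_toFun := Continuous.subtype_mk (hp.continuous.comp Δ.continuous) _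
      source' := Subtype.ext (by
        show p (Δ 0) = C.v o
        rw [Δ.source, ha])
      target' := Subtype.ext (by
        show p (Δ 1) = C.v o'
        rw [Δ.target, hb]) }
  obtain ⟨w, hw⟩ := hrep o o' (Path.Homotopic.Quotient.mk δ)
  refine ⟨w, _, hw, ?_⟩
  rw [← Path.Homotopic.Quotient.mk_map]
  apply Path.Homotopic.Quotient.eq.mpr
  obtain ⟨H⟩ := h2
  have H' : Path.Homotopy c (δ.map C.incl.continuous) :=
    { toFun := fun z => p (H z)
      continuous_toFun := hp.continuous.comp H.continuous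
      map_zero_left := fun s => by
        show p (H (0, s)) = c s
        rw [H.apply_zero]
        exact hΓ s
      map_one_left := fun s => by
        show p (H (1, s)) = p (Δ s)
        rw [H.apply_one]
        rfl
      prop' := fun t s hs => by
        show p (H (t, s)) = c s
        have := H.eq_fst t hs
        rw [this]
        exact hΓ s }
  exact (show Path.Homotopic c _ from ⟨H'⟩).symm

end OutOne

/-- F4: every class of paths between vertices is represented by an edge word. -/
theorem out1 {X E : Type} [TopologicalSpace X] [TopologicalSpace E] (C : TwoCx X) (p : E → X)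
    (hp : IsCoveringMap p) (hs : Function.Surjective p) [ContractibleSpace E] : C.Out1 :=
  OutOne.out1_of (fun o o' γ => C.exists_rep o o' γ) hp hs

end Crest.Agent.R197
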