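import Mathlib
import Crest.Agent.R197.CW2Defs

/-! Row 197: interface between F9a (projection field) and F9b (out3). -/

set_option autoImplicit false

open scoped unitInterval

namespace Crest.Agent.R197
namespace TwoCx

variable {X E : Type} [TopologicalSpace X] [TopologicalSpace E]

/-- the part over the 1-skeleton of the compact set `N` -/
abbrev MM (C : TwoCx X) (p : E → X) (N : Set E) : Type := {y : E // y ∈ N ∧ p y ∈ C.X1}

/-- A "winding functional" for the 2-cell `u₀` of the universal cover: an additive homotopy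
invariant of paths in the part over the 1-skeleton of `N`, with value `1` on the boundary
of `u₀` and `0` on the boundary of all the other lifted 2-cells in `N`.
(`Λ q = linc (ψ ∘ q) / (2 π i)`.) -/
structure Winding (C : TwoCx X) (p : E → X) (N : Set E) (u₀ : C(I × I, E)) where
  Λ : ∀ {a b : C.MM p N}, Path a b → ℂ
  trans : ∀ {a b c : C.MM p N} (q : Path a b) (q' : Path b c), Λ (q.trans q') = Λ q + Λ q'
  homotopic : ∀ {a b : C.MM p N} (q q' : Path a b), q.Homotopic q' → Λ q = Λ q'
  bd : ∀ (j : C.J) (u : C(I × I, E)), (∀ s, p (u s) = C.f j s) → (∀ s, u s ∈ N) →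
    ∀ (a b : C.MM p N) (q : Path a b), (∀ t, (q t).1 = u (bdSq t)) →
      (u = u₀ → Λ q = 1) ∧ (u ≠ u₀ → Λ q = 0)

end TwoCx
end Crest.Agent.R197
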