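import Mathlib
import Crest.Agent.R197.OutThreeDefs

/-! Row 197 / F9b: out3 from the existence of winding functionals. -/

set_option autoImplicit false

open scoped unitInterval

namespace Crest.Agent.R197

section paths
variable {Y : Type} [TopologicalSpace Y]

/-- `t/2` -/
noncomputable def hA (t : I) : I := ⟨(t : ℝ) / 2, by have := t.2.1; have := t.2.2; constructor <;> linarith⟩
/-- `(t+1)/2` -/
noncomputable def hB (t : I) : I := ⟨((t : ℝ) + 1) / 2, by
  have := t.2.1; have := t.2.2; constructor <;> linarith⟩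

theorem continuous_hA : Continuous hA := by
  unfold hA; fun_prop
theorem continuous_hB : Continuous hB := by
  unfold hB; fun_prop

theorem trans_hA {a b c : Y} (q : Path a b) (q' : Path b c) (t : I) :
    (q.trans q') (hA t) = q t := by
  rw [Path.trans_apply]
  have h : ((hA t : I) : ℝ) ≤ 1 / 2 := by
    have := t.2.2
    show (t : ℝ) / 2 ≤ 1 / 2
    linarith
  rw [dif_pos h]
  congr 1
  apply Subtype.ext
  show 2 * ((t : ℝ) / 2) = t
  ring

theorem trans_hB {a b c : Y} (q : Path a b) (q' : Path b c) (t : I) :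
    (q.trans q') (hB t) = q' t := by
  rw [Path.trans_apply]
  by_cases h : ((hB t : I) : ℝ) ≤ 1 / 2
  · have h0 : (t : ℝ) = 0 := by
      have h1 : ((t : ℝ) + 1) / 2 ≤ 1 / 2 := h
      have := t.2.1
      linarith
    have h0' : t = 0 := Subtype.ext h0
    subst h0'
    rw [dif_pos h]
    have h2 : ∀ (hh : 2 * ((hB 0 : I) : ℝ) ∈ Set.Icc (0 : ℝ) 1), (⟨2 * ((hB 0 : I) : ℝ), hh⟩ : I) = 1 := by
      intro hh
      apply Subtype.ext
      simp [hB]
    rw [h2, Path.target, Path.source]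
  · rw [dif_neg h]
    congr 1
    apply Subtype.ext
    show 2 * (((t : ℝ) + 1) / 2) - 1 = t
    ring

theorem exists_split {a b : Y} (Q : Path a b) :
    ∃ (m : Y) (Q1 : Path a m) (Q2 : Path m b), Q = Q1.trans Q2 := by
  refine ⟨Q (hA 1), ⟨⟨fun t => Q (hA t), Q.continuous.comp continuous_hA⟩, ?_, rfl⟩,
    ⟨⟨fun t => Q (hB t), Q.continuous.comp continuous_hB⟩, ?_, ?_⟩, ?_⟩
  · show Q (hA 0) = a
    have : hA 0 = 0 := by apply Subtype.ext; simp [hA]
    rw [this, Q.source]
  · show Q (hB 0) = Q (hA 1)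
    congr 1
    apply Subtype.ext
    simp [hA, hB]
  · show Q (hB 1) = b
    have : hB 1 = 1 := by apply Subtype.ext; simp [hB]
    rw [this, Q.target]
  · ext t
    rw [Path.trans_apply]
    split_ifs with h
    · show Q t = Q (hA _)
      congr 1
      apply Subtype.ext
      show (t : ℝ) = 2 * (t : ℝ) / 2
      ring
    · show Q t = Q (hB _)
      congr 1
      apply Subtype.ext
      show (t : ℝ) = (2 * (t : ℝ) - 1 + 1) / 2
      ring

end paths

namespace TwoCx

section EPsec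
variable {X : Type} [TopologicalSpace X] (C : TwoCx X)

/-- concrete edge paths -/
inductive EP : (o o' : C.O) → C.Wd → Path (C.v1 o) (C.v1 o') → Prop
  | nil (o : C.O) : EP o o [] (Path.refl _)
  | fwd (i : C.E) (o' : C.O) (w : C.Wd) (q : Path (C.v1 (C.tgt i)) (C.v1 o')) :
      EP (C.tgt i) o' w q → EP (C.src i) o' ((i, true) :: w) ((C.e1 i).trans q)
  | bwd (i : C.E) (o' : C.O) (w : C.Wd) (q : Path (C.v1 (C.src i)) (C.v1 o')) :
      EP (C.src i) o' w q → EP (C.tgt i) o' ((i, false) :: w) ((C.e1 i).symm.trans q)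

theorem exists_EP {o o' : C.O} {w : C.Wd} {γ : Path.Homotopic.Quotient (C.v1 o) (C.v1 o')}
    (h : C.Rep o o' w γ) : ∃ q, C.EP o o' w q ∧ Path.Homotopic.Quotient.mk q = γ := by
  induction h with
  | nil o => exact ⟨Path.refl _, EP.nil o, rfl⟩
  | fwd i o' w γ _ ih =>
    obtain ⟨q, hq, rfl⟩ := ih
    exact ⟨_, EP.fwd i o' w q hq, rfl⟩
  | bwd i o' w γ _ ih =>
    obtain ⟨q, hq, rfl⟩ := ih
    exact ⟨_, EP.bwd i o' w q hq, rfl⟩

end EPsec

section endpoint
variable {X E : Type} [TopologicalSpace X] [TopologicalSpace E] {p : E → X} (hp : IsCoveringMap p)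
  (a₀ : E) {x₀ : X} (ha₀ : p a₀ = x₀)

/-- endpoint of the lift starting at `a₀` -/
noncomputable def ep {x : X} (c : Path.Homotopic.Quotient x₀ x) : E :=
  (hp.monodromy c ⟨a₀, ha₀⟩).1

theorem p_ep {x : X} (c : Path.Homotopic.Quotient x₀ x) : p (ep hp a₀ ha₀ c) = x :=
  (hp.monodromy c ⟨a₀, ha₀⟩).2

theorem liftPath_unique (γ : C(I, X)) (e : E) (h : γ 0 = p e) (Q : C(I, E)) (h0 : Q 0 = e)
    (hQ : ∀ t, p (Q t) = γ t) : hp.liftPath γ e h = Q :=
  ((hp.eq_liftPath_iff' h).mpr ⟨funext hQ, h0⟩).symm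

theorem ep_trans {x y : X} (c : Path.Homotopic.Quotient x₀ x) (q : Path x y) (Q : C(I, E))
    (h0 : Q 0 = ep hp a₀ ha₀ c) (hQ : ∀ t, p (Q t) = q t) :
    ep hp a₀ ha₀ (c.trans (Path.Homotopic.Quotient.mk q)) = Q 1 := by
  unfold ep
  rw [hp.monodromy_trans_apply]
  exact congrArg (fun f : C(I, E) => f 1) (liftPath_unique hp (q : C(I, X)) _ _ Q h0 hQ)

theorem mk_eq_of_lifts (hpc : Continuous p) [SimplyConnectedSpace E] {a b : E} {x y : X} (hx : p a = x) (hy : p b = y)
    (Γ Γ' : Path a b) (γ γ' : Path x y) (h : ∀ t, p (Γ t) = γ t) (h' : ∀ t, p (Γ' t) = γ' t) :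
    Path.Homotopic.Quotient.mk γ = Path.Homotopic.Quotient.mk γ' := by
  subst hx
  subst hy
  obtain ⟨H⟩ : Γ.Homotopic Γ' := SimplyConnectedSpace.paths_homotopic Γ Γ'
  have h2 := H.map ⟨p, hpc⟩
  have e1 : Γ.map hpc = γ := by
    ext t
    exact h t
  have e2 : Γ'.map hpc = γ' := by
    ext t
    exact h' t
  have h3 : (Γ.map hpc).Homotopic (Γ'.map hpc) := ⟨h2⟩
  rw [e1, e2] at h3
  exact Quotient.sound h3

theorem ep_injective [SimplyConnectedSpace E] {x : X} (c c' : Path.Homotopic.Quotient x₀ x)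
    (h : ep hp a₀ ha₀ c = ep hp a₀ ha₀ c') : c = c' := by
  induction c using Quotient.inductionOn with
  | h γ =>
  induction c' using Quotient.inductionOn with
  | h γ' =>
  have hs : (γ : C(I, X)) 0 = p a₀ := γ.source.trans ha₀.symm
  have hs' : (γ' : C(I, X)) 0 = p a₀ := γ'.source.trans ha₀.symm
  have h1 : hp.liftPath γ a₀ hs 1 = hp.liftPath γ' a₀ hs' 1 := h
  have hx : p (hp.liftPath γ a₀ hs 1) = x :=
    (congrFun (hp.liftPath_lifts γ a₀ hs) 1).trans γ.target
  exact mk_eq_of_lifts hp.continuous ha₀ hx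
    ⟨hp.liftPath γ a₀ hs, hp.liftPath_zero _ _ _, rfl⟩
    ⟨hp.liftPath γ' a₀ hs', hp.liftPath_zero _ _ _, h1.symm⟩ γ γ'
    (fun t => congrFun (hp.liftPath_lifts γ a₀ hs) t)
    (fun t => congrFun (hp.liftPath_lifts γ' a₀ hs') t)

end endpoint

section wind
variable {X E : Type} [TopologicalSpace X] [TopologicalSpace E] {C : TwoCx X} {p : E → X}
  {N : Set E} {u₀ : C(I × I, E)} (W : C.Winding p N u₀)

/-- a good map as a path in `MM` -/
def mkP (Q : C(I, E)) (h : ∀ t, Q t ∈ N ∧ p (Q t) ∈ C.X1) :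
    Path (⟨Q 0, h 0⟩ : C.MM p N) ⟨Q 1, h 1⟩ :=
  ⟨⟨fun t => ⟨Q t, h t⟩, Continuous.subtype_mk Q.continuous _⟩, rfl, rfl⟩

open Classical in
/-- extension of the winding functional by zero -/
noncomputable def lamE (Q : C(I, E)) : ℂ :=
  if h : ∀ t, Q t ∈ N ∧ p (Q t) ∈ C.X1 then W.Λ (mkP Q h) else 0

theorem lamE_eq {a b : C.MM p N} (q : Path a b) (Q : C(I, E)) (h : ∀ t, (q t).1 = Q t) :
    lamE W Q = W.Λ q := by
  have hQ : ∀ t, Q t ∈ N ∧ p (Q t) ∈ C.X1 := fun t => by
    rw [← h t]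
    exact (q t).2
  have ha : a = ⟨Q 0, hQ 0⟩ := by
    apply Subtype.ext
    show a.1 = Q 0
    rw [← h 0, q.source]
  have hb : b = ⟨Q 1, hQ 1⟩ := by
    apply Subtype.ext
    show b.1 = Q 1
    rw [← h 1, q.target]
  subst ha
  subst hb
  unfold lamE
  rw [dif_pos hQ]
  congr 1
  ext t
  exact (h t).symm

theorem Winding.refl (a : C.MM p N) : W.Λ (Path.refl a) = 0 := by
  have h1 := W.trans (Path.refl a) (Path.refl a)
  have h2 := W.homotopic ((Path.refl a).trans (Path.refl a)) (Path.refl a)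
    ⟨Path.Homotopy.transRefl (Path.refl a)⟩
  rw [h2] at h1
  simpa using h1

theorem Winding.symm {a b : C.MM p N} (q : Path a b) : W.Λ q.symm = - W.Λ q := by
  have h1 := W.trans q q.symm
  have h2 := W.homotopic (q.trans q.symm) (Path.refl a)
    ⟨(Path.Homotopy.reflTransSymm q).symm⟩
  rw [h2, W.refl] at h1
  exact (neg_eq_of_add_eq_zero_right h1.symm).symm

end wind

section main
variable {X E : Type} [TopologicalSpace X] [TopologicalSpace E] {C : TwoCx X} {p : E → X}
  (hp : IsCoveringMap p) {o₀ : C.O} (a₀ : E) (ha₀ : p a₀ = C.v o₀) {N : Set E} {u₀ : C(I × I, E)}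
  (W : C.Winding p N u₀)

/-- the dual cochain -/
noncomputable def kap (i : C.E) (c : Path.Homotopic.Quotient (C.v o₀) (C.v (C.src i))) : ℂ :=
  lamE W (hp.liftPath (C.e i) (ep hp a₀ ha₀ c) ((C.e_zero i).trans (p_ep hp a₀ ha₀ c).symm))

theorem kap_eq (i : C.E) (c : Path.Homotopic.Quotient (C.v o₀) (C.v (C.src i))) {a b : C.MM p N}
    (Q : Path a b) (h0 : a.1 = ep hp a₀ ha₀ c) (hQ : ∀ t, p (Q t).1 = C.e i t) :
    kap hp a₀ ha₀ W i c = W.Λ Q := by
  unfold kap
  rw [liftPath_unique hp (C.e i) _ _ ⟨fun t => (Q t).1, continuous_subtype_val.comp Q.continuous⟩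
    ((congrArg Subtype.val Q.source).trans h0) hQ]
  exact lamE_eq W Q _ (fun t => rfl)

theorem ev_of_EP {o o' : C.O} {w : C.Wd} {q : Path (C.v1 o) (C.v1 o')} (h : C.EP o o' w q) :
    ∀ (c : Path.Homotopic.Quotient (C.v o₀) (C.v o)) {a b : C.MM p N} (Q : Path a b),
      a.1 = ep hp a₀ ha₀ c → (∀ t, p (Q t).1 = (q t).1) →
      C.Ev o₀ (kap hp a₀ ha₀ W) o c w (W.Λ Q) := by
  induction h with
  | nil o =>
    intro c a b Q ha hQ
    have hconst : ∀ t t', (Q t).1 = (Q t').1 :=
      hp.const_of_comp (g := fun t => (Q t).1) (continuous_subtype_val.comp Q.continuous)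
        (fun t t' => (hQ t).trans (hQ t').symm)
    have hb : b = a := by
      apply Subtype.ext
      have := hconst 1 0
      rw [Q.target, Q.source] at this
      exact this
    subst hb
    have hQ' : Q = Path.refl b := by
      ext t
      have := hconst t 0
      rw [Q.source] at this
      exact this
    rw [hQ', W.refl]
    exact Ev.nil o c
  | fwd i o' w q _ ih =>
    intro c a b Q ha hQ
    obtain ⟨m, Q1, Q2, rfl⟩ := exists_split Q
    have h1 : ∀ t, p (Q1 t).1 = C.e i t := fun t => by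
      have := hQ (hA t)
      rw [trans_hA, trans_hA] at this
      exact this
    have h2 : ∀ t, p (Q2 t).1 = (q t).1 := fun t => by
      have := hQ (hB t)
      rw [trans_hB, trans_hB] at this
      exact this
    have hm : m.1 = ep hp a₀ ha₀ (c.trans (Path.Homotopic.Quotient.mk (C.eX i))) := by
      rw [ep_trans hp a₀ ha₀ c (C.eX i)
        ⟨fun t => (Q1 t).1, continuous_subtype_val.comp Q1.continuous⟩
        ((congrArg Subtype.val Q1.source).trans ha) h1]
      exact (congrArg Subtype.val Q1.target).symm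
    have h3 := ih (c.trans (Path.Homotopic.Quotient.mk (C.eX i))) Q2 hm h2
    rw [W.trans, ← kap_eq hp a₀ ha₀ W i c Q1 ha h1]
    exact Ev.fwd i c w _ h3
  | bwd i o' w q _ ih =>
    intro c a b Q ha hQ
    obtain ⟨m, Q1, Q2, rfl⟩ := exists_split Q
    have h1 : ∀ t, p (Q1 t).1 = (C.eX i).symm t := fun t => by
      have := hQ (hA t)
      rw [trans_hA, trans_hA] at this
      exact this
    have h2 : ∀ t, p (Q2 t).1 = (q t).1 := fun t => by
      have := hQ (hB t)
      rw [trans_hB, trans_hB] at this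
      exact this
    have hm : m.1 = ep hp a₀ ha₀ (c.trans
        (Path.Homotopic.Quotient.symm (Path.Homotopic.Quotient.mk (C.eX i)))) := by
      rw [← Path.Homotopic.Quotient.mk_symm, ep_trans hp a₀ ha₀ c (C.eX i).symm
        ⟨fun t => (Q1 t).1, continuous_subtype_val.comp Q1.continuous⟩
        ((congrArg Subtype.val Q1.source).trans ha) h1]
      exact (congrArg Subtype.val Q1.target).symm
    have h3 := ih (c.trans
        (Path.Homotopic.Quotient.symm (Path.Homotopic.Quotient.mk (C.eX i)))) Q2 hm h2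
    have h4 : ∀ t, p (Q1.symm t).1 = C.e i t := fun t => by
      show p (Q1 (unitInterval.symm t)).1 = C.e i t
      rw [h1 (unitInterval.symm t)]
      show C.e i (unitInterval.symm (unitInterval.symm t)) = C.e i t
      rw [unitInterval.symm_symm]
    have h5 := kap_eq hp a₀ ha₀ W i (c.trans
        (Path.Homotopic.Quotient.symm (Path.Homotopic.Quotient.mk (C.eX i)))) Q1.symm hm h4
    rw [W.symm] at h5
    rw [W.trans, ← neg_eq_iff_eq_neg.mpr h5]
    exact Ev.bwd i c w _ h3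

end main

section main2
variable {X E : Type} [TopologicalSpace X] [TopologicalSpace E] {C : TwoCx X} {p : E → X}
  (hp : IsCoveringMap p)
include hp

theorem exists_liftSq (F : C(I × I, X)) (e : E) (h : F (0, 0) = p e) :
    ∃ G : C(I × I, E), G (0, 0) = e ∧ ∀ z, p (G z) = F z := by
  have h' : (F.comp ⟨fun t : I => ((0 : I), t), by fun_prop⟩ : C(I, X)) 0 = p e := h
  have h'' := fun a => congrFun
    (hp.liftPath_lifts (F.comp ⟨fun t : I => ((0 : I), t), by fun_prop⟩ : C(I, X)) e h') a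
  refine ⟨hp.liftHomotopy F (hp.liftPath _ e h') (fun a => (h'' a).symm), ?_, ?_⟩
  · rw [hp.liftHomotopy_zero]
    exact hp.liftPath_zero _ _ _
  · intro z
    exact congrFun (hp.liftHomotopy_lifts F (hp.liftPath _ e h') (fun a => (h'' a).symm)) z

/-- `τ j` as a path in `X` -/
def tauX (D : C.RelData) (j : C.J) : Path (C.v (D.bo j)) (C.f j (0, 0)) :=
  (D.τ j).map continuous_subtype_val

/-- winding of the lifted homotopy: reduction to the boundary of the 2-cell. -/
theorem wind_boundary {N : Set E} {u₀ : C(I × I, E)} (W : C.Winding p N u₀) {o : C.O} (j : C.J)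
    (τ : Path (C.v1 o) (C.c1 j)) (u : C(I × I, E)) (hu : ∀ z, p (u z) = C.f j z) (huN : ∀ z, u z ∈ N)
    {a b : C.MM p N} (Q : Path a b) (hQ : ∀ t, p (Q t).1 = (((τ.trans (C.bd1 j)).trans τ.symm) t).1)
    (hu0 : ∀ m : E, (∃ A : C(I, E), A 0 = a.1 ∧ A 1 = m ∧ ∀ t, p (A t) = (τ t).1) → m = u (0, 0)) :
    (u = u₀ → W.Λ Q = 1) ∧ (u ≠ u₀ → W.Λ Q = 0) := by
  obtain ⟨m2, Q12, Q3, rfl⟩ := exists_split Q
  obtain ⟨m1, Q1, Q2, rfl⟩ := exists_split Q12
  have h12 : ∀ t, p ((Q1.trans Q2) t).1 = ((τ.trans (C.bd1 j)) t).1 := fun t => by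
    have := hQ (hA t)
    rw [trans_hA, trans_hA] at this
    exact this
  have h3 : ∀ t, p (Q3 t).1 = (τ.symm t).1 := fun t => by
    have := hQ (hB t)
    rw [trans_hB, trans_hB] at this
    exact this
  have h1 : ∀ t, p (Q1 t).1 = (τ t).1 := fun t => by
    have := h12 (hA t)
    rw [trans_hA, trans_hA] at this
    exact this
  have h2 : ∀ t, p (Q2 t).1 = (C.bd1 j t).1 := fun t => by
    have := h12 (hB t)
    rw [trans_hB, trans_hB] at this
    exact this
  have hm1 : m1.1 = u (0, 0) := hu0 m1.1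
    ⟨⟨fun t => (Q1 t).1, continuous_subtype_val.comp Q1.continuous⟩,
      congrArg Subtype.val Q1.source, congrArg Subtype.val Q1.target, h1⟩
  have hB : ∀ t, (Q2 t).1 = u (bdSq t) := by
    have := hp.eq_of_comp_eq (g₁ := fun t => (Q2 t).1) (g₂ := fun t => u (bdSq t))
      (continuous_subtype_val.comp Q2.continuous) (u.continuous.comp bdSq.continuous)
      (funext fun t => by
        show p (Q2 t).1 = p (u (bdSq t))
        rw [h2, hu]
        rfl) 0 (by
        show (Q2 0).1 = u (bdSq 0)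
        rw [Q2.source, bdSq.source, hm1])
    exact fun t => congrFun this t
  have hm2 : m2.1 = u (0, 0) := by
    have := hB 1
    rw [Q2.target, bdSq.target] at this
    exact this
  have hC : ∀ t, (Q3 t).1 = (Q1.symm t).1 := by
    have := hp.eq_of_comp_eq (g₁ := fun t => (Q3 t).1) (g₂ := fun t => (Q1.symm t).1)
      (continuous_subtype_val.comp Q3.continuous) (continuous_subtype_val.comp Q1.symm.continuous)
      (funext fun t => by
        show p (Q3 t).1 = p (Q1 (unitInterval.symm t)).1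
        rw [h3, h1]
        rfl) 0 (by
        show (Q3 0).1 = (Q1.symm 0).1
        rw [Q3.source, Q1.symm.source, hm1, hm2])
    exact fun t => congrFun this t
  have e1 : W.Λ Q3 = W.Λ Q1.symm := by
    rw [← lamE_eq W Q3 ⟨fun t => (Q1.symm t).1, continuous_subtype_val.comp Q1.symm.continuous⟩ hC,
      ← lamE_eq W Q1.symm ⟨fun t => (Q1.symm t).1, continuous_subtype_val.comp Q1.symm.continuous⟩
        (fun _ => rfl)]
  have e2 : W.Λ ((Q1.trans Q2).trans Q3) = W.Λ Q2 := by
    rw [W.trans, W.trans, e1, W.symm]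
    ring
  rw [e2]
  exact W.bd j u hu huN m1 m2 Q2 hB

/-- out3, from the existence of winding functionals. -/
theorem out3_of_winding [SimplyConnectedSpace E] (hs : Function.Surjective p)
    (hW : ∀ (j₀ : C.J) (u₀ : C(I × I, E)), (∀ s, p (u₀ s) = C.f j₀ s) → ∀ N : Set E, IsCompact N →
      Nonempty (C.Winding p N u₀)) (D : C.RelData) (o₀ : C.O) : C.Out3 D o₀ := by
  intro S hS s₀ hs₀
  obtain ⟨a₀, ha₀⟩ := hs (C.v o₀)
  choose q hqEP hqmk using fun j => exists_EP C (D.rep j)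
  have hH : ∀ j, (q j).Homotopic (((D.τ j).trans (C.bd1 j)).trans (D.τ j).symm) :=
    fun j => Quotient.exact (hqmk j)
  let H : ∀ j, Path.Homotopy (q j) (((D.τ j).trans (C.bd1 j)).trans (D.τ j).symm) :=
    fun j => (hH j).some
  -- lifts of homotopies
  have hG : ∀ s : (Σ j : C.J, Path.Homotopic.Quotient (C.v o₀) (C.v (D.bo j))),
      ∃ G : C(I × I, E), G (0, 0) = ep hp a₀ ha₀ s.2 ∧ ∀ z, p (G z) = ((H s.1) z).1 := by
    intro s
    obtain ⟨G, hG0, hG1⟩ := exists_liftSq hp
      (⟨fun z => ((H s.1) z).1, continuous_subtype_val.comp (H s.1).continuous⟩ : C(I × I, X))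
      (ep hp a₀ ha₀ s.2) (by
        show ((H s.1) (0, 0)).1 = _
        have h1 : (H s.1) (0, 0) = (q s.1) 0 := (H s.1).apply_zero 0
        rw [h1, (q s.1).source]
        exact (p_ep hp a₀ ha₀ s.2).symm)
    exact ⟨G, hG0, hG1⟩
  choose G hG0 hG1 using hG
  have hu : ∀ s : (Σ j : C.J, Path.Homotopic.Quotient (C.v o₀) (C.v (D.bo j))),
      ∃ u : C(I × I, E), u (0, 0) = ep hp a₀ ha₀ (s.2.trans (Path.Homotopic.Quotient.mk (tauX D s.1)))
        ∧ ∀ z, p (u z) = C.f s.1 z := by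
    intro s
    exact exists_liftSq hp (C.f s.1) _ (p_ep hp a₀ ha₀ _).symm
  choose u hu0 hu1 using hu
  set N : Set E := ⋃ s ∈ S, (Set.range (G s) ∪ Set.range (u s)) with hN
  have hNc : IsCompact N := hS.isCompact_biUnion fun s _ =>
    (isCompact_range (G s).continuous).union (isCompact_range (u s).continuous)
  have hGN : ∀ s ∈ S, ∀ z, G s z ∈ N := fun s hs z =>
    Set.mem_biUnion hs (Or.inl ⟨z, rfl⟩)
  have huN : ∀ s ∈ S, ∀ z, u s z ∈ N := fun s hs z =>
    Set.mem_biUnion hs (Or.inr ⟨z, rfl⟩)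
  obtain ⟨W⟩ := hW s₀.1 (u s₀) (hu1 s₀) N hNc
  have key : ∀ s ∈ S, ∃ z : ℂ, C.Ev o₀ (kap hp a₀ ha₀ W) (D.bo s.1) s.2 (D.w s.1) z ∧
      (u s = u s₀ → z = 1) ∧ (u s ≠ u s₀ → z = 0) := by
    intro s hsS
    have hmem : ∀ z, G s z ∈ N ∧ p (G s z) ∈ C.X1 := fun z =>
      ⟨hGN s hsS z, by rw [hG1]; exact ((H s.1) z).2⟩
    -- endpoints constant
    have hc0 : ∀ t, G s (t, 0) = G s (0, 0) := fun t =>
      hp.const_of_comp (g := fun t => G s (t, 0)) (by fun_prop) (fun t t' => by
        show p (G s (t, 0)) = p (G s (t', 0))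
        rw [hG1, hG1, (H s.1).source, (H s.1).source]) t 0
    have hc1 : ∀ t, G s (t, 1) = G s (0, 1) := fun t =>
      hp.const_of_comp (g := fun t => G s (t, 1)) (by fun_prop) (fun t t' => by
        show p (G s (t, 1)) = p (G s (t', 1))
        rw [hG1, hG1, (H s.1).target, (H s.1).target]) t 0
    let a : C.MM p N := ⟨G s (0, 0), hmem _⟩
    let b : C.MM p N := ⟨G s (0, 1), hmem _⟩
    let Q0 : Path a b := ⟨⟨fun t => ⟨G s (0, t), hmem _⟩,
      Continuous.subtype_mk ((G s).continuous.comp (by fun_prop)) _⟩, rfl, rfl⟩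
    let Q1 : Path a b := ⟨⟨fun t => ⟨G s (1, t), hmem _⟩,
      Continuous.subtype_mk ((G s).continuous.comp (by fun_prop)) _⟩,
      Subtype.ext (hc0 1), Subtype.ext (hc1 1)⟩
    have hhom : Q0.Homotopic Q1 := by
      refine ⟨{
        toFun := fun z => ⟨G s z, hmem z⟩
        continuous_toFun := ?_
        map_zero_left := ?_
        map_one_left := ?_
        prop' := ?_ }⟩
      · exact Continuous.subtype_mk (G s).continuous _
      · intro t; rfl
      · intro t; rfl
      · intro t x hx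
        rcases hx with hx | hx
        · subst hx
          exact Subtype.ext (hc0 t)
        · have hx' : x = 1 := hx
          subst hx'
          exact Subtype.ext (hc1 t)
    have hQ0 : ∀ t, p (Q0 t).1 = ((q s.1) t).1 := fun t => by
      show p (G s (0, t)) = _
      rw [hG1]
      exact congrArg Subtype.val ((H s.1).apply_zero t)
    have hQ1 : ∀ t, p (Q1 t).1 =
        ((((D.τ s.1).trans (C.bd1 s.1)).trans (D.τ s.1).symm) t).1 := fun t => by
      show p (G s (1, t)) = _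
      rw [hG1]
      exact congrArg Subtype.val ((H s.1).apply_one t)
    refine ⟨W.Λ Q0, ev_of_EP hp a₀ ha₀ W (hqEP s.1) s.2 Q0 (hG0 s) hQ0, ?_⟩
    rw [W.homotopic Q0 Q1 hhom]
    apply wind_boundary hp W s.1 (D.τ s.1) (u s) (hu1 s) (huN s hsS) Q1 hQ1
    rintro m ⟨A, hA0, hA1, hA2⟩
    rw [← hA1, hu0]
    exact (ep_trans hp a₀ ha₀ s.2 (tauX D s.1) A (hA0.trans (hG0 s)) hA2).symm
  refine ⟨kap hp a₀ ha₀ W, ?_, ?_⟩
  · obtain ⟨z, hz, hz1, _⟩ := key s₀ hs₀
    rw [hz1 rfl] at hz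
    exact hz
  · intro s hsS hne
    obtain ⟨z, hz, _, hz2⟩ := key s hsS
    have hne' : u s ≠ u s₀ := by
      intro heq
      apply hne
      obtain ⟨j, c⟩ := s
      obtain ⟨j₀, c₀⟩ := s₀
      have hhalf : ((⟨1/2, by norm_num, by norm_num⟩ : I), (⟨1/2, by norm_num, by norm_num⟩ : I)) ∈ Sint := by
        have h1 : (⟨1/2, by norm_num, by norm_num⟩ : I) ∈ Iint := by
          constructor
          · show (0 : ℝ) < 1 / 2
            norm_num
          · show (1 / 2 : ℝ) < 1
            norm_num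
        exact ⟨h1, h1⟩
      have h1 := hu1 ⟨j, c⟩ (⟨1/2, by norm_num, by norm_num⟩, ⟨1/2, by norm_num, by norm_num⟩)
      rw [heq, hu1 ⟨j₀, c₀⟩] at h1
      obtain ⟨hj, _⟩ := C.f_inj _ _ _ _ hhalf hhalf h1
      have hj' : j₀ = j := hj
      subst hj'
      have h2 := hu0 ⟨j₀, c⟩
      rw [heq, hu0 ⟨j₀, c₀⟩] at h2
      have h3 := ep_injective hp a₀ ha₀ _ _ h2
      have h4 : c₀ = c := by
        have := congrArg (fun c => Path.Homotopic.Quotient.trans c
          (Path.Homotopic.Quotient.symm (Path.Homotopic.Quotient.mk (tauX D j₀)))) h3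
        simpa using this
      rw [h4]
    rw [hz2 hne'] at hz
    exact hz

end main2


end TwoCx

end Crest.Agent.R197
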