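import Mathlib

/-!
# Row 197, module F: sections of line bundles over contractible spaces

`P : C(E, W →L[ℂ] W)` is a continuous family of nonzero idempotents over a contractible space `E`.
Then there is a continuous nowhere zero `u : E → W` with `P x (u x) = u x` everywhere.
(Parallel transport along the contraction by a locally finite product of projections with a
variable step size.)
-/

set_option autoImplicit false

namespace Crest.Agent.R197

open unitInterval Set

section GlobalSection

variable {E : Type*} [TopologicalSpace E] {W : Type*} [NormedAddCommGroup W] [NormedSpace ℂ W]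

/-- The step function: a positive continuous `d` such that `Q (s, x)` and `Q (t, x)` are at distance
less than one as soon as `dist s t < d x`. -/
theorem exists_step (Q : C(I × E, W →L[ℂ] W)) :
    ∃ d : C(E, ℝ), (∀ x, 0 < d x) ∧
      ∀ x, ∀ s t : I, dist s t < d x → ‖Q (s, x) - Q (t, x)‖ < 1 := by
  let g : E → I × I → ℝ := fun x z => dist z.1 z.2 + max 0 (1 - ‖Q (z.1, x) - Q (z.2, x)‖)
  have hg : Continuous ↿g := by
    have h1 : Continuous fun p : E × (I × I) => Q (p.2.1, p.1) := by fun_prop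
    have h2 : Continuous fun p : E × (I × I) => Q (p.2.2, p.1) := by fun_prop
    have h3 : Continuous fun p : E × (I × I) =>
      dist p.2.1 p.2.2 + max 0 (1 - ‖Q (p.2.1, p.1) - Q (p.2.2, p.1)‖) := by
      refine Continuous.add ?_ (continuous_const.max (continuous_const.sub (h1.sub h2).norm))
      exact (continuous_fst.comp continuous_snd).dist (continuous_snd.comp continuous_snd)
    exact h3
  have hcont : Continuous fun x => sInf (g x '' (univ : Set (I × I))) :=
    isCompact_univ.continuous_sInf hg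
  have hgx : ∀ x, Continuous (g x) := fun x => hg.comp (Continuous.prodMk_right x)
  have hmem : ∀ x, sInf (g x '' (univ : Set (I × I))) ∈ g x '' (univ : Set (I × I)) := fun x =>
    (isCompact_univ.image (hgx x)).sInf_mem ⟨g x (0, 0), mem_image_of_mem _ (mem_univ _)⟩
  have hle : ∀ x z, sInf (g x '' (univ : Set (I × I))) ≤ g x z := fun x z =>
    csInf_le (isCompact_univ.image (hgx x)).bddBelow (mem_image_of_mem _ (mem_univ _))
  refine ⟨⟨_, hcont⟩, ?_, ?_⟩
  · intro x
    obtain ⟨z, -, hz⟩ := hmem x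
    change 0 < sInf (g x '' (univ : Set (I × I)))
    rw [← hz]
    by_contra h
    have h0 : g x z = 0 := le_antisymm (not_lt.mp h) (by positivity)
    have h1 : dist z.1 z.2 = 0 := by
      have := le_max_left (0 : ℝ) (1 - ‖Q (z.1, x) - Q (z.2, x)‖)
      have h2 : 0 ≤ dist z.1 z.2 := dist_nonneg
      have h3 : dist z.1 z.2 + max 0 (1 - ‖Q (z.1, x) - Q (z.2, x)‖) = 0 := h0
      linarith
    have h2 : max (0 : ℝ) (1 - ‖Q (z.1, x) - Q (z.2, x)‖) = 0 := by
      have h3 : dist z.1 z.2 + max 0 (1 - ‖Q (z.1, x) - Q (z.2, x)‖) = 0 := h0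
      linarith
    rw [dist_eq_zero.mp h1, sub_self, norm_zero] at h2
    norm_num at h2
  · intro x s t hst
    by_contra h
    have h1 := hle x (s, t)
    have h2 : g x (s, t) = dist s t := by
      have : max (0 : ℝ) (1 - ‖Q (s, x) - Q (t, x)‖) = 0 := by
        apply max_eq_left; linarith
      change dist s t + max (0 : ℝ) (1 - ‖Q (s, x) - Q (t, x)‖) = dist s t
      rw [this, add_zero]
    rw [h2] at h1
    exact absurd hst (not_lt.mpr h1)

/-- the ordered products `Q(τ₀) Q(τ₁) ⋯ Q(τ_{N-1})` -/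
private noncomputable def prodQ (Q : C(I × E, W →L[ℂ] W)) (τ : ℕ → C(E, I)) : ℕ → C(E, W →L[ℂ] W)
  | 0 => ContinuousMap.const E (ContinuousLinearMap.id ℂ W)
  | N + 1 => ⟨fun x => (prodQ Q τ N x).comp (Q (τ N x, x)), by fun_prop⟩

/-- Transport of a nowhere vanishing section along a homotopy of idempotent valued maps. -/
theorem exists_section_of_homotopy (Q : C(I × E, W →L[ℂ] W)) (hQ : ∀ z w, Q z (Q z w) = Q z w)
    (u₁ : C(E, W)) (h₁ : ∀ x, Q (1, x) (u₁ x) = u₁ x) (h₁' : ∀ x, u₁ x ≠ 0) :
    ∃ u : C(E, W), (∀ x, Q (0, x) (u x) = u x) ∧ ∀ x, u x ≠ 0 := by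
  obtain ⟨d, hd, hdQ⟩ := exists_step Q
  let τ : ℕ → C(E, I) := fun j => ⟨fun x => projIcc 0 1 zero_le_one ((j : ℝ) * (d x / 2)),
    continuous_projIcc.comp (by fun_prop)⟩
  have hτ0 : ∀ x, τ 0 x = 0 := by
    intro x
    change projIcc 0 1 zero_le_one (((0 : ℕ) : ℝ) * (d x / 2)) = 0
    rw [Nat.cast_zero, zero_mul, projIcc_left]; rfl
  have hτ1 : ∀ (N : ℕ) x, 1 ≤ (N : ℝ) * (d x / 2) → τ N x = 1 := by
    intro N x h
    exact projIcc_of_right_le zero_le_one h
  have hτd : ∀ (N : ℕ) x, dist (τ N x) (τ (N + 1) x) < d x := by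
    intro N x
    have h1 : dist (τ N x) (τ (N + 1) x) ≤
        dist ((N : ℝ) * (d x / 2)) (((N + 1 : ℕ) : ℝ) * (d x / 2)) := by
      have := (LipschitzWith.projIcc (zero_le_one (α := ℝ))).dist_le_mul
        ((N : ℝ) * (d x / 2)) (((N + 1 : ℕ) : ℝ) * (d x / 2))
      rw [NNReal.coe_one, one_mul] at this
      exact this
    refine lt_of_le_of_lt h1 ?_
    rw [Real.dist_eq]
    have : (N : ℝ) * (d x / 2) - ((N + 1 : ℕ) : ℝ) * (d x / 2) = - (d x / 2) := by
      push_cast; ring
    rw [this, abs_neg, abs_of_pos (by linarith [hd x])]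
    linarith [hd x]
  let A := prodQ Q τ
  let uN : ℕ → C(E, W) := fun N => ⟨fun x => A N x (u₁ x), by fun_prop⟩
  have hA0 : ∀ x, A 0 x = ContinuousLinearMap.id ℂ W := fun x => rfl
  have hAs : ∀ N x, A (N + 1) x = (A N x).comp (Q (τ N x, x)) := fun N x => rfl
  have huN : ∀ N x, uN N x = A N x (u₁ x) := fun N x => rfl
  -- stationary
  have hstat : ∀ (N M : ℕ) x, 1 ≤ (N : ℝ) * (d x / 2) → N ≤ M → uN M x = uN N x := by
    intro N M x h hNM
    induction M, hNM using Nat.le_induction with
    | base => rfl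
    | succ M hM ih =>
      have h1 : 1 ≤ (M : ℝ) * (d x / 2) := by
        refine h.trans (mul_le_mul_of_nonneg_right (by exact_mod_cast hM) (by linarith [hd x]))
      rw [huN, hAs, ContinuousLinearMap.comp_apply, hτ1 M x h1, h₁ x, ← huN, ih]
  -- starts with `Q (0, x)`
  have hstart : ∀ (N : ℕ) x w, Q (0, x) (A (N + 1) x w) = A (N + 1) x w := by
    intro N
    induction N with
    | zero => intro x w; rw [hAs, hA0, hτ0]; exact hQ _ _
    | succ N ih => intro x w; rw [hAs (N + 1)]; exact ih x _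
  -- non-vanishing
  have hnz : ∀ (N : ℕ) x v, v ≠ 0 → Q (τ N x, x) v = v → A N x v ≠ 0 := by
    intro N
    induction N with
    | zero => intro x v hv _; simpa [hA0] using hv
    | succ N ih =>
      intro x v hv hv'
      rw [hAs, ContinuousLinearMap.comp_apply]
      refine ih x _ ?_ (hQ _ _)
      intro h0
      have h1 : ‖v‖ = ‖(Q (τ (N + 1) x, x) - Q (τ N x, x)) v‖ := by
        rw [_root_.sub_apply, h0, hv', sub_zero]
      have h2 : ‖(Q (τ (N + 1) x, x) - Q (τ N x, x)) v‖ ≤
          ‖Q (τ (N + 1) x, x) - Q (τ N x, x)‖ * ‖v‖ := ContinuousLinearMap.le_opNorm _ _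
      have h3 := hdQ x _ _ ((dist_comm _ _).trans_lt (hτd N x))
      have h4 : 0 < ‖v‖ := norm_pos_iff.mpr hv
      nlinarith
  -- choose the length
  have hlen : ∀ x, ∃ N : ℕ, 1 < (N : ℝ) * (d x / 2) := by
    intro x
    obtain ⟨N, hN⟩ := exists_nat_gt (1 / (d x / 2))
    exact ⟨N, by
      have := hd x
      rwa [div_lt_iff₀ (by linarith)] at hN⟩
  choose L hL using hlen
  let u : E → W := fun x => uN (L x + 1) x
  have hLx : ∀ x, 1 ≤ ((L x + 1 : ℕ) : ℝ) * (d x / 2) := by
    intro x
    have := hL x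
    have := hd x
    push_cast
    nlinarith
  have hueq : ∀ (N : ℕ) x, 1 ≤ (N : ℝ) * (d x / 2) → u x = uN N x := by
    intro N x h
    rw [← hstat N (max N (L x + 1)) x h (le_max_left _ _),
      hstat (L x + 1) (max N (L x + 1)) x (hLx x) (le_max_right _ _)]
  have hucont : Continuous u := by
    rw [continuous_iff_continuousAt]
    intro x
    have h1 : ∀ᶠ y in nhds x, 1 < ((L x : ℕ) : ℝ) * (d y / 2) := by
      have hc : Continuous fun y => ((L x : ℕ) : ℝ) * (d y / 2) := by fun_prop
      exact hc.continuousAt.eventually_const_lt (hL x)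
    refine ContinuousAt.congr (uN (L x)).continuous.continuousAt ?_
    filter_upwards [h1] with y hy
    exact (hueq (L x) y hy.le).symm
  refine ⟨⟨u, hucont⟩, ?_, ?_⟩
  · intro x
    exact hstart (L x) x _
  · intro x
    refine hnz (L x + 1) x (u₁ x) (h₁' x) ?_
    rw [hτ1 _ x (hLx x), h₁ x]

/-- A continuous family of nonzero idempotents over a contractible space has a continuous nowhere
vanishing section. -/
theorem exists_global_section [ContractibleSpace E]
    (P : C(E, W →L[ℂ] W)) (hP : ∀ x w, P x (P x w) = P x w) (hne : ∀ x, P x ≠ 0) :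
    ∃ u : C(E, W), (∀ x, P x (u x) = u x) ∧ ∀ x, u x ≠ 0 := by
  obtain ⟨y, ⟨H⟩⟩ := id_nullhomotopic E
  obtain ⟨w, hw⟩ : ∃ w, P y w ≠ 0 := by
    by_contra h
    push Not at h
    exact hne y (ContinuousLinearMap.ext h)
  obtain ⟨u, hu, hu'⟩ := exists_section_of_homotopy (P.comp H.toContinuousMap)
    (fun z w => hP _ _) (ContinuousMap.const E (P y w))
    (fun x => by
      have : H.toContinuousMap (1, x) = y := H.apply_one x
      simp only [ContinuousMap.comp_apply, ContinuousMap.const_apply, this, hP])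
    (fun x => by simpa using hw)
  refine ⟨u, fun x => ?_, hu'⟩
  have h := hu x
  have h0 : H.toContinuousMap (0, x) = x := H.apply_zero x
  simpa only [ContinuousMap.comp_apply, h0] using h

end GlobalSection

end Crest.Agent.R197
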