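import Mathlib
import Crest.Agent.R197.CW2Defs
import Crest.Agent.R197.WT
import Crest.Agent.R197.ProjSection

/-! Row 197, module F9a: the function `ψ` on the universal cover with a "zero inside one lifted 2-cell". -/

set_option autoImplicit false

open scoped unitInterval ComplexConjugate

namespace Crest.Agent.R197

/-- the coordinate of the square -/
noncomputable def zz (s : I × I) : ℂ := ⟨(s.1 : ℝ) - 1 / 2, (s.2 : ℝ) - 1 / 2⟩

/-- a bump vanishing exactly on the boundary of the square -/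
noncomputable def dd (s : I × I) : ℝ := (s.1 : ℝ) * (1 - s.1) * (s.2 * (1 - s.2))

theorem continuous_zz : Continuous zz := by
  have : zz = fun s : I × I => (((s.1 : ℝ) - 1 / 2 : ℝ) : ℂ) + (((s.2 : ℝ) - 1 / 2 : ℝ) : ℂ) * Complex.I := by
    funext s
    apply Complex.ext <;> simp [zz]
  rw [this]
  fun_prop

theorem continuous_dd : Continuous dd := by
  unfold dd
  fun_prop

theorem dd_nonneg (s : I × I) : 0 ≤ dd s := by
  have h1 := s.1.2
  have h2 := s.2.2
  have a1 : 0 ≤ (s.1 : ℝ) * (1 - s.1) := mul_nonneg h1.1 (by linarith [h1.2])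
  have a2 : 0 ≤ (s.2 : ℝ) * (1 - s.2) := mul_nonneg h2.1 (by linarith [h2.2])
  exact mul_nonneg a1 a2

theorem dd_pos {s : I × I} (hs : s ∈ Sint) : 0 < dd s := by
  obtain ⟨⟨h1, h2⟩, h3, h4⟩ := hs
  have b1 : (0 : ℝ) < s.1 := h1
  have b2 : (s.1 : ℝ) < 1 := h2
  have b3 : (0 : ℝ) < s.2 := h3
  have b4 : (s.2 : ℝ) < 1 := h4
  have a1 : 0 < (s.1 : ℝ) * (1 - s.1) := mul_pos b1 (by linarith)
  have a2 : 0 < (s.2 : ℝ) * (1 - s.2) := mul_pos b3 (by linarith)
  exact mul_pos a1 a2

/-- a point outside the open square has a coordinate `0` or `1` -/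
theorem notMem_Sint {s : I × I} (hs : s ∉ Sint) :
    ((s.1 : ℝ) = 0 ∨ (s.1 : ℝ) = 1) ∨ ((s.2 : ℝ) = 0 ∨ (s.2 : ℝ) = 1) := by
  by_contra h
  push Not at h
  obtain ⟨⟨h1, h2⟩, h3, h4⟩ := h
  apply hs
  have b1 := s.1.2
  have b2 := s.2.2
  refine ⟨⟨?_, ?_⟩, ?_, ?_⟩
  · exact lt_of_le_of_ne b1.1 (fun e => h1 (congrArg Subtype.val e.symm))
  · exact lt_of_le_of_ne b1.2 (fun e => h2 (congrArg Subtype.val e))
  · exact lt_of_le_of_ne b2.1 (fun e => h3 (congrArg Subtype.val e.symm))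
  · exact lt_of_le_of_ne b2.2 (fun e => h4 (congrArg Subtype.val e))

theorem dd_eq_zero {s : I × I} (hs : s ∉ Sint) : dd s = 0 := by
  unfold dd
  rcases notMem_Sint hs with (h | h) | (h | h) <;> simp [h]

theorem zz_ne_zero {s : I × I} (hs : s ∉ Sint) : zz s ≠ 0 := by
  intro h0
  have hre := congrArg Complex.re h0
  have him := congrArg Complex.im h0
  simp only [zz, Complex.zero_re, Complex.zero_im] at hre him
  rcases notMem_Sint hs with (h | h) | (h | h)
  · rw [h] at hre; norm_num at hre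
  · rw [h] at hre; norm_num at hre
  · rw [h] at him; norm_num at him
  · rw [h] at him; norm_num at him

/-- the square norm of the model section -/
noncomputable def nn (s : I × I) : ℝ := Complex.normSq (zz s) + dd s ^ 2

theorem nn_pos (s : I × I) : 0 < nn s := by
  unfold nn
  by_cases hs : s ∈ Sint
  · have := dd_pos hs
    have h1 := Complex.normSq_nonneg (zz s)
    positivity
  · have h1 := Complex.normSq_pos.mpr (zz_ne_zero hs)
    have h2 := sq_nonneg (dd s)
    linarith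

theorem continuous_nn : Continuous nn := by
  unfold nn
  exact (Complex.continuous_normSq.comp continuous_zz).add (continuous_dd.pow 2)

/-- the model section -/
noncomputable def sig (s : I × I) : ℂ × ℂ := (zz s, (dd s : ℂ))

theorem continuous_sig : Continuous sig :=
  continuous_zz.prodMk (Complex.continuous_ofReal.comp continuous_dd)

/-- the coefficient functional of the model projection -/
noncomputable def cf (s : I × I) : (ℂ × ℂ) →L[ℂ] ℂ :=
  (conj (zz s) / (nn s : ℂ)) • ContinuousLinearMap.fst ℂ ℂ ℂ +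
    ((dd s : ℂ) / (nn s : ℂ)) • ContinuousLinearMap.snd ℂ ℂ ℂ

theorem cf_apply (s : I × I) (v : ℂ × ℂ) :
    cf s v = conj (zz s) / (nn s : ℂ) * v.1 + (dd s : ℂ) / (nn s : ℂ) * v.2 := by
  simp [cf]

theorem cf_sig (s : I × I) : cf s (sig s) = 1 := by
  rw [cf_apply]
  have h := (nn_pos s).ne'
  have h' : (nn s : ℂ) ≠ 0 := by exact_mod_cast h
  simp only [sig]
  rw [div_mul_eq_mul_div, div_mul_eq_mul_div, ← add_div, div_eq_one_iff_eq h', mul_comm,
    Complex.mul_conj, nn]
  push_cast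
  ring

theorem continuous_cf : Continuous cf := by
  unfold cf
  have h : ∀ s, (nn s : ℂ) ≠ 0 := fun s => by exact_mod_cast (nn_pos s).ne'
  have h1 : Continuous fun s => (nn s : ℂ) := Complex.continuous_ofReal.comp continuous_nn
  have h2 : Continuous fun s => conj (zz s) / (nn s : ℂ) :=
    (Complex.continuous_conj.comp continuous_zz).div h1 h
  have h3 : Continuous fun s => (dd s : ℂ) / (nn s : ℂ) :=
    (Complex.continuous_ofReal.comp continuous_dd).div h1 h
  exact (h2.smul continuous_const).add (h3.smul continuous_const)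

/-- the model projection onto `ℂ · sig s` -/
noncomputable def Prj (s : I × I) : (ℂ × ℂ) →L[ℂ] (ℂ × ℂ) := (cf s).smulRight (sig s)

theorem Prj_apply (s : I × I) (v : ℂ × ℂ) : Prj s v = cf s v • sig s := by
  simp [Prj]

theorem Prj_Prj (s : I × I) (v : ℂ × ℂ) : Prj s (Prj s v) = Prj s v := by
  rw [Prj_apply, Prj_apply, map_smul, cf_sig]
  simp

theorem sig_ne_zero (s : I × I) : sig s ≠ 0 := by
  intro h
  have := cf_sig s
  rw [h, map_zero] at this
  exact zero_ne_one this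

theorem Prj_ne_zero (s : I × I) : Prj s ≠ 0 := by
  intro h
  have h1 : Prj s (sig s) = 0 := by rw [h]; rfl
  rw [Prj_apply, cf_sig, one_smul] at h1
  exact sig_ne_zero s h1

theorem continuous_Prj : Continuous Prj := by
  unfold Prj
  have := (ContinuousLinearMap.smulRightL ℂ (ℂ × ℂ) (ℂ × ℂ)).continuous₂
  exact this.comp (continuous_cf.prodMk continuous_sig)

/-- the constant projection -/
noncomputable def Pinf : (ℂ × ℂ) →L[ℂ] (ℂ × ℂ) :=
  (ContinuousLinearMap.inl ℂ ℂ ℂ).comp (ContinuousLinearMap.fst ℂ ℂ ℂ)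

theorem Pinf_apply (v : ℂ × ℂ) : Pinf v = (v.1, 0) := by simp [Pinf]

theorem Prj_of_notMem {s : I × I} (hs : s ∉ Sint) : Prj s = Pinf := by
  refine ContinuousLinearMap.ext fun v => ?_
  have h0 : dd s = 0 := dd_eq_zero hs
  have h1 : nn s = Complex.normSq (zz s) := by rw [nn, h0]; ring
  have h2 : (Complex.normSq (zz s) : ℂ) ≠ 0 := by
    exact_mod_cast (Complex.normSq_pos.mpr (zz_ne_zero hs)).ne'
  rw [Prj_apply, cf_apply, Pinf_apply, h0, h1, sig, h0]
  refine Prod.ext ?_ ?_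
  · simp only [Prod.smul_mk, smul_eq_mul, Complex.ofReal_zero, zero_div, zero_mul, add_zero]
    rw [div_mul_eq_mul_div, div_mul_eq_mul_div, div_eq_iff h2]
    rw [← Complex.mul_conj]
    ring
  · simp

/-- two lifts of 2-cells which meet at an interior point are equal -/
theorem lift_meet {X E : Type} [TopologicalSpace X] [TopologicalSpace E] (C : TwoCx X) (p : E → X)
    (hp : IsCoveringMap p) {j j₀ : C.J} {u u₀ : C(I × I, E)} (hu : ∀ s, p (u s) = C.f j s)
    (hu₀ : ∀ s, p (u₀ s) = C.f j₀ s) {s s' : I × I} (hs' : s' ∈ Sint) (h : u s = u₀ s') :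
    j = j₀ ∧ s = s' ∧ u = u₀ := by
  have e : C.f j s = C.f j₀ s' := by rw [← hu, ← hu₀, h]
  have hs : s ∈ Sint := by
    by_contra hs
    rcases C.f_bd j s hs with ⟨o, ho⟩ | ⟨i, t, ht⟩
    · exact C.f_ne_v j₀ s' o hs' (e.symm.trans ho)
    · exact C.f_ne_e j₀ s' i t hs' (e.symm.trans ht)
  obtain ⟨rfl, rfl⟩ := C.f_inj j j₀ s s' hs hs' e
  refine ⟨rfl, rfl, ?_⟩
  have := hp.eq_of_comp_eq (A := I × I) u.continuous u₀.continuous
    (by funext t; exact (hu t).trans (hu₀ t).symm) s h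
  exact DFunLike.coe_injective this

theorem lift_edge_ne {X E : Type} [TopologicalSpace X] [TopologicalSpace E] (C : TwoCx X)
    (p : E → X) {i : C.E} {j₀ : C.J} {u : C(I, E)} {u₀ : C(I × I, E)}
    (hu : ∀ s, p (u s) = C.e i s)
    (hu₀ : ∀ s, p (u₀ s) = C.f j₀ s) {s : I} {s' : I × I} (hs' : s' ∈ Sint) : u₀ s' ≠ u s := by
  intro h
  have e : C.f j₀ s' = C.e i s := by rw [← hu₀, ← hu, h]
  exact C.f_ne_e j₀ s' i s hs' e

/-- points over the 1-skeleton are not in the open lifted 2-cell -/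
theorem lift_X1_ne {X E : Type} [TopologicalSpace X] [TopologicalSpace E] (C : TwoCx X) (p : E → X)
    {j₀ : C.J} {u₀ : C(I × I, E)} (hu₀ : ∀ s, p (u₀ s) = C.f j₀ s) {y : E} (hy : p y ∈ C.X1)
    {s' : I × I} (hs' : s' ∈ Sint) : u₀ s' ≠ y := by
  intro h
  have e : C.f j₀ s' = p y := by rw [← hu₀, h]
  rcases hy with ⟨o, ho⟩ | ⟨i, t, ht⟩
  · exact C.f_ne_v j₀ s' o hs' (e.trans ho)
  · exact C.f_ne_e j₀ s' i t hs' (e.trans ht)

/-- the projection field on the total space of the cover -/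
noncomputable def Pfield {E : Type} (u₀ : I × I → E) (y : E) : (ℂ × ℂ) →L[ℂ] (ℂ × ℂ) :=
  open Classical in
  if h : ∃ s, s ∈ Sint ∧ u₀ s = y then Prj h.choose else Pinf

theorem Pfield_of_ne {E : Type} {u₀ : I × I → E} {y : E} (h : ∀ s ∈ Sint, u₀ s ≠ y) :
    Pfield u₀ y = Pinf := by
  unfold Pfield
  rw [dif_neg]
  rintro ⟨s, hs, h'⟩
  exact h s hs h'

theorem Pfield_u {E : Type} {u₀ : I × I → E}
    (hinj : ∀ s s', s' ∈ Sint → u₀ s = u₀ s' → s = s') (s : I × I) : Pfield u₀ (u₀ s) = Prj s := by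
  by_cases h : ∃ t, t ∈ Sint ∧ u₀ t = u₀ s
  · have h1 := h.choose_spec
    have h2 : s = h.choose := hinj s _ h1.1 h1.2.symm
    unfold Pfield
    rw [dif_pos h, ← h2]
  · rw [Pfield_of_ne (fun t ht h' => h ⟨t, ht, h'⟩)]
    refine (Prj_of_notMem fun hs => h ⟨s, hs, rfl⟩).symm

theorem Pfield_idem {E : Type} (u₀ : I × I → E) (y : E) (v : ℂ × ℂ) :
    Pfield u₀ y (Pfield u₀ y v) = Pfield u₀ y v := by
  unfold Pfield
  split_ifs with h
  · exact Prj_Prj _ _
  · simp [Pinf_apply]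

theorem Pinf_ne_zero : Pinf ≠ 0 := by
  intro h
  have h1 : Pinf (1, 0) = 0 := by rw [h]; rfl
  rw [Pinf_apply] at h1
  exact one_ne_zero (congrArg Prod.fst h1)

theorem Pfield_ne_zero {E : Type} (u₀ : I × I → E) (y : E) : Pfield u₀ y ≠ 0 := by
  unfold Pfield
  split_ifs with h
  · exact Prj_ne_zero _
  · exact Pinf_ne_zero

/-- the section function `ψ` -/
theorem exists_psi {X E : Type} [TopologicalSpace X] [TopologicalSpace E] (C : TwoCx X) (p : E → X)
    (hp : IsCoveringMap p) [ContractibleSpace E] (j₀ : C.J) (u₀ : C(I × I, E))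
    (hu₀ : ∀ s, p (u₀ s) = C.f j₀ s) :
    ∃ ψ : C(E, ℂ), (∀ y, (∀ s ∈ Sint, u₀ s ≠ y) → ψ y ≠ 0) ∧
      ∃ lam : C(I × I, ℂ), (∀ s, lam s ≠ 0) ∧ ∀ s, ψ (u₀ s) = lam s * zz s := by
  have hinj : ∀ s s', s' ∈ Sint → u₀ s = u₀ s' → s = s' := fun s s' hs' h =>
    (lift_meet C p hp hu₀ hu₀ hs' h).2.1
  have hcont : Continuous (Pfield u₀) := by
    refine cover_continuous C p hp (Pfield u₀) ?_ ?_
    · intro i u hu
      have : Pfield u₀ ∘ u = fun _ => Pinf := by
        funext s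
        exact Pfield_of_ne fun s' hs' => lift_edge_ne C p hu hu₀ hs'
      rw [this]
      exact continuous_const
    · intro j u hu
      by_cases h : ∃ s s', s' ∈ Sint ∧ u s = u₀ s'
      · obtain ⟨s, s', hs', h⟩ := h
        have e : u = u₀ := (lift_meet C p hp hu hu₀ hs' h).2.2
        rw [e]
        have : Pfield u₀ ∘ u₀ = Prj := by
          funext t
          exact Pfield_u hinj t
        rw [this]
        exact continuous_Prj
      · have : Pfield u₀ ∘ u = fun _ => Pinf := by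
          funext s
          exact Pfield_of_ne fun s' hs' e => h ⟨s, s', hs', e.symm⟩
        rw [this]
        exact continuous_const
  obtain ⟨h, h1, h2⟩ := exists_global_section (⟨Pfield u₀, hcont⟩ : C(E, (ℂ × ℂ) →L[ℂ] (ℂ × ℂ)))
    (Pfield_idem u₀) (Pfield_ne_zero u₀)
  refine ⟨⟨fun y => (h y).1, by fun_prop⟩, ?_, ⟨fun s => cf s (h (u₀ s)), ?_⟩, ?_, ?_⟩
  · intro y hy h0
    have e : Pfield u₀ y (h y) = h y := h1 y
    rw [Pfield_of_ne hy, Pinf_apply] at e
    apply h2 y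
    rw [← e]
    exact Prod.ext h0 rfl
  · exact continuous_cf.clm_apply (h.continuous.comp u₀.continuous)
  · intro s h0
    have e : Pfield u₀ (u₀ s) (h (u₀ s)) = h (u₀ s) := h1 (u₀ s)
    rw [Pfield_u hinj, Prj_apply] at e
    have h0' : cf s (h (u₀ s)) = 0 := h0
    rw [h0', zero_smul] at e
    exact h2 _ e.symm
  · intro s
    have e : Pfield u₀ (u₀ s) (h (u₀ s)) = h (u₀ s) := h1 (u₀ s)
    rw [Pfield_u hinj, Prj_apply] at e
    have := congrArg Prod.fst e
    simpa [sig] using this.symm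

end Crest.Agent.R197
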