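import Mathlib
import Crest.Agent.R197.CW2Defs
import Crest.Agent.R197.WT
import Crest.Agent.R197.OutThreeA
import Crest.Agent.R197.OutThreeDefs

/-! Row 197, module F9a, second part: the winding functional. -/

set_option autoImplicit false

open scoped unitInterval

namespace Crest.Agent.R197
namespace W3

/-- continuous logarithm of a nowhere zero function on `A`, if `A` is `I` -/
theorem exists_log_I {γ : I → ℂ} (hγ : Continuous γ) (h : ∀ s, γ s ≠ 0) : ∃ Γ : C(I, ℂ), ∀ s, Complex.exp (Γ s) = γ s := by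
  obtain ⟨u, _, hu⟩ := exists_lift_I Complex.isCoveringMap_exp
    (⟨fun s => ⟨γ s, h s⟩, by fun_prop⟩ : C(I, {z : ℂ // z ≠ 0})) 0 (Complex.log (γ 0))
    (Subtype.ext (Complex.exp_log (h 0)))
  exact ⟨u, fun s => congrArg Subtype.val (hu s)⟩

theorem exists_log_II {γ : I × I → ℂ} (hγ : Continuous γ) (h : ∀ s, γ s ≠ 0) :
    ∃ Γ : C(I × I, ℂ), ∀ s, Complex.exp (Γ s) = γ s := by
  obtain ⟨u, _, hu⟩ := exists_lift_II Complex.isCoveringMap_exp
    (⟨fun s => ⟨γ s, h s⟩, by fun_prop⟩ : C(I × I, {z : ℂ // z ≠ 0})) 0 (Complex.log (γ 0))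
    (Subtype.ext (Complex.exp_log (h 0)))
  exact ⟨u, fun s => congrArg Subtype.val (hu s)⟩

/-- two continuous logarithms on a preconnected space differ by a constant -/
theorem log_diff {A : Type} [TopologicalSpace A] [PreconnectedSpace A] (Γ Γ' : C(A, ℂ))
    (h : ∀ s, Complex.exp (Γ s) = Complex.exp (Γ' s)) (s t : A) : Γ s - Γ' s = Γ t - Γ' t := by
  let Γ'' : C(A, ℂ) := ⟨fun a => Γ' a + (Γ s - Γ' s), by fun_prop⟩
  have e1 : Complex.exp (Γ s - Γ' s) = 1 := by
    rw [Complex.exp_sub, h s, div_self (Complex.exp_ne_zero _)]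
  have := lift_unique Complex.isCoveringMap_exp
    (⟨fun a => ⟨Complex.exp (Γ a), Complex.exp_ne_zero _⟩, by fun_prop⟩ : C(A, {z : ℂ // z ≠ 0}))
    Γ Γ'' (fun _ => rfl) (fun a => Subtype.ext (by
      show Complex.exp (Γ' a + (Γ s - Γ' s)) = Complex.exp (Γ a)
      rw [Complex.exp_add, e1, mul_one, h a])) s (by
      show Γ s = Γ' s + (Γ s - Γ' s)
      ring)
  have h2 : Γ t = Γ' t + (Γ s - Γ' s) := DFunLike.congr_fun this t
  rw [h2]
  ring

/-- the logarithmic increment of a nowhere zero function on the unit interval -/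
noncomputable def linc (γ : I → ℂ) : ℂ :=
  open Classical in
  if h : ∃ Γ : C(I, ℂ), ∀ s, Complex.exp (Γ s) = γ s then h.choose 1 - h.choose 0 else 0

theorem linc_eq {γ : I → ℂ} (Γ : C(I, ℂ)) (h : ∀ s, Complex.exp (Γ s) = γ s) :
    linc γ = Γ 1 - Γ 0 := by
  have hex : ∃ Γ : C(I, ℂ), ∀ s, Complex.exp (Γ s) = γ s := ⟨Γ, h⟩
  unfold linc
  rw [dif_pos hex]
  have := log_diff hex.choose Γ (fun s => (hex.choose_spec s).trans (h s).symm) 1 0
  linear_combination this

theorem linc_const_mul {γ : I → ℂ} (c : ℂ) (hc : c ≠ 0) (hγ : Continuous γ) (h : ∀ s, γ s ≠ 0) :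
    linc (fun s => c * γ s) = linc γ := by
  obtain ⟨Γ, hΓ⟩ := exists_log_I hγ h
  rw [linc_eq Γ hΓ, linc_eq (⟨fun s => Complex.log c + Γ s, by fun_prop⟩ : C(I, ℂ))]
  · show Complex.log c + Γ 1 - (Complex.log c + Γ 0) = Γ 1 - Γ 0
    ring
  · intro s
    show Complex.exp (Complex.log c + Γ s) = c * γ s
    rw [Complex.exp_add, Complex.exp_log hc, hΓ s]

theorem linc_mul {γ δ : I → ℂ} (hγ : Continuous γ) (h : ∀ s, γ s ≠ 0) (hδ : Continuous δ)
    (h' : ∀ s, δ s ≠ 0) : linc (fun s => γ s * δ s) = linc γ + linc δ := by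
  obtain ⟨Γ, hΓ⟩ := exists_log_I hγ h
  obtain ⟨Δ, hΔ⟩ := exists_log_I hδ h'
  rw [linc_eq Γ hΓ, linc_eq Δ hΔ, linc_eq (⟨fun s => Γ s + Δ s, by fun_prop⟩ : C(I, ℂ))]
  · show Γ 1 + Δ 1 - (Γ 0 + Δ 0) = Γ 1 - Γ 0 + (Δ 1 - Δ 0)
    ring
  · intro s
    show Complex.exp (Γ s + Δ s) = γ s * δ s
    rw [Complex.exp_add, hΓ s, hΔ s]

section
variable {Y : Type} [TopologicalSpace Y]

theorem linc_trans {g : Y → ℂ} (hg : Continuous g) {a b c : Y} (q : Path a b) (q' : Path b c)
    (h : ∀ s, g (q s) ≠ 0) (h' : ∀ s, g (q' s) ≠ 0) :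
    linc (fun s => g ((q.trans q') s)) = linc (fun s => g (q s)) + linc (fun s => g (q' s)) := by
  obtain ⟨Γ, hΓ⟩ := exists_log_I (hg.comp q.continuous) h
  obtain ⟨Δ, hΔ⟩ := exists_log_I (hg.comp q'.continuous) h'
  have e1 : Complex.exp (Γ 1 - Δ 0) = 1 := by
    rw [Complex.exp_sub, hΓ, hΔ]
    show g (q 1) / g (q' 0) = 1
    rw [q.target, q'.source, div_self]
    have := h 1
    rwa [q.target] at this
  let P : Path (Γ 0) (Γ 1) := ⟨Γ, rfl, rfl⟩
  let P' : Path (Γ 1) (Δ 1 + (Γ 1 - Δ 0)) :=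
    ⟨⟨fun s => Δ s + (Γ 1 - Δ 0), by fun_prop⟩, by simp, by simp⟩
  rw [linc_eq (γ := fun s => g (q s)) Γ hΓ, linc_eq (γ := fun s => g (q' s)) Δ hΔ,
    linc_eq (P.trans P').toContinuousMap]
  · show (P.trans P') 1 - (P.trans P') 0 = _
    rw [Path.target, Path.source]
    ring
  · intro s
    show Complex.exp ((P.trans P') s) = g ((q.trans q') s)
    rw [Path.trans_apply, Path.trans_apply]
    split_ifs with hs
    · exact hΓ _
    · show Complex.exp (Δ _ + (Γ 1 - Δ 0)) = _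
      rw [Complex.exp_add, e1, mul_one]
      exact hΔ _

theorem trans_ne {g : Y → ℂ} {a b c : Y} (q : Path a b) (q' : Path b c)
    (h : ∀ s, g (q s) ≠ 0) (h' : ∀ s, g (q' s) ≠ 0) (s : I) : g ((q.trans q') s) ≠ 0 := by
  rw [Path.trans_apply]
  split_ifs
  · exact h _
  · exact h' _

theorem linc_square {g : Y → ℂ} (hg : Continuous g) (β : C(I × I, Y)) (h : ∀ s, g (β s) ≠ 0)
    (q : C(I, I × I)) (hq : q 0 = q 1) : linc (fun s => g (β (q s))) = 0 := by
  obtain ⟨Γ, hΓ⟩ := exists_log_II (hg.comp β.continuous) h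
  rw [linc_eq (γ := fun s => g (β (q s))) (Γ.comp q) (fun s => hΓ (q s))]
  show Γ (q 1) - Γ (q 0) = 0
  rw [hq, sub_self]

theorem linc_homotopic {g : Y → ℂ} (hg : Continuous g) (hne : ∀ y, g y ≠ 0) {a b : Y}
    (q q' : Path a b) (h : q.Homotopic q') :
    linc (fun s => g (q s)) = linc (fun s => g (q' s)) := by
  obtain ⟨F⟩ := h
  obtain ⟨Γ, hΓ⟩ := exists_log_II (hg.comp F.continuous) (fun s => hne _)
  have e0 := linc_eq (γ := fun s => g (q s)) (⟨fun s => Γ (0, s), by fun_prop⟩ : C(I, ℂ)) (fun s => by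
    have := hΓ (0, s)
    simpa using this)
  have e1 := linc_eq (γ := fun s => g (q' s)) (⟨fun s => Γ (1, s), by fun_prop⟩ : C(I, ℂ)) (fun s => by
    have := hΓ (1, s)
    simpa using this)
  have := contractibleSpace_I
  have c0 := log_diff (⟨fun t => Γ (t, 0), by fun_prop⟩ : C(I, ℂ)) (⟨fun _ => Γ (0, 0), by fun_prop⟩ : C(I, ℂ))
    (fun t => by
      show Complex.exp (Γ (t, 0)) = Complex.exp (Γ (0, 0))
      rw [hΓ, hΓ]
      show g (F (t, 0)) = g (F (0, 0))
      simp) 0 1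
  have c1 := log_diff (⟨fun t => Γ (t, 1), by fun_prop⟩ : C(I, ℂ)) (⟨fun _ => Γ (0, 1), by fun_prop⟩ : C(I, ℂ))
    (fun t => by
      show Complex.exp (Γ (t, 1)) = Complex.exp (Γ (0, 1))
      rw [hΓ, hΓ]
      show g (F (t, 1)) = g (F (0, 1))
      simp) 0 1
  rw [e0, e1]
  have c0' : Γ (0, 0) - Γ (0, 0) = Γ (1, 0) - Γ (0, 0) := c0
  have c1' : Γ (0, 1) - Γ (0, 1) = Γ (1, 1) - Γ (0, 1) := c1
  show Γ (0, 1) - Γ (0, 0) = Γ (1, 1) - Γ (1, 0)
  linear_combination c1' - c0'

end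

/-- the increment along a side -/
theorem linc_side (γ : I → ℂ) (c : ℂ) (hc : c ≠ 0)
    (h : ∀ s : I, γ s = c * ((1 - (s : ℝ) : ℝ) + (s : ℝ) * Complex.I)) :
    linc γ = Real.pi / 2 * Complex.I := by
  have hsl : ∀ s : I, (((1 - (s : ℝ) : ℝ) : ℂ) + ((s : ℝ) : ℂ) * Complex.I) ∈ Complex.slitPlane := by
    intro s
    rw [Complex.mem_slitPlane_iff]
    by_cases hs : (s : ℝ) = 0
    · left
      simp [hs]
    · right
      simpa using hs
  have hcont : Continuous fun s : I =>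
      Complex.log (((1 - (s : ℝ) : ℝ) : ℂ) + ((s : ℝ) : ℂ) * Complex.I) :=
    Continuous.clog (by fun_prop) hsl
  rw [linc_eq (⟨fun s : I => Complex.log c +
    Complex.log (((1 - (s : ℝ) : ℝ) : ℂ) + ((s : ℝ) : ℂ) * Complex.I),
    continuous_const.add hcont⟩ : C(I, ℂ))]
  · show Complex.log c + Complex.log (((1 - ((1 : I) : ℝ) : ℝ) : ℂ) + (((1 : I) : ℝ) : ℂ) * Complex.I) -
      (Complex.log c + Complex.log (((1 - ((0 : I) : ℝ) : ℝ) : ℂ) + (((0 : I) : ℝ) : ℂ) * Complex.I)) = _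
    simp [Complex.log_I]
  · intro s
    show Complex.exp (Complex.log c + _) = _
    rw [Complex.exp_add, Complex.exp_log hc, Complex.exp_log (Complex.slitPlane_ne_zero (hsl s)), h]

theorem linc_zz_bdSq : linc (fun s => zz (TwoCx.bdSq s)) = 2 * Real.pi * Complex.I := by
  have hc := continuous_zz
  have n1 : ∀ s : I, zz (s, 0) ≠ 0 := fun s => zz_ne_zero (by simp [Sint, Iint])
  have n2 : ∀ s : I, zz (1, s) ≠ 0 := fun s => zz_ne_zero (by simp [Sint, Iint])
  have n3 : ∀ s : I, zz (unitInterval.symm s, 1) ≠ 0 := fun s => zz_ne_zero (by simp [Sint, Iint])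
  have n4 : ∀ s : I, zz (0, unitInterval.symm s) ≠ 0 := fun s => zz_ne_zero (by simp [Sint, Iint])
  rw [TwoCx.bdSq, linc_trans hc, linc_trans hc, linc_trans hc]
  · have i1 : linc (fun s : I => zz (s, 0)) = Real.pi / 2 * Complex.I := by
      refine linc_side _ (zz (0, 0)) (n1 0) fun s => ?_
      apply Complex.ext <;> simp [zz] <;> ring
    have i2 : linc (fun s : I => zz (1, s)) = Real.pi / 2 * Complex.I := by
      refine linc_side _ (zz (1, 0)) (n1 1) fun s => ?_
      apply Complex.ext <;> simp [zz] <;> ring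
    have i3 : linc (fun s : I => zz (unitInterval.symm s, 1)) = Real.pi / 2 * Complex.I := by
      refine linc_side _ (zz (1, 1)) (n2 1) fun s => ?_
      apply Complex.ext <;> simp [zz] <;> ring
    have i4 : linc (fun s : I => zz (0, unitInterval.symm s)) = Real.pi / 2 * Complex.I := by
      refine linc_side _ (zz (0, 1)) (by simpa using n3 1) fun s => ?_
      apply Complex.ext <;> simp [zz] <;> ring
    show linc (fun s : I => zz (s, 0)) + linc (fun s : I => zz (1, s)) +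
      linc (fun s : I => zz (unitInterval.symm s, 1)) +
      linc (fun s : I => zz (0, unitInterval.symm s)) = _
    rw [i1, i2, i3, i4]
    ring
  · exact n1
  · exact n2
  · exact trans_ne _ _ n1 n2
  · exact n3
  · exact trans_ne _ _ (trans_ne _ _ n1 n2) n3
  · exact n4

end W3

open W3 in
/-- **F9a**: the winding functional of a lifted 2-cell. -/
theorem exists_winding {X E : Type} [TopologicalSpace X] [TopologicalSpace E] (C : TwoCx X)
    (p : E → X) (hp : IsCoveringMap p) [ContractibleSpace E] (j₀ : C.J) (u₀ : C(I × I, E))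
    (hu₀ : ∀ s, p (u₀ s) = C.f j₀ s) (N : Set E) : Nonempty (C.Winding p N u₀) := by
  obtain ⟨ψ, hψ, lam, hlam, hψu⟩ := exists_psi C p hp j₀ u₀ hu₀
  have hM : ∀ y : C.MM p N, ψ y.1 ≠ 0 := fun y =>
    hψ y.1 fun s hs => lift_X1_ne C p hu₀ y.2.2 hs
  let g : C.MM p N → ℂ := fun y => ψ y.1
  have hg : Continuous g := ψ.continuous.comp continuous_subtype_val
  have hpi : (2 * Real.pi * Complex.I : ℂ) ≠ 0 := Complex.two_pi_I_ne_zero
  refine ⟨{ Λ := fun q => linc (fun s => g (q s)) / (2 * Real.pi * Complex.I)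
            trans := ?_, homotopic := ?_, bd := ?_ }⟩
  · intro a b c q q'
    rw [linc_trans hg q q' (fun s => hM _) (fun s => hM _), add_div]
  · intro a b q q' h
    rw [linc_homotopic hg hM q q' h]
  · intro j u hu _ a b q hq
    have e : (fun s => g (q s)) = fun s => ψ (u (TwoCx.bdSq s)) := by
      funext s
      exact congrArg ψ (hq s)
    rw [e]
    have hbd : TwoCx.bdSq.toContinuousMap 0 = TwoCx.bdSq.toContinuousMap 1 := by
      show TwoCx.bdSq 0 = TwoCx.bdSq 1
      rw [Path.source, Path.target]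
    constructor
    · rintro rfl
      have e2 : (fun s => ψ (u (TwoCx.bdSq s))) =
          fun s => lam (TwoCx.bdSq s) * zz (TwoCx.bdSq s) := by
        funext s
        exact hψu _
      rw [e2, linc_mul (γ := fun s => lam (TwoCx.bdSq s)) (δ := fun s => zz (TwoCx.bdSq s))
        (lam.continuous.comp TwoCx.bdSq.continuous) (fun s => hlam _)
        (continuous_zz.comp TwoCx.bdSq.continuous)
        (fun s => zz_ne_zero (TwoCx.bdSq_notMem s)), linc_zz_bdSq]
      have := linc_square (g := id) continuous_id lam hlam TwoCx.bdSq.toContinuousMap hbd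
      have h0 : linc (fun s => lam (TwoCx.bdSq s)) = 0 := this
      rw [h0, zero_add, div_self hpi]
    · intro hne
      have h0 : linc (fun s => ψ (u (TwoCx.bdSq s))) = 0 := by
        refine linc_square ψ.continuous u (fun s => ?_) TwoCx.bdSq.toContinuousMap hbd
        refine hψ _ fun s' hs' h => hne ?_
        exact (lift_meet C p hp hu hu₀ hs' h.symm).2.2
      rw [h0, zero_div]

end Crest.Agent.R197
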