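import Mathlib
import Crest.Agent.R197.OutThree
import Crest.Agent.R197.OutThreeW

/-! Row 197 / F9b: final form of out3. -/

set_option autoImplicit false

open scoped unitInterval

namespace Crest.Agent.R197

theorem out3 {X E : Type} [TopologicalSpace X] [TopologicalSpace E] (C : TwoCx X) (D : C.RelData)
    (o₀ : C.O) (p : E → X) (hp : IsCoveringMap p) (hs : Function.Surjective p)
    [ContractibleSpace E] : C.Out3 D o₀ :=
  TwoCx.out3_of_winding hp hs (fun j₀ u₀ hu₀ N _ => exists_winding C p hp j₀ u₀ hu₀ N) D o₀

end Crest.Agent.R197
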