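import Mathlib
import Crest.Agent.R197.CW2Defs
import Crest.Agent.R197.FClass

/-! Row 197, F6: null-homotopic edge loops are killed by homomorphisms killing the relators. -/

set_option autoImplicit false

open scoped unitInterval

namespace Crest.Agent.R197

namespace Out2

section quot
variable {X Y : Type*} [TopologicalSpace X] [TopologicalSpace Y]

theorem qcast_trans {x y z x' y' z' : X} (p : Path.Homotopic.Quotient x y)
    (q : Path.Homotopic.Quotient y z) (hx : x' = x) (hy : y' = y) (hz : z' = z) :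
    (p.trans q).cast hx hz = (p.cast hx hy).trans (q.cast hy hz) := by
  subst hx hy hz
  simp only [Path.Homotopic.Quotient.cast_rfl_rfl]

theorem qcast_symm {x y x' y' : X} (p : Path.Homotopic.Quotient x y) (hx : x' = x) (hy : y' = y) :
    (p.symm).cast hy hx = (p.cast hx hy).symm := by
  subst hx hy
  simp only [Path.Homotopic.Quotient.cast_rfl_rfl]

theorem qcast_refl {x x' : X} (hx : x' = x) :
    (Path.Homotopic.Quotient.refl x).cast hx hx = Path.Homotopic.Quotient.refl x' := by
  subst hx
  simp only [Path.Homotopic.Quotient.cast_rfl_rfl]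

theorem qmap_trans {x y z : X} (p : Path.Homotopic.Quotient x y)
    (q : Path.Homotopic.Quotient y z) (f : C(X, Y)) :
    (p.trans q).map f = (p.map f).trans (q.map f) := by
  induction p using Path.Homotopic.Quotient.ind with | mk p => ?_
  induction q using Path.Homotopic.Quotient.ind with | mk q => ?_
  rw [← Path.Homotopic.Quotient.mk_trans, ← Path.Homotopic.Quotient.mk_map,
    ← Path.Homotopic.Quotient.mk_map, ← Path.Homotopic.Quotient.mk_map,
    ← Path.Homotopic.Quotient.mk_trans, Path.map_trans]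

theorem qmap_symm {x y : X} (p : Path.Homotopic.Quotient x y) (f : C(X, Y)) :
    (p.symm).map f = (p.map f).symm := by
  induction p using Path.Homotopic.Quotient.ind with | mk p => ?_
  rw [← Path.Homotopic.Quotient.mk_symm, ← Path.Homotopic.Quotient.mk_map,
    ← Path.Homotopic.Quotient.mk_map, ← Path.Homotopic.Quotient.mk_symm, Path.map_symm]

theorem qmap_refl (x : X) (f : C(X, Y)) :
    (Path.Homotopic.Quotient.refl x).map f = Path.Homotopic.Quotient.refl (f x) := by
  rw [← Path.Homotopic.Quotient.mk_refl, ← Path.Homotopic.Quotient.mk_map,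
    ← Path.Homotopic.Quotient.mk_refl]
  rfl

open CategoryTheory in
theorem qcancel {x y : X} (t : Path.Homotopic.Quotient x y) (b : Path.Homotopic.Quotient y y)
    (h : (t.trans b).trans t.symm = Path.Homotopic.Quotient.refl x) :
    b = Path.Homotopic.Quotient.refl y := by
  let t' : FundamentalGroupoid.mk x ⟶ FundamentalGroupoid.mk y := t
  let b' : FundamentalGroupoid.mk y ⟶ FundamentalGroupoid.mk y := b
  have h' : (t' ≫ b') ≫ Groupoid.inv t' = 𝟙 _ := h
  have h1 : t' ≫ b' = t' := by
    have := congrArg (fun q => q ≫ t') h'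
    simpa using this
  have h2 : b' = 𝟙 _ := (cancel_epi t').mp (by simpa using h1)
  exact h2

end quot

variable {X : Type} [TopologicalSpace X] (C : TwoCx X)

/-- value of an edge path under a map of the 1-skeleton to a space with identified fundamental
group -/
theorem rep_val {B : Type} [TopologicalSpace B] {b₀ : B} {Γ : Type} [Group Γ]
    (e : FundamentalGroup B b₀ ≃* Γ) (ψ : FreeGroup C.E →* Γ)
    (F1 : C(C.X1, B)) (hv : ∀ o, F1 (C.v1 o) = b₀) (lam : C.E → Path b₀ b₀)
    (hF : ∀ i s, F1 (C.e1 i s) = lam i s)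
    (hlam : ∀ i, e (Path.Homotopic.Quotient.mk (lam i)) = (ψ (FreeGroup.of i))⁻¹)
    {o o' : C.O} {w : C.Wd} {γ : Path.Homotopic.Quotient (C.v1 o) (C.v1 o')}
    (h : C.Rep o o' w γ) :
    e ((γ.map F1).cast (hv o).symm (hv o').symm) = (ψ (C.wordOf w))⁻¹ := by
  have hedge : ∀ i, ((Path.Homotopic.Quotient.mk (C.e1 i)).map F1).cast
      (hv (C.src i)).symm (hv (C.tgt i)).symm = Path.Homotopic.Quotient.mk (lam i) := by
    intro i
    rw [← Path.Homotopic.Quotient.mk_map, ← Path.Homotopic.Quotient.mk_cast]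
    congr 1
    ext s
    exact hF i s
  induction h with
  | nil o =>
    rw [qmap_refl, qcast_refl]
    change e 1 = _
    simp [TwoCx.wordOf]
  | fwd i o' w γ _ ih =>
    rw [qmap_trans, qcast_trans _ _ _ (hv (C.tgt i)).symm _, hedge]
    have : e ((Path.Homotopic.Quotient.mk (lam i)).trans
        ((γ.map F1).cast (hv (C.tgt i)).symm (hv o').symm)) =
        e ((γ.map F1).cast (hv (C.tgt i)).symm (hv o').symm) *
          e (Path.Homotopic.Quotient.mk (lam i)) := by
      rw [← map_mul]; rfl
    rw [this, ih, hlam, TwoCx.wordOf, map_mul, mul_inv_rev]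
  | bwd i o' w γ _ ih =>
    rw [qmap_trans, qcast_trans _ _ _ (hv (C.src i)).symm _, qmap_symm, qcast_symm, hedge]
    have : e (((Path.Homotopic.Quotient.mk (lam i)).symm).trans
        ((γ.map F1).cast (hv (C.src i)).symm (hv o').symm)) =
        e ((γ.map F1).cast (hv (C.src i)).symm (hv o').symm) *
          (e (Path.Homotopic.Quotient.mk (lam i)))⁻¹ := by
      rw [← map_inv, ← map_mul]; rfl
    rw [this, ih, hlam, TwoCx.wordOf, map_mul, mul_inv_rev, map_inv]

section construction

variable {B : Type} [TopologicalSpace B] {b₀ : B} (lam : C.E → Path b₀ b₀)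

open Classical in
/-- the function on the 1-skeleton -/
noncomputable def f1 (x : X) : B :=
  if h : ∃ (i : C.E) (s : I), s ∈ Iint ∧ x = C.e i s then lam h.choose h.choose_spec.choose else b₀

theorem f1_v (o : C.O) : f1 C lam (C.v o) = b₀ := by
  unfold f1
  rw [dif_neg]
  rintro ⟨i, s, hs, h⟩
  exact C.e_ne_v i s o hs h.symm

theorem f1_e (i : C.E) (s : I) : f1 C lam (C.e i s) = lam i s := by
  by_cases hs : s ∈ Iint
  · have h : ∃ (i' : C.E) (s' : I), s' ∈ Iint ∧ C.e i s = C.e i' s' := ⟨i, s, hs, rfl⟩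
    unfold f1
    rw [dif_pos h]
    have h1 := h.choose_spec.choose_spec
    obtain ⟨h2, h3⟩ := C.e_inj i h.choose s h.choose_spec.choose hs h1.1 h1.2
    rw [← h3]
    exact congrFun (congrArg (fun i => (lam i : I → B)) h2.symm) s
  · have hs' : s = 0 ∨ s = 1 := by
      by_contra hcon
      push Not at hcon
      exact hs ⟨unitInterval.pos_iff_ne_zero.mpr hcon.1, unitInterval.lt_one_iff_ne_one.mpr hcon.2⟩
    rcases hs' with rfl | rfl
    · rw [C.e_zero, f1_v, (lam i).source]
    · rw [C.e_one, f1_v, (lam i).target]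

theorem f1_continuous : Continuous (fun x : C.X1 => f1 C lam x.1) := by
  rw [continuous_iff_isClosed]
  intro A hA
  have h : IsClosed (Subtype.val '' ((fun x : C.X1 => f1 C lam x.1) ⁻¹' A)) := by
    apply C.closed1
    · rintro _ ⟨x, -, rfl⟩
      exact x.2
    · intro i
      have : (C.e i) ⁻¹' (Subtype.val '' ((fun x : C.X1 => f1 C lam x.1) ⁻¹' A)) =
          (lam i) ⁻¹' A := by
        ext s
        constructor
        · rintro ⟨x, hx, hxs⟩
          have : f1 C lam x.1 ∈ A := hx
          rw [hxs, f1_e] at this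
          exact this
        · intro hs
          refine ⟨⟨C.e i s, Or.inr ⟨i, s, rfl⟩⟩, ?_, rfl⟩
          change f1 C lam (C.e i s) ∈ A
          rw [f1_e]; exact hs
      rw [this]
      exact hA.preimage (lam i).continuous
  have h2 : (fun x : C.X1 => f1 C lam x.1) ⁻¹' A =
      Subtype.val ⁻¹' (Subtype.val '' ((fun x : C.X1 => f1 C lam x.1) ⁻¹' A)) := by
    rw [Set.preimage_image_eq _ Subtype.val_injective]
  rw [h2]
  exact h.preimage continuous_subtype_val

variable (G : C.J → C(I × I, B))

open Classical in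
/-- the function on the whole complex -/
noncomputable def f2 (x : X) : B :=
  if h : ∃ (j : C.J) (s : I × I), s ∈ Sint ∧ x = C.f j s then G h.choose h.choose_spec.choose
  else f1 C lam x

theorem f2_v (o : C.O) : f2 C lam G (C.v o) = b₀ := by
  unfold f2
  rw [dif_neg, f1_v]
  rintro ⟨j, s, hs, h⟩
  exact C.f_ne_v j s o hs h.symm

theorem f2_e (i : C.E) (s : I) : f2 C lam G (C.e i s) = lam i s := by
  unfold f2
  rw [dif_neg, f1_e]
  rintro ⟨j, s', hs, h⟩
  exact C.f_ne_e j s' i s hs h.symm

theorem f2_of_mem (x : X) (hx : x ∈ C.X1) : f2 C lam G x = f1 C lam x := by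
  rcases hx with ⟨o, rfl⟩ | ⟨i, s, rfl⟩
  · rw [f2_v, f1_v]
  · rw [f2_e, f1_e]

theorem f2_f (hG : ∀ j s, s ∉ Sint → G j s = f1 C lam (C.f j s)) (j : C.J) (s : I × I) :
    f2 C lam G (C.f j s) = G j s := by
  by_cases hs : s ∈ Sint
  · have h : ∃ (j' : C.J) (s' : I × I), s' ∈ Sint ∧ C.f j s = C.f j' s' := ⟨j, s, hs, rfl⟩
    unfold f2
    rw [dif_pos h]
    have h1 := h.choose_spec.choose_spec
    obtain ⟨h2, h3⟩ := C.f_inj j h.choose s h.choose_spec.choose hs h1.1 h1.2
    rw [← h3, ← h2]
  · rw [hG j s hs]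
    apply f2_of_mem
    exact C.f_bd j s hs

theorem f2_continuous (hG : ∀ j s, s ∉ Sint → G j s = f1 C lam (C.f j s)) :
    Continuous (f2 C lam G) := by
  rw [continuous_iff_isClosed]
  intro A hA
  apply C.closed2
  · intro i
    have : (C.e i) ⁻¹' (f2 C lam G ⁻¹' A) = (lam i) ⁻¹' A := by
      ext s
      change f2 C lam G (C.e i s) ∈ A ↔ lam i s ∈ A
      rw [f2_e]
    rw [this]
    exact hA.preimage (lam i).continuous
  · intro j
    have : (C.f j) ⁻¹' (f2 C lam G ⁻¹' A) = (G j) ⁻¹' A := by
      ext s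
      change f2 C lam G (C.f j s) ∈ A ↔ G j s ∈ A
      rw [f2_f C lam G hG]
    rw [this]
    exact hA.preimage (G j).continuous

end construction

/-- The classifying space property used in `out2_of`. -/
def ClsProp (Γ : Type) [Group Γ] : Prop :=
  ∃ (B : Type) (_ : TopologicalSpace B) (b₀ : B) (_ : FundamentalGroup B b₀ ≃* Γ),
    ∀ β : C({s : I × I // s ∉ Sint}, B),
      Path.Homotopic (TwoCx.bdS.map β.continuous) (Path.refl _) →
      ∃ F : C(I × I, B), ∀ s, F s.1 = β s

theorem out2_of (hcl : ∀ (Γ : Type) [Group Γ], ClsProp Γ) (D : C.RelData) : C.Out2 D := by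
  intro Γ _ ψ hψ o w γ hγ hnull
  obtain ⟨B, _, b₀, e, hB⟩ := hcl Γ
  -- the loops
  have hl : ∀ i : C.E, ∃ l : Path b₀ b₀,
      Path.Homotopic.Quotient.mk l = e.symm ((ψ (FreeGroup.of i))⁻¹) := fun i =>
    Path.Homotopic.Quotient.mk_surjective _
  choose lam hlam using hl
  have hlam' : ∀ i, e (Path.Homotopic.Quotient.mk (lam i)) = (ψ (FreeGroup.of i))⁻¹ := by
    intro i; rw [hlam i]; exact e.apply_symm_apply _
  let F1 : C(C.X1, B) := ⟨fun x => f1 C lam x.1, f1_continuous C lam⟩
  have hv : ∀ o, F1 (C.v1 o) = b₀ := fun o => f1_v C lam o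
  have hF : ∀ i s, F1 (C.e1 i s) = lam i s := fun i s => f1_e C lam i s
  -- extension over the 2-cells
  have hext : ∀ j : C.J, ∃ G : C(I × I, B), ∀ s : {s : I × I // s ∉ Sint},
      G s.1 = f1 C lam (C.f j s.1) := by
    intro j
    let β : C({s : I × I // s ∉ Sint}, B) :=
      ⟨fun s => F1 ⟨C.f j s.1, C.f_bd j s.1 s.2⟩, F1.continuous.comp (Continuous.subtype_mk
        ((C.f j).continuous.comp continuous_subtype_val) _)⟩
    have hβ : Path.Homotopic (TwoCx.bdS.map β.continuous) (Path.refl _) := by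
      have h1 := rep_val C e ψ F1 hv lam hF hlam' (D.rep j)
      rw [hψ j, inv_one] at h1
      have h2 : ((Path.Homotopic.Quotient.mk (((D.τ j).trans (C.bd1 j)).trans (D.τ j).symm)).map
          F1).cast (hv _).symm (hv _).symm = Path.Homotopic.Quotient.refl b₀ := by
        apply e.injective
        rw [h1]
        exact (map_one e).symm
      have h3 : (Path.Homotopic.Quotient.mk (((D.τ j).trans (C.bd1 j)).trans (D.τ j).symm)).map
          F1 = Path.Homotopic.Quotient.refl _ := by
        have := congrArg (fun q => Path.Homotopic.Quotient.cast q (hv (D.bo j)) (hv (D.bo j))) h2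
        simpa only [Path.Homotopic.Quotient.cast_cast, Path.Homotopic.Quotient.cast_rfl_rfl,
          qcast_refl] using this
      rw [Path.Homotopic.Quotient.mk_trans, Path.Homotopic.Quotient.mk_trans,
        Path.Homotopic.Quotient.mk_symm, qmap_trans, qmap_trans, qmap_symm] at h3
      have h4 := qcancel _ _ h3
      rw [← Path.Homotopic.Quotient.mk_map, ← Path.Homotopic.Quotient.mk_refl] at h4
      exact Path.Homotopic.Quotient.exact h4
    obtain ⟨G, hG⟩ := hB β hβ
    exact ⟨G, fun s => hG s⟩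
  choose G hG using hext
  have hG' : ∀ j s, s ∉ Sint → G j s = f1 C lam (C.f j s) := fun j s hs => hG j ⟨s, hs⟩
  let F : C(X, B) := ⟨f2 C lam G, f2_continuous C lam G hG'⟩
  have hFF1 : F.comp C.incl = F1 := by
    ext x
    exact f2_of_mem C lam G x.1 x.2
  have h1 := rep_val C e ψ F1 hv lam hF hlam' hγ
  have h2 : γ.map F1 = Path.Homotopic.Quotient.refl (F1 (C.v1 o)) := by
    rw [← hFF1, Path.Homotopic.Quotient.map_comp, hnull, qmap_refl]
    rfl
  rw [h2, qcast_refl] at h1
  have h3 : (ψ (C.wordOf w))⁻¹ = 1 := by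
    rw [← h1]
    exact map_one e
  exact inv_eq_one.mp h3

end Out2

/-- F6 (out2) -/
theorem out2 {X : Type} [TopologicalSpace X] (C : TwoCx X) (D : C.RelData) : C.Out2 D :=
  Out2.out2_of C (fun Γ _ => exists_classifying Γ) D

end Crest.Agent.R197
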