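import Mathlib
import Crest.Agent.R197.Defs

/-! Row 197, F10b: dual functionals give asphericity of a presentation. -/

set_option autoImplicit false

namespace Crest.Agent.R197

namespace DualAsph

section
variable {G : Type} [Group G]

/-- translate the first coordinate -/
noncomputable def tr (X : Type) (g : G) : (G × X →₀ ℤ) →ₗ[ℤ] (G × X →₀ ℤ) :=
  Finsupp.lmapDomain ℤ ℤ (fun p : G × X => (g * p.1, p.2))

theorem tr_single (X : Type) (g h : G) (x : X) (n : ℤ) :
    tr X g (Finsupp.single (h, x) n) = Finsupp.single (g * h, x) n := by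
  simp [tr, Finsupp.mapDomain_single]

theorem tr_one (X : Type) (c : G × X →₀ ℤ) : tr X (1 : G) c = c := by
  have : tr X (1 : G) = LinearMap.id := by
    apply Finsupp.lhom_ext
    rintro ⟨h, x⟩ n
    rw [tr_single, one_mul]; rfl
  rw [this]; rfl

theorem tr_mul (X : Type) (g h : G) (c : G × X →₀ ℤ) :
    tr X (g * h) c = tr X g (tr X h c) := by
  have : tr X (g * h) = (tr X g).comp (tr X h) := by
    apply Finsupp.lhom_ext
    rintro ⟨k, x⟩ n
    rw [tr_single, LinearMap.comp_apply, tr_single, tr_single, mul_assoc]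
  rw [this]; rfl

/-- the action of `G` on `Multiplicative` chains -/
noncomputable def trAut (X : Type) : G →* MulAut (Multiplicative (G × X →₀ ℤ)) where
  toFun g :=
    { toFun := fun m => Multiplicative.ofAdd (tr X g (Multiplicative.toAdd m))
      invFun := fun m => Multiplicative.ofAdd (tr X g⁻¹ (Multiplicative.toAdd m))
      left_inv := by
        intro m
        simp only [toAdd_ofAdd, ← tr_mul, inv_mul_cancel, tr_one, ofAdd_toAdd]
      right_inv := by
        intro m
        simp only [toAdd_ofAdd, ← tr_mul, mul_inv_cancel, tr_one, ofAdd_toAdd]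
      map_mul' := by
        intro a b
        simp only [toAdd_mul, map_add, ofAdd_add] }
  map_one' := by
    ext m
    simp only [MulEquiv.coe_mk, Equiv.coe_fn_mk, MulAut.one_apply, tr_one, ofAdd_toAdd]
  map_mul' := by
    intro a b
    ext m
    simp only [MulEquiv.coe_mk, Equiv.coe_fn_mk, MulAut.mul_apply, tr_mul, toAdd_ofAdd]

/-- Fox chains -/
theorem exists_fox {I : Type} (π : FreeGroup I →* G) :
    ∃ Φ : FreeGroup I → (G × I →₀ ℤ), (∀ a b, Φ (a * b) = Φ a + tr I (π a) (Φ b)) ∧
      ∀ i, Φ (FreeGroup.of i) = Finsupp.single (1, i) 1 := by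
  let f : FreeGroup I →* Multiplicative (G × I →₀ ℤ) ⋊[trAut I] G :=
    FreeGroup.lift (fun i => ⟨Multiplicative.ofAdd (Finsupp.single (1, i) 1), π (FreeGroup.of i)⟩)
  have hf : ∀ w, (f w).right = π w := by
    have : (SemidirectProduct.rightHom).comp f = π := by
      apply FreeGroup.ext_hom
      intro i
      simp [f]
    intro w
    exact DFunLike.congr_fun this w
  refine ⟨fun w => Multiplicative.toAdd (f w).left, ?_, ?_⟩
  · intro a b
    simp only [map_mul, SemidirectProduct.mul_left, toAdd_mul, hf]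
    rfl
  · intro i
    simp [f]

theorem cross_one {I : Type} {A : Type} [AddCommGroup A] (π : FreeGroup I →* G)
    (F : G → FreeGroup I → A) (h : ∀ g a b, F g (a * b) = F g a + F (g * π a) b) (g : G) :
    F g 1 = 0 := by
  have := h g 1 1
  simpa using this

theorem cross_inv {I : Type} {A : Type} [AddCommGroup A] (π : FreeGroup I →* G)
    (F : G → FreeGroup I → A) (h : ∀ g a b, F g (a * b) = F g a + F (g * π a) b) (g : G)
    (a : FreeGroup I) : F g a⁻¹ = - F (g * (π a)⁻¹) a := by
  have h1 := h (g * (π a)⁻¹) a a⁻¹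
  rw [mul_inv_cancel, cross_one π F h, inv_mul_cancel_right] at h1
  exact (neg_eq_of_add_eq_zero_right h1.symm).symm

theorem cross_unique {I : Type} {A : Type} [AddCommGroup A] (π : FreeGroup I →* G)
    (F F' : G → FreeGroup I → A) (h : ∀ g a b, F g (a * b) = F g a + F (g * π a) b)
    (h' : ∀ g a b, F' g (a * b) = F' g a + F' (g * π a) b)
    (hof : ∀ g i, F g (FreeGroup.of i) = F' g (FreeGroup.of i)) (w : FreeGroup I) :
    ∀ g, F g w = F' g w := by
  induction w using FreeGroup.induction_on with
  | C1 => intro g; rw [cross_one π F h, cross_one π F' h']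
  | of i => intro g; exact hof g i
  | inv_of i hi => intro g; rw [cross_inv π F h, cross_inv π F' h', hi]
  | mul a b ha hb => intro g; rw [h, h', ha, hb]

end

end DualAsph

open DualAsph

theorem asph_of_dual {G I R : Type} [Group G] (π : FreeGroup I →* G) (r : R → FreeGroup I)
    (hs : Function.Surjective π) (hk : π.ker = Subgroup.normalClosure (Set.range r))
    (hdual : ∀ S : Set (G × R), S.Finite → ∀ s₀ ∈ S, ∃ ev : G → FreeGroup I → ℂ,
      (∀ g a b, ev g (a * b) = ev g a + ev (g * π a) b) ∧ ev s₀.1 (r s₀.2) = 1 ∧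
      ∀ s ∈ S, s ≠ s₀ → ev s.1 (r s.2) = 0) : AsphericalPresentation G := by
  classical
  obtain ⟨Φ, hΦ, hΦi⟩ := exists_fox π
  have hΦ1 : Φ 1 = 0 := by
    have := hΦ 1 1
    simpa [tr_one] using this
  -- the boundary map on 2-chains
  let D : (G × R →₀ ℤ) →ₗ[ℤ] (G × I →₀ ℤ) :=
    Finsupp.linearCombination ℤ (fun s : G × R => tr I s.1 (Φ (r s.2)))
  have hD : ∀ s n, D (Finsupp.single s n) = n • tr I s.1 (Φ (r s.2)) := by
    intro s n
    simp only [D, Finsupp.linearCombination_single]
  -- evaluation
  have hev : ∀ ev : G → FreeGroup I → ℂ, (∀ g a b, ev g (a * b) = ev g a + ev (g * π a) b) →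
      ∀ w g, Finsupp.linearCombination ℤ (fun p : G × I => ev p.1 (FreeGroup.of p.2))
        (tr I g (Φ w)) = ev g w := by
    intro ev hev w
    apply cross_unique π (fun g w => Finsupp.linearCombination ℤ
      (fun p : G × I => ev p.1 (FreeGroup.of p.2)) (tr I g (Φ w))) ev _ hev
    · intro g i
      simp only [hΦi, tr_single, Finsupp.linearCombination_single, mul_one, one_smul]
    · intro g a b
      simp only [hΦ, map_add, tr_mul]
  have hDinj : ∀ c, D c = 0 → c = 0 := by
    intro c hc
    by_contra hne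
    obtain ⟨s₀, hs₀⟩ := Finsupp.support_nonempty_iff.mpr hne
    obtain ⟨ev, h1, h2, h3⟩ := hdual (c.support : Set (G × R)) (Finset.finite_toSet _) s₀
      (by simpa using hs₀)
    have h4 : Finsupp.linearCombination ℤ (fun p : G × I => ev p.1 (FreeGroup.of p.2)) (D c)
        = (c s₀ : ℂ) := by
      have hDc : D c = ∑ s ∈ c.support, c s • tr I s.1 (Φ (r s.2)) := by
        simp only [D, Finsupp.linearCombination_apply, Finsupp.sum]
      rw [hDc, map_sum]
      simp only [map_smul]
      rw [Finset.sum_eq_single s₀]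
      · rw [hev ev h1, h2]; simp
      · intro s hs hss
        rw [hev ev h1, h3 s (by simpa using hs) hss, smul_zero]
      · intro h
        exact absurd hs₀ h
    rw [hc, map_zero] at h4
    have : c s₀ = 0 := by exact_mod_cast h4.symm
    exact (Finsupp.mem_support_iff.mp hs₀) this
  have hDtr : ∀ g c, D (tr R g c) = tr I g (D c) := by
    intro g c
    have : D.comp (tr R g) = (tr I g).comp D := by
      apply Finsupp.lhom_ext
      rintro ⟨h, x⟩ n
      rw [LinearMap.comp_apply, LinearMap.comp_apply, tr_single, hD, hD, map_smul, tr_mul]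
    exact DFunLike.congr_fun this c
  have hπr : ∀ j, π (r j) = 1 := by
    intro j
    rw [← MonoidHom.mem_ker, hk]
    exact Subgroup.subset_normalClosure ⟨j, rfl⟩
  have hconj : ∀ w a, π a = 1 → Φ (w * a * w⁻¹) = tr I (π w) (Φ a) := by
    intro w a ha
    have h0 : Φ w + tr I (π w) (Φ w⁻¹) = 0 := by
      rw [← hΦ, mul_inv_cancel, hΦ1]
    rw [hΦ, hΦ, map_mul, ha, mul_one]
    rw [add_right_comm, h0, zero_add]
  -- kernel elements have chains in the range of `D`
  have hker : ∀ k, π k = 1 → ∃ c, D c = Φ k := by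
    intro k hk1
    let N : Subgroup (FreeGroup I) :=
      { carrier := {k | π k = 1 ∧ ∃ c, D c = Φ k}
        one_mem' := ⟨map_one _, 0, by rw [map_zero, hΦ1]⟩
        mul_mem' := by
          rintro a b ⟨ha, c, hc⟩ ⟨hb, d, hd⟩
          refine ⟨by rw [map_mul, ha, hb, one_mul], c + d, ?_⟩
          rw [map_add, hc, hd, hΦ, ha, tr_one]
        inv_mem' := by
          rintro a ⟨ha, c, hc⟩
          refine ⟨by rw [map_inv, ha, inv_one], -c, ?_⟩
          have h0 : Φ a + Φ a⁻¹ = 0 := by
            have := hΦ a a⁻¹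
            rw [mul_inv_cancel, hΦ1, ha, tr_one] at this
            exact this.symm
          rw [map_neg, hc]
          exact neg_eq_of_add_eq_zero_right h0 }
    have hN : N.Normal := ⟨by
      rintro a ⟨ha, c, hc⟩ w
      refine ⟨by rw [map_mul, map_mul, ha, mul_one, map_inv, mul_inv_cancel], tr R (π w) c, ?_⟩
      rw [hDtr, hc, hconj w a ha]⟩
    have hle : Subgroup.normalClosure (Set.range r) ≤ N := by
      apply Subgroup.normalClosure_le_normal
      rintro _ ⟨j, rfl⟩
      exact ⟨hπr j, Finsupp.single (1, j) 1, by rw [hD, one_smul, tr_one]⟩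
    exact (hle (hk ▸ (MonoidHom.mem_ker.mpr hk1))).2
  refine ⟨I, R, π, r, hs, hk, ?_⟩
  intro V _ _ v
  let T : (G × R →₀ ℤ) →ₗ[ℤ] V := Finsupp.linearCombination ℤ (fun s : G × R => s.1 • v s.2)
  have hT : ∀ s n, T (Finsupp.single s n) = n • (s.1 • v s.2) := by
    intro s n
    simp only [T, Finsupp.linearCombination_single]
  have hTtr : ∀ (g : G) c, T (tr R g c) = g • T c := by
    intro g c
    induction c using Finsupp.induction_linear with
    | zero => simp
    | add c d hc hd => rw [map_add, map_add, map_add, hc, hd, smul_add]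
    | single s n =>
      obtain ⟨h, x⟩ := s
      rw [tr_single, hT, hT, mul_smul, smul_comm g n]
  let s : FreeGroup I → V := fun w => if h : ∃ c, D c = Φ w then T h.choose else 0
  have hsT : ∀ w c, D c = Φ w → s w = T c := by
    intro w c hc
    have h : ∃ c, D c = Φ w := ⟨c, hc⟩
    have h' : s w = T h.choose := by simp only [s]; exact dif_pos h
    rw [h']
    congr 1
    have := hDinj (h.choose - c) (by rw [map_sub, h.choose_spec, hc, sub_self])
    exact sub_eq_zero.mp this
  refine ⟨s, ?_, ?_, ?_⟩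
  · intro a b ha hb
    obtain ⟨c, hc⟩ := hker a ha
    obtain ⟨d, hd⟩ := hker b hb
    rw [hsT a c hc, hsT b d hd, hsT (a * b) (c + d) (by rw [map_add, hc, hd, hΦ, ha, tr_one]),
      map_add]
  · intro w a ha
    obtain ⟨c, hc⟩ := hker a ha
    rw [hsT a c hc, hsT (w * a * w⁻¹) (tr R (π w) c) (by rw [hDtr, hc, hconj w a ha]), hTtr]
  · intro j
    rw [hsT (r j) (Finsupp.single (1, j) 1) (by rw [hD, one_smul, tr_one]), hT, one_smul, one_smul]

end Crest.Agent.R197
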