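import Mathlib
import Crest.Agent.R197.Defs
import Crest.Agent.R197.CW2Defs
import Crest.Agent.R197.DualAsph

/-! Row 197, F10a: from the three topological outputs to an aspherical presentation. -/

set_option autoImplicit false

open scoped unitInterval

namespace Crest.Agent.R197

noncomputable section

namespace OutsPres

/-! ### crossed homomorphisms on free groups -/
section crossed
variable {G Idx : Type} [Group G]

/-- right translation action of `G` on functions `G → ℂ` -/
def rtr : G →* MulAut (Multiplicative (G → ℂ)) where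
  toFun g :=
    { toFun := fun f => Multiplicative.ofAdd (fun h => f.toAdd (h * g))
      invFun := fun f => Multiplicative.ofAdd (fun h => f.toAdd (h * g⁻¹))
      left_inv := fun f => by ext h; simp
      right_inv := fun f => by ext h; simp
      map_mul' := fun f f' => by ext h; simp }
  map_one' := by ext f h; simp
  map_mul' a b := by ext f h; simp [mul_assoc]

theorem rtr_apply (g : G) (f : Multiplicative (G → ℂ)) (h : G) :
    (rtr g f).toAdd h = f.toAdd (h * g) := rfl

variable (π : FreeGroup Idx →* G) (a : G → Idx → ℂ)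

def evHom : FreeGroup Idx →* Multiplicative (G → ℂ) ⋊[rtr] G :=
  FreeGroup.lift (fun i => ⟨Multiplicative.ofAdd (fun g => a g i), π (FreeGroup.of i)⟩)

theorem evHom_right (w : FreeGroup Idx) : (evHom π a w).right = π w := by
  have : SemidirectProduct.rightHom.comp (evHom π a) = π := by
    apply FreeGroup.ext_hom
    intro i
    simp [evHom]
  exact DFunLike.congr_fun this w

/-- crossed homomorphism with prescribed values on generators -/
def ev (g : G) (w : FreeGroup Idx) : ℂ := (evHom π a w).left.toAdd g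

theorem ev_of (g : G) (i : Idx) : ev π a g (FreeGroup.of i) = a g i := by
  simp [ev, evHom]

theorem ev_mul (g : G) (x y : FreeGroup Idx) :
    ev π a g (x * y) = ev π a g x + ev π a (g * π x) y := by
  simp only [ev, map_mul, SemidirectProduct.mul_left, toAdd_mul, Pi.add_apply, rtr_apply,
    evHom_right]

theorem ev_one (g : G) : ev π a g 1 = 0 := by
  have h := ev_mul π a g 1 1
  simp only [mul_one, map_one] at h
  simpa using h

theorem ev_inv (g : G) (x : FreeGroup Idx) : ev π a g x⁻¹ = - ev π a (g * (π x)⁻¹) x := by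
  have h := ev_mul π a g x⁻¹ x
  rw [inv_mul_cancel, ev_one, map_inv] at h
  exact eq_neg_of_add_eq_zero_left h.symm

end crossed

variable {X : Type} [TopologicalSpace X] (C : TwoCx X)

/-! ### API for `Rep` and `wordOf` -/

theorem wordOf_append (w w' : C.Wd) : C.wordOf (w ++ w') = C.wordOf w * C.wordOf w' := by
  induction w with
  | nil => simp [TwoCx.wordOf]
  | cons l w ih =>
    obtain ⟨i, b⟩ := l
    cases b <;> simp [TwoCx.wordOf, ih, mul_assoc]

variable {C}

theorem rep_append {o o' o'' : C.O} {w w' : C.Wd} {γ : Path.Homotopic.Quotient (C.v1 o) (C.v1 o')}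
    {γ' : Path.Homotopic.Quotient (C.v1 o') (C.v1 o'')} (h : C.Rep o o' w γ) (h' : C.Rep o' o'' w' γ') :
    C.Rep o o'' (w ++ w') (γ.trans γ') := by
  induction h with
  | nil o => simpa using h'
  | fwd i o' w γ h ih =>
    rw [Path.Homotopic.Quotient.trans_assoc]
    exact TwoCx.Rep.fwd i _ _ _ (ih h')
  | bwd i o' w γ h ih =>
    rw [Path.Homotopic.Quotient.trans_assoc]
    exact TwoCx.Rep.bwd i _ _ _ (ih h')

theorem q_symm_trans {a b c : X} (γ : Path.Homotopic.Quotient a b) (δ : Path.Homotopic.Quotient b c) :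
    (γ.trans δ).symm = δ.symm.trans γ.symm := by
  have h : (γ.trans δ).symm.trans (γ.trans δ) = Path.Homotopic.Quotient.refl c := Path.Homotopic.Quotient.symm_trans _
  calc (γ.trans δ).symm = (γ.trans δ).symm.trans ((γ.trans δ).trans (δ.symm.trans γ.symm)) := by
        rw [Path.Homotopic.Quotient.trans_assoc, ← Path.Homotopic.Quotient.trans_assoc δ, Path.Homotopic.Quotient.trans_symm,
          Path.Homotopic.Quotient.refl_trans, Path.Homotopic.Quotient.trans_symm, Path.Homotopic.Quotient.trans_refl]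
    _ = δ.symm.trans γ.symm := by rw [← Path.Homotopic.Quotient.trans_assoc, h, Path.Homotopic.Quotient.refl_trans]

theorem q_symm_symm {a b : X} (γ : Path.Homotopic.Quotient a b) : γ.symm.symm = γ := by
  calc γ.symm.symm = γ.symm.symm.trans (γ.symm.trans γ) := by
        rw [Path.Homotopic.Quotient.symm_trans, Path.Homotopic.Quotient.trans_refl]
    _ = γ := by rw [← Path.Homotopic.Quotient.trans_assoc, Path.Homotopic.Quotient.symm_trans, Path.Homotopic.Quotient.refl_trans]

theorem q_symm_refl (a : X) : (Path.Homotopic.Quotient.refl a).symm = Path.Homotopic.Quotient.refl a := by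
  calc (Path.Homotopic.Quotient.refl a).symm = (Path.Homotopic.Quotient.refl a).symm.trans (Path.Homotopic.Quotient.refl a) := by
        rw [Path.Homotopic.Quotient.trans_refl]
    _ = _ := Path.Homotopic.Quotient.symm_trans _

theorem exists_rep_symm {o o' : C.O} {w : C.Wd} {γ : Path.Homotopic.Quotient (C.v1 o) (C.v1 o')}
    (h : C.Rep o o' w γ) : ∃ w' : C.Wd, C.Rep o' o w' γ.symm ∧ C.wordOf w' = (C.wordOf w)⁻¹ := by
  induction h with
  | nil o => exact ⟨[], by rw [q_symm_refl]; exact TwoCx.Rep.nil o, by simp [TwoCx.wordOf]⟩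
  | fwd i o' w γ h ih =>
    obtain ⟨w', h1, h2⟩ := ih
    have h3 := TwoCx.Rep.bwd (C := C) i _ _ _ (TwoCx.Rep.nil (C.src i))
    refine ⟨w' ++ [(i, false)], ?_, ?_⟩
    · rw [q_symm_trans]
      have h4 := rep_append h1 h3
      rwa [Path.Homotopic.Quotient.trans_refl] at h4
    · rw [wordOf_append, h2]
      simp [TwoCx.wordOf]
  | bwd i o' w γ h ih =>
    obtain ⟨w', h1, h2⟩ := ih
    have h3 := TwoCx.Rep.fwd (C := C) i _ _ _ (TwoCx.Rep.nil (C.tgt i))
    refine ⟨w' ++ [(i, true)], ?_, ?_⟩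
    · rw [q_symm_trans, q_symm_symm]
      have h4 := rep_append h1 h3
      rwa [Path.Homotopic.Quotient.trans_refl] at h4
    · rw [wordOf_append, h2]
      simp [TwoCx.wordOf]

theorem q_map_trans {Y Z : Type*} [TopologicalSpace Y] [TopologicalSpace Z] (f : C(Y, Z))
    {a b c : Y} (γ : Path.Homotopic.Quotient a b) (δ : Path.Homotopic.Quotient b c) :
    (γ.trans δ).map f = (γ.map f).trans (δ.map f) := by
  induction γ using Path.Homotopic.Quotient.ind with | mk γ =>
  induction δ using Path.Homotopic.Quotient.ind with | mk δ =>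
  rw [← Path.Homotopic.Quotient.mk_trans, ← Path.Homotopic.Quotient.mk_map, ← Path.Homotopic.Quotient.mk_map, ← Path.Homotopic.Quotient.mk_map,
    ← Path.Homotopic.Quotient.mk_trans, Path.map_trans]

theorem q_map_symm {Y Z : Type*} [TopologicalSpace Y] [TopologicalSpace Z] (f : C(Y, Z))
    {a b : Y} (γ : Path.Homotopic.Quotient a b) :
    (γ.symm).map f = (γ.map f).symm := by
  induction γ using Path.Homotopic.Quotient.ind with | mk γ =>
  rw [← Path.Homotopic.Quotient.mk_symm, ← Path.Homotopic.Quotient.mk_map, ← Path.Homotopic.Quotient.mk_map, ← Path.Homotopic.Quotient.mk_symm, Path.map_symm]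

theorem q_map_refl {Y Z : Type*} [TopologicalSpace Y] [TopologicalSpace Z] (f : C(Y, Z))
    (a : Y) : (Path.Homotopic.Quotient.refl a).map f = Path.Homotopic.Quotient.refl (f a) := by
  rw [← Path.Homotopic.Quotient.mk_refl, ← Path.Homotopic.Quotient.mk_map, ← Path.Homotopic.Quotient.mk_refl]
  rfl

theorem map_e1 (i : C.E) : (Path.Homotopic.Quotient.mk (C.e1 i)).map C.incl = Path.Homotopic.Quotient.mk (C.eX i) := by
  rw [← Path.Homotopic.Quotient.mk_map]
  rfl

/-! ### groupoid identities -/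

theorem q_cancel1 {a b c : X} (γ : Path.Homotopic.Quotient a b) (δ : Path.Homotopic.Quotient b c) :
    γ.symm.trans (γ.trans δ) = δ := by
  rw [← Path.Homotopic.Quotient.trans_assoc, Path.Homotopic.Quotient.symm_trans,
    Path.Homotopic.Quotient.refl_trans]

theorem q_cancel2 {a b c : X} (γ : Path.Homotopic.Quotient a b) (δ : Path.Homotopic.Quotient a c) :
    γ.trans (γ.symm.trans δ) = δ := by
  rw [← Path.Homotopic.Quotient.trans_assoc, Path.Homotopic.Quotient.trans_symm,
    Path.Homotopic.Quotient.refl_trans]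

/-- the boundary loop of a two-cell is null-homotopic in `X` -/
theorem bd_null (j : C.J) :
    (Path.Homotopic.Quotient.mk (C.bd1 j)).map C.incl =
      Path.Homotopic.Quotient.refl (C.incl (C.c1 j)) := by
  have : ContractibleSpace I := (convex_Icc (0 : ℝ) 1).contractibleSpace ⟨0, by simp⟩
  have h : (TwoCx.bdSq).Homotopic (Path.refl _) := SimplyConnectedSpace.paths_homotopic _ _
  have h2 := h.map (C.f j)
  have h3 := Path.Homotopic.Quotient.eq.mpr h2
  exact h3

theorem rep_null (D : C.RelData) (j : C.J) :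
    (Path.Homotopic.Quotient.mk (((D.τ j).trans (C.bd1 j)).trans (D.τ j).symm)).map C.incl =
      Path.Homotopic.Quotient.refl (C.incl (C.v1 (D.bo j))) := by
  rw [Path.Homotopic.Quotient.mk_trans, Path.Homotopic.Quotient.mk_trans, q_map_trans, q_map_trans,
    bd_null, Path.Homotopic.Quotient.mk_symm, q_map_symm, Path.Homotopic.Quotient.trans_refl,
    Path.Homotopic.Quotient.trans_symm]

/-! ### mapping classes of the one-skeleton to `X` -/

/-- image in `X` of a class of paths in the 1-skeleton between vertices -/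
def mp {o o' : C.O} (γ : Path.Homotopic.Quotient (C.v1 o) (C.v1 o')) :
    Path.Homotopic.Quotient (C.v o) (C.v o') := γ.map C.incl

/-- class of an edge -/
def ce (i : C.E) : Path.Homotopic.Quotient (C.v (C.src i)) (C.v (C.tgt i)) :=
  Path.Homotopic.Quotient.mk (C.eX i)

theorem mp_refl (o : C.O) :
    mp (Path.Homotopic.Quotient.refl (C.v1 o)) = Path.Homotopic.Quotient.refl (C.v o) :=
  q_map_refl C.incl (C.v1 o)

theorem mp_trans {o o' o'' : C.O} (γ : Path.Homotopic.Quotient (C.v1 o) (C.v1 o'))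
    (δ : Path.Homotopic.Quotient (C.v1 o') (C.v1 o'')) : mp (γ.trans δ) = (mp γ).trans (mp δ) :=
  q_map_trans C.incl γ δ

theorem mp_symm {o o' : C.O} (γ : Path.Homotopic.Quotient (C.v1 o) (C.v1 o')) :
    mp γ.symm = (mp γ).symm :=
  q_map_symm C.incl γ

theorem mp_e1 (i : C.E) : mp (Path.Homotopic.Quotient.mk (C.e1 i)) = ce i := map_e1 i

/-! ### choice of edge words for all vertices -/

structure Tree (C : TwoCx X) (o₀ : C.O) where
  t : C.O → C.Wd
  γ : ∀ u, Path.Homotopic.Quotient (C.v1 o₀) (C.v1 u)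
  rep : ∀ u, C.Rep o₀ u (t u) (γ u)
  t₀ : t o₀ = []
  γ₀ : γ o₀ = Path.Homotopic.Quotient.refl _

theorem exists_tree [PathConnectedSpace X] (o₀ : C.O) (h1 : C.Out1) : Nonempty (Tree C o₀) := by
  have h : ∀ u, ∃ (w : C.Wd) (γ : Path.Homotopic.Quotient (C.v1 o₀) (C.v1 u)),
      C.Rep o₀ u w γ ∧ (u = o₀ → w = []) := by
    intro u
    by_cases hu : u = o₀
    · subst hu
      exact ⟨[], _, TwoCx.Rep.nil u, fun _ => rfl⟩
    · obtain ⟨w, γ, h2, -⟩ := h1 o₀ u
        (Path.Homotopic.Quotient.mk (PathConnectedSpace.somePath _ _))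
      exact ⟨w, γ, h2, fun h => absurd h hu⟩
  choose t γ h2 h3 using h
  refine ⟨⟨t, γ, h2, h3 o₀ rfl, ?_⟩⟩
  have h4 := h2 o₀
  rw [h3 o₀ rfl] at h4
  generalize γ o₀ = δ at h4
  cases h4
  rfl

namespace Tree
variable {o₀ : C.O} (T : Tree C o₀)

/-- classes in `X` -/
def c (u : C.O) : Path.Homotopic.Quotient (C.v o₀) (C.v u) := mp (T.γ u)

theorem c₀ : T.c o₀ = Path.Homotopic.Quotient.refl _ := by
  unfold c
  rw [T.γ₀, mp_refl]

/-- the loop corresponding to a path -/
def lp {o o' : C.O} (γ : Path.Homotopic.Quotient (C.v o) (C.v o')) :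
    FundamentalGroup X (C.v o₀) := ((T.c o).trans (γ.trans (T.c o').symm)).symm

theorem lp_refl (o : C.O) : T.lp (Path.Homotopic.Quotient.refl (C.v o)) = 1 := by
  unfold lp
  rw [Path.Homotopic.Quotient.refl_trans, Path.Homotopic.Quotient.trans_symm, q_symm_refl]
  rfl

theorem lp_trans {o o' o'' : C.O} (γ : Path.Homotopic.Quotient (C.v o) (C.v o'))
    (δ : Path.Homotopic.Quotient (C.v o') (C.v o'')) :
    T.lp (γ.trans δ) = T.lp γ * T.lp δ := by
  rw [FundamentalGroup.mul_def]
  unfold lp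
  rw [← q_symm_trans]
  simp only [Path.Homotopic.Quotient.trans_assoc, q_cancel1]

theorem lp_symm {o o' : C.O} (γ : Path.Homotopic.Quotient (C.v o) (C.v o')) :
    T.lp γ.symm = (T.lp γ)⁻¹ := by
  have h := T.lp_trans γ.symm γ
  rw [Path.Homotopic.Quotient.symm_trans, lp_refl] at h
  exact (inv_eq_of_mul_eq_one_left h.symm).symm

theorem lp_inj {o o' : C.O} {γ δ : Path.Homotopic.Quotient (C.v o) (C.v o')}
    (h : T.lp γ = T.lp δ) : γ = δ := by
  unfold lp at h
  have h2 : (T.c o).trans (γ.trans (T.c o').symm) = (T.c o).trans (δ.trans (T.c o').symm) := by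
    rw [← q_symm_symm ((T.c o).trans (γ.trans (T.c o').symm)), h, q_symm_symm]
  have h3 := congrArg (fun z => (T.c o).symm.trans (z.trans (T.c o'))) h2
  simpa only [Path.Homotopic.Quotient.trans_assoc, q_cancel1,
    Path.Homotopic.Quotient.symm_trans, Path.Homotopic.Quotient.trans_refl] using h3

theorem lp_loop (γ : FundamentalGroup X (C.v o₀)) :
    T.lp (o := o₀) (o' := o₀) (FundamentalGroup.toPath γ).symm = γ := by
  unfold lp
  rw [c₀, q_symm_refl, Path.Homotopic.Quotient.trans_refl, Path.Homotopic.Quotient.refl_trans,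
    q_symm_symm]

theorem lp_c (u : C.O) : T.lp (T.c u) = 1 := by
  unfold lp
  rw [c₀, Path.Homotopic.Quotient.trans_symm, Path.Homotopic.Quotient.trans_refl, q_symm_refl]
  rfl

/-- the homomorphism of the presentation (inverted because of the conventions in Mathlib) -/
noncomputable def π : FreeGroup C.E →* FundamentalGroup X (C.v o₀) :=
  FreeGroup.lift (fun i => T.lp (ce i))

theorem π_of (i : C.E) : T.π (FreeGroup.of i) = T.lp (ce i) := by
  simp only [π, FreeGroup.lift_apply_of]

theorem π_rep {o o' : C.O} {w : C.Wd} {γ : Path.Homotopic.Quotient (C.v1 o) (C.v1 o')}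
    (h : C.Rep o o' w γ) : T.π (C.wordOf w) = T.lp (mp γ) := by
  induction h with
  | nil o => rw [TwoCx.wordOf, map_one, mp_refl, lp_refl]
  | fwd i o' w γ h ih =>
    rw [TwoCx.wordOf, map_mul, ih, π_of, mp_trans, mp_e1, lp_trans]
  | bwd i o' w γ h ih =>
    rw [TwoCx.wordOf, map_mul, ih, map_inv, π_of, mp_trans, mp_symm, mp_e1, lp_trans, lp_symm]

theorem π_t (u : C.O) : T.π (C.wordOf (T.t u)) = 1 := by
  rw [T.π_rep (T.rep u)]
  exact T.lp_c u

theorem π_w (D : C.RelData) (j : C.J) : T.π (C.wordOf (D.w j)) = 1 := by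
  rw [T.π_rep (D.rep j), ← T.lp_refl (D.bo j)]
  congr 1
  exact rep_null D j

theorem π_surj (h1 : C.Out1) : Function.Surjective T.π := by
  intro g
  obtain ⟨w, γ, h2, h3⟩ := h1 o₀ o₀ (FundamentalGroup.toPath g).symm
  refine ⟨C.wordOf w, ?_⟩
  rw [T.π_rep h2]
  have h4 : mp γ = (FundamentalGroup.toPath g).symm := h3
  rw [h4, lp_loop]

/-- the relators -/
def r (D : C.RelData) : C.J ⊕ {u : C.O // u ≠ o₀} → FreeGroup C.E
  | Sum.inl j => C.wordOf (D.w j)
  | Sum.inr u => C.wordOf (T.t u)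

theorem r_ker (D : C.RelData) (z : C.J ⊕ {u : C.O // u ≠ o₀}) : T.π (T.r D z) = 1 := by
  rcases z with j | u
  · exact T.π_w D j
  · exact T.π_t u

theorem exists_edge_loop {Γ : Type} [Group Γ] (ψ : FreeGroup C.E →* Γ)
    (hψ : ∀ u, ψ (C.wordOf (T.t u)) = 1) (x : FreeGroup C.E) :
    ∃ (w : C.Wd) (γ : Path.Homotopic.Quotient (C.v1 o₀) (C.v1 o₀)), C.Rep o₀ o₀ w γ ∧
      ψ (C.wordOf w) = ψ x ∧ T.lp (mp γ) = T.π x := by
  induction x using FreeGroup.induction_on with
  | C1 =>
    exact ⟨[], _, TwoCx.Rep.nil o₀, rfl, by rw [mp_refl, lp_refl, map_one]⟩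
  | of i =>
    obtain ⟨w', h1, h2⟩ := exists_rep_symm (T.rep (C.tgt i))
    have h3 := rep_append (T.rep (C.src i)) (TwoCx.Rep.fwd i _ _ _ h1)
    refine ⟨_, _, h3, ?_, ?_⟩
    · rw [wordOf_append, TwoCx.wordOf, h2]
      simp [hψ]
    · rw [mp_trans, mp_trans, mp_symm, mp_e1, lp_trans, lp_trans, lp_symm]
      have h4 := T.lp_c (C.src i)
      have h5 := T.lp_c (C.tgt i)
      unfold c at h4 h5
      rw [h4, h5, π_of, inv_one, mul_one, one_mul]
  | inv_of i ih =>
    obtain ⟨w, γ, h1, h2, h3⟩ := ih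
    obtain ⟨w', h4, h5⟩ := exists_rep_symm h1
    refine ⟨w', _, h4, ?_, ?_⟩
    · rw [h5, map_inv, h2, map_inv]
    · rw [mp_symm, lp_symm, h3, map_inv]
  | mul x y ihx ihy =>
    obtain ⟨w, γ, h1, h2, h3⟩ := ihx
    obtain ⟨w', γ', h1', h2', h3'⟩ := ihy
    refine ⟨_, _, rep_append h1 h1', ?_, ?_⟩
    · rw [wordOf_append, map_mul, map_mul, h2, h2']
    · rw [mp_trans, lp_trans, h3, h3', map_mul]

theorem ker_eq (D : C.RelData) (h2 : C.Out2 D) :
    T.π.ker = Subgroup.normalClosure (Set.range (T.r D)) := by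
  apply le_antisymm
  · intro x hx
    have hx : T.π x = 1 := hx
    let N := Subgroup.normalClosure (Set.range (T.r D))
    let ψ : FreeGroup C.E →* FreeGroup C.E ⧸ N := QuotientGroup.mk' N
    have hψr : ∀ z, ψ (T.r D z) = 1 := fun z =>
      (QuotientGroup.eq_one_iff _).mpr (Subgroup.subset_normalClosure ⟨z, rfl⟩)
    have hψt : ∀ u, ψ (C.wordOf (T.t u)) = 1 := by
      intro u
      by_cases hu : u = o₀
      · rw [hu, T.t₀]
        exact map_one ψ
      · exact hψr (Sum.inr ⟨u, hu⟩)
    obtain ⟨w, γ, h3, h4, h5⟩ := T.exists_edge_loop ψ hψt x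
    have h6 : mp γ = Path.Homotopic.Quotient.refl _ := by
      apply T.lp_inj
      rw [h5, hx, lp_refl]
    have h7 := h2 _ ψ (fun j => hψr (Sum.inl j)) o₀ w γ h3 h6
    rw [h4] at h7
    exact (QuotientGroup.eq_one_iff x).mp h7
  · apply Subgroup.normalClosure_le_normal
    rintro _ ⟨z, rfl⟩
    exact T.r_ker D z

/-! ### dual functionals -/

/-- translate of the tree path to `u` by `g` -/
def tr (g : FundamentalGroup X (C.v o₀)) (u : C.O) : Path.Homotopic.Quotient (C.v o₀) (C.v u) :=
  (FundamentalGroup.toPath g).symm.trans (T.c u)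

theorem tr_lp (g : FundamentalGroup X (C.v o₀)) {o o' : C.O}
    (γ : Path.Homotopic.Quotient (C.v o) (C.v o')) :
    T.tr (g * T.lp γ) o' = (T.tr g o).trans γ := by
  unfold tr
  rw [FundamentalGroup.mul_def]
  unfold lp
  delta FundamentalGroup.toPath
  simp only [FundamentalGroup.toArrow]
  rw [q_symm_trans, q_symm_symm]
  simp only [Path.Homotopic.Quotient.trans_assoc, Path.Homotopic.Quotient.symm_trans,
    Path.Homotopic.Quotient.trans_refl]

theorem tr_inj {g g' : FundamentalGroup X (C.v o₀)} {u : C.O} (h : T.tr g u = T.tr g' u) :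
    g = g' := by
  unfold tr at h
  have h2 := congrArg (fun z => (z.trans (T.c u).symm).symm) h
  simpa only [Path.Homotopic.Quotient.trans_assoc, Path.Homotopic.Quotient.trans_symm,
    Path.Homotopic.Quotient.trans_refl, q_symm_symm] using h2

/-- the element moving the tree path to a given path -/
def el {u : C.O} (d : Path.Homotopic.Quotient (C.v o₀) (C.v u)) : FundamentalGroup X (C.v o₀) :=
  (d.trans (T.c u).symm).symm

theorem el_tr (g : FundamentalGroup X (C.v o₀)) (u : C.O) : T.el (T.tr g u) = g := by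
  unfold el tr
  rw [Path.Homotopic.Quotient.trans_assoc, Path.Homotopic.Quotient.trans_symm,
    Path.Homotopic.Quotient.trans_refl, q_symm_symm]

section functionals
variable (κ : ∀ i : C.E, Path.Homotopic.Quotient (C.v o₀) (C.v (C.src i)) → ℂ)

/-- crossed homomorphism defined by a cochain -/
def evk (g : FundamentalGroup X (C.v o₀)) (x : FreeGroup C.E) : ℂ :=
  ev T.π (fun g i => κ i (T.tr g (C.src i))) g x

theorem evk_Ev {o : C.O} {d : Path.Homotopic.Quotient (C.v o₀) (C.v o)} {w : C.Wd} {z : ℂ}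
    (h : C.Ev o₀ κ o d w z) : ∀ g : FundamentalGroup X (C.v o₀), d = T.tr g o →
    T.evk κ g (C.wordOf w) = z := by
  induction h with
  | nil o c => intro g _; exact ev_one _ _ _
  | fwd i c w z h ih =>
    intro g hg
    unfold evk at ih ⊢
    rw [TwoCx.wordOf, ev_mul, ev_of, ih, ← hg]
    rw [hg, π_of, tr_lp]
    rfl
  | bwd i c w z h ih =>
    intro g hg
    unfold evk at ih ⊢
    have h1 : T.tr (g * T.π (FreeGroup.of i)⁻¹) (C.src i) = c.trans (ce i).symm := by
      rw [map_inv, π_of, ← lp_symm, tr_lp, hg]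
    rw [TwoCx.wordOf, ev_mul, ev_inv, ev_of, ih _ (by rw [h1]; rfl), ← map_inv, h1]
    rfl

end functionals

/-- coboundary of a vertex cochain -/
def dχ (χ : ∀ u : C.O, Path.Homotopic.Quotient (C.v o₀) (C.v u) → ℂ) :
    ∀ i : C.E, Path.Homotopic.Quotient (C.v o₀) (C.v (C.src i)) → ℂ :=
  fun i d => χ (C.tgt i) (d.trans (ce i)) - χ (C.src i) d

theorem evk_dχ (χ : ∀ u : C.O, Path.Homotopic.Quotient (C.v o₀) (C.v u) → ℂ) {o o' : C.O}
    {w : C.Wd} {γ : Path.Homotopic.Quotient (C.v1 o) (C.v1 o')} (h : C.Rep o o' w γ) :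
    ∀ g : FundamentalGroup X (C.v o₀), T.evk (dχ χ) g (C.wordOf w) =
      χ o' ((T.tr g o).trans (mp γ)) - χ o (T.tr g o) := by
  induction h with
  | nil o =>
    intro g
    rw [mp_refl, Path.Homotopic.Quotient.trans_refl, sub_self]
    exact ev_one _ _ _
  | fwd i o' w γ h ih =>
    intro g
    unfold evk at ih ⊢
    rw [TwoCx.wordOf, ev_mul, ev_of, ih, π_of, tr_lp, mp_trans, mp_e1, dχ,
      Path.Homotopic.Quotient.trans_assoc]
    ring
  | bwd i o' w γ h ih =>
    intro g
    unfold evk at ih ⊢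
    have h1 : T.tr (g * T.π (FreeGroup.of i)⁻¹) (C.src i) = (T.tr g (C.tgt i)).trans (ce i).symm := by
      rw [map_inv, π_of, ← lp_symm, tr_lp]
    rw [TwoCx.wordOf, ev_mul, ev_inv, ev_of, ih, ← map_inv, h1, mp_trans, mp_symm, mp_e1, dχ,
      Path.Homotopic.Quotient.trans_assoc, Path.Homotopic.Quotient.trans_assoc,
      Path.Homotopic.Quotient.symm_trans, Path.Homotopic.Quotient.trans_refl]
    ring

theorem evk_mul (κ : ∀ i : C.E, Path.Homotopic.Quotient (C.v o₀) (C.v (C.src i)) → ℂ)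
    (g : FundamentalGroup X (C.v o₀)) (x y : FreeGroup C.E) :
    T.evk κ g (x * y) = T.evk κ g x + T.evk κ (g * T.π x) y := ev_mul _ _ _ _ _

theorem dual (D : C.RelData) (h3 : C.Out3 D o₀)
    (S : Set (FundamentalGroup X (C.v o₀) × (C.J ⊕ {u : C.O // u ≠ o₀}))) (hS : S.Finite)
    (s₀ : FundamentalGroup X (C.v o₀) × (C.J ⊕ {u : C.O // u ≠ o₀})) (hs₀ : s₀ ∈ S) :
    ∃ ev : FundamentalGroup X (C.v o₀) → FreeGroup C.E → ℂ,
      (∀ g a b, ev g (a * b) = ev g a + ev (g * T.π a) b) ∧ ev s₀.1 (T.r D s₀.2) = 1 ∧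
      ∀ s ∈ S, s ≠ s₀ → ev s.1 (T.r D s.2) = 0 := by
  classical
  obtain ⟨g₀, j₀ | ⟨u₀, hu₀⟩⟩ := s₀
  · -- a two-cell
    let S' : Set (Σ j : C.J, Path.Homotopic.Quotient (C.v o₀) (C.v (D.bo j))) :=
      {z | ∃ g, (g, Sum.inl z.1) ∈ S ∧ z.2 = T.tr g (D.bo z.1)}
    have hS' : S'.Finite := by
      apply (hS.image (fun s : FundamentalGroup X (C.v o₀) × (C.J ⊕ {u : C.O // u ≠ o₀}) =>
        match s with
        | (g, Sum.inl j) => (⟨j, T.tr g (D.bo j)⟩ :
            Σ j : C.J, Path.Homotopic.Quotient (C.v o₀) (C.v (D.bo j)))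
        | (g, Sum.inr u) => ⟨j₀, T.tr g (D.bo j₀)⟩)).subset
      rintro ⟨j, d⟩ ⟨g, hg, hd⟩
      refine ⟨(g, Sum.inl j), hg, ?_⟩
      simp only at hd ⊢
      rw [hd]
    obtain ⟨κ, hk1, hk2⟩ := h3 S' hS' ⟨j₀, T.tr g₀ (D.bo j₀)⟩ ⟨g₀, hs₀, rfl⟩
    let χ : ∀ u : C.O, Path.Homotopic.Quotient (C.v o₀) (C.v u) → ℂ :=
      fun u d => T.evk κ (T.el d) (C.wordOf (T.t u))
    have hχ : ∀ g u, χ u (T.tr g u) = T.evk κ g (C.wordOf (T.t u)) := by
      intro g u
      simp only [χ, el_tr]
    have hj : ∀ g j, T.evk (dχ χ) g (C.wordOf (D.w j)) = 0 := by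
      intro g j
      rw [T.evk_dχ χ (D.rep j)]
      have h : mp (Path.Homotopic.Quotient.mk (((D.τ j).trans (C.bd1 j)).trans (D.τ j).symm)) =
        Path.Homotopic.Quotient.refl _ := rep_null D j
      rw [h, Path.Homotopic.Quotient.trans_refl, sub_self]
    have hu : ∀ g u, T.evk (dχ χ) g (C.wordOf (T.t u)) = T.evk κ g (C.wordOf (T.t u)) := by
      intro g u
      rw [T.evk_dχ χ (T.rep u)]
      have h : (T.tr g o₀).trans (mp (T.γ u)) = T.tr g u := by
        unfold tr
        rw [c₀, Path.Homotopic.Quotient.trans_refl]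
        rfl
      rw [h, hχ, hχ, T.t₀]
      have h0 : T.evk κ g (C.wordOf []) = 0 := ev_one _ _ _
      rw [h0, sub_zero]
    refine ⟨fun g x => T.evk κ g x - T.evk (dχ χ) g x, ?_, ?_, ?_⟩
    · intro g a b
      simp only [evk_mul]
      ring
    · simp only [r]
      rw [hj, T.evk_Ev κ hk1 g₀ rfl, sub_zero]
    · rintro ⟨g, j | u⟩ hs hne
      · simp only [r]
        rw [hj, sub_zero]
        apply T.evk_Ev κ (hk2 ⟨j, T.tr g (D.bo j)⟩ ⟨g, hs, rfl⟩ ?_) g rfl
        intro h
        apply hne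
        have h1 : j = j₀ := congrArg Sigma.fst h
        subst h1
        simp only [Sigma.mk.injEq, heq_eq_eq, true_and] at h
        rw [T.tr_inj h]
      · simp only [r]
        rw [hu, sub_self]
  · -- a vertex
    let χ : ∀ u : C.O, Path.Homotopic.Quotient (C.v o₀) (C.v u) → ℂ :=
      fun u d => if (⟨u, d⟩ : Σ u : C.O, Path.Homotopic.Quotient (C.v o₀) (C.v u)) =
        ⟨u₀, T.tr g₀ u₀⟩ then 1 else 0
    have key : ∀ g u, T.evk (dχ χ) g (C.wordOf (T.t u)) =
        if (⟨u, T.tr g u⟩ : Σ u : C.O, Path.Homotopic.Quotient (C.v o₀) (C.v u)) =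
          ⟨u₀, T.tr g₀ u₀⟩ then 1 else 0 := by
      intro g u
      rw [T.evk_dχ χ (T.rep u)]
      have h : (T.tr g o₀).trans (mp (T.γ u)) = T.tr g u := by
        unfold tr
        rw [c₀, Path.Homotopic.Quotient.trans_refl]
        rfl
      have h0 : χ o₀ (T.tr g o₀) = 0 := by
        apply if_neg
        intro h
        exact hu₀ (congrArg Sigma.fst h).symm
      rw [h, h0, sub_zero]
    refine ⟨fun g x => T.evk (dχ χ) g x, fun g a b => T.evk_mul _ _ _ _, ?_, ?_⟩
    · simp only [r]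
      rw [key, if_pos rfl]
    · rintro ⟨g, j | u⟩ hs hne
      · simp only [r]
        rw [T.evk_dχ χ (D.rep j)]
        have h : mp (Path.Homotopic.Quotient.mk (((D.τ j).trans (C.bd1 j)).trans (D.τ j).symm)) =
          Path.Homotopic.Quotient.refl _ := rep_null D j
        rw [h, Path.Homotopic.Quotient.trans_refl, sub_self]
      · simp only [r]
        rw [key]
        apply if_neg
        intro h
        apply hne
        have h1 : u.1 = u₀ := congrArg Sigma.fst h
        obtain ⟨u, hu⟩ := u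
        simp only at h1
        subst h1
        simp only [Sigma.mk.injEq, heq_eq_eq, true_and] at h
        rw [T.tr_inj h]

end Tree

end OutsPres

end

/-- F10a: the three topological outputs give an aspherical presentation of the fundamental group. -/
theorem asph_of_outs {X : Type} [TopologicalSpace X] [PathConnectedSpace X] (C : TwoCx X)
    (D : C.RelData) (o₀ : C.O) (h1 : C.Out1) (h2 : C.Out2 D) (h3 : C.Out3 D o₀) :
    AsphericalPresentation (FundamentalGroup X (C.v o₀)) := by
  obtain ⟨T⟩ := OutsPres.exists_tree o₀ h1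
  exact asph_of_dual T.π (T.r D) (T.π_surj h1) (T.ker_eq D h2) (T.dual D h3)

end Crest.Agent.R197
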