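import Mathlib
import Crest.Agent.R197.CW2Defs
import Crest.Agent.R197.EdgePath

/-! Row 197, F3: edge words for the attaching loops. -/

set_option autoImplicit false

open scoped unitInterval

namespace Crest.Agent.R197

namespace RelDataAux

variable {X : Type} [TopologicalSpace X] (C : TwoCx X)

/-- every point of the 1-skeleton is joined to a vertex -/
theorem exists_path (x : C.X1) : ∃ o : C.O, Nonempty (Path (C.v1 o) x) := by
  obtain ⟨x, hx⟩ := x
  rcases hx with ⟨o, rfl⟩ | ⟨i, s, rfl⟩
  · exact ⟨o, ⟨Path.refl _⟩⟩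
  · have : ContractibleSpace I := (convex_Icc (0 : ℝ) 1).contractibleSpace ⟨0, by simp⟩
    let q : Path (0 : I) s := PathConnectedSpace.somePath 0 s
    refine ⟨C.src i, ⟨?_⟩⟩
    exact
      { toFun := fun t => ⟨C.e i (q t), Or.inr ⟨i, _, rfl⟩⟩
        continuous_toFun := Continuous.subtype_mk ((C.e i).continuous.comp q.continuous) _
        source' := Subtype.ext (by
          show C.e i (q 0) = C.v (C.src i)
          rw [q.source, C.e_zero])
        target' := Subtype.ext (by
          show C.e i (q 1) = C.e i s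
          rw [q.target]) }

theorem exists_relData_of (hrep : ∀ (o o' : C.O) (γ : Path.Homotopic.Quotient (C.v1 o) (C.v1 o')),
      ∃ w, C.Rep o o' w γ) : Nonempty C.RelData := by
  have h : ∀ j : C.J, ∃ (o : C.O) (τ : Path (C.v1 o) (C.c1 j)) (w : C.Wd),
      C.Rep o o w (Path.Homotopic.Quotient.mk ((τ.trans (C.bd1 j)).trans τ.symm)) := by
    intro j
    obtain ⟨o, ⟨τ⟩⟩ := exists_path C (C.c1 j)
    obtain ⟨w, hw⟩ := hrep o o (Path.Homotopic.Quotient.mk ((τ.trans (C.bd1 j)).trans τ.symm))
    exact ⟨o, τ, w, hw⟩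
  choose bo τ w hw using h
  exact ⟨⟨bo, w, τ, hw⟩⟩

end RelDataAux

/-- F3: edge words for the attaching loops exist. -/
theorem exists_relData {X : Type} [TopologicalSpace X] (C : TwoCx X) : Nonempty C.RelData :=
  RelDataAux.exists_relData_of C (fun o o' γ => C.exists_rep o o' γ)

end Crest.Agent.R197
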