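import Crest.Agent.R197.AsphMain
import Crest.Agent.R197.CW2Of
import Crest.Agent.R197.EdgePath
import Crest.Agent.R197.RelData
import Crest.Agent.R197.OutOne
import Crest.Agent.R197.OutTwo
import Crest.Agent.R197.OutThreeMain
import Crest.Agent.R197.OutsPres

/-! # Row 197, module F: `asph_of_classifying` (assembly by helper898) -/

set_option autoImplicit false

namespace Crest.Agent.R197

/-- A group with a two-dimensional classifying complex has an aspherical presentation. -/
theorem asph_of_classifying_final (G : Type) [Group G]
    (h : Crest.Topology.HasClassifyingComplex G 2) : AsphericalPresentation G :=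
  asph_of_classifying_of (fun X _ _ _ h => exists_twoCx X h) (fun C => exists_relData C)
    (fun C p hp hs _ => out1 C p hp hs) (fun C D => out2 C D)
    (fun C D o₀ p hp hs _ => out3 C D o₀ p hp hs)
    (fun C D o₀ h1 h2 h3 => asph_of_outs C D o₀ h1 h2 h3) G h

end Crest.Agent.R197
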