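import Mathlib
import Crest.Prelude.Def_ClassifyingComplex
import Crest.Agent.R197.Defs
import Crest.Agent.R197.CW2Defs

/-! # Row 197, module F11: assembly of `asph_of_classifying` (helper898)

`asph_of_classifying_of`: the theorem from the statements of the modules F0, F3, F4, F6, F9b, F10a
(as hypotheses).  The final theorem is in `AsphFinal.lean`. -/

set_option autoImplicit false

open scoped unitInterval

namespace Crest.Agent.R197

/-- transport of aspherical presentations along isomorphisms -/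
theorem AsphericalPresentation.of_mulEquiv {G H : Type} [Group G] [Group H] (e : H ≃* G)
    (h : AsphericalPresentation H) : AsphericalPresentation G := by
  obtain ⟨A, B, π, r, hs, hk, hV⟩ := h
  refine ⟨A, B, e.toMonoidHom.comp π, r, e.surjective.comp hs, ?_, ?_⟩
  · rw [← hk]
    ext a
    rw [MonoidHom.mem_ker, MonoidHom.mem_ker]
    exact e.map_eq_one_iff
  · intro V _ inst v
    letI : DistribMulAction H V := DistribMulAction.compHom V e.toMonoidHom
    obtain ⟨s, h1, h2, h3⟩ := hV V v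
    refine ⟨s, ?_, ?_, h3⟩
    · intro a b ha hb
      exact h1 a b (e.map_eq_one_iff.1 ha) (e.map_eq_one_iff.1 hb)
    · intro w a ha
      exact h2 w a (e.map_eq_one_iff.1 ha)

theorem TwoCx.nonempty_O {X : Type} [TopologicalSpace X] (C : TwoCx X) (x : X) : Nonempty C.O := by
  rcases C.cover x with ⟨o, _⟩ | ⟨i, _, _, _⟩ | ⟨j, _, _, _⟩
  · exact ⟨o⟩
  · exact ⟨C.src i⟩
  · rcases C.f_bd j (0, 0) (fun h => lt_irrefl _ h.1.1) with ⟨o, _⟩ | ⟨i, _, _⟩
    · exact ⟨o⟩
    · exact ⟨C.src i⟩

/-- statement of F0 -/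
def F0Stmt : Prop := ∀ (X : Type) [TopologicalSpace X] [T2Space X]
  [_root_.Topology.CWComplex (Set.univ : Set X)],
  (∀ n, 2 < n → IsEmpty (_root_.Topology.RelCWComplex.cell (Set.univ : Set X) n)) →
    Nonempty (TwoCx X)

/-- statement of F3 -/
def F3Stmt : Prop := ∀ {X : Type} [TopologicalSpace X] (C : TwoCx X), Nonempty C.RelData

/-- statement of F4 -/
def F4Stmt : Prop := ∀ {X E : Type} [TopologicalSpace X] [TopologicalSpace E] (C : TwoCx X)
  (p : E → X) (_ : IsCoveringMap p) (_ : Function.Surjective p) [ContractibleSpace E], C.Out1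

/-- statement of F6 -/
def F6Stmt : Prop := ∀ {X : Type} [TopologicalSpace X] (C : TwoCx X) (D : C.RelData), C.Out2 D

/-- statement of F9b -/
def F9bStmt : Prop := ∀ {X E : Type} [TopologicalSpace X] [TopologicalSpace E] (C : TwoCx X)
  (D : C.RelData) (o₀ : C.O) (p : E → X) (_ : IsCoveringMap p) (_ : Function.Surjective p)
  [ContractibleSpace E], C.Out3 D o₀

/-- statement of F10a -/
def F10aStmt : Prop := ∀ {X : Type} [TopologicalSpace X] [PathConnectedSpace X] (C : TwoCx X)
  (D : C.RelData) (o₀ : C.O) (_ : C.Out1) (_ : C.Out2 D) (_ : C.Out3 D o₀),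
    AsphericalPresentation (FundamentalGroup X (C.v o₀))

theorem asph_of_classifying_of (h0 : F0Stmt) (h3 : F3Stmt) (h4 : F4Stmt) (h6 : F6Stmt)
    (h9 : F9bStmt) (h10 : F10aStmt) (G : Type) [Group G]
    (h : Crest.Topology.HasClassifyingComplex G 2) : AsphericalPresentation G := by
  obtain ⟨X, _, _, hT2, hdim, ⟨E, _, p, hE, hp, hs⟩, x, ⟨e⟩⟩ := h
  obtain ⟨C⟩ := h0 X hdim
  obtain ⟨o₀⟩ := C.nonempty_O x
  obtain ⟨D⟩ := h3 C
  haveI : PathConnectedSpace X := hs.pathConnectedSpace hp.continuous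
  have hA := h10 C D o₀ (h4 C p hp hs) (h6 C D) (h9 C D o₀ p hp hs)
  exact hA.of_mulEquiv ((FundamentalGroup.fundamentalGroupMulEquivOfPathConnected (C.v o₀) x).trans e)

end Crest.Agent.R197
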