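import Mathlib
import Crest.Agent.R197.Defs

/-! Row 197: coinduced modules, derivations: common definitions for the D-tasks. -/

set_option autoImplicit false

namespace Crest.Agent.R197

/-- the coinduced module `Map(G, M)` with action `(h • c) g = c (g * h)` -/
def CC (G M : Type) : Type := G → M

instance (G M : Type) [AddCommGroup M] : AddCommGroup (CC G M) := inferInstanceAs (AddCommGroup (G → M))

instance (G M : Type) [Group G] [AddCommGroup M] : DistribMulAction G (CC G M) where
  smul h c := fun g => c (g * h)
  one_smul c := funext fun g => congrArg c (mul_one g)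
  mul_smul h k c := funext fun g => congrArg c (by simp [mul_assoc])
  smul_zero _ := rfl
  smul_add _ _ _ := rfl

@[simp] theorem CC.smul_apply {G M : Type} [Group G] [AddCommGroup M] (h : G) (c : CC G M) (g : G) :
    (h • c) g = c (g * h) := rfl

/-- the embedding `M → Map(G, M)`, `m ↦ (g ↦ g • m)` -/
def diagC (G M : Type) [Group G] [AddCommGroup M] [DistribMulAction G M] : M →+ CC G M where
  toFun m := fun g => g • m
  map_zero' := funext fun g => smul_zero g
  map_add' a b := funext fun g => smul_add g a b

theorem diagC_smul {G M : Type} [Group G] [AddCommGroup M] [DistribMulAction G M] (g : G) (m : M) :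
    diagC G M (g • m) = g • diagC G M m := by
  funext h
  change h • (g • m) = (h * g) • m
  rw [mul_smul]

theorem diagC_injective {G M : Type} [Group G] [AddCommGroup M] [DistribMulAction G M] :
    Function.Injective (diagC G M) := by
  intro a b h
  have h1 : (1 : G) • a = (1 : G) • b := congrFun h 1
  simpa using h1

/-- the quotient `Map(G, M) / M` -/
def CQ (G M : Type) [Group G] [AddCommGroup M] [DistribMulAction G M] : Type :=
  CC G M ⧸ (diagC G M).range

instance (G M : Type) [Group G] [AddCommGroup M] [DistribMulAction G M] : AddCommGroup (CQ G M) :=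
  inferInstanceAs (AddCommGroup (CC G M ⧸ (diagC G M).range))

/-- projection `Map(G,M) → Map(G,M)/M` -/
def CQ.mk {G M : Type} [Group G] [AddCommGroup M] [DistribMulAction G M] : CC G M →+ CQ G M :=
  QuotientAddGroup.mk' _

instance (G M : Type) [Group G] [AddCommGroup M] [DistribMulAction G M] :
    DistribMulAction G (CQ G M) where
  smul g := QuotientAddGroup.map _ _ (DistribSMul.toAddMonoidHom (CC G M) g) (by
    rintro _ ⟨m, rfl⟩
    exact ⟨g • m, diagC_smul g m⟩)
  one_smul := by
    rintro ⟨c⟩
    exact congrArg (CQ.mk) (one_smul G c)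
  mul_smul g h := by
    rintro ⟨c⟩
    exact congrArg (CQ.mk) (mul_smul g h c)
  smul_zero g := map_zero _
  smul_add g := map_add _

theorem CQ.mk_smul {G M : Type} [Group G] [AddCommGroup M] [DistribMulAction G M] (g : G)
    (c : CC G M) : CQ.mk (g • c) = g • CQ.mk c := rfl

theorem CQ.mk_surjective {G M : Type} [Group G] [AddCommGroup M] [DistribMulAction G M] :
    Function.Surjective (CQ.mk (G := G) (M := M)) := QuotientAddGroup.mk'_surjective _

theorem CQ.mk_eq_zero {G M : Type} [Group G] [AddCommGroup M] [DistribMulAction G M] (c : CC G M) :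
    CQ.mk c = 0 ↔ ∃ m, diagC G M m = c :=
  QuotientAddGroup.eq_zero_iff c

/-- derivation with respect to a homomorphism -/
def IsDer {Γ G V : Type*} [Group Γ] [Group G] [AddCommGroup V] [DistribMulAction G V] (φ : Γ →* G)
    (D : Γ → V) : Prop := ∀ a b, D (a * b) = D a + φ a • D b

/-- all extensions of `G` by the module `CQ G M` split -/
def CQSplit (G M : Type) [Group G] [AddCommGroup M] [DistribMulAction G M] : Prop :=
  ∀ X : ExtVia (MonoidHom.id G) (CQ G M), ∃ σ : G →* X.U, X.κ.comp σ = MonoidHom.id G

end Crest.Agent.R197
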