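import Mathlib
import Crest.Agent.R197.Defs

/-! # Row 197, N1: flatness.  In every group with the relations of `G` all the scaled loops
`lam x y i j k l n` are trivial. -/

set_option autoImplicit false

namespace Crest.Agent.R197

section
variable {H : Type*} [Group H]

theorem flat_Bw_eq (x y : Fin 4 → H) (i k : Fin 4) :
    Bw x y i k = (x i)⁻¹ * Aw x y i k * x i := by
  simp [Aw, Bw, mul_assoc]

theorem flat_Bw_zpow (x y : Fin 4 → H) (i k : Fin 4) (n : ℤ) :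
    (Bw x y i k) ^ n = (x i)⁻¹ * (Aw x y i k) ^ n * x i := by
  have h : Bw x y i k = (x i)⁻¹ * Aw x y i k * ((x i)⁻¹)⁻¹ := by rw [flat_Bw_eq, inv_inv]
  rw [h, conj_zpow, inv_inv]

theorem flat_AA (x y : Fin 4 → H) (i j k : Fin 4) :
    x i * (x j)⁻¹ = (Aw x y i k)⁻¹ * Aw x y j k := by
  simp [Aw]

/-- (L1) -/
theorem flat_shift (x y : Fin 4 → H) (i j k l : Fin 4) (n : ℤ) :
    (Bw x y i k) ^ n * (Bw x y j k) ^ (-n) * (Bw x y j l) ^ n * (Bw x y i l) ^ (-n)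
      = (x i)⁻¹ * lam x y i j k l (n - 1) * x i := by
  have h1 : (Aw x y i k) ^ n * (x i * (x j)⁻¹) * (Aw x y j k) ^ (-n)
      = (Aw x y i k) ^ (n - 1) * (Aw x y j k) ^ (-(n - 1)) := by
    rw [flat_AA x y i j k, ← mul_assoc, mul_assoc, ← zpow_one_add, ← zpow_sub_one]
    congr 2
    ring
  have h2 : (Aw x y j l) ^ n * (x j * (x i)⁻¹) * (Aw x y i l) ^ (-n)
      = (Aw x y j l) ^ (n - 1) * (Aw x y i l) ^ (-(n - 1)) := by
    rw [flat_AA x y j i l, ← mul_assoc, mul_assoc, ← zpow_one_add, ← zpow_sub_one]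
    congr 2
    ring
  calc (Bw x y i k) ^ n * (Bw x y j k) ^ (-n) * (Bw x y j l) ^ n * (Bw x y i l) ^ (-n)
      = (x i)⁻¹ * ((Aw x y i k) ^ n * (x i * (x j)⁻¹) * (Aw x y j k) ^ (-n))
          * ((Aw x y j l) ^ n * (x j * (x i)⁻¹) * (Aw x y i l) ^ (-n)) * x i := by
        simp only [flat_Bw_zpow]
        simp only [mul_assoc, mul_inv_cancel_left]
    _ = _ := by
        rw [h1, h2]
        simp only [lam, mul_assoc]

/-- (L1') -/
theorem flat_shift_rel {x y : Fin 4 → H} {r : Ltr → H} (h : RelE x y r) (α : Ltr)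
    (i j k l : Fin 4) (hi : inX α i) (hj : inX α j) (hk : inY α k) (hl : inY α l) (n : ℤ) :
    (r α)⁻¹ * lam x y i j k l n * r α
      = (x (pX α i))⁻¹ * lam x y (pX α i) (pX α j) (pY α k) (pY α l) (n - 1) * x (pX α i) := by
  have key : ∀ a b, inX α a → inY α b → ∀ m : ℤ,
      (r α)⁻¹ * (Aw x y a b) ^ m * r α = (Bw x y (pX α a) (pY α b)) ^ m := by
    intro a b ha hb m
    have h1 : (r α)⁻¹ * Aw x y a b * r α = Bw x y (pX α a) (pY α b) := by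
      rw [mul_assoc, h.hex α a b ha hb, inv_mul_cancel_left]
    have h2 := conj_zpow (i := m) (a := (r α)⁻¹) (b := Aw x y a b)
    rw [inv_inv] at h2
    rw [← h2, h1]
  rw [← flat_shift, ← key i k hi hk, ← key j k hj hk, ← key j l hj hl, ← key i l hi hl]
  simp only [lam, mul_assoc, mul_inv_cancel_left]

theorem flat_lam_zero (x y : Fin 4 → H) (i j k l : Fin 4) : lam x y i j k l 0 = 1 := by
  simp [lam]

/-- all scaled loops around a face (or any 4-cycle fixed by its letter) are trivial in `E` -/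
theorem flat_face {x y : Fin 4 → H} {r : Ltr → H} (h : RelE x y r) (α : Ltr)
    (i j k l : Fin 4) (hi : inX α i) (hj : inX α j) (hk : inY α k) (hl : inY α l)
    (hX : pX α = 1) (hY : pY α = 1) (n : ℤ) : lam x y i j k l n = 1 := by
  have step : ∀ m : ℤ, lam x y i j k l m = 1 ↔ lam x y i j k l (m - 1) = 1 := by
    intro m
    have h1 := flat_shift_rel h α i j k l hi hj hk hl m
    simp only [hX, hY, Equiv.Perm.coe_one, id_eq] at h1
    constructor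
    · intro h2
      rw [h2] at h1
      have h3 : x i * ((r α)⁻¹ * 1 * r α) * (x i)⁻¹ = 1 := by simp
      rw [h1] at h3
      simpa [mul_assoc] using h3
    · intro h2
      rw [h2] at h1
      have h3 : r α * ((x i)⁻¹ * 1 * x i) * (r α)⁻¹ = 1 := by simp
      rw [← h1] at h3
      simpa [mul_assoc] using h3
  induction n using Int.induction_on with
  | zero => exact flat_lam_zero x y i j k l
  | succ m ih =>
    rw [step, show ((m : ℤ) + 1 - 1) = m by ring]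
    exact ih
  | pred m ih => rwa [step] at ih

/-- matrix lemma, flat version -/
theorem flat_matrix (e : Fin 4 → Fin 4 → H)
    (f0 : e 0 2 * (e 1 2)⁻¹ * e 1 3 * (e 0 3)⁻¹ = 1)
    (f1 : e 1 1 * (e 2 1)⁻¹ * e 2 2 * (e 1 2)⁻¹ = 1)
    (f2 : e 1 3 * (e 2 3)⁻¹ * e 2 0 * (e 1 0)⁻¹ = 1)
    (f3 : e 2 0 * (e 3 0)⁻¹ * e 3 1 * (e 2 1)⁻¹ = 1)
    (f4 : e 2 2 * (e 3 2)⁻¹ * e 3 3 * (e 2 3)⁻¹ = 1)
    (f5 : e 3 1 * (e 0 1)⁻¹ * e 0 2 * (e 3 2)⁻¹ = 1)
    (f6 : e 3 3 * (e 0 3)⁻¹ * e 0 0 * (e 3 0)⁻¹ = 1)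
    (fa : e 0 1 * (e 1 1)⁻¹ * e 1 2 * (e 0 2)⁻¹ = 1)
    (fb : e 1 0 * (e 2 0)⁻¹ * e 2 1 * (e 1 1)⁻¹ = 1)
    (i j k l : Fin 4) : e i k * (e j k)⁻¹ * e j l * (e i l)⁻¹ = 1 := by
  have conv : ∀ i j k l : Fin 4, e i k * (e j k)⁻¹ * e j l * (e i l)⁻¹ = 1 ↔
      e i k * (e j k)⁻¹ = e i l * (e j l)⁻¹ := by
    intro i j k l
    rw [mul_inv_eq_one, ← eq_mul_inv_iff_mul_eq]
  rw [conv] at *
  -- `P`, `Q`, `R`
  have p : ∀ k, e 0 k * (e 1 k)⁻¹ * (e 1 k * (e 2 k)⁻¹) * (e 2 k * (e 3 k)⁻¹) *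
      (e 3 k * (e 0 k)⁻¹) = 1 := by
    intro k; simp [mul_assoc]
  have p0 := p 0
  have p1 := p 1
  have p2 := p 2
  have p3 := p 3
  -- columns 1,2: E(0,1), E(1,2), E(3,0) agree, so E(2,3) agree
  have q12 : e 2 1 * (e 3 1)⁻¹ = e 2 2 * (e 3 2)⁻¹ := by
    have h : e 0 1 * (e 1 1)⁻¹ * (e 1 1 * (e 2 1)⁻¹) * (e 2 1 * (e 3 1)⁻¹) * (e 3 1 * (e 0 1)⁻¹)
      = e 0 1 * (e 1 1)⁻¹ * (e 1 1 * (e 2 1)⁻¹) * (e 2 2 * (e 3 2)⁻¹) * (e 3 1 * (e 0 1)⁻¹) := by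
      rw [p1]
      rw [fa, f1, f5, p2]
    exact mul_left_cancel (mul_right_cancel h)
  have q01 : e 2 0 * (e 3 0)⁻¹ = e 2 1 * (e 3 1)⁻¹ := f3
  -- columns 2,3: E(0,1), E(1,2), E(2,3) agree, so E(3,0) agree
  have r23 : e 3 2 * (e 0 2)⁻¹ = e 3 3 * (e 0 3)⁻¹ := by
    have h : e 0 2 * (e 1 2)⁻¹ * (e 1 2 * (e 2 2)⁻¹) * (e 2 2 * (e 3 2)⁻¹) * (e 3 2 * (e 0 2)⁻¹)
      = e 0 2 * (e 1 2)⁻¹ * (e 1 2 * (e 2 2)⁻¹) * (e 2 2 * (e 3 2)⁻¹) * (e 3 3 * (e 0 3)⁻¹) := by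
      rw [p2]
      rw [f0, ← f1, ← fb, ← f2, f4, p3]
    exact mul_left_cancel h
  -- column 0
  have s0 : e 0 0 * (e 1 0)⁻¹ = e 0 1 * (e 1 1)⁻¹ := by
    have h : e 0 0 * (e 1 0)⁻¹ * (e 1 0 * (e 2 0)⁻¹) * (e 2 0 * (e 3 0)⁻¹) * (e 3 0 * (e 0 0)⁻¹)
      = e 0 1 * (e 1 1)⁻¹ * (e 1 0 * (e 2 0)⁻¹) * (e 2 0 * (e 3 0)⁻¹) * (e 3 0 * (e 0 0)⁻¹) := by
      rw [p0, fb, q01, ← f6, ← r23, ← f5, p1]
    exact mul_right_cancel (mul_right_cancel (mul_right_cancel h))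
  -- everything is independent of the column
  have F1 : ∀ k, e 1 k * (e 0 k)⁻¹ = e 1 1 * (e 0 1)⁻¹ := by
    have inv' : ∀ a b c d : H, a * b⁻¹ = c * d⁻¹ → b * a⁻¹ = d * c⁻¹ := by
      intro a b c d h
      have := congrArg (fun t => t⁻¹) h
      simpa using this
    intro k
    fin_cases k
    · exact inv' _ _ _ _ s0
    · rfl
    · exact inv' _ _ _ _ fa.symm
    · exact inv' _ _ _ _ (f0.symm.trans fa.symm)
  have G12 : ∀ k, e 2 k * (e 1 k)⁻¹ = e 2 1 * (e 1 1)⁻¹ := by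
    have inv' : ∀ a b c d : H, a * b⁻¹ = c * d⁻¹ → b * a⁻¹ = d * c⁻¹ := by
      intro a b c d h
      have := congrArg (fun t => t⁻¹) h
      simpa using this
    intro k
    fin_cases k
    · exact inv' _ _ _ _ fb
    · rfl
    · exact inv' _ _ _ _ f1.symm
    · exact inv' _ _ _ _ (f2.trans fb)
  have G30 : ∀ k, e 3 k * (e 0 k)⁻¹ = e 3 1 * (e 0 1)⁻¹ := by
    intro k
    fin_cases k
    · exact (f6.symm.trans (r23.symm.trans f5.symm))
    · rfl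
    · exact f5.symm
    · exact (r23.symm.trans f5.symm)
  have F : ∀ i k, e i k * (e 0 k)⁻¹ = e i 1 * (e 0 1)⁻¹ := by
    intro i k
    fin_cases i
    · simp
    · exact F1 k
    · have h : e 2 k * (e 0 k)⁻¹ = (e 2 k * (e 1 k)⁻¹) * (e 1 k * (e 0 k)⁻¹) := by simp [mul_assoc]
      have h' : e 2 1 * (e 0 1)⁻¹ = (e 2 1 * (e 1 1)⁻¹) * (e 1 1 * (e 0 1)⁻¹) := by simp [mul_assoc]
      change e 2 k * (e 0 k)⁻¹ = e 2 1 * (e 0 1)⁻¹
      rw [h, h', G12 k, F1 k]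
    · exact G30 k
  have K : ∀ i j k, e i k * (e j k)⁻¹ = e i 1 * (e 0 1)⁻¹ * (e j 1 * (e 0 1)⁻¹)⁻¹ := by
    intro i j k
    rw [← F i k, ← F j k]
    simp [mul_assoc]
  rw [K i j k, K i j l]

/-- **N1**: in every group with the relations of `G` all scaled loops are trivial. -/
theorem lam_of_RelG {x y : Fin 4 → H} {r : Ltr → H} (h : RelG x y r) (i j k l : Fin 4) (n : ℤ) :
    lam x y i j k l n = 1 := by
  have hE := h.toRelE
  have hz : ∀ a b, (Aw x y a b) ^ (-n) = ((Aw x y a b) ^ n)⁻¹ := fun a b => zpow_neg _ _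
  have face : ∀ (α : Ltr) (a b c d : Fin 4), inX α a → inX α b → inY α c → inY α d →
      pX α = 1 → pY α = 1 →
      (Aw x y a c) ^ n * ((Aw x y b c) ^ n)⁻¹ * (Aw x y b d) ^ n * ((Aw x y a d) ^ n)⁻¹ = 1 := by
    intro α a b c d ha hb hc hd hX hY
    have := flat_face hE α a b c d ha hb hc hd hX hY n
    rwa [lam, hz, hz] at this
  rw [lam, hz, hz]
  refine flat_matrix (fun a b => (Aw x y a b) ^ n) ?_ ?_ ?_ ?_ ?_ ?_ ?_ ?_ ?_ i j k l
  · exact face 0 0 1 2 3 (by decide) (by decide) (by decide) (by decide) rfl rfl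
  · exact face 1 1 2 1 2 (by decide) (by decide) (by decide) (by decide) rfl rfl
  · exact face 2 1 2 3 0 (by decide) (by decide) (by decide) (by decide) rfl rfl
  · exact face 3 2 3 0 1 (by decide) (by decide) (by decide) (by decide) rfl rfl
  · exact face 4 2 3 2 3 (by decide) (by decide) (by decide) (by decide) rfl rfl
  · exact face 5 3 0 1 2 (by decide) (by decide) (by decide) (by decide) rfl rfl
  · exact face 6 3 0 3 0 (by decide) (by decide) (by decide) (by decide) rfl rfl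
  · have := h.la n
    rwa [lam, hz, hz] at this
  · have := h.lb n
    rwa [lam, hz, hz] at this

end

/-- **N1** for the group `G`. -/
theorem lam_GG (i j k l : Fin 4) (n : ℤ) : lam GG.x GG.y i j k l n = 1 :=
  lam_of_RelG GG.rel i j k l n

end Crest.Agent.R197
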