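import Mathlib
import Crest.Agent.R197.Defs
import Crest.Agent.R197.Flat
import Crest.Agent.R197.Coind

/-! Row 197, task D3: derivations on the free group with prescribed values on `Λ_n^{ik}`. -/

set_option autoImplicit false

namespace Crest.Agent.R197

namespace Beta1

/-! ### the affine group `V ⋊ G` -/

/-- affine group -/
@[ext] structure Aff (G V : Type) where
  v : V
  g : G

section aff
variable {G V : Type} [Group G] [AddCommGroup V] [DistribMulAction G V]

instance : Mul (Aff G V) := ⟨fun a b => ⟨a.v + a.g • b.v, a.g * b.g⟩⟩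
instance : One (Aff G V) := ⟨⟨0, 1⟩⟩
instance : Inv (Aff G V) := ⟨fun a => ⟨-(a.g⁻¹ • a.v), a.g⁻¹⟩⟩

@[simp] theorem Aff.mul_v (a b : Aff G V) : (a * b).v = a.v + a.g • b.v := rfl
@[simp] theorem Aff.mul_g (a b : Aff G V) : (a * b).g = a.g * b.g := rfl
@[simp] theorem Aff.one_v : (1 : Aff G V).v = 0 := rfl
@[simp] theorem Aff.one_g : (1 : Aff G V).g = 1 := rfl
@[simp] theorem Aff.inv_v (a : Aff G V) : (a⁻¹).v = -(a.g⁻¹ • a.v) := rfl
@[simp] theorem Aff.inv_g (a : Aff G V) : (a⁻¹).g = a.g⁻¹ := rfl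

instance : Group (Aff G V) where
  mul_assoc a b c := by
    ext
    · simp [mul_smul, add_assoc]
    · simp [mul_assoc]
  one_mul a := by ext <;> simp
  mul_one a := by ext <;> simp
  inv_mul_cancel a := by ext <;> simp

/-- the projection -/
def Aff.gHom : Aff G V →* G where
  toFun a := a.g
  map_one' := rfl
  map_mul' _ _ := rfl

end aff

/-! ### the wreath type group `(ℤ → H) ⋊ ℤ` -/

/-- `(ℤ → H) ⋊ ℤ` -/
@[ext] structure Wz (H : Type) where
  f : ℤ → H
  s : ℤ

section wz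
variable {H : Type} [Group H]

instance : Mul (Wz H) := ⟨fun a b => ⟨fun p => a.f p * b.f (p + a.s), a.s + b.s⟩⟩
instance : One (Wz H) := ⟨⟨fun _ => 1, 0⟩⟩
instance : Inv (Wz H) := ⟨fun a => ⟨fun p => (a.f (p - a.s))⁻¹, -a.s⟩⟩

@[simp] theorem Wz.mul_f (a b : Wz H) (p : ℤ) : (a * b).f p = a.f p * b.f (p + a.s) := rfl
@[simp] theorem Wz.mul_s (a b : Wz H) : (a * b).s = a.s + b.s := rfl
@[simp] theorem Wz.one_f (p : ℤ) : (1 : Wz H).f p = 1 := rfl
@[simp] theorem Wz.one_s : (1 : Wz H).s = 0 := rfl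
@[simp] theorem Wz.inv_f (a : Wz H) (p : ℤ) : (a⁻¹).f p = (a.f (p - a.s))⁻¹ := rfl
@[simp] theorem Wz.inv_s (a : Wz H) : (a⁻¹).s = -a.s := rfl

instance : Group (Wz H) where
  mul_assoc a b c := by
    ext p
    · simp [mul_assoc, add_assoc]
    · simp [add_assoc]
  one_mul a := by ext p <;> simp
  mul_one a := by ext p <;> simp
  inv_mul_cancel a := by
    ext p
    · simp [← sub_eq_add_neg]
    · simp

theorem Wz.shift_zpow (n : ℤ) : ((⟨fun _ => 1, 1⟩ : Wz H)) ^ n = ⟨fun _ => 1, n⟩ := by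
  induction n using Int.induction_on with
  | zero => rfl
  | succ m ih => rw [zpow_add_one, ih]; ext p <;> simp
  | pred m ih => rw [zpow_sub_one, ih]; ext p <;> simp [sub_eq_add_neg]

end wz

/-! ### the homomorphism `G → F₄ ⋊ S₄` -/

/-- the action of permutations on the free group -/
def permAct : Equiv.Perm (Fin 4) →* MulAut (FreeGroup (Fin 4)) where
  toFun σ := FreeGroup.freeGroupCongr σ
  map_one' := by
    ext x
    simp
  map_mul' σ τ := by
    ext x
    change FreeGroup.map (σ * τ) x = FreeGroup.map σ (FreeGroup.map τ x)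
    rw [FreeGroup.map.comp]
    rfl

theorem permAct_of (σ : Equiv.Perm (Fin 4)) (i : Fin 4) :
    permAct σ (FreeGroup.of i) = FreeGroup.of (σ i) := by
  change FreeGroup.map σ (FreeGroup.of i) = _
  simp

abbrev FS := FreeGroup (Fin 4) ⋊[permAct] Equiv.Perm (Fin 4)

abbrev fl (a : FreeGroup (Fin 4)) : FS := SemidirectProduct.inl a

theorem fs_rel : RelG (H := FS) (fun i => fl (FreeGroup.of i * (FreeGroup.of 0)⁻¹))
    (fun _ => fl (FreeGroup.of 0)⁻¹)
    (fun α => SemidirectProduct.inr (pX α)⁻¹ * fl (FreeGroup.of 0)⁻¹) := by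
  have hA : ∀ i k, Aw (H := FS) (fun i => fl (FreeGroup.of i * (FreeGroup.of 0)⁻¹))
      (fun _ => fl (FreeGroup.of 0)⁻¹) i k = fl (FreeGroup.of i)⁻¹ := by
    intro i k
    simp only [Aw]
    rw [← map_inv, ← map_mul]
    congr 1
    group
  have hl : ∀ i j k l n, lam (H := FS) (fun i => fl (FreeGroup.of i * (FreeGroup.of 0)⁻¹))
      (fun _ => fl (FreeGroup.of 0)⁻¹) i j k l n = 1 := by
    intro i j k l n
    simp only [lam, hA]
    group
  refine { x0 := ?_, hex := ?_, la := fun n => hl _ _ _ _ n, lb := fun n => hl _ _ _ _ n }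
  · simp
  · intro α i k _ _
    rw [hA]
    simp only [Bw]
    have h1 : fl (FreeGroup.of i)⁻¹ * SemidirectProduct.inr (pX α)⁻¹ =
        (SemidirectProduct.inr (pX α)⁻¹ : FS) * fl (FreeGroup.of (pX α i))⁻¹ := by
      have h2 := SemidirectProduct.inl_aut (φ := permAct) (pX α)⁻¹ (FreeGroup.of (pX α i))⁻¹
      rw [map_inv, permAct_of] at h2
      have h3 : ((pX α)⁻¹ : Equiv.Perm (Fin 4)) (pX α i) = i := by simp
      rw [h3] at h2
      change (SemidirectProduct.inl (FreeGroup.of i)⁻¹ : FS) * _ = _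
      rw [h2, mul_assoc, ← map_mul, inv_mul_cancel, map_one, mul_one]
    rw [← mul_assoc, h1]
    simp only [mul_assoc]
    congr 1
    rw [← map_inv, ← map_mul, ← map_mul, ← map_mul]
    congr 1
    group

/-- `G → F₄ ⋊ S₄` -/
def toFS : GG →* FS := GG.lift fs_rel

/-- the elements `Λ_n^i` -/
def Lm (i : Fin 4) (n : ℤ) : GG :=
  (Aw GG.x GG.y 0 0) ^ n * (Aw GG.x GG.y i 0) ^ (-n)

theorem Lm_eq (i k : Fin 4) (n : ℤ) :
    (Aw GG.x GG.y 0 k) ^ n * (Aw GG.x GG.y i k) ^ (-n) = Lm i n := by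
  have h := lam_GG 0 i k 0 n
  rw [lam] at h
  have h2 : (Aw GG.x GG.y 0 k) ^ n * (Aw GG.x GG.y i k) ^ (-n) *
      ((Aw GG.x GG.y 0 0) ^ n * (Aw GG.x GG.y i 0) ^ (-n))⁻¹ = 1 := by
    rw [← h]; simp only [zpow_neg, mul_inv_rev, inv_inv, mul_assoc]
  exact mul_inv_eq_one.mp h2

theorem Lm_zero_left (n : ℤ) : Lm 0 n = 1 := by simp [Lm]

theorem Lm_zero_right (i : Fin 4) : Lm i 0 = 1 := by simp [Lm]

theorem toFS_Lm (i : Fin 4) (n : ℤ) :
    toFS (Lm i n) = fl ((FreeGroup.of 0) ^ (-n) * (FreeGroup.of i) ^ n) := by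
  have hA : ∀ i k, toFS (Aw GG.x GG.y i k) = fl (FreeGroup.of i)⁻¹ := by
    intro i k
    rw [map_Aw]
    simp only [toFS, GG.lift_x, GG.lift_y, Aw]
    rw [← map_inv, ← map_mul]
    congr 1
    group
  simp only [Lm, map_mul, map_zpow, hA, map_inv, inv_zpow, zpow_neg, inv_inv]

section wreath
variable {H : Type} [Group H]

/-- the homomorphism `F₄ → (ℤ → H) ⋊ ℤ` attached to a family `w` -/
noncomputable def theta (w : Fin 4 → ℤ → H) : FreeGroup (Fin 4) →* Wz H :=
  FreeGroup.lift fun i => ⟨fun p => w i (-p) * (w i (-p - 1))⁻¹, 1⟩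

theorem theta_zero_zpow (w : Fin 4 → ℤ → H) (h0 : ∀ n, w 0 n = 1) (n : ℤ) :
    theta w ((FreeGroup.of 0) ^ n) = ⟨fun _ => 1, n⟩ := by
  rw [map_zpow, theta, FreeGroup.lift_apply_of]
  simp only [h0, inv_one, mul_one]
  exact Wz.shift_zpow n

/-- one step -/
theorem theta_step (w : Fin 4 → ℤ → H) (h0 : ∀ n, w 0 n = 1) (i : Fin 4) (n : ℤ) :
    (theta w ((FreeGroup.of 0) ^ (-(n + 1)) * (FreeGroup.of i) ^ (n + 1))).f 0 =
      w i (n + 1) * (w i n)⁻¹ * (theta w ((FreeGroup.of 0) ^ (-n) * (FreeGroup.of i) ^ n)).f 0 ∧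
    (theta w ((FreeGroup.of 0) ^ (-(n + 1)) * (FreeGroup.of i) ^ (n + 1))).s =
      (theta w ((FreeGroup.of 0) ^ (-n) * (FreeGroup.of i) ^ n)).s := by
  have e : (FreeGroup.of (0 : Fin 4)) ^ (-(n + 1)) * (FreeGroup.of i) ^ (n + 1) =
      (FreeGroup.of 0) ^ (-(n + 1)) * FreeGroup.of i * (FreeGroup.of 0) ^ n *
        ((FreeGroup.of 0) ^ (-n) * (FreeGroup.of i) ^ n) := by group
  have h1 : theta w (FreeGroup.of i) = ⟨fun p => w i (-p) * (w i (-p - 1))⁻¹, 1⟩ := by
    rw [theta, FreeGroup.lift_apply_of]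
  have h2 : theta w ((FreeGroup.of 0) ^ (-(n + 1)) * FreeGroup.of i * (FreeGroup.of 0) ^ n) =
      ⟨fun p => w i (-p + (n + 1)) * (w i (-p + n))⁻¹, 0⟩ := by
    rw [map_mul, map_mul, theta_zero_zpow w h0, theta_zero_zpow w h0, h1]
    ext p
    · simp only [Wz.mul_f, one_mul, mul_one]
      congr 2
      · ring
      · congr 1; ring
    · simp
  rw [e, map_mul, h2]
  constructor
  · simp only [Wz.mul_f, neg_zero, zero_add, add_zero]
  · simp only [Wz.mul_s, zero_add]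

theorem theta_value (w : Fin 4 → ℤ → H) (h0 : ∀ n, w 0 n = 1) (h1 : ∀ i, w i 0 = 1)
    (i : Fin 4) (n : ℤ) :
    (theta w ((FreeGroup.of 0) ^ (-n) * (FreeGroup.of i) ^ n)).f 0 = w i n ∧
    (theta w ((FreeGroup.of 0) ^ (-n) * (FreeGroup.of i) ^ n)).s = 0 := by
  induction n using Int.induction_on with
  | zero => simp [h1]
  | succ m ih =>
    obtain ⟨a, b⟩ := theta_step w h0 i (m : ℤ)
    rw [a, b, ih.1, ih.2]
    exact ⟨by group, rfl⟩
  | pred m ih =>
    obtain ⟨a, b⟩ := theta_step w h0 i (-(m : ℤ) - 1)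
    rw [sub_add_cancel] at a b
    rw [ih.1] at a
    rw [ih.2] at b
    refine ⟨?_, b.symm⟩
    have : (theta w ((FreeGroup.of 0) ^ (-(-(m : ℤ) - 1)) * (FreeGroup.of i) ^ (-(m : ℤ) - 1))).f 0 =
        (w i (-(m : ℤ)) * (w i (-(m : ℤ) - 1))⁻¹)⁻¹ * w i (-(m : ℤ)) := by
      rw [eq_inv_mul_iff_mul_eq]; exact a.symm
    rw [this]; group

end wreath

section der
variable {M : Type} [AddCommGroup M]

/-- the closure of the `Λ_n^i` -/
def KL : Subgroup GG := Subgroup.closure {g | ∃ i n, g = Lm i n}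

theorem Lm_mem (i : Fin 4) (n : ℤ) : Lm i n ∈ KL := Subgroup.subset_closure ⟨i, n, rfl⟩

/-- derivations on `KL` with prescribed values -/
theorem exists_der (c : Fin 4 → ℤ → CC GG M) (h0 : ∀ n, c 0 n = 0) (h1 : ∀ i, c i 0 = 0) :
    ∃ d : GG → CC GG M, (∀ a ∈ KL, ∀ b ∈ KL, d (a * b) = d a + a • d b) ∧
      ∀ i n, d (Lm i n) = c i n := by
  classical
  set w : Fin 4 → ℤ → Aff GG (CC GG M) := fun i n => ⟨c i n, Lm i n⟩ with hw
  have w0 : ∀ n, w 0 n = 1 := by
    intro n; simp only [hw, h0, Lm_zero_left]; rfl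
  have w1 : ∀ i, w i 0 = 1 := by
    intro i; simp only [hw, h1, Lm_zero_right]; rfl
  set e : GG → Wz (Aff GG (CC GG M)) := fun g => theta w (toFS g).left with he
  -- the good elements
  have good : ∀ a ∈ KL, (toFS a).right = 1 ∧ (e a).s = 0 ∧ ((e a).f 0).g = a := by
    intro a ha
    induction ha using Subgroup.closure_induction with
    | mem a ha =>
      obtain ⟨i, n, rfl⟩ := ha
      have hv := theta_value w w0 w1 i n
      have hl : (toFS (Lm i n)).left = (FreeGroup.of 0) ^ (-n) * (FreeGroup.of i) ^ n := by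
        rw [toFS_Lm]; rfl
      refine ⟨by rw [toFS_Lm]; rfl, ?_, ?_⟩
      · change (theta w (toFS (Lm i n)).left).s = 0
        rw [hl]; exact hv.2
      · change ((theta w (toFS (Lm i n)).left).f 0).g = Lm i n
        rw [hl, hv.1]
    | one => simp [he]
    | mul a b _ _ iha ihb =>
      obtain ⟨a1, a2, a3⟩ := iha
      obtain ⟨b1, b2, b3⟩ := ihb
      have hab : e (a * b) = e a * e b := by
        simp only [he, map_mul, SemidirectProduct.mul_left, a1, map_one, MulAut.one_apply]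
      refine ⟨?_, ?_, ?_⟩
      · rw [map_mul, SemidirectProduct.mul_right, a1, b1, one_mul]
      · rw [hab, Wz.mul_s, a2, b2, add_zero]
      · rw [hab, Wz.mul_f, a2, add_zero, Aff.mul_g, a3, b3]
    | inv a _ iha =>
      obtain ⟨a1, a2, a3⟩ := iha
      have hab : e (a⁻¹) = (e a)⁻¹ := by
        simp only [he, map_inv, SemidirectProduct.inv_left, a1, inv_one, map_one, MulAut.one_apply]
      refine ⟨?_, ?_, ?_⟩
      · rw [map_inv, SemidirectProduct.inv_right, a1, inv_one]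
      · rw [hab, Wz.inv_s, a2, neg_zero]
      · rw [hab, Wz.inv_f, a2, sub_zero, Aff.inv_g, a3]
  refine ⟨fun a => ((e a).f 0).v, ?_, ?_⟩
  · intro a ha b hb
    obtain ⟨a1, a2, a3⟩ := good a ha
    have hab : e (a * b) = e a * e b := by
      simp only [he, map_mul, SemidirectProduct.mul_left, a1, map_one, MulAut.one_apply]
    change ((e (a * b)).f 0).v = ((e a).f 0).v + a • ((e b).f 0).v
    rw [hab, Wz.mul_f, a2, add_zero, Aff.mul_v, a3]
  · intro i n
    have hv := theta_value w w0 w1 i n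
    have hl : (toFS (Lm i n)).left = (FreeGroup.of 0) ^ (-n) * (FreeGroup.of i) ^ n := by
      rw [toFS_Lm]; rfl
    change ((theta w (toFS (Lm i n)).left).f 0).v = c i n
    rw [hl, hv.1]

/-- a derivation on a subgroup with values in a coinduced module is inner -/
theorem inner {G : Type} [Group G] (K : Subgroup G) (d : G → CC G M)
    (hd : ∀ a ∈ K, ∀ b ∈ K, d (a * b) = d a + a • d b) :
    ∃ z : CC G M, ∀ a ∈ K, d a = a • z - z := by
  classical
  refine ⟨fun g => d ((QuotientGroup.mk (s := K) g).out⁻¹ * g) (QuotientGroup.mk (s := K) g).out, ?_⟩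
  intro a ha
  have key : ∀ g : G, (QuotientGroup.mk (s := K) (g * a)) = QuotientGroup.mk (s := K) g := by
    intro g
    rw [QuotientGroup.eq]
    simpa using K.inv_mem ha
  funext g
  change d a g = d ((QuotientGroup.mk (s := K) (g * a)).out⁻¹ * (g * a))
      (QuotientGroup.mk (s := K) (g * a)).out -
    d ((QuotientGroup.mk (s := K) g).out⁻¹ * g) (QuotientGroup.mk (s := K) g).out
  rw [key g]
  set t := (QuotientGroup.mk (s := K) g).out with ht
  have hk : t⁻¹ * g ∈ K := by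
    rw [← QuotientGroup.eq, ht, QuotientGroup.out_eq']
  rw [← mul_assoc, hd _ hk _ ha]
  change d a g = (d (t⁻¹ * g) t + d a (t * (t⁻¹ * g))) - d (t⁻¹ * g) t
  rw [mul_inv_cancel_left]
  abel

end der

end Beta1

open Beta1 in
/-- (β1) derivations on the free group on `x_i, y_k` with `D x_i = 0`, `D y_0 = 0` and prescribed
values on `Λ_n^{ik}`. -/
theorem beta1 (M : Type) [AddCommGroup M] [DistribMulAction GG M]
    (φ : FreeGroup (Fin 4 ⊕ Fin 4) →* GG)
    (hφx : ∀ i, φ (FreeGroup.of (Sum.inl i)) = GG.x i)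
    (hφy : ∀ k, φ (FreeGroup.of (Sum.inr k)) = GG.y k)
    (v : Fin 4 → Fin 4 → ℤ → CC GG M) (h0l : ∀ k n, v 0 k n = 0) (h0r : ∀ i n, v i 0 n = 0)
    (hz : ∀ i k, v i k 0 = 0) (hm : ∀ i k, v i k (-1) = 0) :
    ∃ D : FreeGroup (Fin 4 ⊕ Fin 4) → CC GG M, IsDer φ D ∧
      (∀ i, D (FreeGroup.of (Sum.inl i)) = 0) ∧ D (FreeGroup.of (Sum.inr 0)) = 0 ∧
      ∀ i k n, D ((Aw (fun i => FreeGroup.of (Sum.inl i)) (fun k => FreeGroup.of (Sum.inr k)) 0 k) ^ n *
        (Aw (fun i => FreeGroup.of (Sum.inl i)) (fun k => FreeGroup.of (Sum.inr k)) i k) ^ (-n)) =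
        v i k n := by
  classical
  -- the elements z_k
  have hzk : ∀ k, ∃ z : CC GG M, (k = 0 → z = 0) ∧
      ∀ i n, v i k n - GG.y k • v i k (n - 1) = z - Lm i n • z := by
    intro k
    by_cases hk : k = 0
    · refine ⟨0, fun _ => rfl, fun i n => ?_⟩
      rw [hk, h0r, h0r]; simp
    · obtain ⟨d, hd, hdv⟩ := exists_der (M := M)
        (fun i n => GG.y k • v i k (n - 1) - v i k n)
        (fun n => by rw [h0l, h0l]; simp)
        (fun i => by rw [zero_sub, hm, hz]; simp)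
      obtain ⟨z, hz'⟩ := inner KL d hd
      refine ⟨z, fun h => absurd h hk, fun i n => ?_⟩
      have := hz' (Lm i n) (Lm_mem i n)
      rw [hdv] at this
      have h2 : v i k n - GG.y k • v i k (n - 1) = -(GG.y k • v i k (n - 1) - v i k n) := by abel
      rw [h2, this]; abel
  choose z hz0 hz1 using hzk
  -- the derivation
  set Θ : FreeGroup (Fin 4 ⊕ Fin 4) →* Aff GG (CC GG M) := FreeGroup.lift
    (fun s => match s with
      | Sum.inl i => ⟨0, GG.x i⟩
      | Sum.inr k => ⟨z k, GG.y k⟩) with hΘ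
  have hΘg : ∀ w, (Θ w).g = φ w := by
    have : (Aff.gHom (G := GG) (V := CC GG M)).comp Θ = φ := by
      ext s
      rcases s with i | k
      · simp [hΘ, Aff.gHom, hφx]
      · simp [hΘ, Aff.gHom, hφy]
    intro w
    exact DFunLike.congr_fun this w
  have hder : IsDer φ (fun w => (Θ w).v) := by
    intro a b
    change (Θ (a * b)).v = (Θ a).v + φ a • (Θ b).v
    rw [map_mul, Aff.mul_v, hΘg]
  have hx : ∀ i, (Θ (FreeGroup.of (Sum.inl i))).v = 0 := by
    intro i; simp [hΘ]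
  have hy : ∀ k, (Θ (FreeGroup.of (Sum.inr k))).v = z k := by
    intro k; simp [hΘ]
  refine ⟨fun w => (Θ w).v, hder, hx, ?_, ?_⟩
  · change (Θ (FreeGroup.of (Sum.inr 0))).v = 0
    rw [hy]; exact hz0 0 rfl
  · intro i k n
    set fX : Fin 4 → FreeGroup (Fin 4 ⊕ Fin 4) := fun i => FreeGroup.of (Sum.inl i) with hfX
    set fY : Fin 4 → FreeGroup (Fin 4 ⊕ Fin 4) := fun k => FreeGroup.of (Sum.inr k) with hfY
    have hA : ∀ j, Θ (Aw fX fY j k) = ⟨z k, Aw GG.x GG.y j k⟩ := by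
      intro j
      simp only [Aw, map_mul, map_inv]
      have e1 : Θ (fY k) = ⟨z k, GG.y k⟩ := by simp [hΘ, hfY]
      have e2 : Θ (fX j) = ⟨0, GG.x j⟩ := by simp [hΘ, hfX]
      rw [e1, e2]
      ext1
      · simp
      · rfl
    have hφL : ∀ n : ℤ, φ ((Aw fX fY 0 k) ^ n * (Aw fX fY i k) ^ (-n)) = Lm i n := by
      intro n
      rw [map_mul, map_zpow, map_zpow, map_Aw, map_Aw]
      simp only [hfX, hfY, hφx, hφy]
      exact Lm_eq i k n
    have hy0 : Aw GG.x GG.y 0 k = GG.y k := by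
      simp [Aw, GG.rel.x0]
    -- the recursion
    have hrec : ∀ n : ℤ, (Θ ((Aw fX fY 0 k) ^ (n + 1) * (Aw fX fY i k) ^ (-(n + 1)))).v =
        z k + GG.y k • (Θ ((Aw fX fY 0 k) ^ n * (Aw fX fY i k) ^ (-n))).v - Lm i (n + 1) • z k := by
      intro n
      have e : (Aw fX fY 0 k) ^ (n + 1) * (Aw fX fY i k) ^ (-(n + 1)) =
          Aw fX fY 0 k * ((Aw fX fY 0 k) ^ n * (Aw fX fY i k) ^ (-n)) * (Aw fX fY i k)⁻¹ := by
        group
      have e' : Lm i (n + 1) = Aw GG.x GG.y 0 k * Lm i n * (Aw GG.x GG.y i k)⁻¹ := by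
        rw [← hφL (n + 1), e, map_mul, map_mul, hφL n, map_inv, map_Aw, map_Aw]
        simp only [hfX, hfY, hφx, hφy]
      rw [e, map_mul, map_mul, map_inv, hA, hA]
      simp only [Aff.mul_v, Aff.mul_g, Aff.inv_v, hΘg, hφL]
      rw [e', hy0]
      simp only [smul_neg, smul_smul, mul_assoc, sub_eq_add_neg]
    change (Θ ((Aw fX fY 0 k) ^ n * (Aw fX fY i k) ^ (-n))).v = v i k n
    induction n using Int.induction_on with
    | zero => simp [hz]
    | succ m ih =>
      rw [hrec, ih]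
      have := hz1 k i ((m : ℤ) + 1)
      rw [add_sub_cancel_right] at this
      have h2 : v i k ((m : ℤ) + 1) = GG.y k • v i k (m : ℤ) + (z k - Lm i ((m : ℤ) + 1) • z k) := by
        rw [← this]; abel
      rw [h2]; abel
    | pred m ih =>
      have h1 := hrec (-(m : ℤ) - 1)
      rw [sub_add_cancel, ih] at h1
      have h2 := hz1 k i (-(m : ℤ))
      have h3 : GG.y k • (Θ ((Aw fX fY 0 k) ^ (-(m : ℤ) - 1) *
          (Aw fX fY i k) ^ (-(-(m : ℤ) - 1)))).v = GG.y k • v i k (-(m : ℤ) - 1) := by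
        rw [h1] at h2
        have : z k - Lm i (-(m : ℤ)) • z k = (z k + GG.y k • (Θ ((Aw fX fY 0 k) ^ (-(m : ℤ) - 1) *
          (Aw fX fY i k) ^ (-(-(m : ℤ) - 1)))).v - Lm i (-(m : ℤ)) • z k) -
          GG.y k • (Θ ((Aw fX fY 0 k) ^ (-(m : ℤ) - 1) *
          (Aw fX fY i k) ^ (-(-(m : ℤ) - 1)))).v := by abel
        rw [this] at h2
        exact (sub_right_inj.mp h2).symm
      exact smul_left_cancel _ h3

end Crest.Agent.R197
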