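import Mathlib
import Crest.Agent.R197.Defs

/-!
# Row 197, module D (`cd_GG`): interface definitions

`CoindLike G C`: every derivation of every subgroup of `G` into `C` is inner (true for `C = G → M`).
`SplitProp G`: every extension of `G` by `C / M`, `C` coinduced-like, splits.
-/

set_option autoImplicit false

namespace Crest.Agent.R197

/-- Every derivation from a subgroup of `G` into the `G`-module `C` is inner. -/
def CoindLike (G C : Type) [Group G] [AddCommGroup C] [DistribMulAction G C] : Prop :=
  ∀ (K : Subgroup G) (δ : K → C),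
    (∀ a b : K, δ (a * b) = δ a + (a : G) • δ b) → ∃ z : C, ∀ k : K, δ k = (k : G) • z - z

/-- Every extension of `G` by `Q = C / M` with `C` coinduced-like splits. -/
def SplitProp (G : Type) [Group G] : Prop :=
  ∀ (M C Q : Type) [AddCommGroup M] [AddCommGroup C] [AddCommGroup Q]
    [DistribMulAction G M] [DistribMulAction G C] [DistribMulAction G Q]
    (ι : M →+ C) (p : C →+ Q),
    Function.Injective ι → Function.Surjective p → (∀ c, p c = 0 ↔ ∃ m, ι m = c) →
    (∀ (g : G) (m : M), ι (g • m) = g • ι m) → (∀ (g : G) (c : C), p (g • c) = g • p c) →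
    CoindLike G C →
    ∀ X : ExtVia (MonoidHom.id G) Q, ∃ s : G →* X.U, ∀ g, X.κ (s g) = g

end Crest.Agent.R197
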