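import Mathlib
import Crest.Agent.R197.Defs
import Crest.Agent.R197.CdDefs

/-!
# Row 197, module D: algebraic preliminaries

Semidirect products `Sdp G C`, the twisting subgroup of an extension, the words `Lw`, and the solution
of the linear system of the letters (`exists_v`).
-/

set_option autoImplicit false
set_option linter.unusedSectionVars false
set_option linter.unusedTactic false
set_option linter.unreachableTactic false

namespace Crest.Agent.R197
namespace Cd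

/-! ### Words -/

section words
variable {H : Type*} [Group H]

/-- `a^n b^{-n} c^n d^{-n}` -/
def lam4 (a b c d : H) (n : ℤ) : H := a ^ n * b ^ (-n) * c ^ n * d ^ (-n)

theorem lam_eq_lam4 (x y : Fin 4 → H) (i j k l : Fin 4) (n : ℤ) :
    lam x y i j k l n = lam4 (Aw x y i k) (Aw x y j k) (Aw x y j l) (Aw x y i l) n := rfl

theorem map_lam4 {K : Type*} [Group K] (f : H →* K) (a b c d : H) (n : ℤ) :
    f (lam4 a b c d n) = lam4 (f a) (f b) (f c) (f d) n := by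
  simp [lam4]

theorem lam4_mem (T : Subgroup H) {a b c d : H} (ha : a ∈ T) (hb : b ∈ T) (hc : c ∈ T) (hd : d ∈ T)
    (n : ℤ) : lam4 a b c d n ∈ T :=
  mul_mem (mul_mem (mul_mem (zpow_mem ha _) (zpow_mem hb _)) (zpow_mem hc _)) (zpow_mem hd _)

theorem Aw_mem (T : Subgroup H) {x y : Fin 4 → H} (hx : ∀ i, x i ∈ T) (hy : ∀ k, y k ∈ T)
    (i k : Fin 4) : Aw x y i k ∈ T := mul_mem (hy k) (inv_mem (hx i))

theorem Bw_mem (T : Subgroup H) {x y : Fin 4 → H} (hx : ∀ i, x i ∈ T) (hy : ∀ k, y k ∈ T)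
    (i k : Fin 4) : Bw x y i k ∈ T := mul_mem (inv_mem (hx i)) (hy k)

theorem lam_mem (T : Subgroup H) {x y : Fin 4 → H} (hx : ∀ i, x i ∈ T) (hy : ∀ k, y k ∈ T)
    (i j k l : Fin 4) (n : ℤ) : lam x y i j k l n ∈ T :=
  lam4_mem T (Aw_mem T hx hy _ _) (Aw_mem T hx hy _ _) (Aw_mem T hx hy _ _) (Aw_mem T hx hy _ _) n

/-- `A_{0k}^n A_{ik}^{-n}` -/
def Lw (x y : Fin 4 → H) (i k : Fin 4) (n : ℤ) : H := (Aw x y 0 k) ^ n * (Aw x y i k) ^ (-n)

theorem Lw_mem (T : Subgroup H) {x y : Fin 4 → H} (hx : ∀ i, x i ∈ T) (hy : ∀ k, y k ∈ T)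
    (i k : Fin 4) (n : ℤ) : Lw x y i k n ∈ T :=
  mul_mem (zpow_mem (Aw_mem T hx hy _ _) _) (zpow_mem (Aw_mem T hx hy _ _) _)

theorem map_Lw {K : Type*} [Group K] (f : H →* K) (x y : Fin 4 → H) (i k : Fin 4) (n : ℤ) :
    f (Lw x y i k n) = Lw (fun i => f (x i)) (fun k => f (y k)) i k n := by
  simp [Lw, map_Aw]

@[simp] theorem Lw_zero (x y : Fin 4 → H) (i k : Fin 4) : Lw x y i k 0 = 1 := by simp [Lw]

@[simp] theorem Lw_i0 (x y : Fin 4 → H) (k : Fin 4) (n : ℤ) : Lw x y 0 k n = 1 := by simp [Lw]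

theorem lam_eq_Lw (x y : Fin 4 → H) (i j k l : Fin 4) (n : ℤ) :
    lam x y i j k l n = (Lw x y i k n)⁻¹ * Lw x y j k n * (Lw x y j l n)⁻¹ * Lw x y i l n := by
  simp only [lam, Lw, zpow_neg]
  group

theorem Lw_succ {x : Fin 4 → H} (hx0 : x 0 = 1) (y : Fin 4 → H) (i k : Fin 4) (n : ℤ) :
    Lw x y i k (n + 1) = y k * Lw x y i k n * (x i * (y k)⁻¹) := by
  have h0 : Aw x y 0 k = y k := by simp [Aw, hx0]
  rw [Lw, Lw, h0, add_comm n 1, zpow_add, zpow_one]
  have : (Aw x y i k) ^ (-(1 + n)) = (Aw x y i k) ^ (-n) * (Aw x y i k)⁻¹ := by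
    rw [← zpow_neg_one, ← zpow_add]; congr 1; ring
  rw [this]
  simp only [Aw, mul_inv_rev, inv_inv, mul_assoc]

theorem Lw_neg_one {x : Fin 4 → H} (hx0 : x 0 = 1) (y : Fin 4 → H) (i k : Fin 4) :
    Lw x y i k (-1) = (x i)⁻¹ := by
  simp [Lw, Aw, hx0]

/-- conjugated loops (L1) -/
theorem lam4_Bw (x y : Fin 4 → H) (i j k l : Fin 4) (n : ℤ) :
    lam4 (Bw x y i k) (Bw x y j k) (Bw x y j l) (Bw x y i l) n =
      (x i)⁻¹ * lam x y i j k l (n - 1) * x i := by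
  have hB : ∀ (i k : Fin 4) (n : ℤ), (Bw x y i k) ^ n = (x i)⁻¹ * (Aw x y i k) ^ n * x i := by
    intro i k n
    have : Bw x y i k = (x i)⁻¹ * Aw x y i k * (x i)⁻¹⁻¹ := by simp [Bw, Aw, mul_assoc]
    rw [this, conj_zpow, inv_inv]
  have e1 : ∀ (i k : Fin 4) (n : ℤ), (Bw x y i k) ^ n = (x i)⁻¹ * (Aw x y i k) ^ (n - 1) * y k := by
    intro i k n
    rw [hB]
    have : (Aw x y i k) ^ n = (Aw x y i k) ^ (n - 1) * Aw x y i k := by
      rw [← zpow_add_one]; congr 1; ring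
    rw [this]
    simp [Aw, mul_assoc]
  have e2 : ∀ (i k : Fin 4) (n : ℤ), (Bw x y i k) ^ (-n) = (y k)⁻¹ * (Aw x y i k) ^ (-(n - 1)) * x i := by
    intro i k n
    rw [zpow_neg, e1, zpow_neg]
    simp [mul_assoc]
  simp only [lam4, lam, e1 i k, e2 j k, e1 j l, e2 i l]
  group

theorem rec_unique (a b : H) (P Q : ℤ → H) (h0 : P 0 = Q 0)
    (hP : ∀ n, P (n + 1) = a * P n * b) (hQ : ∀ n, Q (n + 1) = a * Q n * b) : ∀ n, P n = Q n := by
  intro n
  induction n using Int.induction_on with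
  | zero => exact h0
  | succ n ih => rw [hP, hQ, ih]
  | pred n ih =>
    have h1 := hP (-(n : ℤ) - 1)
    have h2 := hQ (-(n : ℤ) - 1)
    rw [sub_add_cancel] at h1 h2
    rw [h1, h2] at ih
    exact mul_left_cancel (mul_right_cancel ih)

end words

/-! ### The semidirect product `C ⋊ G`, additive notation for `C` -/

/-- semidirect product -/
@[ext] structure Sdp (G C : Type) where
  c : C
  g : G

namespace Sdp
variable {G C : Type} [Group G] [AddCommGroup C] [DistribMulAction G C]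

instance : Mul (Sdp G C) := ⟨fun a b => ⟨a.c + a.g • b.c, a.g * b.g⟩⟩
instance : One (Sdp G C) := ⟨⟨0, 1⟩⟩
instance : Inv (Sdp G C) := ⟨fun a => ⟨-(a.g⁻¹ • a.c), a.g⁻¹⟩⟩

@[simp] theorem mul_c (a b : Sdp G C) : (a * b).c = a.c + a.g • b.c := rfl
@[simp] theorem mul_g (a b : Sdp G C) : (a * b).g = a.g * b.g := rfl
@[simp] theorem one_c : (1 : Sdp G C).c = 0 := rfl
@[simp] theorem one_g : (1 : Sdp G C).g = 1 := rfl
@[simp] theorem inv_c (a : Sdp G C) : (a⁻¹).c = -(a.g⁻¹ • a.c) := rfl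
@[simp] theorem inv_g (a : Sdp G C) : (a⁻¹).g = a.g⁻¹ := rfl

instance : Group (Sdp G C) := Group.ofLeftAxioms
  (by intro a b c; ext <;> simp [mul_assoc, add_assoc, mul_smul, smul_add])
  (by intro a; ext <;> simp)
  (by intro a; ext <;> simp)

/-- projection to the group -/
def gHom : Sdp G C →* G where
  toFun := Sdp.g
  map_one' := rfl
  map_mul' _ _ := rfl

@[simp] theorem gHom_apply (a : Sdp G C) : gHom a = a.g := rfl

/-- functoriality in the module -/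
def map {Q : Type} [AddCommGroup Q] [DistribMulAction G Q] (p : C →+ Q)
    (hp : ∀ (g : G) (c : C), p (g • c) = g • p c) : Sdp G C →* Sdp G Q where
  toFun s := ⟨p s.c, s.g⟩
  map_one' := by ext <;> simp
  map_mul' a b := by ext <;> simp [hp]

@[simp] theorem map_mk {Q : Type} [AddCommGroup Q] [DistribMulAction G Q] (p : C →+ Q)
    (hp : ∀ (g : G) (c : C), p (g • c) = g • p c) (s : Sdp G C) : map p hp s = ⟨p s.c, s.g⟩ := rfl

/-- The subgroup of `S × S × S × S` where the last is `first + second - third`. -/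
def Lin : Subgroup (Sdp G C × Sdp G C × Sdp G C × Sdp G C) where
  carrier := {t | t.2.1.g = t.1.g ∧ t.2.2.1.g = t.1.g ∧ t.2.2.2.g = t.1.g ∧
    t.2.2.2.c = t.1.c + t.2.1.c - t.2.2.1.c}
  mul_mem' := by
    rintro ⟨a1, a2, a3, a4⟩ ⟨b1, b2, b3, b4⟩ ⟨h1, h2, h3, h4⟩ ⟨k1, k2, k3, k4⟩
    simp only at h1 h2 h3 h4 k1 k2 k3 k4
    refine ⟨by simp [h1, k1], by simp [h2, k2], by simp [h3, k3], ?_⟩
    simp only [Prod.mk_mul_mk, mul_c, h1, h2, h3, h4, k4, smul_add, smul_sub]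
    abel
  one_mem' := by simp
  inv_mem' := by
    rintro ⟨a1, a2, a3, a4⟩ ⟨h1, h2, h3, h4⟩
    simp only at h1 h2 h3 h4
    refine ⟨by simp [h1], by simp [h2], by simp [h3], ?_⟩
    simp only [Prod.inv_mk, inv_c, h1, h2, h3, h4, smul_add, smul_sub]
    abel

theorem mem_Lin {a b c d : Sdp G C} : (a, b, c, d) ∈ (Lin : Subgroup (Sdp G C × Sdp G C × Sdp G C × Sdp G C)) ↔
    b.g = a.g ∧ c.g = a.g ∧ d.g = a.g ∧ d.c = a.c + b.c - c.c := Iff.rfl

end Sdp

/-! ### Twisting in an extension -/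

section Tw
variable {G Q : Type} [Group G] [AddCommGroup Q] [DistribMulAction G Q]
  (X : ExtVia (MonoidHom.id G) Q)

/-- additive version of the inclusion of the kernel -/
def jj (q : Q) : X.U := X.ι (Multiplicative.ofAdd q)

theorem jj_add (a b : Q) : jj X (a + b) = jj X a * jj X b := by simp [jj]
@[simp] theorem jj_zero : jj X 0 = 1 := by simp [jj]
theorem jj_neg (a : Q) : jj X (-a) = (jj X a)⁻¹ := by simp [jj]
theorem jj_inj {a b : Q} (h : jj X a = jj X b) : a = b := by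
  have := X.inj h
  simpa using this
@[simp] theorem κ_jj (a : Q) : X.κ (jj X a) = 1 := (X.exact _).mpr ⟨_, rfl⟩
theorem exists_jj {u : X.U} (h : X.κ u = 1) : ∃ q, jj X q = u := by
  obtain ⟨v, hv⟩ := (X.exact u).mp h
  exact ⟨Multiplicative.toAdd v, hv⟩
theorem conj_jj (u : X.U) (q : Q) : u * jj X q * u⁻¹ = jj X (X.κ u • q) := X.act u q
theorem mul_jj (u : X.U) (q : Q) : u * jj X q = jj X (X.κ u • q) * u := by
  rw [← conj_jj]; group

/-- triples `(u, (q, κ u), j(q) u)` -/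
def Tw : Subgroup (X.U × Sdp G Q × X.U) where
  carrier := {t | X.κ t.1 = t.2.1.g ∧ t.2.2 = jj X t.2.1.c * t.1}
  mul_mem' := by
    rintro ⟨u, s, u'⟩ ⟨v, t, v'⟩ ⟨h1, h2⟩ ⟨k1, k2⟩
    simp only at h1 h2 k1 k2
    refine ⟨by simp [h1, k1], ?_⟩
    simp only [Prod.mk_mul_mk, Sdp.mul_c, h2, k2, jj_add, ← h1, ← conj_jj]
    group
  one_mem' := by simp
  inv_mem' := by
    rintro ⟨u, s, u'⟩ ⟨h1, h2⟩
    simp only at h1 h2
    refine ⟨by simp [h1], ?_⟩
    simp only [Prod.inv_mk, Sdp.inv_c, h2, jj_neg, ← h1, ← map_inv, ← conj_jj]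
    group

theorem mem_Tw {u u' : X.U} {s : Sdp G Q} :
    (u, s, u') ∈ Tw X ↔ X.κ u = s.g ∧ u' = jj X s.c * u := Iff.rfl

end Tw

/-! ### Two-sided recursion -/

theorem exists_int_rec {α : Type*} (e : ℤ → α ≃ α) (a : α) :
    ∃ h : ℤ → α, h 0 = a ∧ ∀ n, h (n + 1) = e n (h n) := by
  let up : ℕ → α := fun n => Nat.rec a (fun n b => e n b) n
  let dn : ℕ → α := fun n => Nat.rec a (fun n b => (e (-(n + 1 : ℤ))).symm b) n
  let h : ℤ → α := fun n => match n with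
    | Int.ofNat n => up n
    | Int.negSucc n => dn (n + 1)
  refine ⟨h, rfl, ?_⟩
  rintro (n | n)
  · rfl
  · rcases n with _ | n
    · have : h (Int.negSucc 0) = (e (-1)).symm a := by
        show (e (-((0 : ℕ) + 1 : ℤ))).symm a = _
        norm_num
      show h 0 = e (-1) (h (Int.negSucc 0))
      rw [this, Equiv.apply_symm_apply]
    · have h1 : Int.negSucc (n + 1) + 1 = Int.negSucc n := by
        simp [Int.negSucc_eq]
      rw [h1]
      show dn (n + 1) = e (Int.negSucc (n + 1)) (dn (n + 1 + 1))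
      have h2 : dn (n + 1 + 1) = (e (-((n + 1 : ℕ) + 1 : ℤ))).symm (dn (n + 1)) := rfl
      rw [h2]
      have h3 : (-((n + 1 : ℕ) + 1 : ℤ)) = Int.negSucc (n + 1) := by simp [Int.negSucc_eq]
      rw [h3, Equiv.apply_symm_apply]

section exists_v
variable {G M : Type*} [Group G] [AddCommGroup M] [DistribMulAction G M]

theorem exists_h (g : G) (μ : ℤ → M) :
    ∃ h : ℤ → M, h 0 = 0 ∧ ∀ n, h n - g • h (n - 1) = μ n := by
  obtain ⟨h, h0, hs⟩ := exists_int_rec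
    (fun n : ℤ => (MulAction.toPerm g : Equiv.Perm M).trans (Equiv.addRight (μ (n + 1)))) (0 : M)
  refine ⟨h, h0, fun n => ?_⟩
  have := hs (n - 1)
  simp only [sub_add_cancel, Equiv.trans_apply, MulAction.toPerm_apply, Equiv.coe_addRight] at this
  rw [this]
  abel

/-- `g(i,j;k,l) = v(j,k) - v(i,k) + v(i,l) - v(j,l)` -/
def gq (v : Fin 4 → Fin 4 → M) (i j k l : Fin 4) : M := v j k - v i k + v i l - v j l

/-- the matrix with prescribed `gq`-values on the nine letters -/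
def vmat (g : Ltr → M) : Fin 4 → Fin 4 → M :=
  let p := g 4 + g 3 - g 5 - g 1 + g 0 - g 2 - g 6
  ![![0, 0, 0, 0],
    ![0, p, p - g 7, p - g 7 - g 0],
    ![0, p - g 8, p - g 8 - g 7 - g 1, p - g 7 - g 0 + g 2],
    ![0, p - g 8 - g 3, p - g 8 - g 3 + g 5, - g 6]]

theorem gq_vmat (g : Ltr → M) (α : Ltr) :
    gq (vmat g) (x1 α) (x2 α) (y1 α) (y2 α) = g α := by
  fin_cases α <;> simp [gq, vmat, x1, x2, y1, y2] <;> abel

theorem gq_vmat_a (g : Ltr → M) :
    gq (vmat g) 0 1 1 0 = g 4 + g 3 - g 5 - g 1 + g 0 - g 2 - g 6 := by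
  simp [gq, vmat]

theorem gq_vmat_b (g : Ltr → M) :
    gq (vmat g) 1 0 0 1 = g 4 + g 3 - g 5 - g 1 + g 0 - g 2 - g 6 := by
  simp [gq, vmat]

theorem vmat_zero_left (g : Ltr → M) (k : Fin 4) : vmat g 0 k = 0 := by
  fin_cases k <;> simp [vmat]

theorem vmat_zero_right (g : Ltr → M) (i : Fin 4) : vmat g i 0 = 0 := by
  fin_cases i <;> simp [vmat]

theorem vmat_zero {g : Ltr → M} (hg : ∀ α, g α = 0) (i k : Fin 4) : vmat g i k = 0 := by
  fin_cases i <;> fin_cases k <;> simp [vmat, hg]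

/-- Solution of the linear system of the letters. -/
theorem exists_v (L : ℤ → Fin 4 → G) (x : Fin 4 → G) (r : Ltr → G) (μ : Ltr → ℤ → M)
    (hμ0 : ∀ α, μ α 0 = 0) (hμ1 : ∀ α, μ α (-1) = 0) :
    ∃ v : ℤ → Fin 4 → Fin 4 → M, (∀ i k, v 0 i k = 0) ∧ (∀ i k, v (-1) i k = 0) ∧
      (∀ n k, v n 0 k = 0) ∧ (∀ n i, v n i 0 = 0) ∧
      ∀ α n, (L n (x1 α))⁻¹ • gq (v n) (x1 α) (x2 α) (y1 α) (y2 α) -
        (r α * (x (pX α (x1 α)))⁻¹ * (L (n - 1) (pX α (x1 α)))⁻¹) •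
          gq (v (n - 1)) (pX α (x1 α)) (pX α (x2 α)) (pY α (y1 α)) (pY α (y2 α)) = μ α n := by
  choose h h0 hs using fun α : Ltr => exists_h (r α * (x (x1 α))⁻¹) (μ α)
  have h1 : ∀ α, h α (-1) = 0 := by
    intro α
    have := hs α 0
    rw [h0, hμ0, zero_sub, neg_eq_zero, smul_eq_zero_iff_eq] at this
    exact this
  have h2 : ∀ α, h α (-2) = 0 := by
    intro α
    have := hs α (-1)
    rw [h1, hμ1, zero_sub, neg_eq_zero, smul_eq_zero_iff_eq] at this
    exact this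
  -- values on the faces
  let p : ℤ → M := fun n => L n (x1 4) • h 4 n + L n (x1 3) • h 3 n - L n (x1 5) • h 5 n
    - L n (x1 1) • h 1 n + L n (x1 0) • h 0 n - L n (x1 2) • h 2 n - L n (x1 6) • h 6 n
  let g : ℤ → Ltr → M := fun n => ![L n (x1 0) • h 0 n, L n (x1 1) • h 1 n, L n (x1 2) • h 2 n,
    L n (x1 3) • h 3 n, L n (x1 4) • h 4 n, L n (x1 5) • h 5 n, L n (x1 6) • h 6 n,
    L n (x1 7) • (μ 7 n + (r 7 * (x 0)⁻¹ * (L (n - 1) 0)⁻¹) • p (n - 1)),
    L n (x1 8) • (μ 8 n + (r 8 * (x 1)⁻¹ * (L (n - 1) 1)⁻¹) • p (n - 1))]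
  have hp : ∀ n, g n 4 + g n 3 - g n 5 - g n 1 + g n 0 - g n 2 - g n 6 = p n := fun n => rfl
  have p1 : p (-1) = 0 := by simp [p, h1]
  have p2 : p (-2) = 0 := by simp [p, h2]
  refine ⟨fun n => vmat (g n), ?_, ?_, fun n k => vmat_zero_left _ k,
    fun n i => vmat_zero_right _ i, ?_⟩
  · intro i k
    apply vmat_zero
    intro α
    have e : (0 : ℤ) - 1 = -1 := by norm_num
    fin_cases α <;> simp [g, h0, hμ0, p1]
  · intro i k
    apply vmat_zero
    intro α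
    have e : (-1 : ℤ) - 1 = -2 := by norm_num
    fin_cases α <;> simp [g, h1, hμ1, e, p2]
  · intro α n
    rw [gq_vmat]
    by_cases h7 : α = 7
    · subst h7
      have e1 : pX 7 (x1 7) = 0 := rfl
      have e2 : pX 7 (x2 7) = 1 := rfl
      have e3 : pY 7 (y1 7) = 1 := by decide
      have e4 : pY 7 (y2 7) = 0 := by decide
      rw [e1, e2, e3, e4, gq_vmat_a, hp]
      show (L n (x1 7))⁻¹ • (L n (x1 7) • (μ 7 n + (r 7 * (x 0)⁻¹ * (L (n - 1) 0)⁻¹) • p (n - 1))) - _ = _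
      rw [inv_smul_smul]
      abel
    by_cases h8 : α = 8
    · subst h8
      have e1 : pX 8 (x1 8) = 1 := by decide
      have e2 : pX 8 (x2 8) = 0 := by decide
      have e3 : pY 8 (y1 8) = 0 := rfl
      have e4 : pY 8 (y2 8) = 1 := rfl
      rw [e1, e2, e3, e4, gq_vmat_b, hp]
      show (L n (x1 8))⁻¹ • (L n (x1 8) • (μ 8 n + (r 8 * (x 1)⁻¹ * (L (n - 1) 1)⁻¹) • p (n - 1))) - _ = _
      rw [inv_smul_smul]
      abel
    have e1 : pX α = 1 := by
      clear * - h7 h8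
      fin_cases α <;> first | rfl | exact absurd rfl h7 | exact absurd rfl h8
    have e2 : pY α = 1 := by
      clear * - h7 h8
      fin_cases α <;> first | rfl | exact absurd rfl h7 | exact absurd rfl h8
    have hg : ∀ n, g n α = L n (x1 α) • h α n := by
      intro n
      fin_cases α <;> first | rfl | exact absurd rfl h7 | exact absurd rfl h8
    simp only [e1, e2, Equiv.Perm.coe_one, id_eq]
    rw [gq_vmat, hg, hg, inv_smul_smul, mul_smul, inv_smul_smul]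
    exact hs α n

end exists_v

end Cd
end Crest.Agent.R197
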