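import Mathlib
import Crest.Agent.R197.Defs

/-!
# Row 197: the subgroups `N̄ = ⟨x_i, y_k⟩` and `Q̄_α = ⟨A_ik : i ∈ X_α, k ∈ Y_α⟩` of `G`
-/

set_option autoImplicit false

namespace Crest.Agent.R197

/-- the subgroup of `G` generated by the `x i` and the `y k` -/
def Nbar : Subgroup GG := Subgroup.closure (Set.range GG.x ∪ Set.range GG.y)

/-- the edge groups `⟨A i k : i ∈ X_α, k ∈ Y_α⟩` -/
def Qbar (α : Ltr) : Subgroup GG :=
  Subgroup.closure {g | ∃ i k, inX α i ∧ inY α k ∧ g = Aw GG.x GG.y i k}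

theorem x_mem_Nbar (i : Fin 4) : GG.x i ∈ Nbar :=
  Subgroup.subset_closure (Or.inl ⟨i, rfl⟩)

theorem y_mem_Nbar (k : Fin 4) : GG.y k ∈ Nbar :=
  Subgroup.subset_closure (Or.inr ⟨k, rfl⟩)

theorem Aw_mem_Nbar (i k : Fin 4) : Aw GG.x GG.y i k ∈ Nbar :=
  mul_mem (y_mem_Nbar k) (inv_mem (x_mem_Nbar i))

theorem Bw_mem_Nbar (i k : Fin 4) : Bw GG.x GG.y i k ∈ Nbar :=
  mul_mem (inv_mem (x_mem_Nbar i)) (y_mem_Nbar k)

theorem Aw_mem_Qbar {α : Ltr} {i k : Fin 4} (hi : inX α i) (hk : inY α k) :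
    Aw GG.x GG.y i k ∈ Qbar α :=
  Subgroup.subset_closure ⟨i, k, hi, hk, rfl⟩

theorem Qbar_le_Nbar (α : Ltr) : Qbar α ≤ Nbar := by
  unfold Qbar
  rw [Subgroup.closure_le]
  rintro _ ⟨i, k, -, -, rfl⟩
  exact Aw_mem_Nbar i k

/-- conjugation by `r α` maps `Qbar α` into `Nbar` -/
theorem conj_mem_Nbar {α : Ltr} {q : GG} (hq : q ∈ Qbar α) :
    (GG.r α)⁻¹ * q * GG.r α ∈ Nbar := by
  unfold Qbar at hq
  induction hq using Subgroup.closure_induction with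
  | mem g hg =>
    obtain ⟨i, k, hi, hk, rfl⟩ := hg
    have h := GG.rel.hex α i k hi hk
    rw [mul_assoc, h, inv_mul_cancel_left]
    exact Bw_mem_Nbar _ _
  | one => simp [one_mem]
  | mul a b _ _ ha hb =>
    have : (GG.r α)⁻¹ * (a * b) * GG.r α
        = ((GG.r α)⁻¹ * a * GG.r α) * ((GG.r α)⁻¹ * b * GG.r α) := by group
    rw [this]
    exact mul_mem ha hb
  | inv a _ ha =>
    have : (GG.r α)⁻¹ * a⁻¹ * GG.r α = ((GG.r α)⁻¹ * a * GG.r α)⁻¹ := by group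
    rw [this]
    exact inv_mem ha

/-- conjugation by `r α` maps `Q̄ α` into `N̄`: `r α⁻¹ * q * r α ∈ N̄`. -/
theorem r_conj_mem_Nbar {α : Ltr} {q : GG} (hq : q ∈ Qbar α) :
    (GG.r α)⁻¹ * q * GG.r α ∈ Nbar := conj_mem_Nbar hq

end Crest.Agent.R197
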