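import Mathlib
import Crest.Agent.R197.Defs
import Crest.Agent.R197.CdDefs
import Crest.Agent.R197.NDefs
import Crest.Agent.R197.CdAlg

/-!
# Row 197, module D: every extension of `G` by `C / M` splits
-/

set_option autoImplicit false
set_option linter.unusedSimpArgs false

namespace Crest.Agent.R197
namespace Cd

/-- `Λ_n^i ∈ G`. -/
def Lam (i : Fin 4) (n : ℤ) : GG := Lw GG.x GG.y i 0 n

/-- the subgroup generated by the `Λ_n^i` -/
def KLam : Subgroup GG := Subgroup.closure (Set.range fun p : ℤ × Fin 4 => Lam p.2 p.1)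

theorem Lam_mem (i : Fin 4) (n : ℤ) : Lam i n ∈ KLam :=
  Subgroup.subset_closure ⟨(n, i), rfl⟩

/-- the facts of module N used here -/
structure NFacts : Prop where
  lam1 : ∀ (i j k l : Fin 4) (n : ℤ), lam GG.x GG.y i j k l n = 1
  free : ∀ (H : Type) [Group H] (w : ℤ → Fin 4 → H), (∀ i, w 0 i = 1) → (∀ n, w n 0 = 1) →
    ∃ f : KLam →* H, ∀ n i, f ⟨Lam i n, Lam_mem i n⟩ = w n i
  qbar : ∀ (α : Ltr) (H : Type) [Group H] (a b c d : H), c = d * a⁻¹ * b →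
    (∀ n : ℤ, lam4 a b c d n = 1) →
    ∃ f : Qbar α →* H,
      f ⟨Aw GG.x GG.y (x1 α) (y1 α), Aw_mem_Qbar (Or.inl rfl) (Or.inl rfl)⟩ = a ∧
      f ⟨Aw GG.x GG.y (x2 α) (y1 α), Aw_mem_Qbar (Or.inr rfl) (Or.inl rfl)⟩ = b ∧
      f ⟨Aw GG.x GG.y (x2 α) (y2 α), Aw_mem_Qbar (Or.inr rfl) (Or.inr rfl)⟩ = c ∧
      f ⟨Aw GG.x GG.y (x1 α) (y2 α), Aw_mem_Qbar (Or.inl rfl) (Or.inr rfl)⟩ = d

theorem Lam_zero (i : Fin 4) : Lam i 0 = 1 := by simp [Lam]
theorem Lam_i0 (n : ℤ) : Lam 0 n = 1 := by simp [Lam]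

theorem Lw_GG (N : NFacts) (i k : Fin 4) (n : ℤ) : Lw GG.x GG.y i k n = Lam i n := by
  have h := N.lam1 0 i k 0 n
  rw [lam_eq_Lw] at h
  simp only [Lw_i0, inv_one, one_mul, mul_one] at h
  exact mul_inv_eq_one.mp h

theorem lam4_mk {H K : Type*} [Group H] [Group K] (a b c d : H) (a' b' c' d' : K) (n : ℤ) :
    lam4 (a, a') (b, b') (c, c') (d, d') n = (lam4 a b c d n, lam4 a' b' c' d' n) :=
  Prod.ext (map_lam4 (MonoidHom.fst H K) (a, a') (b, b') (c, c') (d, d') n)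
    (map_lam4 (MonoidHom.snd H K) (a, a') (b, b') (c, c') (d, d') n)

theorem Lin_unique {G C : Type} [Group G] [AddCommGroup C] [DistribMulAction G C]
    {a b c d d' : Sdp G C} (h : (a, b, c, d) ∈ (Sdp.Lin : Subgroup (Sdp G C × Sdp G C × Sdp G C × Sdp G C)))
    (h' : (a, b, c, d') ∈ (Sdp.Lin : Subgroup (Sdp G C × Sdp G C × Sdp G C × Sdp G C))) : d = d' := by
  rw [Sdp.mem_Lin] at h h'
  ext
  · rw [h.2.2.2, h'.2.2.2]
  · rw [h.2.2.1, h'.2.2.1]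

theorem Bw_fourth {H : Type*} [Group H] (x y : Fin 4 → H) (i j k l : Fin 4)
    (h : lam x y i j k l (-2) = 1) :
    Bw x y j l = Bw x y i l * (Bw x y i k)⁻¹ * Bw x y j k := by
  have h1 := lam4_Bw x y i j k l (-1)
  have e : (-1 : ℤ) - 1 = -2 := by norm_num
  rw [e, h] at h1
  simp only [lam4, neg_neg, zpow_one, zpow_neg_one, mul_one, inv_mul_cancel] at h1
  have h2 : Bw x y j l = Bw x y i l * ((Bw x y i k)⁻¹ * Bw x y j k * (Bw x y j l)⁻¹ * Bw x y i l)⁻¹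
      * (Bw x y i k)⁻¹ * Bw x y j k := by group
  rw [h1] at h2
  rw [h2]
  group

section beta
variable {C : Type} [AddCommGroup C] [DistribMulAction GG C]

/-- lifts of the `x i` -/
def xs (C : Type) [AddCommGroup C] (i : Fin 4) : Sdp GG C := ⟨0, GG.x i⟩
/-- lifts of the `y k` -/
def ys (z : Fin 4 → C) (k : Fin 4) : Sdp GG C := ⟨z k, GG.y k⟩

theorem exists_z (N : NFacts) (hC : CoindLike GG C) (k : Fin 4) (v : ℤ → Fin 4 → C)
    (hv0 : ∀ i, v 0 i = 0) (hv1 : ∀ i, v (-1) i = 0) (hvx : ∀ n, v n 0 = 0) :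
    ∃ z : C, ∀ n i, z - Lam i n • z = v n i - GG.y k • v (n - 1) i := by
  obtain ⟨f, hf⟩ := N.free (Sdp GG C)
    (fun n i => ⟨-(v n i - GG.y k • v (n - 1) i), Lam i n⟩)
    (by
      intro i
      have e : (0 : ℤ) - 1 = -1 := by norm_num
      ext <;> simp [hv0, hv1, Lam_zero])
    (by
      intro n
      ext <;> simp [hvx, Lam_i0])
  have hfg : ∀ (g : GG) (hg : g ∈ KLam), (f ⟨g, hg⟩).g = g := by
    intro g hg
    unfold KLam at hg
    induction hg using Subgroup.closure_induction with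
    | mem g hg =>
      obtain ⟨⟨n, i⟩, rfl⟩ := hg
      exact congrArg Sdp.g (hf n i)
    | one =>
      have : (⟨1, one_mem _⟩ : KLam) = 1 := rfl
      rw [this, map_one]; rfl
    | mul a b ha hb iha ihb =>
      have : (⟨a * b, mul_mem ha hb⟩ : KLam) = (⟨a, ha⟩ : KLam) * (⟨b, hb⟩ : KLam) := rfl
      rw [this, map_mul, Sdp.mul_g, iha, ihb]
    | inv a ha iha =>
      have : (⟨a⁻¹, inv_mem ha⟩ : KLam) = (⟨a, ha⟩ : KLam)⁻¹ := rfl
      rw [this, map_inv, Sdp.inv_g, iha]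
  obtain ⟨z, hz⟩ := hC KLam (fun q => (f q).c) (by
    intro a b
    rw [map_mul, Sdp.mul_c, hfg a.1 a.2])
  refine ⟨z, fun n i => ?_⟩
  have h1 := hz ⟨Lam i n, Lam_mem i n⟩
  simp only [hf n i] at h1
  have h2 : z - Lam i n • z = -(Lam i n • z - z) := by abel
  rw [h2, ← h1, neg_neg]

/-- (β1) -/
theorem beta1 (N : NFacts) (hC : CoindLike GG C) (v : ℤ → Fin 4 → Fin 4 → C)
    (hv0 : ∀ i k, v 0 i k = 0) (hv1 : ∀ i k, v (-1) i k = 0) (hvx : ∀ n k, v n 0 k = 0) :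
    ∃ z : Fin 4 → C, ∀ i k n, Lw (xs C) (ys z) i k n = ⟨v n i k, Lam i n⟩ := by
  choose z hz using fun k : Fin 4 => exists_z N hC k (fun n i => v n i k) (fun i => hv0 i k)
    (fun i => hv1 i k) (fun n => hvx n k)
  refine ⟨z, fun i k => ?_⟩
  have hx0 : xs C 0 = 1 := by ext <;> simp [xs, GG.rel.x0]
  refine rec_unique (ys z k) (xs C i * (ys z k)⁻¹) _ _ ?_ ?_ ?_
  · simp only [Lw_zero]
    ext <;> simp [hv0, Lam_zero]
  · intro n
    exact Lw_succ hx0 _ _ _ _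
  · intro n
    have hL : Lam i (n + 1) = GG.y k * Lam i n * (GG.x i * (GG.y k)⁻¹) := by
      rw [← Lw_GG N i k, ← Lw_GG N i k, Lw_succ GG.rel.x0]
    have h1 := hz k (n + 1) i
    simp only [add_sub_cancel_right] at h1
    ext
    · have h2 : v (n + 1) i k = z k + GG.y k • v n i k - Lam i (n + 1) • z k := by
        rw [add_sub_right_comm, h1]; abel
      simp only [h2, Sdp.mul_c, Sdp.mul_g, Sdp.inv_c, xs, ys, hL, zero_add, smul_neg, mul_smul,
        smul_inv_smul]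
      abel
    · exact hL

theorem lam_Sdp {v : ℤ → Fin 4 → Fin 4 → C} {z : Fin 4 → C}
    (hz : ∀ i k n, Lw (xs C) (ys z) i k n = ⟨v n i k, Lam i n⟩) (i j k l : Fin 4) (n : ℤ) :
    lam (xs C) (ys z) i j k l n = ⟨(Lam i n)⁻¹ • gq (v n) i j k l, 1⟩ := by
  rw [lam_eq_Lw, hz, hz, hz, hz]
  ext
  · simp only [Sdp.mul_c, Sdp.mul_g, Sdp.inv_c, Sdp.inv_g, gq, smul_neg, mul_smul, smul_add,
      smul_sub, inv_smul_smul, smul_inv_smul]
    abel
  · simp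

end beta

section main
variable {M C Q : Type} [AddCommGroup M] [AddCommGroup C] [AddCommGroup Q]
    [DistribMulAction GG M] [DistribMulAction GG C] [DistribMulAction GG Q]

/-- twisting by elements of `C` -/
def TwC (X : ExtVia (MonoidHom.id GG) Q) (p : C →+ Q) (hpg : ∀ (g : GG) (c : C), p (g • c) = g • p c) :
    Subgroup (X.U × Sdp GG C × X.U) :=
  (Tw X).comap (MonoidHom.prodMap (MonoidHom.id _)
    (MonoidHom.prodMap (Sdp.map p hpg) (MonoidHom.id _)))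

theorem mem_TwC {X : ExtVia (MonoidHom.id GG) Q} {p : C →+ Q}
    {hpg : ∀ (g : GG) (c : C), p (g • c) = g • p c} {u u' : X.U} {s : Sdp GG C} :
    (u, s, u') ∈ TwC X p hpg ↔ X.κ u = s.g ∧ u' = jj X (p s.c) * u := Iff.rfl

theorem splitProp_GG (N : NFacts) : SplitProp GG := by
  intro M C Q _ _ _ _ _ _ ι p hιinj hp hex hιg hpg hC X
  -- lifts
  choose lf hlf using X.surj
  let X₀ : Fin 4 → X.U := fun i => if i = 0 then 1 else lf (GG.x i)
  let Y₀ : Fin 4 → X.U := fun k => lf (GG.y k)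
  let R₀ : Ltr → X.U := fun α => lf (GG.r α)
  have hX : ∀ i, X.κ (X₀ i) = GG.x i := by
    intro i
    by_cases hi : i = 0
    · subst hi; simp [X₀, GG.rel.x0]
    · simp [X₀, hi, hlf]
  have hY₀ : ∀ k, X.κ (Y₀ k) = GG.y k := fun k => hlf _
  have hR₀ : ∀ α, X.κ (R₀ α) = GG.r α := fun α => hlf _
  have hX0 : X₀ 0 = 1 := by simp [X₀]
  -- a section of `p`
  obtain ⟨σ, hσ, hσ0⟩ : ∃ σ : Q → C, (∀ q, p (σ q) = q) ∧ σ 0 = 0 := by
    classical
    choose σ hσ using hp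
    refine ⟨fun q => if q = 0 then 0 else σ q, fun q => ?_, by simp⟩
    by_cases hq : q = 0
    · simp [hq]
    · simp [hq, hσ]
  -- memberships in `TwC`
  have twX : ∀ i, (X₀ i, xs C i, X₀ i) ∈ TwC X p hpg := fun i =>
    mem_TwC.mpr ⟨hX i, by simp [xs]⟩
  have twY : ∀ (Y : Fin 4 → X.U) (_ : ∀ k, X.κ (Y k) = GG.y k) (z : Fin 4 → C) (k : Fin 4),
      (Y k, ys z k, jj X (p (z k)) * Y k) ∈ TwC X p hpg := fun Y hY z k =>
    mem_TwC.mpr ⟨hY k, rfl⟩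
  have twLw : ∀ (Y : Fin 4 → X.U) (_ : ∀ k, X.κ (Y k) = GG.y k) (z : Fin 4 → C) (i k : Fin 4) (n : ℤ),
      (Lw X₀ Y i k n, Lw (xs C) (ys z) i k n, Lw X₀ (fun k => jj X (p (z k)) * Y k) i k n) ∈
        TwC X p hpg := by
    intro Y hY z i k n
    have h := Lw_mem (TwC X p hpg) (x := fun i => (X₀ i, xs C i, X₀ i))
      (y := fun k => (Y k, ys z k, jj X (p (z k)) * Y k)) twX (twY Y hY z) i k n
    have e1 := map_Lw (MonoidHom.fst X.U (Sdp GG C × X.U)) (fun i => (X₀ i, xs C i, X₀ i))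
      (fun k => (Y k, ys z k, jj X (p (z k)) * Y k)) i k n
    have e2 := map_Lw ((MonoidHom.fst (Sdp GG C) X.U).comp (MonoidHom.snd X.U (Sdp GG C × X.U)))
      (fun i => (X₀ i, xs C i, X₀ i)) (fun k => (Y k, ys z k, jj X (p (z k)) * Y k)) i k n
    have e3 := map_Lw ((MonoidHom.snd (Sdp GG C) X.U).comp (MonoidHom.snd X.U (Sdp GG C × X.U)))
      (fun i => (X₀ i, xs C i, X₀ i)) (fun k => (Y k, ys z k, jj X (p (z k)) * Y k)) i k n
    have : (Lw X₀ Y i k n, Lw (xs C) (ys z) i k n, Lw X₀ (fun k => jj X (p (z k)) * Y k) i k n)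
        = Lw (fun i => (X₀ i, xs C i, X₀ i)) (fun k => (Y k, ys z k, jj X (p (z k)) * Y k)) i k n :=
      Prod.ext e1.symm (Prod.ext e2.symm e3.symm)
    rw [this]
    exact h
  have twlam : ∀ (Y : Fin 4 → X.U) (_ : ∀ k, X.κ (Y k) = GG.y k) (z : Fin 4 → C)
      (i j k l : Fin 4) (n : ℤ),
      (lam X₀ Y i j k l n, lam (xs C) (ys z) i j k l n,
        lam X₀ (fun k => jj X (p (z k)) * Y k) i j k l n) ∈ TwC X p hpg := by
    intro Y hY z i j k l n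
    have h := lam_mem (TwC X p hpg) (x := fun i => (X₀ i, xs C i, X₀ i))
      (y := fun k => (Y k, ys z k, jj X (p (z k)) * Y k)) twX (twY Y hY z) i j k l n
    have e1 := map_lam (MonoidHom.fst X.U (Sdp GG C × X.U)) (fun i => (X₀ i, xs C i, X₀ i))
      (fun k => (Y k, ys z k, jj X (p (z k)) * Y k)) i j k l n
    have e2 := map_lam ((MonoidHom.fst (Sdp GG C) X.U).comp (MonoidHom.snd X.U (Sdp GG C × X.U)))
      (fun i => (X₀ i, xs C i, X₀ i)) (fun k => (Y k, ys z k, jj X (p (z k)) * Y k)) i j k l n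
    have e3 := map_lam ((MonoidHom.snd (Sdp GG C) X.U).comp (MonoidHom.snd X.U (Sdp GG C × X.U)))
      (fun i => (X₀ i, xs C i, X₀ i)) (fun k => (Y k, ys z k, jj X (p (z k)) * Y k)) i j k l n
    have : (lam X₀ Y i j k l n, lam (xs C) (ys z) i j k l n,
        lam X₀ (fun k => jj X (p (z k)) * Y k) i j k l n)
        = lam (fun i => (X₀ i, xs C i, X₀ i)) (fun k => (Y k, ys z k, jj X (p (z k)) * Y k)) i j k l n :=
      Prod.ext e1.symm (Prod.ext e2.symm e3.symm)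
    rw [this]
    exact h
  -- Step B: flat lifts
  obtain ⟨Y, hY, hflat⟩ : ∃ Y : Fin 4 → X.U, (∀ k, X.κ (Y k) = GG.y k) ∧
      ∀ i j k l n, lam X₀ Y i j k l n = 1 := by
    have hκ : ∀ i k n, X.κ (Lw X₀ Y₀ i k n) = Lam i n := by
      intro i k n
      rw [map_Lw]
      simp only [hX, hY₀]
      exact Lw_GG N i k n
    choose t ht using fun (n : ℤ) (i k : Fin 4) =>
      exists_jj X (u := Lw X₀ Y₀ i k n * (Lw X₀ Y₀ i 0 n)⁻¹) (by rw [map_mul, map_inv, hκ, hκ]; simp)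
    have t0 : ∀ n i k, Lw X₀ Y₀ i k n = Lw X₀ Y₀ i 0 n → t n i k = 0 := by
      intro n i k h
      apply jj_inj X
      rw [ht, h]; simp
    obtain ⟨z, hz⟩ := beta1 N hC (fun n i k => σ (-t n i k))
      (fun i k => by simp only [t0 0 i k (by simp), neg_zero, hσ0])
      (fun i k => by simp only [t0 (-1) i k (by rw [Lw_neg_one hX0, Lw_neg_one hX0]), neg_zero, hσ0])
      (fun n k => by simp only [t0 n 0 k (by simp), neg_zero, hσ0])
    refine ⟨fun k => jj X (p (z k)) * Y₀ k, fun k => by simp [hY₀], ?_⟩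
    have key : ∀ i k n, Lw X₀ (fun k => jj X (p (z k)) * Y₀ k) i k n = Lw X₀ Y₀ i 0 n := by
      intro i k n
      have h := (mem_TwC.mp (twLw Y₀ hY₀ z i k n)).2
      rw [h, hz]
      simp only [hσ, jj_neg, ht]
      group
    intro i j k l n
    rw [lam_eq_Lw, key, key, key, key]
    group
  -- Step C: the letters
  have step : ∀ α : Ltr, ∃ a b c d : Sdp GG C, c = d * a⁻¹ * b ∧
      (Aw X₀ Y (x1 α) (y1 α), a, R₀ α * Bw X₀ Y (pX α (x1 α)) (pY α (y1 α)) * (R₀ α)⁻¹) ∈ TwC X p hpg ∧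
      (Aw X₀ Y (x2 α) (y1 α), b, R₀ α * Bw X₀ Y (pX α (x2 α)) (pY α (y1 α)) * (R₀ α)⁻¹) ∈ TwC X p hpg ∧
      (Aw X₀ Y (x2 α) (y2 α), c, R₀ α * Bw X₀ Y (pX α (x2 α)) (pY α (y2 α)) * (R₀ α)⁻¹) ∈ TwC X p hpg ∧
      (Aw X₀ Y (x1 α) (y2 α), d, R₀ α * Bw X₀ Y (pX α (x1 α)) (pY α (y2 α)) * (R₀ α)⁻¹) ∈ TwC X p hpg := by
    intro α
    have ex : ∀ i k, inX α i → inY α k → ∃ s : Sdp GG C,
        (Aw X₀ Y i k, s, R₀ α * Bw X₀ Y (pX α i) (pY α k) * (R₀ α)⁻¹) ∈ TwC X p hpg := by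
      intro i k hi hk
      obtain ⟨q, hq⟩ := exists_jj X
        (u := R₀ α * Bw X₀ Y (pX α i) (pY α k) * (R₀ α)⁻¹ * (Aw X₀ Y i k)⁻¹) (by
          rw [map_mul, map_mul, map_mul, map_inv, map_inv, map_Aw, map_Bw]
          simp only [hX, hY, hR₀]
          have := GG.rel.hex α i k hi hk
          rw [← this]
          group)
      refine ⟨⟨σ q, Aw GG.x GG.y i k⟩, mem_TwC.mpr ⟨?_, ?_⟩⟩
      · rw [map_Aw]; simp only [hX, hY]
      · simp only [hσ, hq]; group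
    obtain ⟨a, ha⟩ := ex (x1 α) (y1 α) (Or.inl rfl) (Or.inl rfl)
    obtain ⟨b, hb⟩ := ex (x2 α) (y1 α) (Or.inr rfl) (Or.inl rfl)
    obtain ⟨d, hd⟩ := ex (x1 α) (y2 α) (Or.inl rfl) (Or.inr rfl)
    refine ⟨a, b, d * a⁻¹ * b, d, rfl, ha, hb, ?_, hd⟩
    have h := mul_mem (mul_mem hd (inv_mem ha)) hb
    have e : (Aw X₀ Y (x2 α) (y2 α), d * a⁻¹ * b,
        R₀ α * Bw X₀ Y (pX α (x2 α)) (pY α (y2 α)) * (R₀ α)⁻¹) =
        (Aw X₀ Y (x1 α) (y2 α), d, R₀ α * Bw X₀ Y (pX α (x1 α)) (pY α (y2 α)) * (R₀ α)⁻¹) *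
        (Aw X₀ Y (x1 α) (y1 α), a, R₀ α * Bw X₀ Y (pX α (x1 α)) (pY α (y1 α)) * (R₀ α)⁻¹)⁻¹ *
        (Aw X₀ Y (x2 α) (y1 α), b, R₀ α * Bw X₀ Y (pX α (x2 α)) (pY α (y1 α)) * (R₀ α)⁻¹) := by
      simp only [Prod.inv_mk, Prod.mk_mul_mk, Prod.mk.injEq, true_and]
      refine ⟨by simp only [Aw]; group, ?_⟩
      rw [Bw_fourth X₀ Y _ _ _ _ (hflat (pX α (x1 α)) (pX α (x2 α)) (pY α (y1 α)) (pY α (y2 α)) (-2))]
      group
    rw [e]
    exact h
  choose a b c d hcd ha hb hc hd using step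
  -- the loops of the letters
  have hloop : ∀ α n, ∃ m : M, lam4 (a α) (b α) (c α) (d α) n = ⟨ι m, 1⟩ := by
    intro α n
    have h := lam4_mem (TwC X p hpg) (ha α) (hb α) (hc α) (hd α) n
    have f1 : lam4 (Aw X₀ Y (x1 α) (y1 α)) (Aw X₀ Y (x2 α) (y1 α)) (Aw X₀ Y (x2 α) (y2 α))
        (Aw X₀ Y (x1 α) (y2 α)) n = 1 := hflat _ _ _ _ _
    have f3 : lam4 (R₀ α * Bw X₀ Y (pX α (x1 α)) (pY α (y1 α)) * (R₀ α)⁻¹)
        (R₀ α * Bw X₀ Y (pX α (x2 α)) (pY α (y1 α)) * (R₀ α)⁻¹)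
        (R₀ α * Bw X₀ Y (pX α (x2 α)) (pY α (y2 α)) * (R₀ α)⁻¹)
        (R₀ α * Bw X₀ Y (pX α (x1 α)) (pY α (y2 α)) * (R₀ α)⁻¹) n = 1 := by
      have := map_lam4 (MulAut.conj (R₀ α)).toMonoidHom (Bw X₀ Y (pX α (x1 α)) (pY α (y1 α)))
        (Bw X₀ Y (pX α (x2 α)) (pY α (y1 α))) (Bw X₀ Y (pX α (x2 α)) (pY α (y2 α)))
        (Bw X₀ Y (pX α (x1 α)) (pY α (y2 α))) n
      simp only [MulEquiv.toMonoidHom_eq_coe, MonoidHom.coe_coe, MulAut.conj_apply] at this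
      rw [← this, lam4_Bw, hflat]
      simp
    rw [lam4_mk, lam4_mk, f1, f3] at h
    obtain ⟨g1, g2⟩ := mem_TwC.mp h
    rw [mul_one] at g2
    have g3 : p (lam4 (a α) (b α) (c α) (d α) n).c = 0 := by
      apply jj_inj X
      rw [← g2, jj_zero]
    obtain ⟨m, hm⟩ := (hex _).mp g3
    refine ⟨m, ?_⟩
    ext
    · exact hm.symm
    · rw [← g1, map_one]
  choose μ hμ using hloop
  have μ0 : ∀ α, μ α 0 = 0 := by
    intro α
    apply hιinj
    have := congrArg Sdp.c (hμ α 0)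
    simp only [lam4, neg_zero, zpow_zero, mul_one, Sdp.one_c] at this
    rw [← this, map_zero]
  have μ1 : ∀ α, μ α (-1) = 0 := by
    intro α
    apply hιinj
    have h1 : lam4 (a α) (b α) (c α) (d α) (-1) = 1 := by
      rw [hcd]
      simp only [lam4, neg_neg, zpow_one, zpow_neg_one]
      group
    have := congrArg Sdp.c (hμ α (-1))
    rw [h1, Sdp.one_c] at this
    rw [map_zero]
    exact this.symm
  -- Step D: the linear system
  obtain ⟨v, v0, v1, vx, vy, hv⟩ := exists_v (fun n i => Lam i n) GG.x GG.r μ μ0 μ1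
  -- Step E
  obtain ⟨z, hz⟩ := beta1 N hC (fun n i k => ι (v n i k))
    (fun i k => by simp only [v0, map_zero])
    (fun i k => by simp only [v1, map_zero])
    (fun n k => by simp only [vx, map_zero])
  have hlam : ∀ i j k l n, lam (xs C) (ys z) i j k l n =
      ⟨ι ((Lam i n)⁻¹ • gq (v n) i j k l), 1⟩ := by
    intro i j k l n
    rw [lam_Sdp hz]
    ext
    · simp only [gq, hιg, map_sub, map_add]
    · rfl
  let Y₂ : Fin 4 → X.U := fun k => jj X (p (z k)) * Y k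
  have hY₂ : ∀ k, X.κ (Y₂ k) = GG.y k := fun k => by simp [Y₂, hY]
  have hflat₂ : ∀ i j k l n, lam X₀ Y₂ i j k l n = 1 := by
    intro i j k l n
    have h := (mem_TwC.mp (twlam Y hY z i j k l n)).2
    have h0 : p (ι ((Lam i n)⁻¹ • gq (v n) i j k l)) = 0 := (hex _).mpr ⟨_, rfl⟩
    rw [hflat, hlam, mul_one] at h
    simp only [h0, jj_zero] at h
    exact h
  let rs : Ltr → Sdp GG C := fun α => ⟨0, GG.r α⟩
  have twR : ∀ α, (R₀ α, rs α, R₀ α) ∈ TwC X p hpg := fun α =>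
    mem_TwC.mpr ⟨hR₀ α, by simp [rs]⟩
  have twA : ∀ i k, (Aw X₀ Y i k, Aw (xs C) (ys z) i k, Aw X₀ Y₂ i k) ∈ TwC X p hpg := fun i k =>
    mul_mem (twY Y hY z k) (inv_mem (twX i))
  have twB : ∀ i k, (Bw X₀ Y i k, Bw (xs C) (ys z) i k, Bw X₀ Y₂ i k) ∈ TwC X p hpg := fun i k =>
    mul_mem (inv_mem (twX i)) (twY Y hY z k)
  have final : ∀ α, ∃ e : C, ∀ i k, inX α i → inY α k →
      R₀ α * Bw X₀ Y₂ (pX α i) (pY α k) * (R₀ α)⁻¹ =
        jj X (p (Aw GG.x GG.y i k • e - e)) * Aw X₀ Y₂ i k := by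
    intro α
    let As : Fin 4 → Fin 4 → Sdp GG C := fun i k => Aw (xs C) (ys z) i k
    let Bs : Fin 4 → Fin 4 → Sdp GG C := fun i k =>
      rs α * Bw (xs C) (ys z) (pX α i) (pY α k) * (rs α)⁻¹
    have hAsg : ∀ i k, (As i k).g = Aw GG.x GG.y i k := fun i k => rfl
    have hBsg : ∀ i k, inX α i → inY α k → (Bs i k).g = Aw GG.x GG.y i k := by
      intro i k hi hk
      show GG.r α * Bw GG.x GG.y (pX α i) (pY α k) * (GG.r α)⁻¹ = _
      rw [← GG.rel.hex α i k hi hk]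
      group
    let pr : Fin 4 → Fin 4 → Sdp GG C → Sdp GG C := fun i k s =>
      ⟨s.c + (Bs i k).c - (As i k).c, Aw GG.x GG.y i k⟩
    have hL : ∀ i k, inX α i → inY α k → ∀ s : Sdp GG C,
        (Aw X₀ Y i k, s, R₀ α * Bw X₀ Y (pX α i) (pY α k) * (R₀ α)⁻¹) ∈ TwC X p hpg →
        (s, Bs i k, As i k, pr i k s) ∈ (Sdp.Lin : Subgroup _) := by
      intro i k hi hk s hs
      have hg : s.g = Aw GG.x GG.y i k := by
        rw [← (mem_TwC.mp hs).1, map_Aw]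
        simp only [hX, hY]
      exact Sdp.mem_Lin.mpr ⟨by rw [hBsg i k hi hk, hg], by rw [hAsg, hg], by rw [hg], rfl⟩
    have hT : ∀ i k, ∀ s : Sdp GG C,
        (Aw X₀ Y i k, s, R₀ α * Bw X₀ Y (pX α i) (pY α k) * (R₀ α)⁻¹) ∈ TwC X p hpg →
        R₀ α * Bw X₀ Y₂ (pX α i) (pY α k) * (R₀ α)⁻¹ = jj X (p (pr i k s).c) * Aw X₀ Y₂ i k := by
      intro i k s hs
      have h1 := (mem_TwC.mp (mul_mem (mul_mem (twR α) (twB (pX α i) (pY α k))) (inv_mem (twR α)))).2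
      have h2 := (mem_TwC.mp hs).2
      have h3 := (mem_TwC.mp (twA i k)).2
      have h4 : (pr i k s).c = (Bs i k).c + s.c - (As i k).c := by
        show s.c + (Bs i k).c - (As i k).c = _
        abel
      rw [h3, h4, map_sub, map_add, sub_eq_add_neg, jj_add, jj_add, jj_neg]
      change R₀ α * Bw X₀ Y₂ (pX α i) (pY α k) * (R₀ α)⁻¹ = jj X (p (Bs i k).c) *
        (R₀ α * Bw X₀ Y (pX α i) (pY α k) * (R₀ α)⁻¹) at h1
      rw [h1, h2]
      simp only [As]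
      group
    have La := hL (x1 α) (y1 α) (Or.inl rfl) (Or.inl rfl) (a α) (ha α)
    have Lb := hL (x2 α) (y1 α) (Or.inr rfl) (Or.inl rfl) (b α) (hb α)
    have Lc := hL (x2 α) (y2 α) (Or.inr rfl) (Or.inr rfl) (c α) (hc α)
    have Ld := hL (x1 α) (y2 α) (Or.inl rfl) (Or.inr rfl) (d α) (hd α)
    -- the loop at scale `-2` of the target square
    have hm2 : lam (xs C) (ys z) (pX α (x1 α)) (pX α (x2 α)) (pY α (y1 α)) (pY α (y2 α)) (-2) = 1 := by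
      rw [hlam]
      have h1 := hv α (-1)
      have e : (-1 : ℤ) - 1 = -2 := by norm_num
      have e2 : gq (v (-1)) (x1 α) (x2 α) (y1 α) (y2 α) = 0 := by simp [gq, v1]
      rw [e, e2, smul_zero, zero_sub, μ1, neg_eq_zero, smul_eq_zero_iff_eq] at h1
      rw [h1, smul_zero, map_zero]
      rfl
    have Lcc : pr (x2 α) (y2 α) (c α) =
        pr (x1 α) (y2 α) (d α) * (pr (x1 α) (y1 α) (a α))⁻¹ * pr (x2 α) (y1 α) (b α) := by
      have h := mul_mem (mul_mem Ld (inv_mem La)) Lb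
      have e1 : (d α, Bs (x1 α) (y2 α), As (x1 α) (y2 α), pr (x1 α) (y2 α) (d α)) *
          (a α, Bs (x1 α) (y1 α), As (x1 α) (y1 α), pr (x1 α) (y1 α) (a α))⁻¹ *
          (b α, Bs (x2 α) (y1 α), As (x2 α) (y1 α), pr (x2 α) (y1 α) (b α)) =
          (c α, Bs (x2 α) (y2 α), As (x2 α) (y2 α),
            pr (x1 α) (y2 α) (d α) * (pr (x1 α) (y1 α) (a α))⁻¹ * pr (x2 α) (y1 α) (b α)) := by
        simp only [Prod.inv_mk, Prod.mk_mul_mk, Prod.mk.injEq, and_true]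
        refine ⟨(hcd α).symm, ?_, ?_⟩
        · simp only [Bs]
          rw [Bw_fourth _ _ _ _ _ _ hm2]
          group
        · simp only [As, Aw]
          group
      rw [e1] at h
      exact Lin_unique Lc h
    have Lloop : ∀ n, lam4 (pr (x1 α) (y1 α) (a α)) (pr (x2 α) (y1 α) (b α))
        (pr (x2 α) (y2 α) (c α)) (pr (x1 α) (y2 α) (d α)) n = 1 := by
      intro n
      have h := lam4_mem (Sdp.Lin : Subgroup _) La Lb Lc Ld n
      rw [lam4_mk, lam4_mk, lam4_mk, hμ] at h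
      have eA : lam4 (As (x1 α) (y1 α)) (As (x2 α) (y1 α)) (As (x2 α) (y2 α)) (As (x1 α) (y2 α)) n =
          ⟨ι ((Lam (x1 α) n)⁻¹ • gq (v n) (x1 α) (x2 α) (y1 α) (y2 α)), 1⟩ := hlam _ _ _ _ _
      have eB : lam4 (Bs (x1 α) (y1 α)) (Bs (x2 α) (y1 α)) (Bs (x2 α) (y2 α)) (Bs (x1 α) (y2 α)) n =
          ⟨ι ((GG.r α * (GG.x (pX α (x1 α)))⁻¹ * (Lam (pX α (x1 α)) (n - 1))⁻¹) •
            gq (v (n - 1)) (pX α (x1 α)) (pX α (x2 α)) (pY α (y1 α)) (pY α (y2 α))), 1⟩ := by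
        have := map_lam4 (MulAut.conj (rs α)).toMonoidHom
          (Bw (xs C) (ys z) (pX α (x1 α)) (pY α (y1 α)))
          (Bw (xs C) (ys z) (pX α (x2 α)) (pY α (y1 α)))
          (Bw (xs C) (ys z) (pX α (x2 α)) (pY α (y2 α)))
          (Bw (xs C) (ys z) (pX α (x1 α)) (pY α (y2 α))) n
        simp only [MulEquiv.toMonoidHom_eq_coe, MonoidHom.coe_coe, MulAut.conj_apply] at this
        simp only [Bs]
        rw [← this, lam4_Bw, hlam]
        ext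
        · simp [rs, xs, hιg, mul_smul]
        · simp [rs, xs]
      rw [eA, eB, Sdp.mem_Lin] at h
      obtain ⟨-, -, h3, h4⟩ := h
      ext
      · rw [h4]
        show ι _ + ι _ - ι _ = 0
        rw [← hv α n, ← map_add, ← map_sub]
        simp
      · exact h3
    obtain ⟨f, fa, fb, fc, fd⟩ := N.qbar α (Sdp GG C) _ _ _ _ Lcc Lloop
    have hfval : ∀ i k (hi : inX α i) (hk : inY α k), ∃ s : Sdp GG C,
        (Aw X₀ Y i k, s, R₀ α * Bw X₀ Y (pX α i) (pY α k) * (R₀ α)⁻¹) ∈ TwC X p hpg ∧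
        f ⟨Aw GG.x GG.y i k, Aw_mem_Qbar hi hk⟩ = pr i k s := by
      rintro i k (rfl | rfl) (rfl | rfl)
      · exact ⟨a α, ha α, fa⟩
      · exact ⟨d α, hd α, fd⟩
      · exact ⟨b α, hb α, fb⟩
      · exact ⟨c α, hc α, fc⟩
    have hfg : ∀ (g : GG) (hg : g ∈ Qbar α), (f ⟨g, hg⟩).g = g := by
      intro g hg
      unfold Qbar at hg
      induction hg using Subgroup.closure_induction with
      | mem g hg =>
        obtain ⟨i, k, hi, hk, rfl⟩ := hg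
        obtain ⟨s, -, hs⟩ := hfval i k hi hk
        exact congrArg Sdp.g hs
      | one =>
        have : (⟨1, one_mem _⟩ : Qbar α) = 1 := rfl
        rw [this, map_one]; rfl
      | mul a b ha hb iha ihb =>
        have : (⟨a * b, mul_mem ha hb⟩ : Qbar α) = (⟨a, ha⟩ : Qbar α) * (⟨b, hb⟩ : Qbar α) := rfl
        rw [this, map_mul, Sdp.mul_g, iha, ihb]
      | inv a ha iha =>
        have : (⟨a⁻¹, inv_mem ha⟩ : Qbar α) = (⟨a, ha⟩ : Qbar α)⁻¹ := rfl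
        rw [this, map_inv, Sdp.inv_g, iha]
    obtain ⟨e, he⟩ := hC (Qbar α) (fun q => (f q).c) (by
      intro a b
      rw [map_mul, Sdp.mul_c, hfg a.1 a.2])
    refine ⟨e, fun i k hi hk => ?_⟩
    obtain ⟨s, hs, hfs⟩ := hfval i k hi hk
    have h1 := he ⟨Aw GG.x GG.y i k, Aw_mem_Qbar hi hk⟩
    simp only [hfs] at h1
    rw [← h1]
    exact hT i k s hs
  choose e he using final
  let R₂ : Ltr → X.U := fun α => jj X (p (e α)) * R₀ α
  have hrel : RelG X₀ Y₂ R₂ := by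
    refine { x0 := hX0, hex := ?_, la := fun n => hflat₂ _ _ _ _ _, lb := fun n => hflat₂ _ _ _ _ _ }
    intro α i k hi hk
    have h1 := he α i k hi hk
    have h2 : Aw X₀ Y₂ i k * jj X (p (e α)) =
        jj X (Aw GG.x GG.y i k • p (e α)) * Aw X₀ Y₂ i k := by
      rw [mul_jj, map_Aw]
      simp only [hX, hY₂]
    have h3 : R₀ α * Bw X₀ Y₂ (pX α i) (pY α k) =
        jj X (p (Aw GG.x GG.y i k • e α - e α)) * Aw X₀ Y₂ i k * R₀ α := by
      rw [← h1]; group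
    show Aw X₀ Y₂ i k * (jj X (p (e α)) * R₀ α) = jj X (p (e α)) * R₀ α * Bw X₀ Y₂ (pX α i) (pY α k)
    rw [mul_assoc (jj X (p (e α))), h3, map_sub, hpg, sub_eq_add_neg, add_comm, jj_add, jj_neg,
      ← mul_assoc, h2]
    group
  refine ⟨GG.lift hrel, ?_⟩
  have : X.κ.comp (GG.lift hrel) = MonoidHom.id GG := by
    apply GG.hom_ext
    · intro i; simp [hX]
    · intro k; simp [hY₂]
    · intro α; simp [R₂, hR₀]
  intro g
  exact DFunLike.congr_fun this g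

end main

end Cd
end Crest.Agent.R197
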