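import Mathlib
import Crest.Agent.R197.Coind
import Crest.Agent.R197.CdDefs

/-!
# Row 197, module D1: dimension shifting

If every 2-cocycle with values in `CQ G M = Map(G,M)/M` is a coboundary (for all `M`),
then `Hⁿ(G, A) = 0` for all `A` and all `n ≥ 3`.  Extension forms `cd_of_CQSplit`, `isZero_of_splitProp`.
-/

set_option autoImplicit false

open CategoryTheory CategoryTheory.Limits

namespace Crest.Agent.R197

theorem rep_exact_of {k G : Type} [CommRing k] [Group G] (S : ShortComplex (Rep.{0} k G))
    (h : ∀ c : S.X₂, S.g.hom c = 0 → ∃ m : S.X₁, S.f.hom m = c) : S.Exact := by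
  refine (ShortComplex.exact_map_iff_of_faithful _ (forget₂ (Rep.{0} k G) (ModuleCat.{0} k))).1 ?_
  refine (ShortComplex.moduleCat_exact_iff _).2 ?_
  exact h

section rep
variable {G : Type} [Group G]

variable (M : Type) [AddCommGroup M] [DistribMulAction G M]

/-- the rep of a `G`-module -/
noncomputable abbrev mrep : Rep ℤ G := Rep.ofDistribMulAction ℤ G M

variable {M} in
/-- equivariant additive maps give morphisms of representations -/
noncomputable def mhom {N : Type} [AddCommGroup N] [DistribMulAction G N] (f : M →+ N)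
    (hf : ∀ (g : G) m, f (g • m) = g • f m) : mrep (G := G) M ⟶ mrep N :=
  Rep.ofHom ⟨f.toIntLinearMap, fun g => by ext m; exact hf g m⟩

/-- the short exact sequence `0 → M → CC G M → CQ G M → 0` -/
noncomputable def ses : ShortComplex (Rep ℤ G) where
  X₁ := mrep M
  X₂ := mrep (CC G M)
  X₃ := mrep (CQ G M)
  f := mhom (diagC G M) diagC_smul
  g := mhom (CQ.mk) CQ.mk_smul
  zero := by
    ext m
    exact (CQ.mk_eq_zero _).mpr ⟨m, rfl⟩

theorem ses_shortExact : (ses (G := G) M).ShortExact where
  exact := by
    refine rep_exact_of _ ?_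
    intro c hc
    exact (CQ.mk_eq_zero (G := G) (M := M) _).mp hc
  mono_f := (Rep.mono_iff_injective _).2 (diagC_injective (G := G) (M := M))
  epi_g := (Rep.epi_iff_surjective _).2 (CQ.mk_surjective (G := G) (M := M))

/-- `CC G M` is coinduced from the trivial subgroup -/
noncomputable def coiIso :
    mrep (G := G) (CC G M) ≅
      Rep.coind (⊥ : Subgroup G).subtype (Rep.trivial ℤ (⊥ : Subgroup G) M) :=
  Rep.mkIso
    { toFun := fun c => ⟨c, fun g h => by
        have hg : (g : G) = 1 := Subgroup.mem_bot.mp g.2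
        change c ((g : G) * h) = c h
        rw [hg, one_mul]⟩
      invFun := fun c => c.1
      left_inv := fun c => rfl
      right_inv := fun c => rfl
      map_add' := fun a b => rfl
      map_smul' := fun a b => rfl
      isIntertwining' := fun g => rfl }

omit [DistribMulAction G M] in
theorem isZero_coi (n : ℕ) : IsZero (groupCohomology (mrep (G := G) (CC G M)) (n + 1)) := by
  have h1 : IsZero (groupCohomology (Rep.trivial ℤ (⊥ : Subgroup G) M) (n + 1)) :=
    isZero_groupCohomology_succ_of_subsingleton _ _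
  have h2 := h1.of_iso (groupCohomology.coindIso (Rep.trivial ℤ (⊥ : Subgroup G) M) (n + 1))
  exact h2.of_iso ((groupCohomology.functor ℤ G (n + 1)).mapIso (coiIso M))

/-- dimension shift -/
theorem isZero_shift (n : ℕ) (h : IsZero (groupCohomology (mrep (G := G) (CQ G M)) (n + 1))) :
    IsZero (groupCohomology (mrep (G := G) M) (n + 2)) := by
  have := groupCohomology.isIso_δ_of_isZero (ses_shortExact (G := G) M) (n + 1)
    (isZero_coi M n) (isZero_coi M (n + 1))
  exact h.of_iso (asIso (groupCohomology.δ (ses_shortExact (G := G) M) (n + 1) (n + 2) rfl)).symm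

/-- every representation is the representation of its underlying `G`-module -/
theorem isZero_of_rep (V : Type) [AddCommGroup V] (m : Module ℤ V)
    (ρ : @Representation ℤ G V _ _ _ m) (n : ℕ)
    (h : ∀ (M : Type) [AddCommGroup M] [DistribMulAction G M],
      IsZero (groupCohomology (mrep (G := G) M) n)) :
    IsZero (groupCohomology (@Rep.of ℤ G _ _ V _ m ρ) n) := by
  obtain rfl : m = AddCommGroup.toIntModule V := Subsingleton.elim _ _
  let inst : DistribMulAction G V :=
    { smul := fun g a => ρ g a
      one_smul := fun a => by change ρ 1 a = a; simp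
      mul_smul := fun g h a => by change ρ (g * h) a = ρ g (ρ h a); simp
      smul_zero := fun g => map_zero _
      smul_add := fun g => map_add _ }
  exact h V

/-- `H²` vanishes when 2-cocycles are coboundaries -/
theorem isZero_H2 (h : ∀ f : G × G → M, groupCohomology.IsCocycle₂ f → groupCohomology.IsCoboundary₂ f) :
    IsZero (groupCohomology (mrep (G := G) M) 2) := by
  rw [ModuleCat.isZero_iff_subsingleton]
  refine ⟨fun a b => ?_⟩
  have key : ∀ x : groupCohomology.H2 (mrep (G := G) M), x = 0 := by
    intro x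
    induction x using groupCohomology.H2_induction_on with
    | h x =>
      rw [groupCohomology.H2π_eq_zero_iff]
      have hx := groupCohomology.isCocycle₂_of_mem_cocycles₂ (k := ℤ) (G := G) (A := M) x.1 x.2
      exact (groupCohomology.coboundariesOfIsCoboundary₂ (k := ℤ) (h _ hx)).2
  rw [key a, key b]

end rep

section main
variable {G : Type} [Group G]

/-- a 2-cocycle gives an extension; if it splits then the cocycle is a coboundary -/
theorem isCoboundary_of_split (V : Type) [AddCommGroup V] [DistribMulAction G V]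
    (h : ∀ X : ExtVia (MonoidHom.id G) V, ∃ s : G →* X.U, ∀ g, X.κ (s g) = g)
    (f : G × G → V) (hf : groupCohomology.IsCocycle₂ f) : groupCohomology.IsCoboundary₂ f := by
  have h1 := groupCohomology.map_one_fst_of_isCocycle₂ hf
  have h2 := groupCohomology.map_one_snd_of_isCocycle₂ hf
  let mulU : Mul (V × G) := ⟨fun a b => (a.1 + a.2 • b.1 + f (a.2, b.2), a.2 * b.2)⟩
  let oneU : One (V × G) := ⟨(-f (1, 1), 1)⟩
  let invU : Inv (V × G) := ⟨fun a => (-f (1, 1) - a.2⁻¹ • a.1 - f (a.2⁻¹, a.2), a.2⁻¹)⟩
  have hmul : ∀ a b : V × G, a * b = (a.1 + a.2 • b.1 + f (a.2, b.2), a.2 * b.2) := fun _ _ => rfl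
  have hone : (1 : V × G) = (-f (1, 1), 1) := rfl
  have hinv : ∀ a : V × G, a⁻¹ = (-f (1, 1) - a.2⁻¹ • a.1 - f (a.2⁻¹, a.2), a.2⁻¹) := fun _ => rfl
  have assoc : ∀ a b c : V × G, a * b * c = a * (b * c) := by
    rintro ⟨a, g⟩ ⟨b, h⟩ ⟨c, j⟩
    simp only [hmul, Prod.mk.injEq, mul_assoc, and_true]
    have := hf g h j
    simp only [smul_add, mul_smul]
    rw [show a + g • b + f (g, h) + g • h • c + f (g * h, j)
      = a + g • b + g • h • c + (f (g * h, j) + f (g, h)) by abel, this]
    abel
  have one_mul' : ∀ a : V × G, 1 * a = a := by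
    rintro ⟨a, g⟩
    simp only [hmul, hone, one_smul, one_mul, h1, Prod.mk.injEq, and_true]
    abel
  have inv_mul' : ∀ a : V × G, a⁻¹ * a = 1 := by
    rintro ⟨a, g⟩
    simp only [hmul, hone, hinv, inv_mul_cancel, Prod.mk.injEq, and_true]
    abel
  let grpU : Group (V × G) := @Group.ofLeftAxioms (V × G) mulU invU oneU assoc one_mul' inv_mul'
  have hmul : ∀ a b : V × G, a * b = (a.1 + a.2 • b.1 + f (a.2, b.2), a.2 * b.2) := fun _ _ => rfl
  have hone : (1 : V × G) = (-f (1, 1), 1) := rfl
  let ι : Multiplicative V →* (V × G) :=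
    { toFun := fun v => (Multiplicative.toAdd v - f (1, 1), 1)
      map_one' := by
        rw [hone, toAdd_one, zero_sub]
      map_mul' := fun v w => by
        rw [hmul, toAdd_mul]
        simp only [one_smul, mul_one, Prod.mk.injEq, and_true]
        abel }
  let κ : (V × G) →* G :=
    { toFun := fun a => a.2
      map_one' := rfl
      map_mul' := fun _ _ => rfl }
  let X : ExtVia (MonoidHom.id G) V :=
    { U := V × G
      grp := grpU
      ι := ι
      κ := κ
      inj := by
        intro v w hvw
        have : (Multiplicative.toAdd v - f (1, 1), (1 : G))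
          = (Multiplicative.toAdd w - f (1, 1), (1 : G)) := hvw
        have := (Prod.mk.inj this).1
        exact Multiplicative.toAdd.injective (sub_left_injective this)
      surj := fun g => ⟨(0, g), rfl⟩
      exact := by
        rintro ⟨a, g⟩
        constructor
        · intro hg
          have hg : g = 1 := hg
          subst hg
          refine ⟨Multiplicative.ofAdd (a + f (1, 1)), ?_⟩
          change (a + f (1, 1) - f (1, 1), (1 : G)) = (a, 1)
          rw [add_sub_cancel_right]
        · rintro ⟨v, hv⟩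
          have hv : (Multiplicative.toAdd v - f (1, 1), (1 : G)) = (a, g) := hv
          exact (Prod.mk.inj hv).2.symm
      act := by
        rintro ⟨a, g⟩ v
        rw [mul_inv_eq_iff_eq_mul]
        change (a, g) * (v - f (1, 1), (1 : G)) = (g • v - f (1, 1), (1 : G)) * (a, g)
        rw [hmul, hmul]
        refine Prod.ext ?_ ?_
        · change a + g • (v - f (1, 1)) + f (g, 1) = g • v - f (1, 1) + (1 : G) • a + f (1, g)
          rw [h1 g, h2 g, smul_sub, one_smul]
          abel
        · change g * 1 = 1 * g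
          rw [mul_one, one_mul] }
  obtain ⟨s, hs⟩ := h X
  have hs' : ∀ g, (s g : V × G).2 = g := hs
  refine ⟨fun g => -(s g : V × G).1, fun g h => ?_⟩
  have e : (s (g * h) : V × G) = (s g : V × G) * (s h : V × G) := map_mul s g h
  rw [hmul, hs', hs'] at e
  have e1 := congrArg Prod.fst e
  change (s (g * h) : V × G).1 = (s g : V × G).1 + g • (s h : V × G).1 + f (g, h) at e1
  change g • (-(s h : V × G).1) - (-(s (g * h) : V × G).1) + (-(s g : V × G).1) = f (g, h)
  rw [e1, smul_neg]
  abel

/-- **D1**: if all 2-cocycles with values in all `CQ G M` are coboundaries, then `Hⁿ(G, A) = 0` for `n ≥ 3`. -/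
theorem cd_of_H2
    (h : ∀ (M : Type) [AddCommGroup M] [DistribMulAction G M] (f : G × G → CQ G M),
      groupCohomology.IsCocycle₂ f → groupCohomology.IsCoboundary₂ f)
    (A : Rep ℤ G) (n : ℕ) (hn : 3 ≤ n) : IsZero (groupCohomology A n) := by
  have key : ∀ (n : ℕ) (M : Type) [AddCommGroup M] [DistribMulAction G M],
      IsZero (groupCohomology (mrep (G := G) M) (n + 3)) := by
    intro n
    induction n with
    | zero =>
      intro M _ _
      exact isZero_shift M 1 (isZero_H2 _ (h M))
    | succ n ih =>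
      intro M _ _
      exact isZero_shift M (n + 2) (ih (CQ G M))
  obtain ⟨m, rfl⟩ : ∃ m, n = m + 3 := ⟨n - 3, by omega⟩
  exact isZero_of_rep A.V A.hV2 A.ρ (m + 3) (fun M _ _ => key m M)

/-- **D1**, extension form -/
theorem cd_of_CQSplit (G : Type) [Group G]
    (h : ∀ (M : Type) [AddCommGroup M] [DistribMulAction G M], CQSplit G M)
    (A : Rep ℤ G) (n : ℕ) (hn : 3 ≤ n) : IsZero (groupCohomology A n) := by
  refine cd_of_H2 (fun M _ _ f hf => isCoboundary_of_split (CQ G M) (fun X => ?_) f hf) A n hn
  obtain ⟨σ, hσ⟩ := h M X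
  exact ⟨σ, fun g => DFunLike.congr_fun hσ g⟩

/-- every derivation from a subgroup `K ≤ G` into `Map(G, M)` is inner -/
theorem coindLike_CC (M : Type) [AddCommGroup M] : CoindLike G (CC G M) := by
  intro K δ hδ
  have hout : ∀ g : G, ((Quotient.out (g : G ⧸ K))⁻¹ * g) ∈ K := fun g =>
    QuotientGroup.eq.mp (Quotient.out_eq' (g : G ⧸ K))
  -- `z g = δ (t⁻¹ g) t` where `t` represents `g K`
  let z : CC G M := fun g =>
    δ ⟨(Quotient.out (g : G ⧸ K))⁻¹ * g, hout g⟩ (Quotient.out (g : G ⧸ K))
  have hz : ∀ (t : G) (a : K), Quotient.out ((t * (a : G) : G) : G ⧸ K) = t →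
      z (t * a) = δ a t := by
    intro t a ht
    have e : (⟨(Quotient.out ((t * (a : G) : G) : G ⧸ K))⁻¹ * (t * a), hout _⟩ : K) = a := by
      apply Subtype.ext
      change (Quotient.out ((t * (a : G) : G) : G ⧸ K))⁻¹ * (t * a) = a
      rw [ht]
      group
    change δ _ (Quotient.out ((t * (a : G) : G) : G ⧸ K)) = _
    rw [e, ht]
  refine ⟨z, fun k => ?_⟩
  funext g
  obtain ⟨t, a, hg, ht⟩ : ∃ (t : G) (a : K), g = t * a ∧ Quotient.out (g : G ⧸ K) = t :=
    ⟨Quotient.out (g : G ⧸ K), ⟨_, hout g⟩, by simp, rfl⟩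
  subst hg
  have ht2 : Quotient.out ((t * ((a * k : K) : G) : G) : G ⧸ K) = t := by
    rw [← ht]
    congr 1
    rw [ht]
    refine QuotientGroup.eq.mpr ?_
    have : (t * ((a * k : K) : G))⁻¹ * (t * (a : G)) = ((k⁻¹ : K) : G) := by
      push_cast
      group
    rw [this]
    exact (k⁻¹).2
  have h1 := hz t a ht
  have h2 := hz t (a * k) ht2
  have h3 := congrFun (hδ a k) t
  change δ k (t * a) = z (t * a * k) - z (t * a)
  have h4 : z (t * a * k) = z (t * ((a * k : K) : G)) := by
    congr 1
    push_cast
    group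
  rw [h4, h1, h2, h3]
  change δ k (t * a) = δ a t + δ k (t * a) - δ a t
  abel

/-- `SplitProp` form -/
theorem isZero_of_splitProp (h : SplitProp G) (A : Rep ℤ G) (n : ℕ) (hn : 3 ≤ n) :
    IsZero (groupCohomology A n) := by
  refine cd_of_H2 (fun M _ _ f hf => isCoboundary_of_split (CQ G M) (fun X => ?_) f hf) A n hn
  exact h M (CC G M) (CQ G M) (diagC G M) CQ.mk diagC_injective CQ.mk_surjective
    CQ.mk_eq_zero diagC_smul CQ.mk_smul (coindLike_CC M) X

end main

end Crest.Agent.R197
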