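import Mathlib
import Crest.Agent.R197.NDefs

/-!
# Row 197 (S0300), task N2: the group `Omega` and the homomorphism `GG → Omega`

`Om4 = F₄ ⋊ S₄` acts on the set `F₄` from the left by `(w, σ) • p = w * σ(p)`, compatibly with the
Cayley tree of `F₄` (right multiplication by generators, permuted by `σ`).
`toOmega : GG →* Om4 × Om4`.
-/

set_option autoImplicit false

namespace Crest.Agent.R197

open SemidirectProduct

/-- the permutation action of `S₄` on `F₄` -/
def phi4 : Equiv.Perm (Fin 4) →* MulAut (FreeGroup (Fin 4)) where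
  toFun σ := FreeGroup.freeGroupCongr σ
  map_one' := by
    ext x
    simp [FreeGroup.freeGroupCongr]
  map_mul' σ τ := by
    ext x
    simp [FreeGroup.freeGroupCongr, FreeGroup.map.comp]

@[simp] theorem phi4_of (σ : Equiv.Perm (Fin 4)) (i : Fin 4) :
    phi4 σ (FreeGroup.of i) = FreeGroup.of (σ i) := by
  simp [phi4]

/-- `F₄ ⋊ S₄` -/
abbrev Om4 := FreeGroup (Fin 4) ⋊[phi4] Equiv.Perm (Fin 4)

/-- the group `Ω` -/
abbrev Omega := Om4 × Om4

namespace Om4

/-- the left action of `Om4` on `F₄`: `(w, σ) • p = w * σ(p)`. -/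
def act (g : Om4) (p : FreeGroup (Fin 4)) : FreeGroup (Fin 4) := g.left * phi4 g.right p

@[simp] theorem act_one (p : FreeGroup (Fin 4)) : act 1 p = p := by simp [act]

theorem act_mul (g h : Om4) (p : FreeGroup (Fin 4)) : act (g * h) p = act g (act h p) := by
  simp [act, mul_assoc]

@[simp] theorem act_inv_act (g : Om4) (p : FreeGroup (Fin 4)) : act g⁻¹ (act g p) = p := by
  rw [← act_mul]; simp

@[simp] theorem act_act_inv (g : Om4) (p : FreeGroup (Fin 4)) : act g (act g⁻¹ p) = p := by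
  rw [← act_mul]; simp

theorem act_mul_of (g : Om4) (p : FreeGroup (Fin 4)) (i : Fin 4) :
    act g (p * FreeGroup.of i) = act g p * FreeGroup.of (g.right i) := by
  simp [act, mul_assoc]

theorem act_mul_of_inv (g : Om4) (p : FreeGroup (Fin 4)) (i : Fin 4) :
    act g (p * (FreeGroup.of i)⁻¹) = act g p * (FreeGroup.of (g.right i))⁻¹ := by
  simp [act, mul_assoc]

theorem act_inl (w p : FreeGroup (Fin 4)) : act (inl w) p = w * p := by simp [act]

theorem act_inr (σ : Equiv.Perm (Fin 4)) (p : FreeGroup (Fin 4)) :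
    act (inr σ) p = phi4 σ p := by simp [act]

/-- the action as a homomorphism to permutations -/
def actHom : Om4 →* Equiv.Perm (FreeGroup (Fin 4)) where
  toFun g := ⟨act g, act g⁻¹, act_inv_act g, act_act_inv g⟩
  map_one' := by ext p; simp
  map_mul' g h := by ext p; simp [act_mul]

@[simp] theorem actHom_apply (g : Om4) (p : FreeGroup (Fin 4)) : actHom g p = act g p := rfl

/-- the stabiliser of `1` is the permutation part. -/
theorem act_one_eq_one_iff (g : Om4) : act g 1 = 1 ↔ g.left = 1 := by simp [act]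

end Om4

/-! ### The homomorphism `GG → Omega` -/

/-- the images of the generators -/
def omgX (i : Fin 4) : Omega := (inl (FreeGroup.of i * (FreeGroup.of 0)⁻¹), 1)
/-- the images of the generators -/
def omgY (k : Fin 4) : Omega := (inl (FreeGroup.of 0)⁻¹, inl (FreeGroup.of k))
/-- the images of the generators -/
def omgR (α : Ltr) : Omega := (inr (pX α) * inl (FreeGroup.of 0)⁻¹, inr (pY α))

theorem omgAw (i k : Fin 4) :
    Aw omgX omgY i k = (inl (FreeGroup.of i)⁻¹, inl (FreeGroup.of k)) := by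
  simp only [Aw, omgX, omgY, Prod.inv_mk, Prod.mk_mul_mk, Prod.mk.injEq, inv_one, mul_one, and_true,
    ← map_inv, ← map_mul]
  simp

theorem omgBw (i k : Fin 4) :
    Bw omgX omgY i k = (inl (FreeGroup.of 0 * (FreeGroup.of i)⁻¹ * (FreeGroup.of 0)⁻¹),
      inl (FreeGroup.of k)) := by
  simp only [Bw, omgX, omgY, Prod.inv_mk, Prod.mk_mul_mk, Prod.mk.injEq, inv_one, one_mul, and_true,
    ← map_inv, ← map_mul]
  simp

theorem pX_invol (α : Ltr) (i : Fin 4) : pX α (pX α i) = i := by
  revert α i; decide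

theorem pY_invol (α : Ltr) (i : Fin 4) : pY α (pY α i) = i := by
  revert α i; decide

theorem pX_mul_self (α : Ltr) : pX α * pX α = 1 := by
  ext i; simp [pX_invol]

theorem pY_mul_self (α : Ltr) : pY α * pY α = 1 := by
  ext i; simp [pY_invol]

theorem omg_lam (i j k l : Fin 4) (n : ℤ) : lam omgX omgY i j k l n = 1 := by
  simp only [lam, omgAw, Prod.pow_mk, Prod.mk_mul_mk]
  have e : (1 : Omega) = (1, 1) := rfl
  rw [e, Prod.mk.injEq]
  constructor
  · group
  · group

theorem omg_rel : RelG omgX omgY omgR where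
  x0 := by
    simp [omgX]
  hex := by
    intro α i k _ _
    rw [omgAw, omgBw]
    simp only [omgR, Prod.mk_mul_mk, Prod.mk.injEq]
    constructor
    · ext
      · simp [mul_assoc, pX_invol]
      · simp
    · ext
      · simp [pY_invol]
      · simp
  la n := omg_lam _ _ _ _ n
  lb n := omg_lam _ _ _ _ n

/-- the homomorphism `G → Ω` -/
def toOmega : GG →* Omega := GG.lift omg_rel

@[simp] theorem toOmega_x (i : Fin 4) : toOmega (GG.x i) = omgX i := GG.lift_x omg_rel i
@[simp] theorem toOmega_y (k : Fin 4) : toOmega (GG.y k) = omgY k := GG.lift_y omg_rel k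
@[simp] theorem toOmega_r (α : Ltr) : toOmega (GG.r α) = omgR α := GG.lift_r omg_rel α

/-! ### The two actions of `G` on `F₄` -/

/-- the action of `G` on `F₄` through the `X`-factor -/
def actX (g : GG) (p : FreeGroup (Fin 4)) : FreeGroup (Fin 4) := Om4.act (toOmega g).1 p
/-- the action of `G` on `F₄` through the `Y`-factor -/
def actY (g : GG) (p : FreeGroup (Fin 4)) : FreeGroup (Fin 4) := Om4.act (toOmega g).2 p

/-- the permutation part of the `X`-factor -/
def permX : GG →* Equiv.Perm (Fin 4) := (rightHom.comp (MonoidHom.fst Om4 Om4)).comp toOmega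
/-- the permutation part of the `Y`-factor -/
def permY : GG →* Equiv.Perm (Fin 4) := (rightHom.comp (MonoidHom.snd Om4 Om4)).comp toOmega

theorem permX_apply (g : GG) : permX g = (toOmega g).1.right := rfl
theorem permY_apply (g : GG) : permY g = (toOmega g).2.right := rfl

@[simp] theorem permX_x (i : Fin 4) : permX (GG.x i) = 1 := by simp [permX_apply, omgX]
@[simp] theorem permX_y (k : Fin 4) : permX (GG.y k) = 1 := by simp [permX_apply, omgY]
@[simp] theorem permX_r (α : Ltr) : permX (GG.r α) = pX α := by simp [permX_apply, omgR]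
@[simp] theorem permY_x (i : Fin 4) : permY (GG.x i) = 1 := by simp [permY_apply, omgX]
@[simp] theorem permY_y (k : Fin 4) : permY (GG.y k) = 1 := by simp [permY_apply, omgY]
@[simp] theorem permY_r (α : Ltr) : permY (GG.r α) = pY α := by simp [permY_apply, omgR]

@[simp] theorem actX_one (p : FreeGroup (Fin 4)) : actX 1 p = p := by simp [actX]
@[simp] theorem actY_one (p : FreeGroup (Fin 4)) : actY 1 p = p := by simp [actY]

theorem actX_mul (g h : GG) (p : FreeGroup (Fin 4)) : actX (g * h) p = actX g (actX h p) := by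
  simp [actX, Om4.act_mul]
theorem actY_mul (g h : GG) (p : FreeGroup (Fin 4)) : actY (g * h) p = actY g (actY h p) := by
  simp [actY, Om4.act_mul]

@[simp] theorem actX_inv_act (g : GG) (p : FreeGroup (Fin 4)) : actX g⁻¹ (actX g p) = p := by
  rw [← actX_mul]; simp
@[simp] theorem actY_inv_act (g : GG) (p : FreeGroup (Fin 4)) : actY g⁻¹ (actY g p) = p := by
  rw [← actY_mul]; simp
@[simp] theorem actX_act_inv (g : GG) (p : FreeGroup (Fin 4)) : actX g (actX g⁻¹ p) = p := by
  rw [← actX_mul]; simp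
@[simp] theorem actY_act_inv (g : GG) (p : FreeGroup (Fin 4)) : actY g (actY g⁻¹ p) = p := by
  rw [← actY_mul]; simp

/-- `g • (p, i) = (g • p, g i)` on the edges of the Cayley tree -/
theorem actX_mul_of (g : GG) (p : FreeGroup (Fin 4)) (i : Fin 4) :
    actX g (p * FreeGroup.of i) = actX g p * FreeGroup.of (permX g i) :=
  Om4.act_mul_of _ _ _
theorem actY_mul_of (g : GG) (p : FreeGroup (Fin 4)) (i : Fin 4) :
    actY g (p * FreeGroup.of i) = actY g p * FreeGroup.of (permY g i) :=
  Om4.act_mul_of _ _ _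

theorem actX_eq (g : GG) (p : FreeGroup (Fin 4)) : actX g p = actX g 1 * phi4 (permX g) p := by
  simp [actX, Om4.act, permX_apply]
theorem actY_eq (g : GG) (p : FreeGroup (Fin 4)) : actY g p = actY g 1 * phi4 (permY g) p := by
  simp [actY, Om4.act, permY_apply]

@[simp] theorem actX_x (i : Fin 4) (p : FreeGroup (Fin 4)) :
    actX (GG.x i) p = FreeGroup.of i * (FreeGroup.of 0)⁻¹ * p := by
  simp [actX, omgX, Om4.act]
@[simp] theorem actX_y (k : Fin 4) (p : FreeGroup (Fin 4)) :
    actX (GG.y k) p = (FreeGroup.of 0)⁻¹ * p := by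
  simp [actX, omgY, Om4.act]
@[simp] theorem actX_r (α : Ltr) (p : FreeGroup (Fin 4)) :
    actX (GG.r α) p = phi4 (pX α) ((FreeGroup.of 0)⁻¹ * p) := by
  simp [actX, omgR, Om4.act]
@[simp] theorem actY_x (i : Fin 4) (p : FreeGroup (Fin 4)) : actY (GG.x i) p = p := by
  simp [actY, omgX, Om4.act]
@[simp] theorem actY_y (k : Fin 4) (p : FreeGroup (Fin 4)) :
    actY (GG.y k) p = FreeGroup.of k * p := by
  simp [actY, omgY, Om4.act]
@[simp] theorem actY_r (α : Ltr) (p : FreeGroup (Fin 4)) :
    actY (GG.r α) p = phi4 (pY α) p := by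
  simp [actY, omgR, Om4.act]

/-- the actions as homomorphisms to permutations -/
def actXHom : GG →* Equiv.Perm (FreeGroup (Fin 4)) :=
  (Om4.actHom.comp (MonoidHom.fst Om4 Om4)).comp toOmega
def actYHom : GG →* Equiv.Perm (FreeGroup (Fin 4)) :=
  (Om4.actHom.comp (MonoidHom.snd Om4 Om4)).comp toOmega

@[simp] theorem actXHom_apply (g : GG) (p : FreeGroup (Fin 4)) : actXHom g p = actX g p := rfl
@[simp] theorem actYHom_apply (g : GG) (p : FreeGroup (Fin 4)) : actYHom g p = actY g p := rfl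

/-! ### The restriction to `Nbar` -/

theorem permX_of_mem {g : GG} (hg : g ∈ Nbar) : permX g = 1 := by
  have h : Nbar ≤ permX.ker := by
    refine (Subgroup.closure_le _).mpr ?_
    rintro _ (⟨i, rfl⟩ | ⟨k, rfl⟩)
    · exact permX_x i
    · exact permX_y k
  exact h hg

theorem permY_of_mem {g : GG} (hg : g ∈ Nbar) : permY g = 1 := by
  have h : Nbar ≤ permY.ker := by
    refine (Subgroup.closure_le _).mpr ?_
    rintro _ (⟨i, rfl⟩ | ⟨k, rfl⟩)
    · exact permY_x i
    · exact permY_y k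
  exact h hg

/-- on `Nbar` the `X`-action is left translation -/
theorem actX_of_mem {g : GG} (hg : g ∈ Nbar) (p : FreeGroup (Fin 4)) :
    actX g p = actX g 1 * p := by
  rw [actX_eq, permX_of_mem hg]; simp

theorem actY_of_mem {g : GG} (hg : g ∈ Nbar) (p : FreeGroup (Fin 4)) :
    actY g p = actY g 1 * p := by
  rw [actY_eq, permY_of_mem hg]; simp

/-- the first component `Nbar → F₄` -/
def nbX : Nbar →* FreeGroup (Fin 4) where
  toFun g := actX g.1 1
  map_one' := by simp
  map_mul' g h := by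
    rw [Subgroup.coe_mul, actX_mul, actX_of_mem g.2]

/-- the second component `Nbar → F₄` -/
def nbY : Nbar →* FreeGroup (Fin 4) where
  toFun g := actY g.1 1
  map_one' := by simp
  map_mul' g h := by
    rw [Subgroup.coe_mul, actY_mul, actY_of_mem g.2]

theorem nbX_apply (g : Nbar) : nbX g = actX g.1 1 := rfl
theorem nbY_apply (g : Nbar) : nbY g = actY g.1 1 := rfl

theorem toOmega_fst_of_mem {g : GG} (hg : g ∈ Nbar) : (toOmega g).1 = inl (nbX ⟨g, hg⟩) := by
  ext
  · simp [nbX_apply, actX, Om4.act]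
  · simp [← permX_apply, permX_of_mem hg]

theorem toOmega_snd_of_mem {g : GG} (hg : g ∈ Nbar) : (toOmega g).2 = inl (nbY ⟨g, hg⟩) := by
  ext
  · simp [nbY_apply, actY, Om4.act]
  · simp [← permY_apply, permY_of_mem hg]

@[simp] theorem nbX_x (i : Fin 4) :
    nbX ⟨GG.x i, x_mem_Nbar i⟩ = FreeGroup.of i * (FreeGroup.of 0)⁻¹ := by
  simp [nbX_apply]
@[simp] theorem nbX_y (k : Fin 4) :
    nbX ⟨GG.y k, y_mem_Nbar k⟩ = (FreeGroup.of 0)⁻¹ := by
  simp [nbX_apply]
@[simp] theorem nbY_x (i : Fin 4) : nbY ⟨GG.x i, x_mem_Nbar i⟩ = 1 := by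
  simp [nbY_apply]
@[simp] theorem nbY_y (k : Fin 4) : nbY ⟨GG.y k, y_mem_Nbar k⟩ = FreeGroup.of k := by
  simp [nbY_apply]

theorem toOmega_Aw (i k : Fin 4) :
    toOmega (Aw GG.x GG.y i k) = (inl (FreeGroup.of i)⁻¹, inl (FreeGroup.of k)) := by
  rw [map_Aw]
  simpa using omgAw i k

theorem toOmega_Bw (i k : Fin 4) :
    toOmega (Bw GG.x GG.y i k) = (inl (FreeGroup.of 0 * (FreeGroup.of i)⁻¹ * (FreeGroup.of 0)⁻¹),
      inl (FreeGroup.of k)) := by
  rw [map_Bw]
  simpa using omgBw i k

@[simp] theorem nbX_Aw (i k : Fin 4) :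
    nbX ⟨Aw GG.x GG.y i k, Aw_mem_Nbar i k⟩ = (FreeGroup.of i)⁻¹ := by
  simp [nbX_apply, actX, toOmega_Aw, Om4.act]
@[simp] theorem nbY_Aw (i k : Fin 4) :
    nbY ⟨Aw GG.x GG.y i k, Aw_mem_Nbar i k⟩ = FreeGroup.of k := by
  simp [nbY_apply, actY, toOmega_Aw, Om4.act]

/-- the homomorphism `Nbar → F₄ × F₄` -/
def nbXY : Nbar →* FreeGroup (Fin 4) × FreeGroup (Fin 4) := nbX.prod nbY

@[simp] theorem nbXY_apply (g : Nbar) : nbXY g = (nbX g, nbY g) := rfl

end Crest.Agent.R197
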