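import Mathlib
import Crest.Agent.R197.CdMain
import Crest.Agent.R197.CdShift
import Crest.Agent.R197.Beta1
import Crest.Agent.R197.NPres

/-!
# Row 197, module D: `cd_GG`
-/

set_option autoImplicit false

namespace Crest.Agent.R197
namespace Cd

open Beta1

theorem Lam_eq_Lm (i : Fin 4) (n : ℤ) : Lam i n = Lm i n := rfl

theorem KLam_free (H : Type) [Group H] (w : ℤ → Fin 4 → H) (h0 : ∀ i, w 0 i = 1)
    (h1 : ∀ n, w n 0 = 1) :
    ∃ f : KLam →* H, ∀ n i, f ⟨Lam i n, Lam_mem i n⟩ = w n i := by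
  classical
  let w' : Fin 4 → ℤ → H := fun i n => w n i
  have w0 : ∀ n, w' 0 n = 1 := h1
  have w1 : ∀ i, w' i 0 = 1 := h0
  let e : GG → Wz H := fun g => theta w' (toFS g).left
  have good : ∀ a ∈ KLam, (toFS a).right = 1 ∧ (e a).s = 0 := by
    intro a ha
    unfold KLam at ha
    induction ha using Subgroup.closure_induction with
    | mem a ha =>
      obtain ⟨⟨n, i⟩, rfl⟩ := ha
      have hv := theta_value w' w0 w1 i n
      have hl : (toFS (Lm i n)).left = (FreeGroup.of 0) ^ (-n) * (FreeGroup.of i) ^ n := by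
        rw [toFS_Lm]; rfl
      refine ⟨?_, ?_⟩
      · change (toFS (Lm i n)).right = 1
        rw [toFS_Lm]; rfl
      · change (theta w' (toFS (Lm i n)).left).s = 0
        rw [hl]; exact hv.2
    | one => simp [e]
    | mul a b _ _ iha ihb =>
      obtain ⟨a1, a2⟩ := iha
      obtain ⟨b1, b2⟩ := ihb
      have hab : e (a * b) = e a * e b := by
        simp only [e, map_mul, SemidirectProduct.mul_left, a1, map_one, MulAut.one_apply]
      refine ⟨?_, ?_⟩
      · rw [map_mul, SemidirectProduct.mul_right, a1, b1, one_mul]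
      · rw [hab, Wz.mul_s, a2, b2, add_zero]
    | inv a _ iha =>
      obtain ⟨a1, a2⟩ := iha
      have hab : e (a⁻¹) = (e a)⁻¹ := by
        simp only [e, map_inv, SemidirectProduct.inv_left, a1, inv_one, map_one, MulAut.one_apply]
      refine ⟨?_, ?_⟩
      · rw [map_inv, SemidirectProduct.inv_right, a1, inv_one]
      · rw [hab, Wz.inv_s, a2, neg_zero]
  refine ⟨{ toFun := fun q => (e q).f 0, map_one' := ?_, map_mul' := ?_ }, ?_⟩
  · simp [e]
  · intro a b
    obtain ⟨a1, a2⟩ := good a a.2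
    have hab : e ((a * b : KLam) : GG) = e a * e b := by
      simp only [e, Subgroup.coe_mul, map_mul, SemidirectProduct.mul_left, a1, map_one,
        MulAut.one_apply]
    rw [hab, Wz.mul_f, a2, add_zero]
  · intro n i
    have hv := theta_value w' w0 w1 i n
    have hl : (toFS (Lm i n)).left = (FreeGroup.of 0) ^ (-n) * (FreeGroup.of i) ^ n := by
      rw [toFS_Lm]; rfl
    change (theta w' (toFS (Lm i n)).left).f 0 = w n i
    rw [hl]
    exact hv.1

theorem nFacts : NFacts where
  lam1 := lam_GG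
  free := fun H _ w h0 h1 => KLam_free H w h0 h1
  qbar := by
    intro α H _ a b c d hc hl
    classical
    let m : Fin 4 → Fin 4 → H := fun i k =>
      if i = x1 α then (if k = y1 α then a else d) else (if k = y1 α then b else c)
    have hx : x2 α ≠ x1 α := (x1_ne_x2 α).symm
    have hy : y2 α ≠ y1 α := (y1_ne_y2 α).symm
    have m11 : m (x1 α) (y1 α) = a := by simp [m]
    have m12 : m (x1 α) (y2 α) = d := by simp [m, hy]
    have m21 : m (x2 α) (y1 α) = b := by simp [m, hx]
    have m22 : m (x2 α) (y2 α) = c := by simp [m, hx, hy]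
    obtain ⟨φ, hφ, -⟩ := Qbar_lift α m (by rw [m11, m12, m21, m22, hc])
      (fun n => by rw [m11, m12, m21, m22]; exact hl n)
    refine ⟨φ, ?_, ?_, ?_, ?_⟩
    · exact (hφ _ _ (Or.inl rfl) (Or.inl rfl)).trans m11
    · exact (hφ _ _ (Or.inr rfl) (Or.inl rfl)).trans m21
    · exact (hφ _ _ (Or.inr rfl) (Or.inr rfl)).trans m22
    · exact (hφ _ _ (Or.inl rfl) (Or.inr rfl)).trans m12

end Cd

/-- module D -/
theorem cd_GG (A : Rep ℤ GG) (n : ℕ) (hn : 3 ≤ n) :
    CategoryTheory.Limits.IsZero (groupCohomology A n) :=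
  isZero_of_splitProp (Cd.splitProp_GG Cd.nFacts) A n hn

end Crest.Agent.R197
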