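import Mathlib

/-! Row 197: oriented graphs, "treeish" graphs, products of trees: common definitions for the T- and N-tasks. -/

set_option autoImplicit false

namespace Crest.Agent.R197

/-- oriented (multi)graph -/
structure OrGraph where
  V : Type
  E : Type
  o : E → V
  t : E → V

namespace OrGraph

/-- any two vertices are joined by an edge path -/
def Conn (T : OrGraph) : Prop :=
  ∀ u v : T.V, Relation.EqvGen (fun a b => ∃ e, T.o e = a ∧ T.t e = b) u v

/-- every function on edges is a coboundary -/
def Acyc (T : OrGraph) : Prop :=
  ∀ (M : Type) [AddCommGroup M] (f : T.E → M), ∃ F : T.V → M, ∀ e, F (T.t e) - F (T.o e) = f e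

/-- connected and acyclic -/
structure IsTree (T : OrGraph) : Prop where
  conn : T.Conn
  acyc : T.Acyc

/-- an action of a group on an oriented graph -/
class GAct (G : Type) [Group G] (T : OrGraph) [MulAction G T.V] [MulAction G T.E] : Prop where
  o_smul : ∀ (g : G) (e : T.E), T.o (g • e) = g • T.o e
  t_smul : ∀ (g : G) (e : T.E), T.t (g • e) = g • T.t e

/-- the points of the geometric realisation: vertices and interior points of edges (parameter in `(-1,1)`). -/
def Pt (T : OrGraph) : Type := T.V ⊕ (T.E × Set.Ioo (-1 : ℝ) 1)

/-- cells: vertices and edges -/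
def Cl (T : OrGraph) : Type := T.V ⊕ T.E

open Classical in
/-- characteristic map of a cell (parameter in `ℝ`, clamped outside `(-1,1)`) -/
noncomputable def chr (T : OrGraph) : T.Cl → ℝ → T.Pt
  | Sum.inl v, _ => Sum.inl v
  | Sum.inr e, s =>
    if h : -1 < s ∧ s < 1 then Sum.inr (e, ⟨s, h⟩)
    else if s ≤ -1 then Sum.inl (T.o e) else Sum.inl (T.t e)

end OrGraph

open OrGraph

/-- point set of a product of three trees -/
def E3 (T : Fin 3 → OrGraph) : Type := ∀ i, (T i).Pt

/-- product cells -/
def Cells (T : Fin 3 → OrGraph) : Type := ∀ i, (T i).Cl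

/-- characteristic map of a product cell, defined on all of `Fin 3 → ℝ` (clamped) -/
noncomputable def chr3 (T : Fin 3 → OrGraph) (c : Cells T) (s : Fin 3 → ℝ) : E3 T :=
  fun i => (T i).chr (c i) (s i)

/-- topology on the product of three trees: coinduced from all closed cubes. -/
noncomputable instance (T : Fin 3 → OrGraph) : TopologicalSpace (E3 T) :=
  ⨆ c : Cells T, TopologicalSpace.coinduced (chr3 T c) inferInstance

/-- dimension of a product cell -/
noncomputable def Cells.dim {T : Fin 3 → OrGraph} (c : Cells T) : ℕ :=
  (Finset.univ.filter (fun i => (c i).isRight)).card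

section action
variable {G : Type} [Group G]

instance Pt.instMulAction (T : OrGraph) [MulAction G T.V] [MulAction G T.E] : MulAction G T.Pt where
  smul g p := match p with
    | Sum.inl v => Sum.inl (g • v)
    | Sum.inr (e, s) => Sum.inr (g • e, s)
  one_smul p := by
    rcases p with v | ⟨e, s⟩
    · exact congrArg Sum.inl (one_smul G v)
    · exact congrArg (fun e => Sum.inr (e, s)) (one_smul G e)
  mul_smul g h p := by
    rcases p with v | ⟨e, s⟩
    · exact congrArg Sum.inl (mul_smul g h v)
    · exact congrArg (fun e => Sum.inr (e, s)) (mul_smul g h e)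

instance Cl.instMulAction (T : OrGraph) [MulAction G T.V] [MulAction G T.E] : MulAction G T.Cl where
  smul g p := match p with
    | Sum.inl v => Sum.inl (g • v)
    | Sum.inr e => Sum.inr (g • e)
  one_smul p := by
    rcases p with v | e
    · exact congrArg Sum.inl (one_smul G v)
    · exact congrArg Sum.inr (one_smul G e)
  mul_smul g h p := by
    rcases p with v | e
    · exact congrArg Sum.inl (mul_smul g h v)
    · exact congrArg Sum.inr (mul_smul g h e)

instance E3.instMulAction (T : Fin 3 → OrGraph) [∀ i, MulAction G (T i).V]
    [∀ i, MulAction G (T i).E] : MulAction G (E3 T) where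
  smul g z := fun i => g • z i
  one_smul z := funext fun i => one_smul G (z i)
  mul_smul g h z := funext fun i => mul_smul g h (z i)

instance Cells.instMulAction (T : Fin 3 → OrGraph) [∀ i, MulAction G (T i).V]
    [∀ i, MulAction G (T i).E] : MulAction G (Cells T) where
  smul g z := fun i => g • z i
  one_smul z := funext fun i => one_smul G (z i)
  mul_smul g h z := funext fun i => mul_smul g h (z i)

/-- the action is free on vertices of the product -/
def FreeOnVertices (G : Type) [Group G] (T : Fin 3 → OrGraph) [∀ i, MulAction G (T i).V]
    [∀ i, MulAction G (T i).E] : Prop :=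
  ∀ (g : G) (v : ∀ i, (T i).V), (∀ i, g • v i = v i) → g = 1

end action

end Crest.Agent.R197
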