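import Mathlib
import Crest.Agent.R197.TreeDefs

/-! Row 197, task T1: rooted structure of a tree. -/

set_option autoImplicit false

namespace Crest.Agent.R197

open OrGraph

namespace OrGraph

/-- undirected adjacency -/
def Adj' (T : OrGraph) (a b : T.V) : Prop :=
  ∃ e, (T.o e = a ∧ T.t e = b) ∨ (T.o e = b ∧ T.t e = a)

/-- there is an edge path of length `n` from `v0` to `v` -/
inductive Reach (T : OrGraph) (v0 : T.V) : ℕ → T.V → Prop
  | zero : Reach T v0 0 v0
  | succ {n : ℕ} {u v : T.V} (h : Reach T v0 n u) (huv : T.Adj' u v) : Reach T v0 (n + 1) v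

theorem Adj'.symm {T : OrGraph} {a b : T.V} (h : T.Adj' a b) : T.Adj' b a := by
  obtain ⟨e, h | h⟩ := h
  · exact ⟨e, Or.inr h⟩
  · exact ⟨e, Or.inl h⟩

theorem exists_reach {T : OrGraph} (hT : T.Conn) (v0 v : T.V) : ∃ n, T.Reach v0 n v := by
  have key : ∀ a b : T.V, Relation.EqvGen (fun a b => ∃ e, T.o e = a ∧ T.t e = b) a b →
      ((∃ n, T.Reach v0 n a) ↔ (∃ n, T.Reach v0 n b)) := by
    intro a b hab
    induction hab with
    | rel a b h =>
      obtain ⟨e, he⟩ := h
      constructor
      · rintro ⟨n, hn⟩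
        exact ⟨n + 1, hn.succ ⟨e, Or.inl he⟩⟩
      · rintro ⟨n, hn⟩
        exact ⟨n + 1, hn.succ ⟨e, Or.inr he⟩⟩
    | refl a => exact Iff.rfl
    | symm a b _ ih => exact ih.symm
    | trans a b c _ _ ih1 ih2 => exact ih1.trans ih2
  exact (key v0 v (hT v0 v)).1 ⟨0, Reach.zero⟩

/-- Rooted structure on an oriented graph: depth function and parent edge. -/
structure Rooted (T : OrGraph) (v0 : T.V) where
  dep : T.V → ℕ
  pe : T.V → Option T.E
  dep_root : dep v0 = 0
  eq_root : ∀ v, dep v = 0 → v = v0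
  pe_root : pe v0 = none
  pe_ne : ∀ v, v ≠ v0 → ∃ e, pe v = some e ∧
    ((T.t e = v ∧ dep (T.o e) + 1 = dep v) ∨ (T.o e = v ∧ dep (T.t e) + 1 = dep v))
  edge : ∀ e, (dep (T.t e) = dep (T.o e) + 1 ∧ pe (T.t e) = some e) ∨
    (dep (T.o e) = dep (T.t e) + 1 ∧ pe (T.o e) = some e)

theorem nonempty_rooted (T : OrGraph) (hT : T.IsTree) (v0 : T.V) : Nonempty (T.Rooted v0) := by
  classical
  let dep : T.V → ℕ := fun v => Nat.find (exists_reach hT.conn v0 v)
  have hdep : ∀ v, T.Reach v0 (dep v) v := fun v => Nat.find_spec (exists_reach hT.conn v0 v)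
  have hmin : ∀ v n, T.Reach v0 n v → dep v ≤ n := fun v n h =>
    Nat.find_min' (exists_reach hT.conn v0 v) h
  have h0 : dep v0 = 0 := Nat.le_zero.mp (hmin v0 0 Reach.zero)
  have h0' : ∀ v, dep v = 0 → v = v0 := by
    intro v hv
    have h := hdep v
    rw [hv] at h
    cases h
    rfl
  -- parent edges
  have hpar : ∀ v, v ≠ v0 → ∃ e,
      ((T.t e = v ∧ dep (T.o e) + 1 = dep v) ∨ (T.o e = v ∧ dep (T.t e) + 1 = dep v)) := by
    intro v hv
    have hpos : dep v ≠ 0 := fun h => hv (h0' v h)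
    obtain ⟨n, hn⟩ := Nat.exists_eq_succ_of_ne_zero hpos
    have h := hdep v
    rw [hn] at h
    cases h with
    | succ h huv =>
      rename_i u
      have h1 : dep u ≤ n := hmin u n h
      have h2 : n + 1 ≤ dep u + 1 := by
        have := hmin v (dep u + 1) ((hdep u).succ huv)
        omega
      have h3 : dep u + 1 = dep v := by omega
      obtain ⟨e, he | he⟩ := huv
      · exact ⟨e, Or.inl ⟨he.2, by rw [he.1]; exact h3⟩⟩
      · exact ⟨e, Or.inr ⟨he.1, by rw [he.2]; exact h3⟩⟩
  choose pe' hpe' using hpar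
  let pe : T.V → Option T.E := fun v => if h : v = v0 then none else some (pe' v h)
  have hpe : ∀ v, v ≠ v0 → ∃ e, pe v = some e ∧
      ((T.t e = v ∧ dep (T.o e) + 1 = dep v) ∨ (T.o e = v ∧ dep (T.t e) + 1 = dep v)) := by
    intro v hv
    exact ⟨pe' v hv, by simp [pe, hv], hpe' v hv⟩
  -- every edge is a parent edge
  have hused : ∀ e, ∃ v, pe v = some e := by
    intro e
    by_contra hne
    push Not at hne
    obtain ⟨F, hF⟩ := hT.acyc ℤ (fun e' => if e' = e then 1 else 0)
    have hconst : ∀ n : ℕ, ∀ v, dep v = n → F v = F v0 := by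
      intro n
      induction n with
      | zero => intro v hv; rw [h0' v hv]
      | succ n ih =>
        intro v hv
        have hvne : v ≠ v0 := by rintro rfl; omega
        obtain ⟨e', he', h⟩ := hpe v hvne
        have hne' : e' ≠ e := by
          rintro rfl
          exact hne v he'
        have hFe := hF e'
        rw [if_neg hne'] at hFe
        rcases h with ⟨h1, h2⟩ | ⟨h1, h2⟩
        · have := ih (T.o e') (by omega)
          rw [h1] at hFe
          linarith
        · have := ih (T.t e') (by omega)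
          rw [h1] at hFe
          linarith
    have := hF e
    rw [if_pos rfl, hconst _ (T.t e) rfl, hconst _ (T.o e) rfl, sub_self] at this
    exact zero_ne_one this
  refine ⟨{ dep := dep, pe := pe, dep_root := h0, eq_root := h0', pe_root := by simp [pe],
            pe_ne := hpe, edge := ?_ }⟩
  intro e
  obtain ⟨v, hv⟩ := hused e
  have hpe0 : pe v0 = none := by simp [pe]
  have hvne : v ≠ v0 := by
    intro h
    rw [h, hpe0] at hv
    cases hv
  obtain ⟨e', he', h⟩ := hpe v hvne
  have : e' = e := by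
    rw [hv] at he'
    exact (Option.some.inj he').symm
  subst this
  rcases h with ⟨h1, h2⟩ | ⟨h1, h2⟩
  · left
    rw [h1]
    exact ⟨h2.symm, hv⟩
  · right
    rw [h1]
    exact ⟨h2.symm, hv⟩

/-- a choice of rooted structure -/
noncomputable def rooted (T : OrGraph) (hT : T.IsTree) (v0 : T.V) : T.Rooted v0 :=
  (nonempty_rooted T hT v0).some

theorem exists_rooted (T : OrGraph) [Nonempty T.E] (hT : T.IsTree) (v0 : T.V) :
    ∃ (dep : T.V → ℕ) (pe : T.V → T.E), dep v0 = 0 ∧ (∀ v, dep v = 0 → v = v0) ∧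
      (∀ v, v ≠ v0 → (T.t (pe v) = v ∧ dep (T.o (pe v)) + 1 = dep v) ∨
        (T.o (pe v) = v ∧ dep (T.t (pe v)) + 1 = dep v)) ∧
      (∀ e, (dep (T.t e) = dep (T.o e) + 1 ∧ pe (T.t e) = e) ∨
        (dep (T.o e) = dep (T.t e) + 1 ∧ pe (T.o e) = e)) := by
  classical
  let R := rooted T hT v0
  refine ⟨R.dep, fun v => (R.pe v).getD (Classical.arbitrary _), R.dep_root, R.eq_root, ?_, ?_⟩
  · intro v hv
    obtain ⟨e, he, h⟩ := R.pe_ne v hv
    simpa [he] using h
  · intro e
    rcases R.edge e with ⟨h1, h2⟩ | ⟨h1, h2⟩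
    · left; exact ⟨h1, by simp [h2]⟩
    · right; exact ⟨h1, by simp [h2]⟩

namespace Rooted
variable {T : OrGraph} {v0 : T.V} (R : T.Rooted v0)

/-- the endpoint of `e` farther from the root -/
noncomputable def far (e : T.E) : T.V :=
  open Classical in if R.dep (T.t e) = R.dep (T.o e) + 1 then T.t e else T.o e

/-- the endpoint of `e` closer to the root -/
noncomputable def near (e : T.E) : T.V :=
  open Classical in if R.dep (T.t e) = R.dep (T.o e) + 1 then T.o e else T.t e

theorem far_near (e : T.E) :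
    (R.far e = T.t e ∧ R.near e = T.o e ∧ R.dep (T.t e) = R.dep (T.o e) + 1) ∨
    (R.far e = T.o e ∧ R.near e = T.t e ∧ R.dep (T.o e) = R.dep (T.t e) + 1) := by
  unfold far near
  by_cases h : R.dep (T.t e) = R.dep (T.o e) + 1
  · left; simp [h]
  · right
    rcases R.edge e with h1 | h1
    · exact absurd h1.1 h
    · rw [if_neg h, if_neg h]
      exact ⟨rfl, rfl, h1.1⟩

theorem dep_far (e : T.E) : R.dep (R.far e) = R.dep (R.near e) + 1 := by
  rcases R.far_near e with ⟨h1, h2, h3⟩ | ⟨h1, h2, h3⟩ <;> rw [h1, h2, h3]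

theorem pe_far (e : T.E) : R.pe (R.far e) = some e := by
  rcases R.far_near e with ⟨h1, h2, h3⟩ | ⟨h1, h2, h3⟩
  · rw [h1]
    rcases R.edge e with h | h
    · exact h.2
    · omega
  · rw [h1]
    rcases R.edge e with h | h
    · omega
    · exact h.2

theorem far_injective : Function.Injective R.far := by
  intro e e' h
  have h1 := R.pe_far e
  rw [h, R.pe_far e'] at h1
  exact (Option.some.inj h1).symm

theorem exists_far {v : T.V} (hv : v ≠ v0) : ∃ e, R.far e = v := by
  obtain ⟨e, he, h⟩ := R.pe_ne v hv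
  refine ⟨e, ?_⟩
  rcases R.far_near e with ⟨h1, h2, h3⟩ | ⟨h1, h2, h3⟩
  · rcases h with ⟨h4, h5⟩ | ⟨h4, h5⟩
    · rw [h1, h4]
    · rw [h4] at h3; omega
  · rcases h with ⟨h4, h5⟩ | ⟨h4, h5⟩
    · rw [h4] at h3; omega
    · rw [h1, h4]

theorem far_ne_root (e : T.E) : R.far e ≠ v0 := by
  intro h
  have := R.dep_far e
  rw [h, R.dep_root] at this
  omega

/-- the parent of a vertex (the root is its own parent) -/
noncomputable def par (v : T.V) : T.V :=
  match R.pe v with
  | none => v
  | some e => R.near e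

theorem par_root : R.par v0 = v0 := by simp [par, R.pe_root]

theorem par_far (e : T.E) : R.par (R.far e) = R.near e := by simp [par, R.pe_far]

theorem dep_par (v : T.V) : R.dep (R.par v) = R.dep v - 1 := by
  by_cases hv : v = v0
  · subst hv; rw [R.par_root, R.dep_root]
  · obtain ⟨e, rfl⟩ := R.exists_far hv
    rw [R.par_far, R.dep_far]; omega

theorem pe_eq_none_iff (v : T.V) : R.pe v = none ↔ v = v0 := by
  constructor
  · intro h
    by_contra hv
    obtain ⟨e, he, _⟩ := R.pe_ne v hv
    rw [h] at he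
    cases he
  · rintro rfl; exact R.pe_root

theorem pe_eq_some_iff (v : T.V) (e : T.E) : R.pe v = some e ↔ R.far e = v := by
  constructor
  · intro h
    have hv : v ≠ v0 := by
      rintro rfl
      rw [R.pe_root] at h
      cases h
    obtain ⟨e', rfl⟩ := R.exists_far hv
    rw [R.pe_far] at h
    rw [Option.some.inj h]
  · rintro rfl; exact R.pe_far e

end Rooted

end OrGraph

end Crest.Agent.R197
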