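import Crest.Agent.R197.TreeDefs
import Crest.Agent.R197.Rooted

/-! Row 197, task T3: the product of three rooted trees (with the topology coherent with the
cubes) is contractible. -/

set_option autoImplicit false

namespace Crest.Agent.R197

open OrGraph Set

/-- rooted structure on an oriented graph, in the form used for the contraction -/
structure RootData (T : OrGraph) where
  root : T.V
  dep : T.V → ℕ
  par : T.V → T.V
  cell : T.V → T.Cl
  sgn : T.V → ℝ
  hsgn : ∀ v, sgn v = 1 ∨ sgn v = -1
  seg_one : ∀ v (s : ℝ), 1 ≤ s → T.chr (cell v) (sgn v * s) = Sum.inl v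
  seg_neg : ∀ v (s : ℝ), s ≤ -1 → 0 < dep v → T.chr (cell v) (sgn v * s) = Sum.inl (par v)
  dep_par : ∀ v, 0 < dep v → dep (par v) + 1 = dep v
  eq_root : ∀ v, dep v = 0 → v = root
  top : T.E → T.V
  cell_top : ∀ e, cell (top e) = Sum.inr e
  dep_top : ∀ e, 0 < dep (top e)

/-- a path in the point set of a graph which is a cell on every unit interval -/
def PL {T : OrGraph} (γ : ℝ → T.Pt) : Prop :=
  ∀ m : ℤ, ∃ (c : T.Cl) (σ : ℝ), ∀ u : ℝ, (m : ℝ) ≤ u → u ≤ m + 1 → γ u = T.chr c (σ * (2 * (u - m) - 1))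

theorem locallyFinite_cubes :
    LocallyFinite (fun m : Fin 3 → ℤ => {u : Fin 3 → ℝ | ∀ i, (m i : ℝ) ≤ u i ∧ u i ≤ m i + 1}) := by
  intro x
  refine ⟨Metric.ball x 1, Metric.ball_mem_nhds x one_pos, ?_⟩
  refine Set.Finite.subset
    (Set.finite_Icc (fun i => ⌊x i⌋ - 3 : Fin 3 → ℤ) (fun i => ⌊x i⌋ + 3 : Fin 3 → ℤ)) ?_
  rintro m ⟨u, hu, hux⟩
  have hd : ∀ i, |u i - x i| < 1 := by
    intro i
    have h1 := hux
    rw [Metric.mem_ball] at h1
    have h2 := dist_le_pi_dist u x i
    rw [Real.dist_eq] at h2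
    linarith
  constructor
  · intro i
    have h1 := abs_lt.1 (hd i)
    have h2 := hu i
    have h3 := Int.floor_le (x i)
    have h4 : ((⌊x i⌋ - 3 : ℤ) : ℝ) ≤ (m i : ℝ) := by push_cast; linarith [h2.1, h2.2, h1.1, h1.2]
    exact_mod_cast h4
  · intro i
    have h1 := abs_lt.1 (hd i)
    have h2 := hu i
    have h3 := Int.lt_floor_add_one (x i)
    have h4 : (m i : ℝ) ≤ ((⌊x i⌋ + 3 : ℤ) : ℝ) := by push_cast; linarith [h2.1, h2.2, h1.1, h1.2]
    exact_mod_cast h4

theorem continuous_chr3' (T : Fin 3 → OrGraph) (c : Cells T) : Continuous (chr3 T c) :=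
  continuous_iff_coinduced_le.2 (le_iSup (fun c : Cells T => TopologicalSpace.coinduced (chr3 T c) inferInstance) c)

/-- the box map of three paths -/
def boxPL {T : Fin 3 → OrGraph} (γ : ∀ i, ℝ → (T i).Pt) (u : Fin 3 → ℝ) : E3 T :=
  fun i => γ i (u i)

/-- the box map of three PL paths is continuous -/
theorem continuous_box {T : Fin 3 → OrGraph} (γ : ∀ i, ℝ → (T i).Pt) (hγ : ∀ i, PL (γ i)) :
    Continuous (boxPL γ) := by
  refine locallyFinite_cubes.continuous ?_ ?_ ?_
  · rw [Set.eq_univ_iff_forall]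
    intro u
    rw [Set.mem_iUnion]
    exact ⟨fun i => ⌊u i⌋, fun i => ⟨Int.floor_le _, (Int.lt_floor_add_one _).le⟩⟩
  · intro m
    have : {u : Fin 3 → ℝ | ∀ i, (m i : ℝ) ≤ u i ∧ u i ≤ m i + 1} =
        ⋂ i, {u : Fin 3 → ℝ | (m i : ℝ) ≤ u i ∧ u i ≤ m i + 1} := by
      ext u; simp
    rw [this]
    refine isClosed_iInter fun i => ?_
    exact (isClosed_le continuous_const (continuous_apply i)).inter
      (isClosed_le (continuous_apply i) continuous_const)
  · intro m
    choose c σ h using fun i => hγ i (m i)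
    have hc : Continuous (fun u : Fin 3 → ℝ =>
        chr3 T c (fun i => σ i * (2 * (u i - m i) - 1))) := by
      refine (continuous_chr3' T c).comp ?_
      fun_prop
    refine hc.continuousOn.congr ?_
    intro u hu
    funext i
    exact h i (u i) (hu i).1 (hu i).2

namespace RootData

variable {T : OrGraph} (R : RootData T)

/-- geodesic from the root to `v` where `n = dep v` -/
noncomputable def gam : ℕ → T.V → ℝ → T.Pt
  | 0, v, _ => Sum.inl v
  | n + 1, v, u => if (n : ℝ) ≤ u then T.chr (R.cell v) (R.sgn v * (2 * (u - n) - 1))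
      else gam n (R.par v) u

theorem gam_ge (n : ℕ) (v : T.V) (u : ℝ) (hu : (n : ℝ) ≤ u) : R.gam n v u = Sum.inl v := by
  cases n with
  | zero => rfl
  | succ n =>
    push_cast at hu
    rw [gam, if_pos (by linarith)]
    exact R.seg_one v _ (by linarith)

theorem gam_succ_le (n : ℕ) (v : T.V) (hv : R.dep v = n + 1) (u : ℝ) (hu : u ≤ n) :
    R.gam (n + 1) v u = R.gam n (R.par v) u := by
  rcases hu.lt_or_eq with h | h
  · rw [gam, if_neg (not_le.2 h)]
  · rw [gam, if_pos h.ge, R.gam_ge n _ u h.ge]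
    exact R.seg_neg v _ (by rw [h]; norm_num) (by omega)

theorem gam_PL (n : ℕ) : ∀ v : T.V, R.dep v = n → PL (R.gam n v) := by
  induction n with
  | zero =>
    intro v _ m
    exact ⟨Sum.inl v, 1, fun u _ _ => rfl⟩
  | succ n ih =>
    intro v hv m
    rcases lt_trichotomy m (n : ℤ) with h | h | h
    · obtain ⟨c, σ, hc⟩ := ih (R.par v) (by have := R.dep_par v (by omega); omega) m
      refine ⟨c, σ, fun u h1 h2 => ?_⟩
      rw [← hc u h1 h2]
      refine R.gam_succ_le n v hv u ?_
      have : (m : ℝ) + 1 ≤ n := by exact_mod_cast h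
      linarith
    · refine ⟨R.cell v, R.sgn v, fun u h1 h2 => ?_⟩
      have hm : (m : ℝ) = n := by rw [h]; simp
      rw [gam, if_pos (by linarith), hm]
    · refine ⟨Sum.inl v, 1, fun u h1 h2 => ?_⟩
      refine R.gam_ge (n + 1) v u ?_
      have : (n : ℝ) + 1 ≤ m := by exact_mod_cast h
      push_cast
      linarith

theorem gam_zero (n : ℕ) : ∀ v : T.V, R.dep v = n → R.gam n v 0 = Sum.inl R.root := by
  induction n with
  | zero => intro v hv; rw [gam, R.eq_root v hv]
  | succ n ih =>
    intro v hv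
    rw [R.gam_succ_le n v hv 0 (by positivity)]
    exact ih _ (by have := R.dep_par v (by omega); omega)

/-- top vertex of a cell -/
def topc : T.Cl → T.V
  | Sum.inl v => v
  | Sum.inr e => R.top e

/-- height function on a cell -/
noncomputable def hc : T.Cl → ℝ → ℝ
  | Sum.inl v, _ => R.dep v
  | Sum.inr e, s => R.dep (R.top e) - 1 + (1 + R.sgn (R.top e) * (max (-1) (min s 1))) / 2

theorem continuous_hc (c : T.Cl) : Continuous (R.hc c) := by
  rcases c with v | e
  · exact continuous_const
  · unfold hc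
    fun_prop

/-- contraction of the point set -/
noncomputable def con (t : ℝ) : T.Pt → T.Pt
  | Sum.inl v => R.gam (R.dep v) v ((1 - t) * R.dep v)
  | Sum.inr (e, s) => R.gam (R.dep (R.top e)) (R.top e)
      ((1 - t) * (R.dep (R.top e) - 1 + (1 + R.sgn (R.top e) * s) / 2))

theorem top_cases (e : T.E) : (R.sgn (R.top e) = 1 ∧ R.top e = T.t e ∧ R.par (R.top e) = T.o e) ∨
    (R.sgn (R.top e) = -1 ∧ R.top e = T.o e ∧ R.par (R.top e) = T.t e) := by
  have h1 := R.seg_one (R.top e) 1 le_rfl
  have h2 := R.seg_neg (R.top e) (-1) le_rfl (R.dep_top e)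
  rw [R.cell_top] at h1 h2
  rcases R.hsgn (R.top e) with h | h
  · left
    rw [h] at h1 h2
    refine ⟨h, ?_, ?_⟩
    · have : T.chr (Sum.inr e) (1 * 1) = Sum.inl (T.t e) := by
        simp only [chr]; norm_num
      rw [this] at h1
      exact (Sum.inl.inj h1).symm
    · have : T.chr (Sum.inr e) (1 * (-1)) = Sum.inl (T.o e) := by
        simp only [chr]; norm_num
      rw [this] at h2
      exact (Sum.inl.inj h2).symm
  · right
    rw [h] at h1 h2
    refine ⟨h, ?_, ?_⟩
    · have : T.chr (Sum.inr e) (-1 * 1) = Sum.inl (T.o e) := by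
        simp only [chr]; norm_num
      rw [this] at h1
      exact (Sum.inl.inj h1).symm
    · have : T.chr (Sum.inr e) (-1 * (-1)) = Sum.inl (T.t e) := by
        simp only [chr]; norm_num
      rw [this] at h2
      exact (Sum.inl.inj h2).symm

theorem con_par (t : ℝ) (ht : 0 ≤ t) (v : T.V) (hv : 0 < R.dep v) :
    R.con t (Sum.inl (R.par v)) = R.gam (R.dep v) v ((1 - t) * (R.dep v - 1)) := by
  have hp := R.dep_par v hv
  obtain ⟨n, hn⟩ : ∃ n, R.dep v = n + 1 := ⟨R.dep v - 1, by omega⟩
  have hn' : R.dep (R.par v) = n := by omega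
  rw [con, hn', hn]
  have : ((n + 1 : ℕ) : ℝ) - 1 = n := by push_cast; ring
  rw [this, R.gam_succ_le n v hn _ ?_]
  have h0 : (0 : ℝ) ≤ n := by positivity
  nlinarith

theorem con_chr (t : ℝ) (ht : 0 ≤ t) (c : T.Cl) (s : ℝ) :
    R.con t (T.chr c s) = R.gam (R.dep (R.topc c)) (R.topc c) ((1 - t) * R.hc c s) := by
  rcases c with v | e
  · rfl
  · simp only [topc, hc]
    by_cases h : -1 < s ∧ s < 1
    · have h1 : T.chr (Sum.inr e) s = Sum.inr (e, ⟨s, h⟩) := by
        simp only [chr, dif_pos h]
      rw [h1, con]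
      have h2 : max (-1) (min s 1) = s := by
        rw [min_eq_left h.2.le, max_eq_right h.1.le]
      rw [h2]
    · by_cases hs : s ≤ -1
      · have h1 : T.chr (Sum.inr e) s = Sum.inl (T.o e) := by
          simp only [chr, dif_neg h, if_pos hs]
        have h2 : max (-1) (min s 1) = -1 := by
          rw [min_eq_left (by linarith), max_eq_left hs]
        rw [h1, h2]
        rcases R.top_cases e with ⟨h3, h4, h5⟩ | ⟨h3, h4, h5⟩
        · rw [← h5, R.con_par t ht _ (R.dep_top e), h3]
          congr 1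
          ring
        · rw [← h4, con, h3]
          congr 1
          ring
      · have hs1 : 1 ≤ s := by
          by_contra h6
          exact h ⟨not_le.1 hs, not_le.1 h6⟩
        have h1 : T.chr (Sum.inr e) s = Sum.inl (T.t e) := by
          simp only [chr, dif_neg h, if_neg hs]
        have h2 : max (-1) (min s 1) = 1 := by
          rw [min_eq_right hs1, max_eq_right (by norm_num)]
        rw [h1, h2]
        rcases R.top_cases e with ⟨h3, h4, h5⟩ | ⟨h3, h4, h5⟩
        · rw [← h4, con, h3]
          congr 1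
          ring
        · rw [← h5, R.con_par t ht _ (R.dep_top e), h3]
          congr 1
          ring

theorem con_zero (p : T.Pt) : R.con 0 p = p := by
  rcases p with v | ⟨e, s⟩
  · rw [con, R.gam_ge _ _ _ (by simp)]
  · rw [con]
    obtain ⟨n, hn⟩ : ∃ n, R.dep (R.top e) = n + 1 := ⟨R.dep (R.top e) - 1, by have := R.dep_top e; omega⟩
    rw [hn]
    have hs := s.2
    have h2 : R.sgn (R.top e) * R.sgn (R.top e) = 1 := by
      rcases R.hsgn (R.top e) with h | h <;> rw [h] <;> norm_num
    have h3 : -1 ≤ R.sgn (R.top e) * (s : ℝ) := by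
      rcases R.hsgn (R.top e) with h | h <;> rw [h] <;> linarith [hs.1, hs.2]
    rw [gam, if_pos (by push_cast; linarith), R.cell_top]
    have h4 : R.sgn (R.top e) * (2 * ((1 - 0) * (((n + 1 : ℕ) : ℝ) - 1 +
        (1 + R.sgn (R.top e) * (s : ℝ)) / 2) - n) - 1) = s := by
      push_cast
      linear_combination (s : ℝ) * h2
    rw [h4]
    simp only [chr]
    rw [dif_pos ⟨hs.1, hs.2⟩]

theorem con_one (p : T.Pt) : R.con 1 p = Sum.inl R.root := by
  rcases p with v | ⟨e, s⟩
  · rw [con, sub_self, zero_mul, R.gam_zero _ _ rfl]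
  · rw [con, sub_self, zero_mul, R.gam_zero _ _ rfl]

end RootData

theorem isQuotientMap_cubes (T : Fin 3 → OrGraph) :
    Topology.IsQuotientMap (fun p : (Σ _ : Cells T, (Fin 3 → ℝ)) => chr3 T p.1 p.2) := by
  refine ⟨Topology.isCoinducing_iff.2 ?_, ?_⟩
  swap
  · intro z
    have h : ∀ i, ∃ (c : (T i).Cl) (s : ℝ), (T i).chr c s = z i := by
      intro i
      rcases hz : z i with v | ⟨e, s⟩
      · exact ⟨Sum.inl v, 0, rfl⟩
      · refine ⟨Sum.inr e, s, ?_⟩
        simp only [chr]
        rw [dif_pos ⟨s.2.1, s.2.2⟩]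
    choose c s h using h
    exact ⟨⟨c, s⟩, funext h⟩
  · intro U
    have : IsOpen U ↔ ∀ c : Cells T, IsOpen ((chr3 T c) ⁻¹' U) := by
      show @IsOpen _ (⨆ c : Cells T, TopologicalSpace.coinduced (chr3 T c) inferInstance) U ↔ _
      rw [isOpen_iSup_iff]
      rfl
    rw [this, isOpen_sigma_iff]
    rfl

theorem contractible_of_rootData (T : Fin 3 → OrGraph) (R : ∀ i, RootData (T i)) :
    ContractibleSpace (E3 T) := by
  rw [contractible_iff_id_nullhomotopic]
  let H : unitInterval × E3 T → E3 T := fun p i => (R i).con p.1 (p.2 i)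
  have hH : Continuous H := by
    refine (isQuotientMap_cubes T).continuous_lift_prod_right ?_
    -- I × Σ c, ℝ³
    have hswap : Continuous (fun q : (Σ _ : Cells T, (Fin 3 → ℝ)) × unitInterval =>
        H (q.2, chr3 T q.1.1 q.1.2)) := by
      have h1 : Continuous (fun q : (Σ _ : Cells T, (Fin 3 → ℝ) × unitInterval) =>
          H (q.2.2, chr3 T q.1 q.2.1)) := by
        rw [continuous_sigma_iff]
        intro c
        have h2 : ∀ x : (Fin 3 → ℝ) × unitInterval, H (x.2, chr3 T c x.1) =
            boxPL (fun i => (R i).gam ((R i).dep ((R i).topc (c i))) ((R i).topc (c i)))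
              (fun i => (1 - (x.2 : ℝ)) * (R i).hc (c i) (x.1 i)) := by
          intro x
          funext i
          exact (R i).con_chr x.2 x.2.2.1 (c i) (x.1 i)
        simp only [h2]
        have h3 := continuous_box (T := T)
          (fun i => (R i).gam ((R i).dep ((R i).topc (c i))) ((R i).topc (c i)))
          (fun i => (R i).gam_PL _ _ rfl)
        refine h3.comp (f := fun x : (Fin 3 → ℝ) × unitInterval => fun i =>
          (1 - (x.2 : ℝ)) * (R i).hc (c i) (x.1 i)) ?_
        refine continuous_pi fun i => ?_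
        have h4 := (R i).continuous_hc (c i)
        fun_prop
      exact h1.comp (Homeomorph.sigmaProdDistrib.continuous)
    exact hswap.comp continuous_swap
  refine ⟨(fun i => Sum.inl (R i).root : E3 T), ⟨⟨⟨H, hH⟩, ?_, ?_⟩⟩⟩
  · intro z
    funext i
    exact (R i).con_zero (z i)
  · intro z
    funext i
    exact (R i).con_one (z i)

namespace RootData

variable {T : OrGraph} {v0 : T.V}

open Classical in
/-- root data from a rooted structure -/
noncomputable def ofRooted (R : T.Rooted v0) : RootData T where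
  root := v0
  dep := R.dep
  par := R.par
  cell v := match R.pe v with
    | none => Sum.inl v
    | some e => Sum.inr e
  sgn v := if ∃ e, R.far e = v ∧ R.far e = T.t e ∧ R.near e = T.o e then 1 else -1
  hsgn v := by
    by_cases h : ∃ e, R.far e = v ∧ R.far e = T.t e ∧ R.near e = T.o e
    · left; rw [if_pos h]
    · right; rw [if_neg h]
  seg_one v s hs := by
    by_cases hv : v = v0
    · subst hv
      rw [R.pe_root]
      rfl
    · obtain ⟨e, rfl⟩ := R.exists_far hv
      rw [R.pe_far]
      by_cases h : ∃ e', R.far e' = R.far e ∧ R.far e' = T.t e' ∧ R.near e' = T.o e'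
      · rw [if_pos h, one_mul]
        obtain ⟨e', h1, h2, -⟩ := h
        obtain rfl := R.far_injective h1
        rw [h2]
        simp only [chr]
        rw [dif_neg (fun h => absurd h.2 (not_lt.2 hs)), if_neg (by linarith)]
      · rw [if_neg h]
        rcases R.far_near e with ⟨h1, h2, -⟩ | ⟨h1, h2, -⟩
        · exact absurd ⟨e, rfl, h1, h2⟩ h
        · rw [h1]
          simp only [chr]
          rw [dif_neg (fun h => by linarith [h.1]), if_pos (by linarith)]
  seg_neg v s hs hd := by
    have hv : v ≠ v0 := by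
      rintro rfl
      rw [R.dep_root] at hd
      exact lt_irrefl _ hd
    obtain ⟨e, rfl⟩ := R.exists_far hv
    rw [R.pe_far, R.par_far]
    by_cases h : ∃ e', R.far e' = R.far e ∧ R.far e' = T.t e' ∧ R.near e' = T.o e'
    · rw [if_pos h, one_mul]
      obtain ⟨e', h1, -, h2⟩ := h
      obtain rfl := R.far_injective h1
      rw [h2]
      simp only [chr]
      rw [dif_neg (fun h => by linarith [h.1]), if_pos (by linarith)]
    · rw [if_neg h]
      rcases R.far_near e with ⟨h1, h2, -⟩ | ⟨h1, h2, -⟩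
      · exact absurd ⟨e, rfl, h1, h2⟩ h
      · rw [h2]
        simp only [chr]
        rw [dif_neg (fun h => by linarith [h.2]), if_neg (by linarith)]
  dep_par v hd := by
    rw [R.dep_par]
    omega
  eq_root v h := R.eq_root v h
  top := R.far
  cell_top e := by rw [R.pe_far]
  dep_top e := by rw [R.dep_far]; omega

end RootData

/-- task T3: the product of three trees is contractible -/
theorem e3_contractible (T : Fin 3 → OrGraph) (hT : ∀ i, (T i).IsTree) (v0 : ∀ i, (T i).V) :
    ContractibleSpace (E3 T) :=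
  contractible_of_rootData T fun i => RootData.ofRooted (OrGraph.rooted (T i) (hT i) (v0 i))

end Crest.Agent.R197
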