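import Mathlib
import Crest.Prelude.Def_ClassifyingComplex
import Crest.Agent.R197.TreeDefs

/-! Row 197 / task T5: the CW structure on the quotient of a product of three trees. -/

set_option autoImplicit false

namespace Crest.Agent.R197

open OrGraph Metric Set

section general

/-- inverse of a map which is injective on the open ball, relative to the closed ball -/
theorem continuousOn_invFunOn_ball {n : ℕ} {X : Type*} [TopologicalSpace X] [T2Space X]
    (f : (Fin n → ℝ) → X) (hf : ContinuousOn f (closedBall 0 1))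
    (hinj : ∀ s ∈ ball (0 : Fin n → ℝ) 1, ∀ s' ∈ closedBall (0 : Fin n → ℝ) 1, f s = f s' → s = s') :
    ContinuousOn (Function.invFunOn f (ball 0 1)) (f '' ball 0 1) := by
  rw [continuousOn_iff_isClosed]
  intro t ht
  refine ⟨f '' (t ∩ closedBall 0 1), ?_, ?_⟩
  · apply IsCompact.isClosed
    apply IsCompact.image_of_continuousOn
    · exact (isCompact_closedBall 0 1).inter_left ht
    · exact hf.mono inter_subset_right
  · ext x
    constructor
    · rintro ⟨hx, hxS⟩
      refine ⟨⟨Function.invFunOn f (ball 0 1) x, ⟨hx, ?_⟩, ?_⟩, hxS⟩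
      · exact ball_subset_closedBall (Function.invFunOn_mem hxS)
      · exact Function.invFunOn_eq hxS
    · rintro ⟨⟨s', ⟨hs't, hs'⟩, rfl⟩, hxS⟩
      refine ⟨?_, hxS⟩
      have h1 := Function.invFunOn_mem hxS
      have h2 := Function.invFunOn_eq hxS
      have := hinj _ h1 _ hs' h2
      show Function.invFunOn f (ball 0 1) (f s') ∈ t
      rw [this]
      exact hs't

end general

namespace OrGraph
variable (T : OrGraph)

/-- the open cell containing a point -/
def cellOf : T.Pt → T.Cl
  | Sum.inl v => Sum.inl v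
  | Sum.inr (e, _) => Sum.inr e

/-- the parameter of a point in its open cell -/
def coordOf : T.Pt → ℝ
  | Sum.inl _ => 0
  | Sum.inr (_, s) => (s : ℝ)

theorem chr_int (e : T.E) (s : ℝ) (h : -1 < s ∧ s < 1) :
    T.chr (Sum.inr e) s = Sum.inr (e, ⟨s, h⟩) := dif_pos h

theorem chr_low (e : T.E) (s : ℝ) (h : s ≤ -1) : T.chr (Sum.inr e) s = Sum.inl (T.o e) :=
  (dif_neg (fun h' => absurd h'.1 (not_lt.mpr h))).trans (if_pos h)

theorem chr_high (e : T.E) (s : ℝ) (h : 1 ≤ s) : T.chr (Sum.inr e) s = Sum.inl (T.t e) :=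
  (dif_neg (fun h' => absurd h'.2 (not_lt.mpr h))).trans
    (if_neg (not_le.mpr (lt_of_lt_of_le (by norm_num) h)))

theorem lmh (s : ℝ) : (-1 < s ∧ s < 1) ∨ s ≤ -1 ∨ 1 ≤ s := by
  by_cases h1 : s ≤ -1
  · exact Or.inr (Or.inl h1)
  · by_cases h2 : 1 ≤ s
    · exact Or.inr (Or.inr h2)
    · exact Or.inl ⟨not_le.mp h1, not_le.mp h2⟩

theorem chr_cellOf_coordOf (p : T.Pt) : T.chr (T.cellOf p) (T.coordOf p) = p := by
  rcases p with v | ⟨e, s, hs⟩
  · rfl
  · exact T.chr_int e s hs

theorem abs_coordOf_lt (p : T.Pt) : |T.coordOf p| < 1 := by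
  rcases p with v | ⟨e, s, hs⟩
  · simp [coordOf]
  · exact abs_lt.mpr hs

theorem coordOf_eq_zero (p : T.Pt) (h : (T.cellOf p).isRight = false) : T.coordOf p = 0 := by
  rcases p with v | ⟨e, s, hs⟩
  · rfl
  · simp [cellOf] at h

theorem cellOf_chr (c : T.Cl) (s : ℝ) (hs : |s| < 1) : T.cellOf (T.chr c s) = c := by
  rcases c with v | e
  · rfl
  · rw [T.chr_int e s (abs_lt.mp hs)]
    rfl

theorem coordOf_chr (c : T.Cl) (s : ℝ) (hs : |s| < 1) (hc : c.isRight = true) :
    T.coordOf (T.chr c s) = s := by
  rcases c with v | e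
  · simp at hc
  · rw [T.chr_int e s (abs_lt.mp hs)]
    rfl

/-- faces of a cell -/
def faces : T.Cl → Set T.Cl
  | Sum.inl v => {Sum.inl v}
  | Sum.inr e => {Sum.inr e, Sum.inl (T.o e), Sum.inl (T.t e)}

theorem faces_finite (c : T.Cl) : (T.faces c).Finite := by
  rcases c with v | e
  · exact Set.finite_singleton _
  · exact (((Set.finite_singleton _).insert _).insert _)

theorem cellOf_chr_mem_faces (c : T.Cl) (s : ℝ) : T.cellOf (T.chr c s) ∈ T.faces c := by
  rcases c with v | e
  · exact rfl
  · rcases lmh s with hs | hs | hs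
    · rw [T.chr_int e s hs]
      exact Or.inl rfl
    · rw [T.chr_low e s hs]
      exact Or.inr (Or.inl rfl)
    · rw [T.chr_high e s hs]
      exact Or.inr (Or.inr rfl)

theorem isRight_of_mem_faces {c c' : T.Cl} (h : c' ∈ T.faces c) (hr : c'.isRight = true) :
    c' = c := by
  rcases c with v | e
  · have : c' = Sum.inl v := h
    subst this
    simp at hr
  · rcases h with h | h | h
    · exact h
    · have : c' = Sum.inl (T.o e) := h
      subst this
      simp at hr
    · have : c' = Sum.inl (T.t e) := h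
      subst this
      simp at hr

theorem cellOf_chr_boundary (c : T.Cl) (s : ℝ) (hs : 1 ≤ |s|) :
    (T.cellOf (T.chr c s)).isRight = false := by
  rcases c with v | e
  · rfl
  · rcases lmh s with h1 | h1 | h1
    · exact absurd (abs_lt.mpr h1) (not_lt.mpr hs)
    · rw [T.chr_low e s h1]
      rfl
    · rw [T.chr_high e s h1]
      rfl

/-- clamping -/
noncomputable def clamp (s : ℝ) : ℝ := max (-1) (min 1 s)

theorem continuous_clamp : Continuous clamp := by
  unfold clamp; fun_prop

theorem abs_clamp_le (s : ℝ) : |clamp s| ≤ 1 := by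
  unfold clamp
  rw [abs_le]
  constructor
  · exact le_max_left _ _
  · exact max_le (by norm_num) (min_le_left _ _)

theorem chr_clampCW (c : T.Cl) (s : ℝ) : T.chr c (clamp s) = T.chr c s := by
  rcases c with v | e
  · rfl
  · rcases lmh s with h1 | h1 | h1
    · have : clamp s = s := by
        unfold clamp
        rw [min_eq_right h1.2.le, max_eq_right h1.1.le]
      rw [this]
    · have h3 : clamp s = -1 := by
        unfold clamp
        rw [min_eq_right (by linarith), max_eq_left h1]
      rw [h3, T.chr_low e s h1, T.chr_low e (-1) le_rfl]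
    · have h3 : clamp s = 1 := by
        unfold clamp
        rw [min_eq_left h1, max_eq_right (by norm_num)]
      rw [h3, T.chr_high e s h1, T.chr_high e 1 le_rfl]

theorem chr_inactive (c : T.Cl) (hc : c.isRight = false) (s s' : ℝ) : T.chr c s = T.chr c s' := by
  rcases c with v | e
  · rfl
  · simp at hc

section act
variable {T} {G : Type} [Group G] [MulAction G T.V] [MulAction G T.E]

theorem cellOf_smul (g : G) (p : T.Pt) : T.cellOf (g • p) = g • T.cellOf p := by
  rcases p with v | ⟨e, s⟩ <;> rfl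

theorem coordOf_smul (g : G) (p : T.Pt) : T.coordOf (g • p) = T.coordOf p := by
  rcases p with v | ⟨e, s⟩ <;> rfl

theorem isRight_smul (g : G) (c : T.Cl) : (g • c).isRight = c.isRight := by
  rcases c with v | e <;> rfl

theorem chr_smul [GAct G T] (g : G) (c : T.Cl) (s : ℝ) : T.chr (g • c) s = g • T.chr c s := by
  rcases c with v | e
  · rfl
  · show T.chr (Sum.inr (g • e)) s = _
    rcases lmh s with h1 | h1 | h1
    · rw [T.chr_int _ s h1, T.chr_int _ s h1]
      rfl
    · rw [T.chr_low _ s h1, T.chr_low _ s h1, GAct.o_smul]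
      rfl
    · rw [T.chr_high _ s h1, T.chr_high _ s h1, GAct.t_smul]
      rfl

end act

end OrGraph

section product
variable (T : Fin 3 → OrGraph)

/-- the open product cell of a point -/
def cellOf3 (z : E3 T) : Cells T := fun i => (T i).cellOf (z i)

/-- parameters of a point -/
def coordOf3 (z : E3 T) : Fin 3 → ℝ := fun i => (T i).coordOf (z i)

theorem chr3_cellOf3_coordOf3 (z : E3 T) : chr3 T (cellOf3 T z) (coordOf3 T z) = z :=
  funext fun i => (T i).chr_cellOf_coordOf (z i)

theorem continuous_chr3CW (c : Cells T) : Continuous (chr3 T c) := by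
  rw [continuous_iff_coinduced_le]
  exact le_iSup (fun c : Cells T => TopologicalSpace.coinduced (chr3 T c) inferInstance) c

theorem isClosed_E3_iff (A : Set (E3 T)) :
    IsClosed A ↔ ∀ c : Cells T, IsClosed (chr3 T c ⁻¹' A) := by
  constructor
  · intro h c
    exact h.preimage (continuous_chr3CW T c)
  · intro h
    rw [isClosed_iSup_iff]
    intro c
    rw [isClosed_coinduced]
    exact h c

variable {T}

/-- active coordinates -/
def act (c : Cells T) : Finset (Fin 3) := Finset.univ.filter (fun i => (c i).isRight)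

theorem mem_act {c : Cells T} {i : Fin 3} : i ∈ act c ↔ (c i).isRight = true := by
  simp [act]

theorem card_act (c : Cells T) : (act c).card = c.dim := rfl

theorem dim_le_three (c : Cells T) : c.dim ≤ 3 := by
  have := Finset.card_le_univ (act c)
  simpa [← card_act] using this

/-- enumeration of the active coordinates -/
noncomputable def enum (c : Cells T) {n : ℕ} (h : c.dim = n) : Fin n ≃ {i // i ∈ act c} :=
  ((act c).equivFinOfCardEq (by rw [card_act, h])).symm

/-- embedding of the parameter cube of the cell into the 3-dimensional cube -/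
noncomputable def emb (c : Cells T) {n : ℕ} (h : c.dim = n) (s : Fin n → ℝ) : Fin 3 → ℝ :=
  fun i => if hi : i ∈ act c then s ((enum c h).symm ⟨i, hi⟩) else 0

/-- projection to the active coordinates -/
noncomputable def prj (c : Cells T) {n : ℕ} (h : c.dim = n) (s : Fin 3 → ℝ) : Fin n → ℝ :=
  fun j => s (enum c h j)

theorem continuous_emb (c : Cells T) {n : ℕ} (h : c.dim = n) : Continuous (emb c h) := by
  unfold emb
  refine continuous_pi fun i => ?_
  by_cases hi : i ∈ act c
  · simp only [dif_pos hi]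
    exact continuous_apply _
  · simp only [dif_neg hi]
    exact continuous_const

theorem continuous_prj (c : Cells T) {n : ℕ} (h : c.dim = n) : Continuous (prj c h) := by
  unfold prj
  exact continuous_pi fun j => continuous_apply _

theorem prj_emb (c : Cells T) {n : ℕ} (h : c.dim = n) (s : Fin n → ℝ) :
    prj c h (emb c h s) = s := by
  funext j
  have hj : (enum c h j : Fin 3) ∈ act c := (enum c h j).2
  simp [prj, emb]

theorem chr3_emb_prj (c : Cells T) {n : ℕ} (h : c.dim = n) (s : Fin 3 → ℝ) :
    chr3 T c (emb c h (prj c h s)) = chr3 T c s := by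
  funext i
  by_cases hi : i ∈ act c
  · simp [chr3, emb, prj, hi]
  · have : (c i).isRight = false := by
      rw [mem_act] at hi
      simpa using hi
    exact (T i).chr_inactive _ this _ _

theorem abs_emb_lt (c : Cells T) {n : ℕ} (h : c.dim = n) (s : Fin n → ℝ) (hs : s ∈ ball (0 : Fin n → ℝ) 1)
    (i : Fin 3) : |emb c h s i| < 1 := by
  by_cases hi : i ∈ act c
  · simp only [emb, dif_pos hi]
    have := norm_le_pi_norm s ((enum c h).symm ⟨i, hi⟩)
    rw [mem_ball_zero_iff] at hs
    exact lt_of_le_of_lt this hs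
  · simp [emb, dif_neg hi]

theorem cellOf3_chr3_emb (c : Cells T) {n : ℕ} (h : c.dim = n) (s : Fin n → ℝ)
    (hs : s ∈ ball (0 : Fin n → ℝ) 1) : cellOf3 T (chr3 T c (emb c h s)) = c :=
  funext fun i => (T i).cellOf_chr _ _ (abs_emb_lt c h s hs i)

theorem prj_coordOf3_chr3_emb (c : Cells T) {n : ℕ} (h : c.dim = n) (s : Fin n → ℝ)
    (hs : s ∈ ball (0 : Fin n → ℝ) 1) : prj c h (coordOf3 T (chr3 T c (emb c h s))) = s := by
  conv_rhs => rw [← prj_emb c h s]
  funext j
  have hj : (enum c h j : Fin 3) ∈ act c := (enum c h j).2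
  exact (T _).coordOf_chr _ _ (abs_emb_lt c h s hs _) (mem_act.mp hj)

/-- faces of a product cell -/
def faces3 (c : Cells T) : Set (Cells T) := {c' | ∀ i, c' i ∈ (T i).faces (c i)}

theorem faces3_finite (c : Cells T) : (faces3 c).Finite := by
  have := Set.Finite.pi (t := fun i => (T i).faces (c i)) (fun i => (T i).faces_finite (c i))
  refine this.subset ?_
  intro c' hc' i _
  exact hc' i

theorem cellOf3_mem_faces3 (c : Cells T) (s : Fin 3 → ℝ) : cellOf3 T (chr3 T c s) ∈ faces3 c :=
  fun i => (T i).cellOf_chr_mem_faces (c i) (s i)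

theorem dim_lt_of_boundary (c : Cells T) {n : ℕ} (h : c.dim = n) (s : Fin n → ℝ)
    (hs : s ∈ sphere (0 : Fin n → ℝ) 1) : (cellOf3 T (chr3 T c (emb c h s))).dim < n := by
  obtain ⟨j, hj⟩ : ∃ j, 1 ≤ |s j| := by
    by_contra hcon
    push Not at hcon
    have h1 : ‖s‖ < 1 := (pi_norm_lt_iff one_pos).mpr hcon
    rw [mem_sphere_zero_iff_norm] at hs
    exact absurd hs h1.ne
  set i : Fin 3 := (enum c h j : Fin 3) with hi
  have hia : i ∈ act c := (enum c h j).2
  have hemb : emb c h s i = s j := congrFun (prj_emb c h s) j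
  subst h
  show (act (cellOf3 T (chr3 T c (emb c rfl s)))).card < (act c).card
  apply Finset.card_lt_card
  rw [Finset.ssubset_iff_of_subset]
  · refine ⟨i, hia, ?_⟩
    rw [mem_act]
    have := (T i).cellOf_chr_boundary (c i) (emb c rfl s i) (by rw [hemb]; exact hj)
    simp only [cellOf3, chr3]
    rw [this]
    simp
  · intro k hk
    rw [mem_act] at hk ⊢
    have := (T k).isRight_of_mem_faces (cellOf3_mem_faces3 c (emb c rfl s) k) hk
    rw [← this]
    exact hk

section action
variable {G : Type} [Group G] [∀ i, MulAction G (T i).V] [∀ i, MulAction G (T i).E]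

theorem cellOf3_smul (g : G) (z : E3 T) : cellOf3 T (g • z) = g • cellOf3 T z :=
  funext fun i => cellOf_smul g (z i)

theorem coordOf3_smul (g : G) (z : E3 T) : coordOf3 T (g • z) = coordOf3 T z :=
  funext fun i => coordOf_smul g (z i)

theorem chr3_smul [∀ i, GAct G (T i)] (g : G) (c : Cells T) (s : Fin 3 → ℝ) :
    chr3 T (g • c) s = g • chr3 T c s :=
  funext fun i => chr_smul g (c i) (s i)

theorem dim_smul (g : G) (c : Cells T) : (g • c).dim = c.dim := by
  rw [← card_act, ← card_act]
  congr 1
  ext i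
  rw [mem_act, mem_act]
  have : (g • c) i = g • c i := rfl
  rw [this, isRight_smul]

variable (G T)

/-- the orbit space -/
abbrev OrbSp : Type := MulAction.orbitRel.Quotient G (E3 T)

/-- orbit projection -/
abbrev qm (z : E3 T) : OrbSp T G := Quotient.mk'' z

variable {G T}

theorem qm_smul (g : G) (z : E3 T) : qm T G (g • z) = qm T G z := by
  apply Quotient.sound'
  exact MulAction.orbitRel_apply.mpr (MulAction.mem_orbit _ _)

theorem qm_eq {z z' : E3 T} (h : qm T G z = qm T G z') : ∃ g : G, g • z' = z := by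
  have := Quotient.exact h
  exact MulAction.orbitRel_apply.mp this

theorem continuous_qm : Continuous (qm T G) := continuous_quotient_mk'

variable (G T)

/-- index type of the `n`-cells: orbits of product cells, with dimension `n` -/
def QCell (n : ℕ) : Type := {o : MulAction.orbitRel.Quotient G (Cells T) // (Quotient.out o).dim = n}

variable {G T}

/-- representing product cell -/
noncomputable def QCell.rep {n : ℕ} (o : QCell T G n) : Cells T := Quotient.out o.1

theorem QCell.dim_rep {n : ℕ} (o : QCell T G n) : o.rep.dim = n := o.2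

/-- characteristic map of a cell of the quotient -/
noncomputable def QCell.chr {n : ℕ} (o : QCell T G n) (s : Fin n → ℝ) : OrbSp T G :=
  qm T G (chr3 T o.rep (emb o.rep o.dim_rep s))

theorem QCell.continuous_chr {n : ℕ} (o : QCell T G n) : Continuous o.chr :=
  continuous_qm.comp ((continuous_chr3CW T _).comp (continuous_emb _ _))

/-- the cell of the quotient containing a given product cell -/
noncomputable def mkQ (c : Cells T) {n : ℕ} (h : c.dim = n) : QCell T G n :=
  ⟨Quotient.mk'' c, by
    have h1 : (Quotient.mk'' (Quotient.out (Quotient.mk'' c : MulAction.orbitRel.Quotient G (Cells T))) :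
      MulAction.orbitRel.Quotient G (Cells T)) = Quotient.mk'' c := Quotient.out_eq' _
    have h2 := MulAction.orbitRel_apply.mp (Quotient.exact h1)
    obtain ⟨g, hg⟩ := h2
    rw [← hg]
    show (g • c).dim = n
    rw [dim_smul, h]⟩

theorem rep_mkQ (c : Cells T) {n : ℕ} (h : c.dim = n) :
    ∃ g : G, (mkQ (G := G) c h).rep = g • c := by
  have h1 : (Quotient.mk'' (Quotient.out (Quotient.mk'' c : MulAction.orbitRel.Quotient G (Cells T))) :
      MulAction.orbitRel.Quotient G (Cells T)) = Quotient.mk'' c := Quotient.out_eq' _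
  have h2 := MulAction.orbitRel_apply.mp (Quotient.exact h1)
  obtain ⟨g, hg⟩ := h2
  exact ⟨g, hg.symm⟩

theorem qm_chr3_eq [∀ i, GAct G (T i)] (c : Cells T) {n : ℕ} (h : c.dim = n) (s : Fin 3 → ℝ) :
    qm T G (chr3 T c s) =
      (mkQ (G := G) c h).chr (prj (mkQ (G := G) c h).rep (mkQ (G := G) c h).dim_rep s) := by
  obtain ⟨g, hg⟩ := rep_mkQ (G := G) c h
  unfold QCell.chr
  rw [chr3_emb_prj, hg, chr3_smul, qm_smul]

theorem mem_open_of_point [∀ i, GAct G (T i)] (z : E3 T) {n : ℕ} (h : (cellOf3 T z).dim = n) :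
    qm T G z ∈ (mkQ (G := G) (cellOf3 T z) h).chr '' ball 0 1 := by
  refine ⟨_, ?_, ((congrArg (qm T G) (chr3_cellOf3_coordOf3 T z)).symm.trans
    (qm_chr3_eq _ h (coordOf3 T z))).symm⟩
  rw [mem_ball_zero_iff, pi_norm_lt_iff one_pos]
  intro j
  exact (T _).abs_coordOf_lt _

/-- an interior parameter is determined by its image; the cell too -/
theorem chr_eq_chr {n m : ℕ} (o : QCell T G n) (o' : QCell T G m) (s : Fin n → ℝ) (s' : Fin m → ℝ)
    (hs : s ∈ ball (0 : Fin n → ℝ) 1) (hs' : s' ∈ ball (0 : Fin m → ℝ) 1)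
    (h : o.chr s = o'.chr s') : (⟨n, o⟩ : Σ n, QCell T G n) = ⟨m, o'⟩ := by
  obtain ⟨g, hg⟩ := qm_eq h
  have h1 := congrArg (cellOf3 T) hg
  rw [cellOf3_smul, cellOf3_chr3_emb _ _ _ hs, cellOf3_chr3_emb _ _ _ hs'] at h1
  have h2 : o.1 = o'.1 := by
    rw [← Quotient.out_eq' o.1, ← Quotient.out_eq' o'.1]
    apply Quotient.sound'
    exact MulAction.orbitRel_apply.mpr ⟨g, h1⟩
  have hnm : n = m := by rw [← o.2, ← o'.2, h2]
  subst hnm
  have : o = o' := Subtype.ext h2
  rw [this]

theorem chr_inj {n : ℕ} (o : QCell T G n) (s s' : Fin n → ℝ)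
    (hs : s ∈ ball (0 : Fin n → ℝ) 1) (hs' : s' ∈ closedBall (0 : Fin n → ℝ) 1)
    (h : o.chr s = o.chr s') : s = s' := by
  obtain ⟨g, hg⟩ := qm_eq h
  have h1 := congrArg (cellOf3 T) hg
  by_cases hs'' : s' ∈ ball (0 : Fin n → ℝ) 1
  · have h2 := congrArg (coordOf3 T) hg
    rw [coordOf3_smul] at h2
    rw [← prj_coordOf3_chr3_emb o.rep o.dim_rep s hs, ← prj_coordOf3_chr3_emb o.rep o.dim_rep s' hs'',
      h2]
  · exfalso
    have hsph : s' ∈ sphere (0 : Fin n → ℝ) 1 := by
      rw [mem_sphere]
      rw [mem_closedBall] at hs'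
      rw [mem_ball, not_lt] at hs''
      exact le_antisymm hs' hs''
    have h3 := dim_lt_of_boundary o.rep o.dim_rep s' hsph
    rw [cellOf3_smul, cellOf3_chr3_emb _ _ _ hs] at h1
    have h4 := congrArg Cells.dim h1
    rw [dim_smul, o.dim_rep] at h4
    omega

variable (G T)

/-- the CW structure on the orbit space -/
@[instance_reducible]
noncomputable def quotCW [∀ i, GAct G (T i)] [T2Space (OrbSp T G)] :
    Topology.CWComplex (Set.univ : Set (OrbSp T G)) where
  cell n := QCell T G n
  map n o := Set.InjOn.toPartialEquiv o.chr (ball 0 1)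
    (fun s hs s' hs' h => chr_inj o s s' hs (ball_subset_closedBall hs') h)
  source_eq n o := rfl
  continuousOn n o := o.continuous_chr.continuousOn
  continuousOn_symm n o :=
    continuousOn_invFunOn_ball o.chr o.continuous_chr.continuousOn
      (fun s hs s' hs' h => chr_inj o s s' hs hs' h)
  pairwiseDisjoint' := by
    rintro ⟨n, o⟩ - ⟨m, o'⟩ - hne
    show Disjoint (o.chr '' ball 0 1) (o'.chr '' ball 0 1)
    rw [Set.disjoint_left]
    rintro x ⟨s, hs, rfl⟩ ⟨s', hs', hss⟩
    exact hne (chr_eq_chr o o' s s' hs hs' hss.symm)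
  mapsTo' n o := by
    classical
    have hfin : ∀ m, {j : QCell T G m | j.1 ∈ (fun c : Cells T =>
        (Quotient.mk'' c : MulAction.orbitRel.Quotient G (Cells T))) '' faces3 o.rep}.Finite := by
      intro m
      exact Set.Finite.preimage (Subtype.val_injective.injOn) ((faces3_finite o.rep).image _)
    refine ⟨fun m => (hfin m).toFinset, ?_⟩
    intro s hs
    have h1 := dim_lt_of_boundary o.rep o.dim_rep s hs
    have h2 := mem_open_of_point (G := G) (chr3 T o.rep (emb o.rep o.dim_rep s)) rfl
    simp only [Set.mem_iUnion]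
    refine ⟨_, h1, mkQ (cellOf3 T (chr3 T o.rep (emb o.rep o.dim_rep s))) rfl, ?_, ?_⟩
    · rw [Set.Finite.mem_toFinset]
      exact ⟨_, cellOf3_mem_faces3 o.rep _, rfl⟩
    · exact Set.image_mono ball_subset_closedBall h2
  closed' A _ hA := by
    have hq : Topology.IsQuotientMap (qm T G) := isQuotientMap_quotient_mk'
    rw [← hq.isClosed_preimage, isClosed_E3_iff]
    intro c
    set o : QCell T G c.dim := mkQ (G := G) c rfl with ho
    have h1 : IsClosed (A ∩ o.chr '' closedBall 0 1) := hA c.dim o
    have h2 : IsClosed (closedBall 0 1 ∩ o.chr ⁻¹' (A ∩ o.chr '' closedBall 0 1)) :=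
      isClosed_closedBall.inter (h1.preimage o.continuous_chr)
    have h3 : Continuous (fun s : Fin 3 → ℝ => prj o.rep o.dim_rep (fun i => clamp (s i))) :=
      (continuous_prj _ _).comp (continuous_pi fun i => continuous_clamp.comp (continuous_apply i))
    convert h2.preimage h3 using 1
    ext s
    have h4 : qm T G (chr3 T c s) = o.chr (prj o.rep o.dim_rep (fun i => clamp (s i))) := by
      rw [← qm_chr3_eq]
      congr 1
      funext i
      exact ((T i).chr_clampCW (c i) (s i)).symm
    have h5 : prj o.rep o.dim_rep (fun i => clamp (s i)) ∈ closedBall (0 : Fin c.dim → ℝ) 1 := by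
      rw [mem_closedBall_zero_iff, pi_norm_le_iff_of_nonneg zero_le_one]
      intro j
      exact abs_clamp_le _
    constructor
    · intro h
      have h' : qm T G (chr3 T c s) ∈ A := h
      rw [h4] at h'
      exact ⟨h5, h', ⟨_, h5, rfl⟩⟩
    · rintro ⟨-, h', -⟩
      show qm T G (chr3 T c s) ∈ A
      rw [h4]
      exact h'
  union' := by
    rw [Set.eq_univ_iff_forall]
    intro x
    obtain ⟨z, rfl⟩ : ∃ z, qm T G z = x := Quotient.exists_rep x
    simp only [Set.mem_iUnion]
    exact ⟨_, _, Set.image_mono ball_subset_closedBall (mem_open_of_point (G := G) z rfl)⟩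

theorem quotCW_isEmpty [∀ i, GAct G (T i)] [T2Space (OrbSp T G)] (n : ℕ) (hn : 3 < n) :
    letI := quotCW T G
    IsEmpty (Topology.RelCWComplex.cell (Set.univ : Set (OrbSp T G)) n) := by
  refine ⟨fun o => ?_⟩
  have o' : QCell T G n := o
  have h := dim_le_three o'.rep
  rw [o'.dim_rep] at h
  omega

theorem classifying_of_cover [∀ i, GAct G (T i)] (hT2 : T2Space (OrbSp T G))
    (hcov : Crest.Topology.HasContractibleCover (OrbSp T G))
    (hpi : ∃ x : OrbSp T G, Nonempty (FundamentalGroup (OrbSp T G) x ≃* G)) :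
    Crest.Topology.HasClassifyingComplex G 3 :=
  ⟨OrbSp T G, inferInstance, quotCW T G, hT2, quotCW_isEmpty T G, hcov, hpi⟩

end action

end product

end Crest.Agent.R197
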