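import Mathlib
import Crest.Prelude.Def_ClassifyingComplex

/-!
# Row 197, module T4 (abstract part)

A free action with separated orbits: the quotient is Hausdorff, the projection is a quotient
covering map; if the total space is contractible, the quotient is aspherical with fundamental
group the acting group.
-/

set_option autoImplicit false

open Topology Set

namespace Crest.Agent.R197

section abs

variable {G E : Type} [Group G] [TopologicalSpace E] [MulAction G E]

/-- orbits are separated -/
def OrbSep (G E : Type) [Group G] [TopologicalSpace E] [MulAction G E] : Prop :=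
  ∀ z z' : E, ∃ U ∈ 𝓝 z, ∃ V ∈ 𝓝 z', ∀ g : G, ((fun w => g • w) '' U ∩ V).Nonempty → g • z = z'

theorem abs_isQuotientCoveringMap [ContinuousConstSMul G E] (hsep : OrbSep G E)
    (hfree : ∀ (g : G) (z : E), g • z = z → g = 1) :
    IsQuotientCoveringMap (Quotient.mk (MulAction.orbitRel G E)) G where
  toIsQuotientMap := isQuotientMap_quotient_mk'
  toContinuousConstSMul := inferInstance
  apply_eq_iff_mem_orbit := by
    intro e₁ e₂
    exact Quotient.eq''
  disjoint e := by
    obtain ⟨U, hU, V, hV, h⟩ := hsep e e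
    refine ⟨U ∩ V, Filter.inter_mem hU hV, fun g hg => hfree g e (h g ?_)⟩
    obtain ⟨w, ⟨w', hw', rfl⟩, hw⟩ := hg
    exact ⟨_, ⟨w', hw'.1, rfl⟩, hw.2⟩

theorem abs_t2 [ContinuousConstSMul G E] (hsep : OrbSep G E) :
    T2Space (MulAction.orbitRel.Quotient G E) := by
  refine ⟨?_⟩
  intro x y hxy
  induction x using Quotient.inductionOn' with | _ z => ?_
  induction y using Quotient.inductionOn' with | _ z' => ?_
  obtain ⟨U, hU, V, hV, h⟩ := hsep z z'
  have hopen : IsOpenMap (Quotient.mk (MulAction.orbitRel G E)) :=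
    isOpenMap_quotient_mk'_mul
  refine ⟨Quotient.mk _ '' interior U, Quotient.mk _ '' interior V,
    hopen _ isOpen_interior, hopen _ isOpen_interior,
    ⟨z, mem_interior_iff_mem_nhds.mpr hU, rfl⟩, ⟨z', mem_interior_iff_mem_nhds.mpr hV, rfl⟩, ?_⟩
  rw [Set.disjoint_left]
  rintro _ ⟨u, hu, rfl⟩ ⟨v, hv, huv⟩
  have h1 : v ∈ MulAction.orbit G u := Quotient.eq''.mp huv
  obtain ⟨g, hg⟩ := h1
  have h2 : g • z = z' := h g ⟨v, ⟨u, interior_subset hu, hg⟩, interior_subset hv⟩
  apply hxy
  apply Quotient.sound'
  change z ∈ MulAction.orbit G z'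
  exact ⟨g⁻¹, by simp [← h2]⟩

theorem abs_hasContractibleCover [ContinuousConstSMul G E] [ContractibleSpace E]
    (hsep : OrbSep G E) (hfree : ∀ (g : G) (z : E), g • z = z → g = 1) :
    Crest.Topology.HasContractibleCover (MulAction.orbitRel.Quotient G E) :=
  ⟨E, inferInstance, Quotient.mk _, inferInstance,
    (abs_isQuotientCoveringMap hsep hfree).isCoveringMap, Quotient.mk_surjective⟩

theorem abs_pi1 [ContinuousConstSMul G E] [ContractibleSpace E]
    (hsep : OrbSep G E) (hfree : ∀ (g : G) (z : E), g • z = z → g = 1) (z : E) :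
    Nonempty (FundamentalGroup (MulAction.orbitRel.Quotient G E)
      (Quotient.mk (MulAction.orbitRel G E) z) ≃* G) :=
  ⟨((abs_isQuotientCoveringMap hsep hfree).fundamentalGroupEquiv
    (x := Quotient.mk (MulAction.orbitRel G E) z) ⟨z, rfl⟩).trans (MulEquiv.inv' G).symm⟩

end abs

end Crest.Agent.R197
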