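import Crest.Agent.R197.TreeDefs

/-! Row 197, task T2: topology of the product of three trees `E3 T`.

Because `Pt T` and `Cl T` are (non-reducible) definitions, use the constructors `Pt.vert v`,
`Pt.edge e s`, `Cl.vert v`, `Cl.edge e` and the case principles `Pt.cases'`, `Cl.cases'`
(`induction p using Pt.cases'`) instead of `Sum.inl`/`Sum.inr`. -/

set_option autoImplicit false

open Set Topology

namespace Crest.Agent.R197

open OrGraph

/-! ### clamping -/

/-- clamp to `[-1,1]` -/
noncomputable def clamp (s : ℝ) : ℝ := max (-1) (min 1 s)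

theorem clamp_mem (s : ℝ) : clamp s ∈ Icc (-1 : ℝ) 1 := by
  unfold clamp
  constructor
  · exact le_max_left _ _
  · exact max_le (by norm_num) (min_le_left _ _)

theorem clamp_of_mem {s : ℝ} (h : s ∈ Icc (-1 : ℝ) 1) : clamp s = s := by
  unfold clamp
  rw [min_eq_right h.2, max_eq_right h.1]

theorem clamp_of_le {s : ℝ} (h : s ≤ -1) : clamp s = -1 := by
  unfold clamp; rw [min_eq_right (by linarith), max_eq_left h]

theorem clamp_of_ge {s : ℝ} (h : 1 ≤ s) : clamp s = 1 := by
  unfold clamp; rw [min_eq_left h, max_eq_right (by norm_num)]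

theorem continuous_clamp : Continuous clamp := by
  unfold clamp; fun_prop

namespace OrGraph

variable {T : OrGraph}

/-- vertex point -/
def Pt.vert (v : T.V) : T.Pt := Sum.inl v
/-- interior edge point -/
def Pt.edge (e : T.E) (s : Ioo (-1 : ℝ) 1) : T.Pt := Sum.inr (e, s)
/-- vertex cell -/
def Cl.vert (v : T.V) : T.Cl := Sum.inl v
/-- edge cell -/
def Cl.edge (e : T.E) : T.Cl := Sum.inr e

@[elab_as_elim] theorem Pt.cases' {motive : T.Pt → Prop} (vert : ∀ v, motive (Pt.vert v))
    (edge : ∀ e s, motive (Pt.edge e s)) (p : T.Pt) : motive p := by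
  rcases p with v | ⟨e, s⟩
  · exact vert v
  · exact edge e s

@[elab_as_elim] theorem Cl.cases' {motive : T.Cl → Prop} (vert : ∀ v, motive (Cl.vert v))
    (edge : ∀ e, motive (Cl.edge e)) (p : T.Cl) : motive p := by
  rcases p with v | e
  · exact vert v
  · exact edge e

@[simp] theorem Pt.vert_inj {v w : T.V} : Pt.vert v = Pt.vert w ↔ v = w :=
  ⟨fun h => Sum.inl.inj h, fun h => congrArg _ h⟩
@[simp] theorem Pt.edge_inj {e e' : T.E} {s s' : Ioo (-1 : ℝ) 1} :
    Pt.edge e s = Pt.edge e' s' ↔ e = e' ∧ s = s' :=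
  ⟨fun h => Prod.ext_iff.mp (Sum.inr.inj h), fun h => by rw [h.1, h.2]⟩
@[simp] theorem Pt.vert_ne_edge {v : T.V} {e : T.E} {s : Ioo (-1 : ℝ) 1} :
    Pt.vert v ≠ Pt.edge e s := Sum.inl_ne_inr
@[simp] theorem Pt.edge_ne_vert {v : T.V} {e : T.E} {s : Ioo (-1 : ℝ) 1} :
    Pt.edge e s ≠ Pt.vert v := Sum.inr_ne_inl
@[simp] theorem Cl.vert_inj {v w : T.V} : Cl.vert v = Cl.vert w ↔ v = w :=
  ⟨fun h => Sum.inl.inj h, fun h => congrArg _ h⟩
@[simp] theorem Cl.edge_inj {e e' : T.E} : Cl.edge e = Cl.edge e' ↔ e = e' :=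
  ⟨fun h => Sum.inr.inj h, fun h => congrArg _ h⟩
@[simp] theorem Cl.vert_ne_edge {v : T.V} {e : T.E} : Cl.vert v ≠ Cl.edge e := Sum.inl_ne_inr
@[simp] theorem Cl.edge_ne_vert {v : T.V} {e : T.E} : Cl.edge e ≠ Cl.vert v := Sum.inr_ne_inl

variable (T)

@[simp] theorem chr_vert (v : T.V) (s : ℝ) : T.chr (Cl.vert v) s = Pt.vert v := rfl

theorem chr_edge_mem (e : T.E) {s : ℝ} (h : -1 < s ∧ s < 1) :
    T.chr (Cl.edge e) s = Pt.edge e ⟨s, h⟩ := by
  exact dif_pos h

theorem chr_edge_le (e : T.E) {s : ℝ} (h : s ≤ -1) : T.chr (Cl.edge e) s = Pt.vert (T.o e) := by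
  have h' : ¬ (-1 < s ∧ s < 1) := fun h' => absurd h'.1 (not_lt.mpr h)
  exact (dif_neg h').trans (if_pos h)

theorem chr_edge_ge (e : T.E) {s : ℝ} (h : 1 ≤ s) : T.chr (Cl.edge e) s = Pt.vert (T.t e) := by
  have h' : ¬ (-1 < s ∧ s < 1) := fun h' => absurd h'.2 (not_lt.mpr h)
  have h'' : ¬ s ≤ -1 := by intro h2; linarith
  exact (dif_neg h').trans (if_neg h'')

theorem chr_clamp (c : T.Cl) (s : ℝ) : T.chr c (clamp s) = T.chr c s := by
  induction c using Cl.cases' with
  | vert v => rfl
  | edge e =>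
    rcases le_or_gt s (-1) with h | h
    · rw [clamp_of_le h, chr_edge_le T e le_rfl, chr_edge_le T e h]
    · rcases le_or_gt 1 s with h1 | h1
      · rw [clamp_of_ge h1, chr_edge_ge T e le_rfl, chr_edge_ge T e h1]
      · rw [clamp_of_mem ⟨h.le, h1.le⟩]

/-- every point is `chr c s` -/
theorem exists_chr (p : T.Pt) : ∃ c s, T.chr c s = p := by
  induction p using Pt.cases' with
  | vert v => exact ⟨Cl.vert v, 0, rfl⟩
  | edge e s => exact ⟨Cl.edge e, s.1, T.chr_edge_mem e s.2⟩

/-- basic neighbourhoods -/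
def nb (ε : ℝ) (p q : T.Pt) : Prop :=
  match p, q with
  | Sum.inl v, Sum.inl w => w = v
  | Sum.inl v, Sum.inr (e, s) => (T.o e = v ∧ s.1 < -1 + ε) ∨ (T.t e = v ∧ 1 - ε < s.1)
  | Sum.inr _, Sum.inl _ => False
  | Sum.inr (e, s), Sum.inr (e', s') => e' = e ∧ |s'.1 - s.1| < ε

variable {T}

@[simp] theorem nb_vv {ε : ℝ} {v w : T.V} : T.nb ε (Pt.vert v) (Pt.vert w) ↔ w = v := Iff.rfl

@[simp] theorem nb_ve {ε : ℝ} {v : T.V} {e : T.E} {s : Ioo (-1 : ℝ) 1} :
    T.nb ε (Pt.vert v) (Pt.edge e s) ↔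
      (T.o e = v ∧ s.1 < -1 + ε) ∨ (T.t e = v ∧ 1 - ε < s.1) := Iff.rfl

@[simp] theorem nb_ev {ε : ℝ} {v : T.V} {e : T.E} {s : Ioo (-1 : ℝ) 1} :
    T.nb ε (Pt.edge e s) (Pt.vert v) ↔ False := Iff.rfl

@[simp] theorem nb_ee {ε : ℝ} {e e' : T.E} {s s' : Ioo (-1 : ℝ) 1} :
    T.nb ε (Pt.edge e s) (Pt.edge e' s') ↔ e' = e ∧ |s'.1 - s.1| < ε := Iff.rfl

theorem self_nb {ε : ℝ} (hε : 0 < ε) (p : T.Pt) : T.nb ε p p := by
  induction p using Pt.cases' with
  | vert v => simp
  | edge e s => simp [hε]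

theorem nb_mono {ε ε' : ℝ} (h : ε ≤ ε') {p q : T.Pt} (hq : T.nb ε p q) : T.nb ε' p q := by
  induction p using Pt.cases' with
  | vert v =>
    induction q using Pt.cases' with
    | vert w => exact hq
    | edge e s =>
      rw [nb_ve] at hq ⊢
      rcases hq with ⟨h1, h2⟩ | ⟨h1, h2⟩
      · exact Or.inl ⟨h1, by linarith⟩
      · exact Or.inr ⟨h1, by linarith⟩
  | edge e s =>
    induction q using Pt.cases' with
    | vert w => exact hq.elim
    | edge e s =>
      rw [nb_ee] at hq ⊢
      exact ⟨hq.1, lt_of_lt_of_le hq.2 h⟩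

theorem isOpen_preimage_nb {ε : ℝ} (hε0 : 0 < ε) (hε : ε ≤ 2) (p : T.Pt) (c : T.Cl) :
    IsOpen {s : ℝ | T.nb ε p (T.chr c s)} := by
  induction c using Cl.cases' with
  | vert w => exact (isOpen_const : IsOpen {_s : ℝ | T.nb ε p (Pt.vert w)})
  | edge e =>
    induction p using Pt.cases' with
    | vert v =>
      have key : {s : ℝ | T.nb ε (Pt.vert v) (T.chr (Cl.edge e) s)}
          = {s | T.o e = v ∧ s < -1 + ε} ∪ {s | T.t e = v ∧ 1 - ε < s} := by
        ext s
        change T.nb ε (Pt.vert v) (T.chr (Cl.edge e) s) ↔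
          (T.o e = v ∧ s < -1 + ε) ∨ (T.t e = v ∧ 1 - ε < s)
        rcases le_or_gt s (-1) with h | h
        · rw [chr_edge_le T e h, nb_vv]
          constructor
          · intro h1; exact Or.inl ⟨h1, by linarith⟩
          · rintro (⟨h1, -⟩ | ⟨-, h2⟩)
            · exact h1
            · linarith
        · rcases le_or_gt 1 s with h1 | h1
          · rw [chr_edge_ge T e h1, nb_vv]
            constructor
            · intro h1; exact Or.inr ⟨h1, by linarith⟩
            · rintro (⟨-, h2⟩ | ⟨h2, -⟩)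
              · linarith
              · exact h2
          · rw [chr_edge_mem T e ⟨h, h1⟩, nb_ve]
      rw [key]
      refine IsOpen.union ?_ ?_
      · by_cases h : T.o e = v
        · have : {s : ℝ | T.o e = v ∧ s < -1 + ε} = Iio (-1 + ε) := by ext s; simp [h]
          rw [this]; exact isOpen_Iio
        · simp [h]
      · by_cases h : T.t e = v
        · have : {s : ℝ | T.t e = v ∧ 1 - ε < s} = Ioi (1 - ε) := by ext s; simp [h]
          rw [this]; exact isOpen_Ioi
        · simp [h]
    | edge e' s' =>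
      have key : {s : ℝ | T.nb ε (Pt.edge e' s') (T.chr (Cl.edge e) s)}
          = {_s : ℝ | e = e'} ∩ ({s | |s - s'.1| < ε} ∩ Ioo (-1) 1) := by
        ext s
        change T.nb ε (Pt.edge e' s') (T.chr (Cl.edge e) s) ↔
          e = e' ∧ |s - s'.1| < ε ∧ -1 < s ∧ s < 1
        rcases le_or_gt s (-1) with h | h
        · rw [chr_edge_le T e h, nb_ev]
          constructor
          · intro h; exact h.elim
          · rintro ⟨-, -, h2, -⟩; linarith
        · rcases le_or_gt 1 s with h1 | h1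
          · rw [chr_edge_ge T e h1, nb_ev]
            constructor
            · intro h; exact h.elim
            · rintro ⟨-, -, -, h2⟩; linarith
          · rw [chr_edge_mem T e ⟨h, h1⟩, nb_ee]
            constructor
            · rintro ⟨h2, h3⟩; exact ⟨h2, h3, h, h1⟩
            · rintro ⟨h2, h3, -⟩; exact ⟨h2, h3⟩
      rw [key]
      refine IsOpen.inter isOpen_const (IsOpen.inter ?_ isOpen_Ioo)
      exact isOpen_lt (by fun_prop) continuous_const

end OrGraph

/-! ### the product -/

variable {T : Fin 3 → OrGraph}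

theorem continuous_chr3 (c : Cells T) : Continuous (chr3 T c) :=
  continuous_iff_coinduced_le.mpr
    (le_iSup (fun c : Cells T => TopologicalSpace.coinduced (chr3 T c) inferInstance) c)

theorem E3.isOpen_iff {s : Set (E3 T)} : IsOpen s ↔ ∀ c, IsOpen (chr3 T c ⁻¹' s) := by
  rw [isOpen_iSup_iff]
  exact forall_congr' fun c => isOpen_coinduced

theorem E3.isClosed_iff {s : Set (E3 T)} : IsClosed s ↔ ∀ c, IsClosed (chr3 T c ⁻¹' s) := by
  rw [← isOpen_compl_iff, E3.isOpen_iff]
  exact forall_congr' fun c => by rw [preimage_compl, isOpen_compl_iff]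

theorem E3.continuous_iff {Y : Type*} [TopologicalSpace Y] {f : E3 T → Y} :
    Continuous f ↔ ∀ c, Continuous (f ∘ chr3 T c) := by
  constructor
  · intro h c; exact h.comp (continuous_chr3 c)
  · intro h
    rw [continuous_def]
    intro s hs
    rw [E3.isOpen_iff]
    intro c
    exact (h c).isOpen_preimage s hs

/-- componentwise clamp -/
noncomputable def clamp3 (s : Fin 3 → ℝ) : Fin 3 → ℝ := fun i => clamp (s i)

theorem clamp3_mem (s : Fin 3 → ℝ) : clamp3 s ∈ Icc (fun _ => -1 : Fin 3 → ℝ) (fun _ => 1) :=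
  ⟨fun i => (clamp_mem (s i)).1, fun i => (clamp_mem (s i)).2⟩

theorem clamp3_of_mem {s : Fin 3 → ℝ} (h : s ∈ Icc (fun _ => -1 : Fin 3 → ℝ) (fun _ => 1)) :
    clamp3 s = s := funext fun i => clamp_of_mem ⟨h.1 i, h.2 i⟩

theorem continuous_clamp3 : Continuous clamp3 :=
  continuous_pi fun i => continuous_clamp.comp (continuous_apply i)

theorem chr3_clamp (c : Cells T) (s : Fin 3 → ℝ) : chr3 T c (clamp3 s) = chr3 T c s :=
  funext fun i => (T i).chr_clamp (c i) (s i)

theorem E3.continuous_iff_continuousOn {Y : Type*} [TopologicalSpace Y] {f : E3 T → Y} :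
    Continuous f ↔
      ∀ c, ContinuousOn (f ∘ chr3 T c) (Icc (fun _ => -1 : Fin 3 → ℝ) (fun _ => 1)) := by
  rw [E3.continuous_iff]
  constructor
  · intro h c; exact (h c).continuousOn
  · intro h c
    have h1 : f ∘ chr3 T c = (f ∘ chr3 T c) ∘ clamp3 := by
      funext s; simp [chr3_clamp]
    rw [h1, ← continuousOn_univ]
    exact (h c).comp continuous_clamp3.continuousOn fun s _ => clamp3_mem s

theorem E3.exists_chr3 (z : E3 T) : ∃ c s, chr3 T c s = z := by
  choose c s h using fun i => (T i).exists_chr (z i)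
  exact ⟨c, s, funext h⟩

/-- basic box neighbourhood -/
def box (ε : ℝ) (z : E3 T) : Set (E3 T) := {w | ∀ i, (T i).nb ε (z i) (w i)}

theorem mem_box {ε : ℝ} {z w : E3 T} : w ∈ box ε z ↔ ∀ i, (T i).nb ε (z i) (w i) := Iff.rfl

theorem self_mem_box {ε : ℝ} (hε : 0 < ε) (z : E3 T) : z ∈ box ε z := fun i => self_nb hε (z i)

theorem box_mono {ε ε' : ℝ} (h : ε ≤ ε') (z : E3 T) : box ε z ⊆ box ε' z :=
  fun _ hw i => nb_mono h (hw i)

theorem isOpen_box {ε : ℝ} (hε0 : 0 < ε) (hε : ε ≤ 2) (z : E3 T) : IsOpen (box ε z) := by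
  rw [E3.isOpen_iff]
  intro c
  have : chr3 T c ⁻¹' box ε z = univ.pi fun i => {s | (T i).nb ε (z i) ((T i).chr (c i) s)} := by
    ext s
    constructor
    · intro h i _; exact h i
    · intro h i; exact h i trivial
  rw [this]
  exact isOpen_set_pi finite_univ fun i _ => isOpen_preimage_nb hε0 hε (z i) (c i)

theorem box_mem_nhds {ε : ℝ} (hε0 : 0 < ε) (hε : ε ≤ 2) (z : E3 T) : box ε z ∈ 𝓝 z :=
  (isOpen_box hε0 hε z).mem_nhds (self_mem_box hε0 z)

/-! ### group action -/

section action
variable {G : Type} [Group G]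

section single
variable {T : OrGraph} [MulAction G T.V] [MulAction G T.E]

@[simp] theorem Pt.smul_vert (g : G) (v : T.V) : g • (Pt.vert v) = Pt.vert (g • v) := rfl
@[simp] theorem Pt.smul_edge (g : G) (e : T.E) (s : Ioo (-1 : ℝ) 1) :
    g • (Pt.edge e s) = Pt.edge (g • e) s := rfl
@[simp] theorem Cl.smul_vert (g : G) (v : T.V) : g • (Cl.vert v) = Cl.vert (g • v) := rfl
@[simp] theorem Cl.smul_edge (g : G) (e : T.E) : g • (Cl.edge e) = Cl.edge (g • e) := rfl

theorem smul_chr [GAct G T] (g : G) (c : T.Cl) (s : ℝ) : g • T.chr c s = T.chr (g • c) s := by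
  induction c using Cl.cases' with
  | vert v => rfl
  | edge e =>
    rcases le_or_gt s (-1) with h | h
    · rw [chr_edge_le T e h, Cl.smul_edge, chr_edge_le T _ h, Pt.smul_vert, GAct.o_smul]
    · rcases le_or_gt 1 s with h1 | h1
      · rw [chr_edge_ge T e h1, Cl.smul_edge, chr_edge_ge T _ h1, Pt.smul_vert, GAct.t_smul]
      · rw [chr_edge_mem T e ⟨h, h1⟩, Cl.smul_edge, chr_edge_mem T _ ⟨h, h1⟩, Pt.smul_edge]

theorem smul_nb_smul [GAct G T] (g : G) {ε : ℝ} {p q : T.Pt} :
    T.nb ε (g • p) (g • q) ↔ T.nb ε p q := by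
  induction p using Pt.cases' with
  | vert v =>
    induction q using Pt.cases' with
    | vert w => simp
    | edge e s => simp [GAct.o_smul, GAct.t_smul]
  | edge e s =>
    induction q using Pt.cases' with
    | vert w => simp
    | edge e s => simp

/-- separation of orbits in one factor -/
theorem exists_sep (p p' : T.Pt) : ∃ ε : ℝ, 0 < ε ∧ ∀ g : G, ∀ q : T.Pt,
    T.nb ε (g • p) q → T.nb ε p' q → g • p = p' := by
  induction p using Pt.cases' with
  | vert v =>
    induction p' using Pt.cases' with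
    | vert v' =>
      refine ⟨1, one_pos, fun g q h1 h2 => ?_⟩
      rw [Pt.smul_vert] at h1 ⊢
      induction q using Pt.cases' with
      | vert w =>
        rw [nb_vv] at h1 h2
        rw [← h1, h2]
      | edge e s =>
        rw [nb_ve] at h1 h2
        rcases h1 with ⟨h1, h3⟩ | ⟨h1, h3⟩ <;> rcases h2 with ⟨h2, h4⟩ | ⟨h2, h4⟩
        · rw [← h1, h2]
        · linarith
        · linarith
        · rw [← h1, h2]
    | edge e' s' =>
      have hs1 := s'.2.1
      have hs2 := s'.2.2
      refine ⟨min (1 + s'.1) (1 - s'.1) / 2, ?_, fun g q h1 h2 => ?_⟩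
      · have : 0 < min (1 + s'.1) (1 - s'.1) := lt_min (by linarith) (by linarith)
        linarith
      · rw [Pt.smul_vert] at h1
        induction q using Pt.cases' with
        | vert w => exact h2.elim
        | edge e s =>
          have a1 : min (1 + s'.1) (1 - s'.1) ≤ 1 + s'.1 := min_le_left _ _
          have a2 : min (1 + s'.1) (1 - s'.1) ≤ 1 - s'.1 := min_le_right _ _
          rw [nb_ee] at h2
          rw [nb_ve] at h1
          have h2' := abs_lt.mp h2.2
          rcases h1 with ⟨-, h3⟩ | ⟨-, h3⟩ <;> exfalso <;> linarith [h2'.1, h2'.2]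
  | edge e s =>
    induction p' using Pt.cases' with
    | vert v' =>
      have hs1 := s.2.1
      have hs2 := s.2.2
      refine ⟨min (1 + s.1) (1 - s.1) / 2, ?_, fun g q h1 h2 => ?_⟩
      · have : 0 < min (1 + s.1) (1 - s.1) := lt_min (by linarith) (by linarith)
        linarith
      · rw [Pt.smul_edge] at h1
        induction q using Pt.cases' with
        | vert w => exact h1.elim
        | edge e'' s'' =>
          have a1 : min (1 + s.1) (1 - s.1) ≤ 1 + s.1 := min_le_left _ _
          have a2 : min (1 + s.1) (1 - s.1) ≤ 1 - s.1 := min_le_right _ _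
          rw [nb_ee] at h1
          rw [nb_ve] at h2
          have h1' := abs_lt.mp h1.2
          rcases h2 with ⟨-, h3⟩ | ⟨-, h3⟩ <;> exfalso <;> linarith [h1'.1, h1'.2]
    | edge e' s' =>
      by_cases hss : s = s'
      · refine ⟨1, one_pos, fun g q h1 h2 => ?_⟩
        rw [Pt.smul_edge] at h1 ⊢
        induction q using Pt.cases' with
        | vert w => exact h1.elim
        | edge e'' s'' =>
          rw [nb_ee] at h1 h2
          rw [← h1.1, h2.1, hss]
      · have hne : s.1 - s'.1 ≠ 0 := fun h => hss (Subtype.ext (sub_eq_zero.mp h))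
        refine ⟨|s.1 - s'.1| / 2, by have := abs_pos.mpr hne; linarith, fun g q h1 h2 => ?_⟩
        rw [Pt.smul_edge] at h1
        induction q using Pt.cases' with
        | vert w => exact h1.elim
        | edge e'' s'' =>
          exfalso
          rw [nb_ee] at h1 h2
          have h1' : |s''.1 - s.1| < |s.1 - s'.1| / 2 := h1.2
          have h2' : |s''.1 - s'.1| < |s.1 - s'.1| / 2 := h2.2
          have h3 : |s.1 - s'.1| ≤ |s''.1 - s'.1| + |s''.1 - s.1| := by
            have h4 : s.1 - s'.1 = (s''.1 - s'.1) - (s''.1 - s.1) := by ring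
            rw [h4]
            exact abs_sub _ _
          linarith

end single

variable [∀ i, MulAction G (T i).V] [∀ i, MulAction G (T i).E]

@[simp] theorem E3.smul_apply (g : G) (z : E3 T) (i : Fin 3) : (g • z) i = g • z i := rfl
@[simp] theorem Cells.smul_apply (g : G) (c : Cells T) (i : Fin 3) : (g • c) i = g • c i := rfl

theorem exists_sep3 (G : Type) [Group G] [∀ i, MulAction G (T i).V] [∀ i, MulAction G (T i).E]
    (z z' : E3 T) : ∃ ε : ℝ, 0 < ε ∧ ε ≤ 2 ∧ ∀ g : G,
    (box ε (g • z) ∩ box ε z').Nonempty → g • z = z' := by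
  choose ε hε h using fun i => exists_sep (G := G) (z i) (z' i)
  refine ⟨min 2 (min (ε 0) (min (ε 1) (ε 2))), ?_, min_le_left _ _, ?_⟩
  · exact lt_min two_pos (lt_min (hε 0) (lt_min (hε 1) (hε 2)))
  · rintro g ⟨w, hw, hw'⟩
    have hi : ∀ i, min 2 (min (ε 0) (min (ε 1) (ε 2))) ≤ ε i := by
      intro i
      fin_cases i
      · exact (min_le_right _ _).trans (min_le_left _ _)
      · exact (min_le_right _ _).trans ((min_le_right _ _).trans (min_le_left _ _))
      · exact (min_le_right _ _).trans ((min_le_right _ _).trans (min_le_right _ _))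
    funext i
    exact h i g (w i) (nb_mono (hi i) (hw i)) (nb_mono (hi i) (hw' i))

/-- the vertex supporting a point (origin of the edge for an interior point) -/
def OrGraph.baseV {T : OrGraph} (p : T.Pt) : T.V :=
  match p with
  | Sum.inl v => v
  | Sum.inr (e, _) => T.o e

@[simp] theorem OrGraph.baseV_vert {T : OrGraph} (v : T.V) : baseV (Pt.vert v) = v := rfl
@[simp] theorem OrGraph.baseV_edge {T : OrGraph} (e : T.E) (s : Ioo (-1 : ℝ) 1) :
    baseV (Pt.edge e s) = T.o e := rfl

variable [∀ i, GAct G (T i)]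

theorem smul_baseV {T : OrGraph} [MulAction G T.V] [MulAction G T.E] [GAct G T] (g : G) (p : T.Pt) :
    g • baseV p = baseV (g • p) := by
  induction p using Pt.cases' with
  | vert v => rfl
  | edge e s => simp [GAct.o_smul]

omit [∀ i, GAct G (T i)] in
/-- the action is free on points -/
theorem free_of_freeOnVertices [∀ i, GAct G (T i)] (hfree : FreeOnVertices G T) (g : G)
    (z : E3 T) (h : g • z = z) : g = 1 := by
  refine hfree g (fun i => baseV (z i)) fun i => ?_
  have hi : g • z i = z i := congrFun h i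
  rw [smul_baseV, hi]

theorem smul_chr3 (g : G) (c : Cells T) (s : Fin 3 → ℝ) : g • chr3 T c s = chr3 T (g • c) s :=
  funext fun i => smul_chr g (c i) (s i)

theorem smul_mem_box_smul (g : G) {ε : ℝ} {z w : E3 T} : g • w ∈ box ε (g • z) ↔ w ∈ box ε z :=
  forall_congr' fun _ => smul_nb_smul g

theorem smul_image_box (g : G) (ε : ℝ) (z : E3 T) :
    (fun w => g • w) '' box ε z = box ε (g • z) := by
  ext w
  constructor
  · rintro ⟨w', hw', rfl⟩
    exact (smul_mem_box_smul g).mpr hw'
  · intro hw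
    refine ⟨g⁻¹ • w, ?_, smul_inv_smul g w⟩
    rw [← smul_mem_box_smul g, smul_inv_smul]
    exact hw

instance E3.instContinuousConstSMul : ContinuousConstSMul G (E3 T) where
  continuous_const_smul g := by
    rw [E3.continuous_iff]
    intro c
    have : (fun z : E3 T => g • z) ∘ chr3 T c = chr3 T (g • c) := by
      funext s; exact smul_chr3 g c s
    rw [this]
    exact continuous_chr3 (g • c)

/-- a point has a neighbourhood moved off itself by all non-trivial elements -/
theorem exists_nhds_disjoint (hfree : FreeOnVertices G T) (z : E3 T) :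
    ∃ U ∈ 𝓝 z, ∀ g : G, ((fun w => g • w) '' U ∩ U).Nonempty → g = 1 := by
  obtain ⟨ε, h0, h2, h⟩ := exists_sep3 G z z
  refine ⟨box ε z, box_mem_nhds h0 h2 z, fun g hg => ?_⟩
  rw [smul_image_box] at hg
  exact free_of_freeOnVertices hfree g z (h g hg)

/-- separation of orbits, neighbourhood form -/
theorem e3_sep (z z' : E3 T) : ∃ U ∈ 𝓝 z, ∃ V ∈ 𝓝 z', ∀ g : G,
    ((fun w => g • w) '' U ∩ V).Nonempty → g • z = z' := by
  obtain ⟨ε, h0, h2, h⟩ := exists_sep3 G z z'
  refine ⟨box ε z, box_mem_nhds h0 h2 z, box ε z', box_mem_nhds h0 h2 z', fun g hg => ?_⟩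
  rw [smul_image_box] at hg
  exact h g hg

theorem e3_free (h : FreeOnVertices G T) (g : G) (z : E3 T) (hz : g • z = z) : g = 1 :=
  free_of_freeOnVertices h g z hz

end action

/-- Hausdorff property (separation for the trivial group) -/
instance E3.instT2Space : T2Space (E3 T) := by
  let _ : ∀ i, MulAction (Equiv.Perm Empty) (T i).V := fun i =>
    { smul := fun _ v => v, one_smul := fun _ => rfl, mul_smul := fun _ _ _ => rfl }
  let _ : ∀ i, MulAction (Equiv.Perm Empty) (T i).E := fun i =>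
    { smul := fun _ v => v, one_smul := fun _ => rfl, mul_smul := fun _ _ _ => rfl }
  refine ⟨fun z z' hne => ?_⟩
  obtain ⟨ε, h0, h2, h⟩ := exists_sep3 (Equiv.Perm Empty) z z'
  refine ⟨box ε z, box ε z', isOpen_box h0 h2 z, isOpen_box h0 h2 z', self_mem_box h0 z,
    self_mem_box h0 z', ?_⟩
  rw [Set.disjoint_iff_inter_eq_empty, ← Set.not_nonempty_iff_eq_empty]
  intro hn
  have h1 : (1 : (Equiv.Perm Empty)) • z = z := one_smul _ z
  have := h 1 (by rw [h1]; exact hn)
  exact hne (h1 ▸ this)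

end Crest.Agent.R197
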