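import Mathlib
import Crest.Prelude.Def_ClassifyingComplex
import Crest.Agent.R197.E3Top
import Crest.Agent.R197.E3CoverAbs
import Crest.Agent.R197.E3CW
import Crest.Agent.R197.Contract

/-!
# Row 197: assembly of module T: `classifying_of_trees`
-/

set_option autoImplicit false

open Topology Set

namespace Crest.Agent.R197

variable {G : Type} [Group G] {T : Fin 3 → OrGraph} [∀ i, MulAction G (T i).V]
  [∀ i, MulAction G (T i).E] [∀ i, OrGraph.GAct G (T i)]

theorem e3_orbSep : OrbSep G (E3 T) := by
  intro z z'
  obtain ⟨ε, h0, h2, h⟩ := exists_sep3 G z z'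
  refine ⟨box ε z, box_mem_nhds h0 h2 z, box ε z', box_mem_nhds h0 h2 z', fun g hg => ?_⟩
  rw [smul_image_box] at hg
  exact h g hg

/-- A group acting on three trees, freely on the vertices of the product, has a classifying complex
of dimension at most three. -/
theorem classifying_of_trees (G : Type) [Group G] (T : Fin 3 → OrGraph)
    [∀ i, MulAction G (T i).V] [∀ i, MulAction G (T i).E] [∀ i, OrGraph.GAct G (T i)]
    (hT : ∀ i, (T i).IsTree) (v0 : ∀ i, (T i).V) (hfree : FreeOnVertices G T) :
    Crest.Topology.HasClassifyingComplex G 3 := by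
  have : ContractibleSpace (E3 T) := e3_contractible T hT v0
  have hsep : OrbSep G (E3 T) := e3_orbSep
  have hf : ∀ (g : G) (z : E3 T), g • z = z → g = 1 := fun g z h =>
    free_of_freeOnVertices hfree g z h
  exact classifying_of_cover T G (abs_t2 hsep) (abs_hasContractibleCover hsep hf)
    ⟨_, abs_pi1 hsep hf (fun i => Sum.inl (v0 i))⟩

end Crest.Agent.R197
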