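import Mathlib
import Crest.Agent.R197.TreeDefs
import Crest.Agent.R197.NDefs

/-!
# Row 197, module N4: `T₃` and the Cayley trees are combinatorial trees
-/

set_option autoImplicit false

namespace Crest.Agent.R197

/-- the edges of `T₃` -/
abbrev T3E : Type := Σ α : Ltr, GG ⧸ Qbar α

/-- the vertices of `T₃` -/
abbrev T3V : Type := GG ⧸ Nbar

/-- origin of an edge of `T₃`: `g Qbar_α ↦ g Nbar` -/
def T3o (e : T3E) : T3V :=
  Quotient.liftOn' e.2 (fun g => (g : GG ⧸ Nbar)) (fun a b h => by
    rw [QuotientGroup.leftRel_apply] at h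
    exact QuotientGroup.eq.mpr (Qbar_le_Nbar _ h))

/-- end of an edge of `T₃`: `g Qbar_α ↦ g r_α Nbar` -/
def T3t (e : T3E) : T3V :=
  Quotient.liftOn' e.2 (fun g => ((g * GG.r e.1 : GG) : GG ⧸ Nbar)) (fun a b h => by
    rw [QuotientGroup.leftRel_apply] at h
    refine QuotientGroup.eq.mpr ?_
    have : (a * GG.r e.1)⁻¹ * (b * GG.r e.1) = (GG.r e.1)⁻¹ * (a⁻¹ * b) * GG.r e.1 := by group
    rw [this]
    exact conj_mem_Nbar h)

/-- The tree `T₃`. -/
def T3 : OrGraph where
  V := T3V
  E := T3E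
  o := T3o
  t := T3t

/-- Cayley tree of `FreeGroup I`: edges `(p, i) : p ⟶ p * of i`. -/
def cayley (I : Type) : OrGraph where
  V := FreeGroup I
  E := FreeGroup I × I
  o e := e.1
  t e := e.1 * FreeGroup.of e.2

theorem T3o_mk (α : Ltr) (g : GG) :
    T3o ⟨α, (g : GG ⧸ Qbar α)⟩ = (g : GG ⧸ Nbar) := rfl

theorem T3t_mk (α : Ltr) (g : GG) :
    T3t ⟨α, (g : GG ⧸ Qbar α)⟩ = ((g * GG.r α : GG) : GG ⧸ Nbar) := rfl

/-- `G` acts on the edges of `T₃`. -/
instance T3E.instMulAction : MulAction GG T3E where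
  smul g e := ⟨e.1, g • e.2⟩
  one_smul e := by
    show (⟨e.1, (1 : GG) • e.2⟩ : T3E) = e
    rw [one_smul]
  mul_smul g h e := by
    show (⟨e.1, (g * h) • e.2⟩ : T3E) = ⟨e.1, g • h • e.2⟩
    rw [mul_smul]

theorem T3E_smul_mk (g : GG) (α : Ltr) (a : GG) :
    g • (⟨α, (a : GG ⧸ Qbar α)⟩ : T3E) = ⟨α, ((g * a : GG) : GG ⧸ Qbar α)⟩ := rfl

/-- equivariance of the origin map -/
theorem T3o_smul (g : GG) (e : T3E) : T3o (g • e) = g • T3o e := by
  obtain ⟨α, q⟩ := e
  induction q using QuotientGroup.induction_on with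
  | H a => rfl

/-- equivariance of the end map -/
theorem T3t_smul (g : GG) (e : T3E) : T3t (g • e) = g • T3t e := by
  obtain ⟨α, q⟩ := e
  induction q using QuotientGroup.induction_on with
  | H a =>
    rw [T3E_smul_mk, T3t_mk, T3t_mk, mul_assoc]
    rfl

instance T3.instMulActionV : MulAction GG T3.V := inferInstanceAs (MulAction GG T3V)

instance T3.instMulActionE : MulAction GG T3.E := T3E.instMulAction

instance T3.instGAct : OrGraph.GAct GG T3 where
  o_smul := T3o_smul
  t_smul := T3t_smul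

section skew
variable {G M : Type*} [Group G] [AddCommGroup M]

/-- the skew translation `(h, m) ↦ (h a, m + f h)` -/
def skew (a : G) (f : G → M) : Equiv.Perm (G × M) where
  toFun p := (p.1 * a, p.2 + f p.1)
  invFun p := (p.1 * a⁻¹, p.2 - f (p.1 * a⁻¹))
  left_inv p := by ext <;> simp
  right_inv p := by ext <;> simp

@[simp] theorem skew_apply (a : G) (f : G → M) (h : G) (m : M) :
    skew a f (h, m) = (h * a, m + f h) := rfl

/-- right translations, as a homomorphism to the opposite of the permutations -/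
def skewTr (G M : Type*) [Group G] [AddCommGroup M] : G →* (Equiv.Perm (G × M))ᵐᵒᵖ where
  toFun a := MulOpposite.op (skew a 0)
  map_one' := by
    rw [← MulOpposite.op_one]
    congr 1
    ext1 p
    obtain ⟨h, m⟩ := p
    simp
  map_mul' a b := by
    rw [← MulOpposite.op_mul]
    congr 1
    ext1 p
    obtain ⟨h, m⟩ := p
    simp [mul_assoc]

theorem skewTr_apply (a : G) : skewTr G M a = MulOpposite.op (skew a 0) := rfl

end skew

/-- induction principle for `G` -/
theorem GG_closure : Subgroup.closure (Set.range (PresentedGroup.of (rels := relsG))) = ⊤ :=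
  PresentedGroup.closure_range_of relsG

/-- induction along words, multiplying generators on the right -/
theorem GG_induction_right {p : GG → Prop} (one : p 1)
    (mx : ∀ g i, p g → p (g * GG.x i)) (mx' : ∀ g i, p g → p (g * (GG.x i)⁻¹))
    (my : ∀ g i, p g → p (g * GG.y i)) (my' : ∀ g i, p g → p (g * (GG.y i)⁻¹))
    (mr : ∀ g α, p g → p (g * GG.r α)) (mr' : ∀ g α, p g → p (g * (GG.r α)⁻¹)) (g : GG) : p g := by
  have hg : g ∈ Subgroup.closure (Set.range (PresentedGroup.of (rels := relsG))) := by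
    rw [GG_closure]; trivial
  refine Subgroup.closure_induction_right (p := fun g _ => p g) one ?_ ?_ hg
  · rintro g _ _ ⟨u, rfl⟩ h
    rcases u with i | i | α
    · exact mx g i h
    · exact my g i h
    · exact mr g α h
  · rintro g _ _ ⟨u, rfl⟩ h
    rcases u with i | i | α
    · exact mx' g i h
    · exact my' g i h
    · exact mr' g α h

section acyc
variable {M : Type*} [AddCommGroup M] (f : Ltr → GG → M)
  (hf : ∀ (α : Ltr) (g q : GG), q ∈ Qbar α → f α (g * q) = f α g)

include hf in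
theorem skewRel : RelG (fun i => skewTr GG M (GG.x i)) (fun k => skewTr GG M (GG.y k))
    (fun α => MulOpposite.op (skew (GG.r α) (f α))) := by
  refine { x0 := ?_, hex := ?_, la := ?_, lb := ?_ }
  · show skewTr GG M (GG.x 0) = 1
    rw [GG.rel.x0, map_one]
  · intro α i k hi hk
    rw [← map_Aw, ← map_Bw, skewTr_apply, skewTr_apply, ← MulOpposite.op_mul, ← MulOpposite.op_mul]
    congr 1
    ext1 p
    obtain ⟨h, m⟩ := p
    have h1 := GG.rel.hex α i k hi hk
    have h2 := hf α h _ (Aw_mem_Qbar hi hk)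
    simp only [Equiv.Perm.mul_apply, skew_apply, Pi.zero_apply, add_zero, mul_assoc, h1, h2]
  · intro n
    rw [← map_lam, GG.rel.la, map_one]
  · intro n
    rw [← map_lam, GG.rel.lb, map_one]

/-- Acyclicity of `T₃` in group form. -/
theorem acycG (f : Ltr → GG → M)
    (hf : ∀ (α : Ltr) (g q : GG), q ∈ Qbar α → f α (g * q) = f α g) :
    ∃ F : GG → M, F 1 = 0 ∧ (∀ g n, n ∈ Nbar → F (g * n) = F g) ∧
      ∀ g α, F (g * GG.r α) = F g + f α g := by
  set Φ := GG.lift (skewRel f hf) with hΦ
  have hx : ∀ i, Φ (GG.x i) = skewTr GG M (GG.x i) := fun i => GG.lift_x _ i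
  have hy : ∀ i, Φ (GG.y i) = skewTr GG M (GG.y i) := fun i => GG.lift_y _ i
  have hr : ∀ α, Φ (GG.r α) = MulOpposite.op (skew (GG.r α) (f α)) := fun α => GG.lift_r _ α
  have hNs : ∀ n ∈ Nbar, Φ n = skewTr GG M n := by
    intro n hn
    unfold Nbar at hn
    induction hn using Subgroup.closure_induction with
    | mem g hg =>
      rcases hg with ⟨i, rfl⟩ | ⟨k, rfl⟩
      · exact hx i
      · exact hy k
    | one => rw [map_one, map_one]
    | mul a b _ _ ha hb => rw [map_mul, map_mul, ha, hb]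
    | inv a _ ha => rw [map_inv, map_inv, ha]
  have hmul : ∀ g h : GG, ∀ p, (Φ (g * h)).unop p = (Φ h).unop ((Φ g).unop p) := by
    intro g h p
    rw [map_mul, MulOpposite.unop_mul, Equiv.Perm.mul_apply]
  have hinv : ∀ g : GG, ∀ p, (Φ g⁻¹).unop p = (Φ g).unop.symm p := by
    intro g p
    rw [map_inv, MulOpposite.unop_inv]
    rfl
  have hfst : ∀ g : GG, ∀ p, ((Φ g).unop p).1 = p.1 * g := by
    intro g
    induction g using GG_induction_right with
    | one => intro p; simp
    | mx g i ih =>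
      intro p
      rw [hmul, hx]
      show ((Φ g).unop p).1 * GG.x i = _
      rw [ih, mul_assoc]
    | my g i ih =>
      intro p
      rw [hmul, hy]
      show ((Φ g).unop p).1 * GG.y i = _
      rw [ih, mul_assoc]
    | mr g i ih =>
      intro p
      rw [hmul, hr]
      show ((Φ g).unop p).1 * GG.r i = _
      rw [ih, mul_assoc]
    | mx' g i ih =>
      intro p
      rw [hmul, hinv, hx]
      show ((Φ g).unop p).1 * (GG.x i)⁻¹ = _
      rw [ih, mul_assoc]
    | my' g i ih =>
      intro p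
      rw [hmul, hinv, hy]
      show ((Φ g).unop p).1 * (GG.y i)⁻¹ = _
      rw [ih, mul_assoc]
    | mr' g i ih =>
      intro p
      rw [hmul, hinv, hr]
      show ((Φ g).unop p).1 * (GG.r i)⁻¹ = _
      rw [ih, mul_assoc]
  refine ⟨fun g => ((Φ g).unop (1, 0)).2, ?_, ?_, ?_⟩
  · simp
  · intro g n hn
    show ((Φ (g * n)).unop (1, 0)).2 = ((Φ g).unop (1, 0)).2
    rw [hmul, hNs n hn]
    show ((Φ g).unop (1, 0)).2 + 0 = _
    rw [add_zero]
  · intro g α
    show ((Φ (g * GG.r α)).unop (1, 0)).2 = ((Φ g).unop (1, 0)).2 + f α g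
    rw [hmul, hr]
    show ((Φ g).unop (1, 0)).2 + f α ((Φ g).unop (1, 0)).1 = _
    rw [hfst, one_mul]

end acyc

/-- connectedness of `T₃`, in group form -/
theorem T3_reach (g w : GG) :
    Relation.EqvGen (fun a b : T3V => ∃ e, T3o e = a ∧ T3t e = b) (g : GG ⧸ Nbar)
      ((g * w : GG) : GG ⧸ Nbar) := by
  have hN : ∀ (a n : GG), n ∈ Nbar → ((a * n : GG) : GG ⧸ Nbar) = (a : GG ⧸ Nbar) := by
    intro a n hn
    exact QuotientGroup.mk_mul_of_mem a hn
  induction w using GG_induction_right with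
  | one => rw [mul_one]; exact Relation.EqvGen.refl _
  | mx w i ih => rw [← mul_assoc, hN _ _ (x_mem_Nbar i)]; exact ih
  | mx' w i ih => rw [← mul_assoc, hN _ _ (inv_mem (x_mem_Nbar i))]; exact ih
  | my w i ih => rw [← mul_assoc, hN _ _ (y_mem_Nbar i)]; exact ih
  | my' w i ih => rw [← mul_assoc, hN _ _ (inv_mem (y_mem_Nbar i))]; exact ih
  | mr w α ih =>
    refine ih.trans _ _ _ (Relation.EqvGen.rel _ _ ⟨⟨α, ((g * w : GG) : GG ⧸ Qbar α)⟩, rfl, ?_⟩)
    rw [T3t_mk, mul_assoc]
  | mr' w α ih =>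
    refine ih.trans _ _ _ (Relation.EqvGen.symm _ _ (Relation.EqvGen.rel _ _
      ⟨⟨α, ((g * (w * (GG.r α)⁻¹) : GG) : GG ⧸ Qbar α)⟩, rfl, ?_⟩))
    rw [T3t_mk]
    congr 1
    group

/-- `T₃` is a combinatorial tree. -/
theorem T3_isTree : T3.IsTree where
  conn := by
    intro a b
    induction a using QuotientGroup.induction_on with
    | H g =>
      induction b using QuotientGroup.induction_on with
      | H h =>
        have := T3_reach g (g⁻¹ * h)
        rwa [mul_inv_cancel_left] at this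
  acyc := by
    intro M _ f
    obtain ⟨F, -, hF1, hF2⟩ := acycG (M := M) (fun α g => f ⟨α, (g : GG ⧸ Qbar α)⟩) (by
      intro α g q hq
      show f ⟨α, ((g * q : GG) : GG ⧸ Qbar α)⟩ = f ⟨α, (g : GG ⧸ Qbar α)⟩
      rw [QuotientGroup.mk_mul_of_mem g hq])
    refine ⟨fun v => Quotient.liftOn' v F (fun a b h => ?_), ?_⟩
    · rw [QuotientGroup.leftRel_apply] at h
      have := hF1 a _ h
      rw [mul_inv_cancel_left] at this
      exact this.symm
    · rintro ⟨α, q⟩
      induction q using QuotientGroup.induction_on with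
      | H g =>
        show F (g * GG.r α) - F g = _
        rw [hF2, add_sub_cancel_left]

/-- Cayley trees of free groups are combinatorial trees. -/
theorem cayley_isTree (I : Type) : (cayley I).IsTree where
  conn := by
    have key : ∀ g w : FreeGroup I, Relation.EqvGen
        (fun a b : FreeGroup I => ∃ e : FreeGroup I × I, e.1 = a ∧ e.1 * FreeGroup.of e.2 = b)
        g (g * w) := by
      intro g w
      have hw : w ∈ Subgroup.closure (Set.range (FreeGroup.of : I → FreeGroup I)) := by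
        rw [FreeGroup.closure_range_of]; trivial
      refine Subgroup.closure_induction_right
        (p := fun w _ => Relation.EqvGen
        (fun a b : FreeGroup I => ∃ e : FreeGroup I × I, e.1 = a ∧ e.1 * FreeGroup.of e.2 = b)
        g (g * w)) ?_ ?_ ?_ hw
      · rw [mul_one]; exact Relation.EqvGen.refl _
      · rintro w _ _ ⟨u, rfl⟩ h
        refine h.trans _ _ _ (Relation.EqvGen.rel _ _ ⟨(g * w, u), rfl, ?_⟩)
        simp [mul_assoc]
      · rintro w _ _ ⟨u, rfl⟩ h
        refine h.trans _ _ _ (Relation.EqvGen.symm _ _ (Relation.EqvGen.rel _ _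
          ⟨(g * (w * (FreeGroup.of u)⁻¹), u), rfl, ?_⟩))
        simp [mul_assoc]
    have key' : ∀ a b : FreeGroup I, Relation.EqvGen
        (fun a b : FreeGroup I => ∃ e : FreeGroup I × I, e.1 = a ∧ e.1 * FreeGroup.of e.2 = b)
        a b := by
      intro a b
      have := key a (a⁻¹ * b)
      rwa [mul_inv_cancel_left] at this
    exact key'
  acyc := by
    intro M _ f
    set Φ : FreeGroup I →* (Equiv.Perm (FreeGroup I × M))ᵐᵒᵖ :=
      FreeGroup.lift (fun i => MulOpposite.op (skew (FreeGroup.of i) (fun g => f (g, i)))) with hΦ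
    have hr : ∀ i, Φ (FreeGroup.of i)
        = MulOpposite.op (skew (FreeGroup.of i) (fun g => f (g, i))) := fun i => by
      rw [hΦ, FreeGroup.lift_apply_of]
    have hmul : ∀ g h : FreeGroup I, ∀ p, (Φ (g * h)).unop p = (Φ h).unop ((Φ g).unop p) := by
      intro g h p
      rw [map_mul, MulOpposite.unop_mul, Equiv.Perm.mul_apply]
    have hinv : ∀ g : FreeGroup I, ∀ p, (Φ g⁻¹).unop p = (Φ g).unop.symm p := by
      intro g p
      rw [map_inv, MulOpposite.unop_inv]
      rfl
    have hfst : ∀ g : FreeGroup I, ∀ p, ((Φ g).unop p).1 = p.1 * g := by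
      intro w
      have hw : w ∈ Subgroup.closure (Set.range (FreeGroup.of : I → FreeGroup I)) := by
        rw [FreeGroup.closure_range_of]; trivial
      refine Subgroup.closure_induction_right
        (p := fun w _ => ∀ p, ((Φ w).unop p).1 = p.1 * w) ?_ ?_ ?_ hw
      · intro p; simp
      · rintro w _ _ ⟨u, rfl⟩ h p
        rw [hmul, hr]
        show ((Φ w).unop p).1 * FreeGroup.of u = _
        rw [h, mul_assoc]
      · rintro w _ _ ⟨u, rfl⟩ h p
        rw [hmul, hinv, hr]
        show ((Φ w).unop p).1 * (FreeGroup.of u)⁻¹ = _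
        rw [h, mul_assoc]
    refine ⟨fun g => ((Φ g).unop (1, 0)).2, ?_⟩
    rintro ⟨g, i⟩
    show ((Φ (g * FreeGroup.of i)).unop (1, 0)).2 - ((Φ g).unop (1, 0)).2 = f (g, i)
    rw [hmul, hr]
    show ((Φ g).unop (1, 0)).2 + f (((Φ g).unop (1, 0)).1, i) - _ = _
    rw [hfst, one_mul, add_sub_cancel_left]

end Crest.Agent.R197
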