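import Mathlib
import Crest.Agent.R197.Omega
import Crest.Agent.R197.TreeT3
import Crest.Agent.R197.NPres
import Crest.Agent.R197.ClassTrees

/-!
# Row 197, task T6: the three trees of `GG`, freeness on vertices, `classifying_three`
-/

set_option autoImplicit false

namespace Crest.Agent.R197

/-- the Cayley tree of `F₄` with the `X`-action of `GG` -/
def cayX : OrGraph := cayley (Fin 4)
/-- the Cayley tree of `F₄` with the `Y`-action of `GG` -/
def cayY : OrGraph := cayley (Fin 4)

instance instActCayXV : MulAction GG cayX.V where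
  smul g p := actX g p
  one_smul p := actX_one p
  mul_smul g h p := actX_mul g h p

instance instActCayYV : MulAction GG cayY.V where
  smul g p := actY g p
  one_smul p := actY_one p
  mul_smul g h p := actY_mul g h p

instance instActCayXE : MulAction GG cayX.E where
  smul g e := (actX g e.1, permX g e.2)
  one_smul e := Prod.ext (actX_one e.1) (by
    show permX 1 e.2 = e.2
    rw [map_one]; rfl)
  mul_smul g h e := Prod.ext (actX_mul g h e.1) (by
    show permX (g * h) e.2 = permX g (permX h e.2)
    rw [map_mul]; rfl)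

instance instActCayYE : MulAction GG cayY.E where
  smul g e := (actY g e.1, permY g e.2)
  one_smul e := Prod.ext (actY_one e.1) (by
    show permY 1 e.2 = e.2
    rw [map_one]; rfl)
  mul_smul g h e := Prod.ext (actY_mul g h e.1) (by
    show permY (g * h) e.2 = permY g (permY h e.2)
    rw [map_mul]; rfl)

theorem cayX_smul_V (g : GG) (p : FreeGroup (Fin 4)) :
    (g • (show cayX.V from p) : cayX.V) = actX g p := rfl

theorem cayY_smul_V (g : GG) (p : FreeGroup (Fin 4)) :
    (g • (show cayY.V from p) : cayY.V) = actY g p := rfl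

instance instGActCayX : OrGraph.GAct GG cayX where
  o_smul _ _ := rfl
  t_smul g e := (actX_mul_of g e.1 e.2).symm

instance instGActCayY : OrGraph.GAct GG cayY where
  o_smul _ _ := rfl
  t_smul g e := (actY_mul_of g e.1 e.2).symm

/-- the three trees -/
def TT : Fin 3 → OrGraph := ![cayX, cayY, T3]

instance instActTTV : ∀ i, MulAction GG (TT i).V
  | 0 => inferInstanceAs (MulAction GG cayX.V)
  | 1 => inferInstanceAs (MulAction GG cayY.V)
  | 2 => inferInstanceAs (MulAction GG T3.V)

instance instActTTE : ∀ i, MulAction GG (TT i).E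
  | 0 => inferInstanceAs (MulAction GG cayX.E)
  | 1 => inferInstanceAs (MulAction GG cayY.E)
  | 2 => inferInstanceAs (MulAction GG T3.E)

instance instGActTT : ∀ i, OrGraph.GAct GG (TT i)
  | 0 => inferInstanceAs (OrGraph.GAct GG cayX)
  | 1 => inferInstanceAs (OrGraph.GAct GG cayY)
  | 2 => inferInstanceAs (OrGraph.GAct GG T3)

theorem TT_isTree : ∀ i, (TT i).IsTree
  | 0 => cayley_isTree (Fin 4)
  | 1 => cayley_isTree (Fin 4)
  | 2 => T3_isTree

/-- base vertices -/
def TTroot : ∀ i, (TT i).V
  | 0 => (1 : FreeGroup (Fin 4))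
  | 1 => (1 : FreeGroup (Fin 4))
  | 2 => ((1 : GG) : GG ⧸ Nbar)

theorem free_of_fix (hinj : ∀ n (hn : n ∈ Nbar), nbX ⟨n, hn⟩ = 1 → nbY ⟨n, hn⟩ = 1 → n = 1)
    (g : GG) (p q : FreeGroup (Fin 4)) (w : GG ⧸ Nbar) (h0 : actX g p = p) (h1 : actY g q = q)
    (h2 : g • w = w) : g = 1 := by
  induction w using QuotientGroup.induction_on with
  | H a =>
    have hn : a⁻¹ * g * a ∈ Nbar := by
      have h3 : ((g * a : GG) : GG ⧸ Nbar) = (a : GG ⧸ Nbar) := h2
      have h4 := QuotientGroup.eq.mp h3.symm
      rwa [← mul_assoc] at h4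
    have hX : actX (a⁻¹ * g * a) (actX a⁻¹ p) = actX a⁻¹ p := by
      rw [actX_mul, actX_act_inv, actX_mul, h0]
    have hY : actY (a⁻¹ * g * a) (actY a⁻¹ q) = actY a⁻¹ q := by
      rw [actY_mul, actY_act_inv, actY_mul, h1]
    rw [actX_of_mem hn] at hX
    rw [actY_of_mem hn] at hY
    have h5 := hinj _ hn (mul_eq_right.mp hX) (mul_eq_right.mp hY)
    have h6 : g = a * (a⁻¹ * g * a) * a⁻¹ := by group
    rw [h6, h5]
    group

/-- `G` acts freely on the vertices of the product of the three trees, given that
`Nbar → F₄ × F₄` is injective. -/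
theorem freeOnVertices_TT
    (hinj : ∀ n (hn : n ∈ Nbar), nbX ⟨n, hn⟩ = 1 → nbY ⟨n, hn⟩ = 1 → n = 1) :
    FreeOnVertices GG TT := fun g v hv =>
  free_of_fix hinj g (v 0) (v 1) (v 2) (hv 0) (hv 1) (hv 2)

/-- `G` acts freely on the vertices of the product of the three trees. -/
theorem freeOnVertices_GG : FreeOnVertices GG TT :=
  freeOnVertices_TT fun n hn hX hY =>
    congrArg Subtype.val (nbXY_injective (a₁ := ⟨n, hn⟩) (a₂ := 1) (by simp [hX, hY]))

/-- module T: `G` has a classifying complex of dimension at most three. -/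
theorem classifying_three : Crest.Topology.HasClassifyingComplex GG 3 :=
  classifying_of_trees GG TT TT_isTree TTroot freeOnVertices_GG

end Crest.Agent.R197
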