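import Mathlib
import Crest.Agent.R197.Coind

/-! # Row 197, task D2: `H¹(K; Map(G,M)) = 0` and a toolkit for derivations -/

set_option autoImplicit false

namespace Crest.Agent.R197

/-- (a) every derivation of a subgroup into the coinduced module is inner. -/
theorem der_inner {G M : Type} [Group G] [AddCommGroup M] (K : Subgroup G) (d : K → CC G M)
    (hd : IsDer K.subtype d) : ∃ z : CC G M, ∀ a : K, d a = (a : G) • z - z := by
  classical
  let t : G → G := fun g => (QuotientGroup.mk g : G ⧸ K).out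
  have ht : ∀ g, (t g)⁻¹ * g ∈ K := fun g => by
    have h : (QuotientGroup.mk (t g) : G ⧸ K) = QuotientGroup.mk g := Quotient.out_eq' _
    exact QuotientGroup.eq.mp h
  have hta : ∀ (g : G) (a : K), t (g * a) = t g := fun g a => by
    have h : (QuotientGroup.mk (g * a) : G ⧸ K) = QuotientGroup.mk g := by
      rw [QuotientGroup.eq]
      simp
    simp only [t, h]
  refine ⟨fun g => d ⟨(t g)⁻¹ * g, ht g⟩ (t g), fun a => funext fun g => ?_⟩
  have h1 : (⟨(t (g * a))⁻¹ * (g * a), ht (g * a)⟩ : K) = ⟨(t g)⁻¹ * g, ht g⟩ * a := by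
    apply Subtype.ext
    simp only [hta, Subgroup.coe_mul, mul_assoc]
  change d a g = d ⟨(t (g * a))⁻¹ * (g * a), ht (g * a)⟩ (t (g * a)) - d ⟨(t g)⁻¹ * g, ht g⟩ (t g)
  rw [h1, hta, hd]
  change d a g = (d ⟨(t g)⁻¹ * g, ht g⟩ (t g) + d a (t g * ((t g)⁻¹ * g))) - _
  rw [mul_inv_cancel_left, add_sub_cancel_left]

/-- the same for the abstract form of a derivation -/
theorem der_inner' {G M : Type} [Group G] [AddCommGroup M] (K : Subgroup G) (d : K → CC G M)
    (hd : ∀ a b : K, d (a * b) = d a + (a : G) • d b) :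
    ∃ z : CC G M, ∀ a : K, d a = (a : G) • z - z :=
  der_inner K d hd

namespace IsDer

variable {Γ Γ' G V W : Type*} [Group Γ] [Group Γ'] [Group G] [AddCommGroup V] [AddCommGroup W]
  [DistribMulAction G V] [DistribMulAction G W] {φ : Γ →* G} {D D' : Γ → V}

theorem map_mul (h : IsDer φ D) (a b : Γ) : D (a * b) = D a + φ a • D b := h a b

theorem map_one (h : IsDer φ D) : D 1 = 0 := by
  have h1 := h 1 1
  rw [one_mul, _root_.map_one, one_smul] at h1
  simpa using h1

theorem map_inv (h : IsDer φ D) (a : Γ) : D a⁻¹ = -((φ a)⁻¹ • D a) := by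
  have h1 := h a⁻¹ a
  rw [inv_mul_cancel, h.map_one, _root_.map_inv] at h1
  exact eq_neg_of_add_eq_zero_left h1.symm

theorem map_mul_inv (h : IsDer φ D) (a b : Γ) : D (a * b⁻¹) = D a - φ (a * b⁻¹) • D b := by
  rw [h, h.map_inv, smul_neg, sub_eq_add_neg, _root_.map_mul, mul_smul, _root_.map_inv]

theorem map_inv_mul (h : IsDer φ D) (a b : Γ) : D (a⁻¹ * b) = (φ a)⁻¹ • (D b - D a) := by
  rw [h, h.map_inv, _root_.map_inv, smul_sub, neg_add_eq_sub]

theorem map_zpow_add_one (h : IsDer φ D) (a : Γ) (n : ℤ) :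
    D (a ^ (n + 1)) = D (a ^ n) + (φ a) ^ n • D a := by
  rw [zpow_add_one, h, _root_.map_zpow]

theorem map_zpow_add_one' (h : IsDer φ D) (a : Γ) (n : ℤ) :
    D (a ^ (n + 1)) = D a + φ a • D (a ^ n) := by
  rw [add_comm, zpow_one_add, h]

theorem map_zpow_sub_one (h : IsDer φ D) (a : Γ) (n : ℤ) :
    D (a ^ (n - 1)) = D (a ^ n) - (φ a) ^ (n - 1) • D a := by
  have := h.map_zpow_add_one a (n - 1)
  rw [sub_add_cancel] at this
  rw [this, add_sub_cancel_right]

theorem map_zpow_neg (h : IsDer φ D) (a : Γ) (n : ℤ) :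
    D (a ^ (-n)) = -((φ a) ^ (-n) • D (a ^ n)) := by
  rw [zpow_neg, h.map_inv, _root_.map_zpow, zpow_neg]

theorem map_pow_succ (h : IsDer φ D) (a : Γ) (n : ℕ) :
    D (a ^ (n + 1)) = D (a ^ n) + (φ a) ^ n • D a := by
  rw [pow_succ, h, _root_.map_pow]

theorem map_conj (h : IsDer φ D) (w a : Γ) :
    D (w * a * w⁻¹) = D w + φ w • D a - φ (w * a * w⁻¹) • D w := by
  rw [h.map_mul_inv, h]

theorem map_conj_of_ker (h : IsDer φ D) (w : Γ) {a : Γ} (ha : φ a = 1) :
    D (w * a * w⁻¹) = φ w • D a := by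
  rw [h.map_conj]
  simp [ha]

theorem map_conj_inv_of_ker (h : IsDer φ D) (w : Γ) {a : Γ} (ha : φ a = 1) :
    D (w⁻¹ * a * w) = (φ w)⁻¹ • D a := by
  have := h.map_conj_of_ker w⁻¹ ha
  rwa [inv_inv, _root_.map_inv] at this

theorem map_mul_of_ker (h : IsDer φ D) {a : Γ} (ha : φ a = 1) (b : Γ) :
    D (a * b) = D a + D b := by
  rw [h, ha, one_smul]

theorem map_inv_of_ker (h : IsDer φ D) {a : Γ} (ha : φ a = 1) : D a⁻¹ = - D a := by
  rw [h.map_inv, ha, inv_one, one_smul]

/-- derivations vanish on `a⁻¹` if they vanish on `a` -/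
theorem map_inv_eq_zero (h : IsDer φ D) {a : Γ} (ha : D a = 0) : D a⁻¹ = 0 := by
  rw [h.map_inv, ha, smul_zero, neg_zero]

theorem map_mul_eq_zero (h : IsDer φ D) {a b : Γ} (ha : D a = 0) (hb : D b = 0) :
    D (a * b) = 0 := by
  rw [h, ha, hb, smul_zero, add_zero]

theorem map_zpow_eq_zero (h : IsDer φ D) {a : Γ} (ha : D a = 0) (n : ℤ) : D (a ^ n) = 0 := by
  induction n using Int.induction_on with
  | zero => rw [zpow_zero, h.map_one]
  | succ n ih => rw [h.map_zpow_add_one, ih, ha, smul_zero, add_zero]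
  | pred n ih => rw [h.map_zpow_sub_one, ih, ha, smul_zero, sub_zero]

/-! ### the group of derivations -/

theorem zero : IsDer φ (fun _ => (0 : V)) := fun a b => by simp

theorem add (h : IsDer φ D) (h' : IsDer φ D') : IsDer φ (fun a => D a + D' a) := fun a b => by
  simp only [h a b, h' a b, smul_add]
  abel

theorem neg (h : IsDer φ D) : IsDer φ (fun a => - D a) := fun a b => by
  simp only [h a b, smul_neg, neg_add]

theorem sub (h : IsDer φ D) (h' : IsDer φ D') : IsDer φ (fun a => D a - D' a) := fun a b => by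
  simp only [h a b, h' a b, smul_sub]
  abel

theorem inner (φ : Γ →* G) (z : V) : IsDer φ (fun a => φ a • z - z) := fun a b => by
  simp only [_root_.map_mul, mul_smul, smul_sub]
  abel

/-- composition with a homomorphism on the source -/
theorem comp (h : IsDer φ D) (ψ : Γ' →* Γ) : IsDer (φ.comp ψ) (fun a => D (ψ a)) := fun a b => by
  change D (ψ (a * b)) = D (ψ a) + φ (ψ a) • D (ψ b)
  rw [_root_.map_mul, h]

/-- composition with a homomorphism on the source, when `φ ∘ ψ = φ'` -/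
theorem comp' (h : IsDer φ D) (ψ : Γ' →* Γ) {φ' : Γ' →* G} (hφ : ∀ a, φ (ψ a) = φ' a) :
    IsDer φ' (fun a => D (ψ a)) := fun a b => by
  change D (ψ (a * b)) = D (ψ a) + φ' a • D (ψ b)
  rw [_root_.map_mul, h, hφ]

/-- composition with an equivariant additive map -/
theorem post (h : IsDer φ D) (p : V →+ W) (hp : ∀ (g : G) (v : V), p (g • v) = g • p v) :
    IsDer φ (fun a => p (D a)) := fun a b => by
  change p (D (a * b)) = p (D a) + φ a • p (D b)
  rw [h, _root_.map_add, hp]

/-- twisting: if `φ (ψ a) = g⁻¹ φ'(a) g` then `a ↦ g • D (ψ a)` is a derivation for `φ'`. -/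
theorem twist (h : IsDer φ D) (ψ : Γ' →* Γ) {φ' : Γ' →* G} (g : G)
    (hφ : ∀ a, φ (ψ a) = g⁻¹ * φ' a * g) : IsDer φ' (fun a => g • D (ψ a)) := fun a b => by
  simp only [_root_.map_mul, h (ψ a), hφ, smul_add, smul_smul]
  simp [mul_assoc]

theorem congr {φ' : Γ →* G} (h : IsDer φ D) (hφ : ∀ a, φ a = φ' a) (hD : ∀ a, D a = D' a) :
    IsDer φ' D' := fun a b => by
  rw [← hD, ← hD, ← hD, ← hφ, h]

/-! ### agreement and vanishing on subgroups -/

/-- the subgroup where two derivations agree -/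
def eqLocus (h : IsDer φ D) (h' : IsDer φ D') : Subgroup Γ where
  carrier := {a | D a = D' a}
  one_mem' := by simp [h.map_one, h'.map_one]
  mul_mem' {a b} ha hb := by
    change D (a * b) = D' (a * b)
    rw [h, h', show D a = D' a from ha, show D b = D' b from hb]
  inv_mem' {a} ha := by
    change D a⁻¹ = D' a⁻¹
    rw [h.map_inv, h'.map_inv, show D a = D' a from ha]

theorem eqOn_closure (h : IsDer φ D) (h' : IsDer φ D') {S : Set Γ} (hS : ∀ a ∈ S, D a = D' a)
    {a : Γ} (ha : a ∈ Subgroup.closure S) : D a = D' a :=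
  (Subgroup.closure_le (h.eqLocus h')).mpr hS ha

theorem eq_of_closure_eq_top (h : IsDer φ D) (h' : IsDer φ D') {S : Set Γ}
    (hS : ∀ a ∈ S, D a = D' a) (hc : Subgroup.closure S = ⊤) : D = D' :=
  funext fun a => h.eqOn_closure h' hS (hc ▸ Subgroup.mem_top a)

theorem vanish_closure (h : IsDer φ D) {S : Set Γ} (hS : ∀ a ∈ S, D a = 0)
    {a : Γ} (ha : a ∈ Subgroup.closure S) : D a = 0 :=
  h.eqOn_closure (zero (φ := φ)) hS ha

/-- a derivation vanishing on a set of elements of the kernel of `φ` vanishes on its normal closure -/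
theorem vanish_normalClosure (h : IsDer φ D) {R : Set Γ} (hφ : ∀ a ∈ R, φ a = 1)
    (hR : ∀ a ∈ R, D a = 0) {a : Γ} (ha : a ∈ Subgroup.normalClosure R) : D a = 0 := by
  have : Subgroup.normalClosure R ≤ h.eqLocus (zero (φ := φ)) ⊓ φ.ker := by
    refine le_inf ?_ ?_
    · rw [Subgroup.normalClosure, Subgroup.closure_le]
      rintro b hb
      obtain ⟨c, hc, hcb⟩ := Group.mem_conjugatesOfSet_iff.mp hb
      obtain ⟨w, hw⟩ := isConj_iff.mp hcb
      change D b = 0
      rw [← hw, h.map_conj_of_ker w (hφ c hc), hR c hc, smul_zero]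
    · exact Subgroup.normalClosure_le_normal fun b hb => hφ b hb
  exact (this ha).1

theorem map_mul_normalClosure (h : IsDer φ D) {R : Set Γ} (hφ : ∀ a ∈ R, φ a = 1)
    (hR : ∀ a ∈ R, D a = 0) (a : Γ) {n : Γ} (hn : n ∈ Subgroup.normalClosure R) :
    D (a * n) = D a := by
  rw [h, h.vanish_normalClosure hφ hR hn, smul_zero, add_zero]

/-- descent of a derivation along a surjection -/
theorem exists_descend (h : IsDer φ D) (f : Γ →* Γ') (hf : Function.Surjective f) {φ' : Γ' →* G}
    (hφ : ∀ a, φ' (f a) = φ a) (hk : ∀ a, f a = 1 → D a = 0) :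
    ∃ D' : Γ' → V, IsDer φ' D' ∧ ∀ a, D' (f a) = D a := by
  classical
  let s : Γ' → Γ := Function.surjInv hf
  have hs : ∀ b, f (s b) = b := Function.surjInv_eq hf
  have key : ∀ a b, f a = f b → D a = D b := fun a b hab => by
    have h1 : D (b⁻¹ * a) = 0 := hk _ (by rw [_root_.map_mul, _root_.map_inv, hab, inv_mul_cancel])
    have h2 : D (b * (b⁻¹ * a)) = D b := by rw [h, h1, smul_zero, add_zero]
    rwa [mul_inv_cancel_left] at h2
  refine ⟨fun b => D (s b), fun a b => ?_, fun a => key _ _ (hs _)⟩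
  have h1 : D (s (a * b)) = D (s a * s b) := key _ _ (by rw [_root_.map_mul, hs, hs, hs])
  change D (s (a * b)) = D (s a) + φ' a • D (s b)
  rw [h1, h, ← hφ, hs]

/-- descent when the kernel is the normal closure of a set on which `D` vanishes -/
theorem exists_descend_normalClosure (h : IsDer φ D) (f : Γ →* Γ') (hf : Function.Surjective f)
    {φ' : Γ' →* G} (hφ : ∀ a, φ' (f a) = φ a) {R : Set Γ}
    (hker : f.ker ≤ Subgroup.normalClosure R) (hRf : ∀ a ∈ R, φ a = 1) (hR : ∀ a ∈ R, D a = 0) :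
    ∃ D' : Γ' → V, IsDer φ' D' ∧ ∀ a, D' (f a) = D a :=
  h.exists_descend f hf hφ fun a ha => h.vanish_normalClosure hRf hR (hker ha)

end IsDer

/-! ### free groups -/

section free
variable {I G V : Type*} [Group G] [AddCommGroup V] [DistribMulAction G V]

/-- the affine permutation `u ↦ g • u + v` -/
def affPerm (g : G) (v : V) : Equiv.Perm V where
  toFun u := g • u + v
  invFun u := g⁻¹ • (u - v)
  left_inv u := by simp
  right_inv u := by simp

@[simp] theorem affPerm_apply (g : G) (v u : V) : affPerm g v u = g • u + v := rfl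
@[simp] theorem affPerm_symm_apply (g : G) (v u : V) : (affPerm g v).symm u = g⁻¹ • (u - v) := rfl

/-- derivations of a free group with prescribed values on the generators exist -/
theorem exists_der_free (φ : FreeGroup I →* G) (v : I → V) :
    ∃ D : FreeGroup I → V, IsDer φ D ∧ ∀ i, D (FreeGroup.of i) = v i := by
  let F : FreeGroup I →* Equiv.Perm V := FreeGroup.lift fun i => affPerm (φ (FreeGroup.of i)) (v i)
  have hF : ∀ w u, F w u = φ w • u + F w 0 := by
    intro w
    induction w using FreeGroup.induction_on with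
    | C1 => intro u; simp
    | of i => intro u; simp [F]
    | inv_of i _ => intro u; simp [F, Equiv.Perm.inv_def, sub_eq_add_neg]
    | mul a b ha hb =>
      intro u
      simp only [map_mul, Equiv.Perm.mul_apply]
      rw [ha (F b u), hb u, ha (F b 0), smul_add, mul_smul, add_assoc]
  refine ⟨fun w => F w 0, fun a b => ?_, fun i => by simp [F]⟩
  simp only [map_mul, Equiv.Perm.mul_apply]
  rw [hF a (F b 0), add_comm]

theorem IsDer.free_ext {φ : FreeGroup I →* G} {D D' : FreeGroup I → V} (h : IsDer φ D)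
    (h' : IsDer φ D') (hv : ∀ i, D (FreeGroup.of i) = D' (FreeGroup.of i)) : D = D' :=
  h.eq_of_closure_eq_top h' (S := Set.range FreeGroup.of) (by rintro _ ⟨i, rfl⟩; exact hv i)
    (FreeGroup.closure_range_of I)

/-- existence and uniqueness -/
theorem existsUnique_der_free (φ : FreeGroup I →* G) (v : I → V) :
    ∃! D : FreeGroup I → V, IsDer φ D ∧ ∀ i, D (FreeGroup.of i) = v i := by
  obtain ⟨D, hD, hv⟩ := exists_der_free φ v
  exact ⟨D, ⟨hD, hv⟩, fun D' h' => h'.1.free_ext hD fun i => by rw [h'.2, hv]⟩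

end free

/-! ### lifts to extensions -/

section ext
variable {Γ' G V : Type} [Group Γ'] [Group G] [AddCommGroup V] [DistribMulAction G V]
  {f : Γ' →* G} (X : ExtVia f V)

theorem ExtVia.κ_ι (v : Multiplicative V) : X.κ (X.ι v) = 1 := (X.exact _).mpr ⟨v, rfl⟩

theorem ExtVia.mul_ι (u : X.U) (v : V) :
    u * X.ι (Multiplicative.ofAdd v) = X.ι (Multiplicative.ofAdd (f (X.κ u) • v)) * u := by
  rw [← X.act, inv_mul_cancel_right]

/-- two elements over the same element of the base differ by a unique element of `V` -/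
theorem ExtVia.exists_diff (u u' : X.U) (h : X.κ u = X.κ u') :
    ∃ v : V, u = X.ι (Multiplicative.ofAdd v) * u' := by
  have h1 : X.κ (u * u'⁻¹) = 1 := by rw [map_mul, map_inv, h, mul_inv_cancel]
  obtain ⟨v, hv⟩ := (X.exact _).mp h1
  exact ⟨v.toAdd, by rw [ofAdd_toAdd, hv, inv_mul_cancel_right]⟩

/-- two lifts of a homomorphism differ by a derivation -/
theorem ExtVia.exists_der {K : Type*} [Group K] (ψ : K →* Γ') (s s' : K →* X.U)
    (hs : ∀ a, X.κ (s a) = ψ a) (hs' : ∀ a, X.κ (s' a) = ψ a) :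
    ∃ d : K → V, IsDer (f.comp ψ) d ∧ ∀ a, s a = X.ι (Multiplicative.ofAdd (d a)) * s' a := by
  choose d hd using fun a => X.exists_diff (s a) (s' a) (by rw [hs, hs'])
  refine ⟨d, fun a b => ?_, hd⟩
  have h1 := hd (a * b)
  rw [map_mul, map_mul, hd a, hd b] at h1
  have h2 : X.ι (Multiplicative.ofAdd (d (a * b))) * (s' a * s' b)
      = X.ι (Multiplicative.ofAdd (d a + (f.comp ψ) a • d b)) * (s' a * s' b) := by
    rw [← h1, ofAdd_add, map_mul]
    have h3 := X.mul_ι (s' a) (d b)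
    rw [hs'] at h3
    calc X.ι (Multiplicative.ofAdd (d a)) * s' a * (X.ι (Multiplicative.ofAdd (d b)) * s' b)
        = X.ι (Multiplicative.ofAdd (d a)) * (s' a * X.ι (Multiplicative.ofAdd (d b))) * s' b := by
          simp only [mul_assoc]
      _ = _ := by rw [h3]; simp only [mul_assoc, MonoidHom.comp_apply]
  have h4 := X.inj (mul_right_cancel h2)
  exact Multiplicative.ofAdd.injective h4

/-- changing a lift by a derivation -/
def ExtVia.twistHom {K : Type*} [Group K] (ψ : K →* Γ') (s : K →* X.U)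
    (hs : ∀ a, X.κ (s a) = ψ a) (d : K → V) (hd : IsDer (f.comp ψ) d) : K →* X.U where
  toFun a := X.ι (Multiplicative.ofAdd (d a)) * s a
  map_one' := by rw [hd.map_one, ofAdd_zero, map_one, map_one, one_mul]
  map_mul' a b := by
    have h3 := X.mul_ι (s a) (d b)
    rw [hs] at h3
    rw [hd a b, ofAdd_add, map_mul, map_mul]
    calc X.ι (Multiplicative.ofAdd (d a)) * X.ι (Multiplicative.ofAdd ((f.comp ψ) a • d b))
          * (s a * s b)
        = X.ι (Multiplicative.ofAdd (d a)) * (X.ι (Multiplicative.ofAdd (f (ψ a) • d b)) * s a)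
          * s b := by simp only [mul_assoc, MonoidHom.comp_apply]
      _ = _ := by rw [← h3]; simp only [mul_assoc]

theorem ExtVia.twistHom_apply {K : Type*} [Group K] (ψ : K →* Γ') (s : K →* X.U)
    (hs : ∀ a, X.κ (s a) = ψ a) (d : K → V) (hd : IsDer (f.comp ψ) d) (a : K) :
    X.twistHom ψ s hs d hd a = X.ι (Multiplicative.ofAdd (d a)) * s a := rfl

theorem ExtVia.κ_twistHom {K : Type*} [Group K] (ψ : K →* Γ') (s : K →* X.U)
    (hs : ∀ a, X.κ (s a) = ψ a) (d : K → V) (hd : IsDer (f.comp ψ) d) (a : K) :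
    X.κ (X.twistHom ψ s hs d hd a) = ψ a := by
  rw [X.twistHom_apply, map_mul, X.κ_ι, one_mul, hs]

end ext

/-! ### the scaled loops -/

section loops

/-- `Λ_n^{ik} = A_{0k}^n A_{ik}^{-n}` -/
def Lw {H : Type*} [Group H] (x y : Fin 4 → H) (i k : Fin 4) (n : ℤ) : H :=
  (Aw x y 0 k) ^ n * (Aw x y i k) ^ (-n)

variable {H : Type*} [Group H]

theorem map_Lw {K : Type*} [Group K] (f : H →* K) (x y : Fin 4 → H) (i k : Fin 4) (n : ℤ) :
    f (Lw x y i k n) = Lw (fun i => f (x i)) (fun k => f (y k)) i k n := by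
  simp [Lw, map_Aw]

theorem lam_eq_Lw (x y : Fin 4 → H) (i j k l : Fin 4) (n : ℤ) :
    lam x y i j k l n
      = (Lw x y i k n)⁻¹ * Lw x y j k n * (Lw x y j l n)⁻¹ * Lw x y i l n := by
  simp only [lam, Lw, mul_inv_rev, zpow_neg, inv_inv, mul_assoc, inv_mul_cancel_left]

theorem Lw_zero_left (x y : Fin 4 → H) (k : Fin 4) (n : ℤ) : Lw x y 0 k n = 1 := by
  simp [Lw]

theorem Lw_zero_right (x y : Fin 4 → H) (i k : Fin 4) : Lw x y i k 0 = 1 := by
  simp [Lw]

/-- `Λ_n^{ik}` does not depend on `k` as soon as the loops `lam 0 i k l` vanish -/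
theorem Lw_eq_of_lam (x y : Fin 4 → H) (i k l : Fin 4) (n : ℤ) (h : lam x y i 0 k l n = 1) :
    Lw x y i k n = Lw x y i l n := by
  rw [lam_eq_Lw, Lw_zero_left, Lw_zero_left, inv_one, mul_one, mul_one] at h
  exact inv_mul_eq_one.mp h

/-- (c) value of a derivation on a scaled loop -/
theorem IsDer.map_lam {G V : Type*} [Group G] [AddCommGroup V] [DistribMulAction G V]
    {φ : H →* G} {D : H → V} (hD : IsDer φ D) (x y : Fin 4 → H) (i j k l : Fin 4) (n : ℤ)
    (hj : φ (Lw x y j k n) = φ (Lw x y j l n)) :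
    D (lam x y i j k l n) = (φ (Lw x y i k n))⁻¹ •
      (D (Lw x y j k n) - D (Lw x y i k n) + D (Lw x y i l n) - D (Lw x y j l n)) := by
  rw [lam_eq_Lw, hD, hD, hD]
  simp only [hD.map_inv, _root_.map_mul, _root_.map_inv]
  rw [← hj]
  simp only [smul_neg, smul_smul, smul_add, smul_sub, mul_assoc, mul_inv_cancel, mul_one]
  abel

/-- (c) for homomorphisms killing all the loops -/
theorem IsDer.map_lam_of_flat {G V : Type*} [Group G] [AddCommGroup V] [DistribMulAction G V]
    {φ : H →* G} {D : H → V} (hD : IsDer φ D) (x y : Fin 4 → H) (i j k l : Fin 4) (n : ℤ)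
    (hflat : ∀ i k l : Fin 4, φ (lam x y i 0 k l n) = 1) (m : Fin 4) :
    D (lam x y i j k l n) = (φ (Lw x y i m n))⁻¹ •
      (D (Lw x y j k n) - D (Lw x y i k n) + D (Lw x y i l n) - D (Lw x y j l n)) := by
  have h1 : ∀ i k l : Fin 4, φ (Lw x y i k n) = φ (Lw x y i l n) := fun i k l => by
    have h := hflat i k l
    rw [Crest.Agent.R197.map_lam] at h
    rw [map_Lw, map_Lw]
    exact Lw_eq_of_lam _ _ _ _ _ _ h
  rw [hD.map_lam x y i j k l n (h1 j k l), h1 i k m]

theorem Lw_GG_eq (hflat : ∀ (i k l : Fin 4) (n : ℤ), lam GG.x GG.y i 0 k l n = 1)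
    (i k : Fin 4) (n : ℤ) :
    Lw GG.x GG.y i k n = GG.y 0 ^ n * (GG.y 0 * (GG.x i)⁻¹) ^ (-n) := by
  rw [Lw_eq_of_lam _ _ i k 0 n (hflat i k 0 n)]
  simp only [Lw, Aw, GG.rel.x0, inv_one, mul_one]

end loops

end Crest.Agent.R197
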