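import Crest.Agent.R197.Defs

/-!
# Row 197, module B3: first-letter function on free groups

`hd p` = index of the first letter of the reduced word of `p` (`none` for `p = 1`),
`bt p = (hd p).getD 0` for `p : FreeGroup (Fin 4)`,
`sub S` = subgroup generated by the letters in `S`, `chi` = exponent sum.
-/

set_option autoImplicit false
set_option linter.unusedSectionVars false
set_option linter.unusedSimpArgs false

namespace Crest.Agent.R197.Beta

open FreeGroup

variable {ι κ : Type*} [DecidableEq ι] [DecidableEq κ]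

/-- reduced word of `p` times a letter -/
theorem toWord_mul_letter (p : FreeGroup ι) (a : ι) (b : Bool) :
    (p * mk [(a, b)]).toWord =
      if p.toWord.getLast? = some (a, !b) then p.toWord.dropLast else p.toWord ++ [(a, b)] := by
  have hr : IsReduced p.toWord := isReduced_toWord
  have hp : p * mk [(a, b)] = mk (p.toWord ++ [(a, b)]) := by
    rw [← mul_mk, mk_toWord]
  split_ifs with h
  · have hne : p.toWord ≠ [] := by
      rintro h0
      simp [h0] at h
    have hsplit : p.toWord = p.toWord.dropLast ++ [(a, !b)] := by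
      have h1 := List.dropLast_append_getLast hne
      rw [List.getLast?_eq_some_getLast hne] at h
      rw [Option.some.injEq] at h
      rw [h] at h1
      exact h1.symm
    have hred : IsReduced p.toWord.dropLast := by
      apply hr.infix
      exact ⟨[], [(a, !b)], by simpa using hsplit.symm⟩
    rw [hp, toWord_mk, hsplit]
    have hstep : Red.Step (p.toWord.dropLast ++ [(a, !b)] ++ [(a, b)]) (p.toWord.dropLast) := by
      have := @Red.Step.not ι p.toWord.dropLast [] a (!b)
      simpa using this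
    rw [reduce.Step.eq hstep, hred.reduce_eq]
    simp
  · rw [hp, toWord_mk]
    apply IsReduced.reduce_eq
    refine List.IsChain.append hr (by simp) ?_
    intro x hx y hy
    simp only [List.head?_cons, Option.mem_def, Option.some.injEq] at hy hx
    subst hy
    intro hxa
    by_contra hb
    apply h
    rw [hx]
    congr 1
    obtain ⟨x1, x2⟩ := x
    simp only at hxa hb
    subst hxa
    congr 1
    cases x2 <;> cases b <;> simp_all

/-- index of the first letter of the reduced word (`none` for `1`). -/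
def hd (p : FreeGroup ι) : Option ι := p.toWord.head?.map Prod.fst

@[simp] theorem hd_one : hd (1 : FreeGroup ι) = none := by simp [hd]

@[simp] theorem hd_eq_none {p : FreeGroup ι} : hd p = none ↔ p = 1 := by
  simp [hd]

theorem hd_mul_letter {p : FreeGroup ι} (a : ι) (b : Bool) (hp : p ≠ 1)
    (hpq : p * mk [(a, b)] ≠ 1) : hd (p * mk [(a, b)]) = hd p := by
  have hp' : p.toWord ≠ [] := by simpa using hp
  have hpq' : (p * mk [(a, b)]).toWord ≠ [] := by simpa using hpq
  unfold hd
  congr 1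
  rw [toWord_mul_letter] at hpq' ⊢
  split_ifs at hpq' ⊢ with h
  · match hw : p.toWord, hp', hpq' with
    | x :: y :: l, _, _ => simp
    | [x], _, h2 => simp [hw] at h2
    | [], h1, _ => simp [hw] at h1
  · rw [List.head?_append_of_ne_nil _ hp']

/-- subgroup generated by the letters in `S`. -/
def sub (S : Set ι) : Subgroup (FreeGroup ι) := Subgroup.closure (FreeGroup.of '' S)

theorem of_mem_sub {S : Set ι} {i : ι} (hi : i ∈ S) : (FreeGroup.of i) ∈ sub S :=
  Subgroup.subset_closure ⟨i, hi, rfl⟩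

theorem mk_mem_sub {S : Set ι} {i : ι} (b : Bool) (hi : i ∈ S) :
    (mk [(i, b)] : FreeGroup ι) ∈ sub S := by
  cases b
  · have h : (mk [(i, false)] : FreeGroup ι) = (FreeGroup.of i)⁻¹ := by
      simp [FreeGroup.of, inv_mk, invRev]
    rw [h]
    exact inv_mem (of_mem_sub hi)
  · exact of_mem_sub hi

/-- a useful induction principle -/
theorem sub_induction {S : Set ι} {C : FreeGroup ι → Prop} (h1 : C 1)
    (hmul : ∀ q, q ∈ sub S → C q → ∀ i ∈ S, ∀ b, C (q * mk [(i, b)]))
    {q : FreeGroup ι} (hq : q ∈ sub S) : C q := by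
  have key : ∀ q ∈ sub S, q ∈ sub S ∧ C q := by
    intro q hq
    unfold sub at hq
    induction hq using Subgroup.closure_induction_right with
    | one => exact ⟨one_mem _, h1⟩
    | mul_right x hx y hy ih =>
      obtain ⟨i, hi, rfl⟩ := hy
      exact ⟨mul_mem ih.1 (of_mem_sub hi), hmul x ih.1 ih.2 i hi true⟩
    | mul_inv_cancel x hx y hy ih =>
      obtain ⟨i, hi, rfl⟩ := hy
      refine ⟨mul_mem ih.1 (inv_mem (of_mem_sub hi)), ?_⟩
      have h : (FreeGroup.of i : FreeGroup ι)⁻¹ = mk [(i, false)] := by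
        simp [FreeGroup.of, inv_mk, invRev]
      rw [h]
      exact hmul x ih.1 ih.2 i hi false
  exact (key q hq).2

theorem mem_sub_iff {S : Set ι} {p : FreeGroup ι} :
    p ∈ sub S ↔ ∀ l ∈ p.toWord, l.1 ∈ S := by
  constructor
  · intro hp
    refine sub_induction (S := S) (C := fun p => ∀ l ∈ p.toWord, l.1 ∈ S) ?_ ?_ hp
    · simp
    · intro q _ hq i hi b l hl
      rw [toWord_mul_letter] at hl
      split_ifs at hl
      · exact hq l (List.mem_of_mem_dropLast hl)
      · rcases List.mem_append.mp hl with hl | hl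
        · exact hq l hl
        · simp only [List.mem_singleton] at hl
          subst hl
          exact hi
  · intro h
    rw [← mk_toWord (x := p)]
    generalize p.toWord = L at h
    induction L with
    | nil => exact one_mem _
    | cons x L ih =>
      have hx : (mk (x :: L) : FreeGroup ι) = mk [x] * mk L := by
        rw [mul_mk]; rfl
      rw [hx]
      refine mul_mem ?_ (ih fun l hl => h l (List.mem_cons_of_mem _ hl))
      obtain ⟨i, b⟩ := x
      exact mk_mem_sub b (h (i, b) (by simp))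

/-- right multiplication by elements of `sub S` does not change the first letter of a `p ∉ sub S`. -/
theorem hd_mul_of_notMem {S : Set ι} {p q : FreeGroup ι} (hp : p ∉ sub S) (hq : q ∈ sub S) :
    hd (p * q) = hd p := by
  have hne : ∀ q ∈ sub S, p * q ≠ 1 := by
    intro q hq h
    apply hp
    have : p = q⁻¹ := eq_inv_of_mul_eq_one_left h
    rw [this]
    exact inv_mem hq
  refine sub_induction (S := S) (C := fun q => hd (p * q) = hd p) (by simp) ?_ hq
  intro q hq hh i hi b
  rw [← hh, ← mul_assoc]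
  apply hd_mul_letter
  · exact hne q hq
  · rw [mul_assoc]
    exact hne _ (mul_mem hq (mk_mem_sub b hi))

theorem mul_mem_sub_iff {S : Set ι} {p q : FreeGroup ι} (hq : q ∈ sub S) :
    p * q ∈ sub S ↔ p ∈ sub S :=
  Subgroup.mul_mem_cancel_right _ hq

theorem hd_of_mem {S : Set ι} {p : FreeGroup ι} (hp : p ∈ sub S) (h1 : p ≠ 1) :
    ∃ i ∈ S, hd p = some i := by
  have hp' : p.toWord ≠ [] := by simpa using h1
  rw [mem_sub_iff] at hp
  match hw : p.toWord, hp' with
  | x :: l, _ =>
    refine ⟨x.1, hp x (by simp [hw]), by simp [hd, hw]⟩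

theorem hd_mem_of_mem {S : Set ι} {p : FreeGroup ι} {i : ι} (hp : p ∈ sub S) (h : hd p = some i) :
    i ∈ S := by
  have h1 : p ≠ 1 := by
    rintro rfl
    simp at h
  obtain ⟨j, hj, hh⟩ := hd_of_mem hp h1
  rw [h, Option.some.injEq] at hh
  exact hh ▸ hj

theorem sub_mono {S T : Set ι} (h : S ⊆ T) : sub S ≤ sub T :=
  Subgroup.closure_mono (Set.image_mono h)

theorem zpow_mem_sub {S : Set ι} {i : ι} (hi : i ∈ S) (n : ℤ) :
    (FreeGroup.of i : FreeGroup ι) ^ n ∈ sub S :=
  zpow_mem (of_mem_sub hi) n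

theorem mem_sub_singleton {i : ι} {p : FreeGroup ι} :
    p ∈ sub ({i} : Set ι) ↔ ∃ n : ℤ, p = FreeGroup.of i ^ n := by
  unfold sub
  rw [Set.image_singleton, Subgroup.mem_closure_singleton]
  constructor
  · rintro ⟨n, rfl⟩; exact ⟨n, rfl⟩
  · rintro ⟨n, rfl⟩; exact ⟨n, rfl⟩

/-- exponent sum -/
def chi : FreeGroup ι →* Multiplicative ℤ := FreeGroup.lift fun _ => Multiplicative.ofAdd 1

omit [DecidableEq ι] in
@[simp] theorem chi_of (i : ι) : chi (FreeGroup.of i) = Multiplicative.ofAdd (1 : ℤ) := by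
  simp [chi]

omit [DecidableEq ι] in
@[simp] theorem chi_map (f : ι → κ) (p : FreeGroup ι) : chi (FreeGroup.map f p) = chi p := by
  have : (chi (ι := κ)).comp (FreeGroup.map f) = chi := by
    ext i
    simp
  exact DFunLike.congr_fun this p

/-- additive version of the exponent sum -/
def ch (p : FreeGroup ι) : ℤ := Multiplicative.toAdd (chi p)

omit [DecidableEq ι] in
@[simp] theorem ch_one : ch (1 : FreeGroup ι) = 0 := by simp [ch]
omit [DecidableEq ι] in
@[simp] theorem ch_mul (p q : FreeGroup ι) : ch (p * q) = ch p + ch q := by simp [ch]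
omit [DecidableEq ι] in
@[simp] theorem ch_inv (p : FreeGroup ι) : ch (p⁻¹) = - ch p := by simp [ch]
omit [DecidableEq ι] in
@[simp] theorem ch_of (i : ι) : ch (FreeGroup.of i) = 1 := by simp [ch]
omit [DecidableEq ι] in
@[simp] theorem ch_zpow (p : FreeGroup ι) (n : ℤ) : ch (p ^ n) = n * ch p := by simp [ch]
omit [DecidableEq ι] in
@[simp] theorem ch_pow (p : FreeGroup ι) (n : ℕ) : ch (p ^ n) = n * ch p := by simp [ch]
omit [DecidableEq ι] in
@[simp] theorem ch_map (f : ι → κ) (p : FreeGroup ι) : ch (FreeGroup.map f p) = ch p := by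
  simp [ch]

theorem of_zpow_eq_one {i : ι} {n : ℤ} : (FreeGroup.of i : FreeGroup ι) ^ n = 1 ↔ n = 0 := by
  constructor
  · intro h
    have := congrArg ch h
    simpa using this
  · rintro rfl; simp

theorem of_zpow_inj {i : ι} {m n : ℤ} :
    (FreeGroup.of i : FreeGroup ι) ^ m = (FreeGroup.of i) ^ n ↔ m = n := by
  constructor
  · intro h
    have := congrArg ch h
    simpa using this
  · rintro rfl; rfl

theorem hd_zpow {i : ι} {n : ℤ} (hn : n ≠ 0) : hd ((FreeGroup.of i : FreeGroup ι) ^ n) = some i := by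
  have h1 : (FreeGroup.of i : FreeGroup ι) ^ n ∈ sub ({i} : Set ι) := zpow_mem_sub (Set.mem_singleton i) n
  obtain ⟨j, hj, hh⟩ := hd_of_mem h1 (by rw [Ne, of_zpow_eq_one]; exact hn)
  rw [hh, Set.mem_singleton_iff.mp hj]

theorem hd_of (i : ι) : hd (FreeGroup.of i : FreeGroup ι) = some i := by
  simpa using hd_zpow (i := i) (n := 1) one_ne_zero

theorem hd_of_inv (i : ι) : hd (FreeGroup.of i : FreeGroup ι)⁻¹ = some i := by
  simpa using hd_zpow (i := i) (n := -1) (by norm_num)

/-- (i) -/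
theorem hd_mul_of {p : FreeGroup ι} (i : ι) (hp : p ≠ 1) (h : p * FreeGroup.of i ≠ 1) :
    hd (p * FreeGroup.of i) = hd p :=
  hd_mul_letter i true hp h

theorem hd_mul_of_inv {p : FreeGroup ι} (i : ι) (hp : p ≠ 1) (h : p * (FreeGroup.of i)⁻¹ ≠ 1) :
    hd (p * (FreeGroup.of i)⁻¹) = hd p := by
  have e : (FreeGroup.of i : FreeGroup ι)⁻¹ = mk [(i, false)] := by
    simp [FreeGroup.of, inv_mk, invRev]
  rw [e] at h ⊢
  exact hd_mul_letter i false hp h

/-- (ii) general form: `p` not a power of `x_i`. -/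
theorem hd_mul_zpow {p : FreeGroup ι} {i : ι} (n : ℤ) (hp : ∀ m : ℤ, p ≠ FreeGroup.of i ^ m) :
    hd (p * FreeGroup.of i ^ n) = hd p := by
  apply hd_mul_of_notMem (S := {i})
  · rw [mem_sub_singleton]
    rintro ⟨m, hm⟩
    exact hp m hm
  · exact zpow_mem_sub (Set.mem_singleton i) n

/-- (ii'): if `p ≠ 1` and `p * x_i ^ n ≠ 1` then the first letters agree. -/
theorem hd_mul_zpow' {p : FreeGroup ι} {i : ι} {n : ℤ} (hp : p ≠ 1)
    (h : p * FreeGroup.of i ^ n ≠ 1) : hd (p * FreeGroup.of i ^ n) = hd p := by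
  by_cases hm : ∃ m : ℤ, p = FreeGroup.of i ^ m
  · obtain ⟨m, rfl⟩ := hm
    rw [← zpow_add] at h ⊢
    rw [Ne, of_zpow_eq_one] at h hp
    rw [hd_zpow h, hd_zpow hp]
  · push Not at hm
    exact hd_mul_zpow n hm

/-- the reduced word of the image under an injective relabelling -/
theorem toWord_map (σ : ι → κ) (hσ : Function.Injective σ) (p : FreeGroup ι) :
    (FreeGroup.map σ p).toWord = p.toWord.map fun l => (σ l.1, l.2) := by
  conv_lhs => rw [← mk_toWord (x := p)]
  rw [map.mk, toWord_mk]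
  apply FreeGroup.IsReduced.reduce_eq
  have hr : FreeGroup.IsReduced p.toWord := isReduced_toWord
  unfold FreeGroup.IsReduced at hr ⊢
  rw [List.isChain_map]
  refine hr.imp ?_
  intro a b hab h
  exact hab (hσ h)

/-- (iv) -/
theorem hd_map (σ : ι → κ) (hσ : Function.Injective σ) (p : FreeGroup ι) :
    hd (FreeGroup.map σ p) = (hd p).map σ := by
  unfold hd
  rw [toWord_map σ hσ]
  cases p.toWord <;> simp

theorem map_mem_sub_iff {σ : ι → κ} (hσ : Function.Injective σ) {S : Set ι} {T : Set κ}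
    (hST : ∀ i, σ i ∈ T ↔ i ∈ S) {p : FreeGroup ι} :
    FreeGroup.map σ p ∈ sub T ↔ p ∈ sub S := by
  rw [mem_sub_iff, mem_sub_iff, toWord_map σ hσ]
  constructor
  · intro h l hl
    exact (hST _).mp (h (σ l.1, l.2) (List.mem_map.mpr ⟨l, hl, rfl⟩))
  · intro h l hl
    obtain ⟨l', hl', rfl⟩ := List.mem_map.mp hl
    exact (hST _).mpr (h l' hl')

/-! ## The index-`Fin 4` version with default value `0` -/

/-- index of the first letter, `0` for the trivial element. -/
def bt (p : FreeGroup (Fin 4)) : Fin 4 := (hd p).getD 0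

@[simp] theorem bt_one : bt 1 = 0 := by simp [bt]

theorem bt_eq_of_hd {p q : FreeGroup (Fin 4)} (h : hd p = hd q) : bt p = bt q := by
  unfold bt; rw [h]

theorem bt_mul_of {p : FreeGroup (Fin 4)} (i : Fin 4) (hp : p ≠ 1) (h : p * FreeGroup.of i ≠ 1) :
    bt (p * FreeGroup.of i) = bt p :=
  bt_eq_of_hd (hd_mul_of i hp h)

theorem bt_mul_of_inv {p : FreeGroup (Fin 4)} (i : Fin 4) (hp : p ≠ 1)
    (h : p * (FreeGroup.of i)⁻¹ ≠ 1) : bt (p * (FreeGroup.of i)⁻¹) = bt p :=
  bt_eq_of_hd (hd_mul_of_inv i hp h)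

theorem bt_mul_zpow {p : FreeGroup (Fin 4)} {i : Fin 4} {n : ℤ} (hp : p ≠ 1)
    (h : p * FreeGroup.of i ^ n ≠ 1) : bt (p * FreeGroup.of i ^ n) = bt p :=
  bt_eq_of_hd (hd_mul_zpow' hp h)

theorem bt_zpow {i : Fin 4} {n : ℤ} (hn : n ≠ 0) : bt (FreeGroup.of i ^ n) = i := by
  simp [bt, hd_zpow hn]

@[simp] theorem bt_of (i : Fin 4) : bt (FreeGroup.of i) = i := by
  simp [bt, hd_of]

@[simp] theorem bt_of_inv (i : Fin 4) : bt (FreeGroup.of i)⁻¹ = i := by
  simp [bt, hd_of_inv]

theorem bt_mul_of_notMem {S : Set (Fin 4)} {p q : FreeGroup (Fin 4)} (hp : p ∉ sub S)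
    (hq : q ∈ sub S) : bt (p * q) = bt p :=
  bt_eq_of_hd (hd_mul_of_notMem hp hq)

theorem bt_mem {S : Set (Fin 4)} {p : FreeGroup (Fin 4)} (hp : p ∈ sub S) (h1 : p ≠ 1) :
    bt p ∈ S := by
  obtain ⟨i, hi, h⟩ := hd_of_mem hp h1
  simpa [bt, h] using hi

/-- (iv) for a permutation; `p ≠ 1` is needed because of the default value `0`. -/
theorem bt_map (σ : Equiv.Perm (Fin 4)) {p : FreeGroup (Fin 4)} (hp : p ≠ 1) :
    bt (FreeGroup.map σ p) = σ (bt p) := by
  unfold bt
  rw [hd_map σ σ.injective]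
  cases h : hd p with
  | none => exact absurd (hd_eq_none.mp h) hp
  | some i => simp

theorem map_perm_eq_one {σ : Equiv.Perm (Fin 4)} {p : FreeGroup (Fin 4)} :
    FreeGroup.map σ p = 1 ↔ p = 1 := by
  rw [← toWord_eq_nil_iff, toWord_map σ σ.injective]
  simp

/-- the subgroup `⟨x_i, x_j⟩` attached to the `X`-pair of a letter -/
def subX (α : Ltr) : Subgroup (FreeGroup (Fin 4)) := sub {i | inX α i}
/-- the subgroup `⟨y_k, y_l⟩` attached to the `Y`-pair of a letter -/
def subY (α : Ltr) : Subgroup (FreeGroup (Fin 4)) := sub {k | inY α k}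

/-- image of the `X`-pair of `α` under `pX α` -/
def subX' (α : Ltr) : Subgroup (FreeGroup (Fin 4)) := sub {i | inX α (pX α i)}
/-- image of the `Y`-pair of `α` under `pY α` -/
def subY' (α : Ltr) : Subgroup (FreeGroup (Fin 4)) := sub {k | inY α (pY α k)}

theorem pX_pX (α : Ltr) (i : Fin 4) : pX α (pX α i) = i := by
  revert α i; decide
theorem pY_pY (α : Ltr) (i : Fin 4) : pY α (pY α i) = i := by
  revert α i; decide

theorem map_mem_subX' {α : Ltr} {p : FreeGroup (Fin 4)} :
    FreeGroup.map (pX α) p ∈ subX' α ↔ p ∈ subX α := by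
  apply map_mem_sub_iff (pX α).injective
  intro i
  simp [pX_pX]

theorem map_mem_subY' {α : Ltr} {p : FreeGroup (Fin 4)} :
    FreeGroup.map (pY α) p ∈ subY' α ↔ p ∈ subY α := by
  apply map_mem_sub_iff (pY α).injective
  intro i
  simp [pY_pY]

theorem of_mem_subX {α : Ltr} {i : Fin 4} (hi : inX α i) : FreeGroup.of i ∈ subX α :=
  of_mem_sub hi
theorem of_mem_subY {α : Ltr} {k : Fin 4} (hk : inY α k) : FreeGroup.of k ∈ subY α :=
  of_mem_sub hk

theorem bt_mul_of_notMem_subX {α : Ltr} {p q : FreeGroup (Fin 4)} (hp : p ∉ subX α)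
    (hq : q ∈ subX α) : bt (p * q) = bt p :=
  bt_mul_of_notMem hp hq
theorem bt_mul_of_notMem_subY {α : Ltr} {p q : FreeGroup (Fin 4)} (hp : p ∉ subY α)
    (hq : q ∈ subY α) : bt (p * q) = bt p :=
  bt_mul_of_notMem hp hq

theorem inX_bt {α : Ltr} {p : FreeGroup (Fin 4)} (hp : p ∈ subX α) (h1 : p ≠ 1) : inX α (bt p) :=
  bt_mem hp h1
theorem inY_bt {α : Ltr} {p : FreeGroup (Fin 4)} (hp : p ∈ subY α) (h1 : p ≠ 1) : inY α (bt p) :=
  bt_mem hp h1

end Crest.Agent.R197.Beta
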