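import Mathlib
import Crest.Agent.R197.Defs

/-!
# Row 197, module B (detection): definitions and small API

* `cc g h = g⁻¹ h g h⁻¹`
* `WData d`: the algebraic input (module B1, `DetAlg.lean`)
* `TT S W = (S → W) ⋊ Perm S` with `act` (right action on `S`) and `lab` (label / holonomy)
* words: `beta`, `chi`, `InP` on free groups; `theta`, `vv`, `uu`, `Gam`
-/

set_option autoImplicit false

namespace Crest.Agent.R197.Det

/-- commutator shape used everywhere -/
def cc {W : Type*} [Group W] (g h : W) : W := g⁻¹ * h * g * h⁻¹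

/-- The algebraic input. -/
structure WData (d : ℕ) where
  W : Type
  [grp : Group W]
  V : Subgroup W
  normal : V.Normal
  nil : ∃ k, gam V k = ⊥
  w : List Bool → W
  w_rec : ∀ l, w l = cc (w (false :: l)) (w (true :: l))
  mem : ∀ l, l.length ≤ d → w l ∈ V
  ne : w [] ≠ 1

attribute [instance] WData.grp

/-- labelled permutations of `S` -/
abbrev TT (S W : Type*) [Group W] := (S → W) ⋊[mulAutArrow] Equiv.Perm S

namespace TT
variable {S W : Type*} [Group W]

/-- the right action of `t` on `S` -/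
def act (t : TT S W) (g : S) : S := t.right⁻¹ g
/-- the label of the path from `g` to `g · t` -/
def lab (t : TT S W) (g : S) : W := t.left g

/-- build an element from its right action and its labels -/
def mk (σ : Equiv.Perm S) (f : S → W) : TT S W := ⟨f, σ⁻¹⟩

@[simp] theorem act_mk (σ : Equiv.Perm S) (f : S → W) (g : S) : act (mk σ f) g = σ g := by
  simp [act, mk]
@[simp] theorem lab_mk (σ : Equiv.Perm S) (f : S → W) (g : S) : lab (mk σ f) g = f g := rfl
@[simp] theorem act_one (g : S) : act (1 : TT S W) g = g := by simp [act]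
@[simp] theorem lab_one (g : S) : lab (1 : TT S W) g = 1 := by simp [lab]
theorem act_mul (s t : TT S W) (g : S) : act (s * t) g = act t (act s g) := by
  simp [act]
theorem lab_mul (s t : TT S W) (g : S) : lab (s * t) g = lab s g * lab t (act s g) := rfl
@[simp] theorem act_inv_act (t : TT S W) (g : S) : act t⁻¹ (act t g) = g := by
  rw [← act_mul]; simp
@[simp] theorem act_act_inv (t : TT S W) (g : S) : act t (act t⁻¹ g) = g := by
  rw [← act_mul]; simp
theorem lab_inv (t : TT S W) (g : S) : lab t⁻¹ g = (lab t (act t⁻¹ g))⁻¹ := by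
  have h := lab_mul t⁻¹ t g
  rw [inv_mul_cancel, lab_one] at h
  exact eq_inv_of_mul_eq_one_left h.symm
theorem ext {s t : TT S W} (h : ∀ g, act s g = act t g) (h' : ∀ g, lab s g = lab t g) : s = t := by
  apply SemidirectProduct.ext
  · funext g; exact h' g
  · apply inv_injective
    ext g; exact h g
theorem act_eq_iff (t : TT S W) (g g' : S) : act t g = g' ↔ g = act t⁻¹ g' := by
  constructor
  · rintro rfl; simp
  · rintro rfl; simp

/-- the subgroup of elements with trivial action and labels in `V` -/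
def ker (V : Subgroup W) : Subgroup (TT S W) where
  carrier := {t | ∀ g, act t g = g ∧ lab t g ∈ V}
  one_mem' := fun g => ⟨by simp, by simp⟩
  mul_mem' := by
    intro s t hs ht g
    refine ⟨?_, ?_⟩
    · rw [act_mul, (hs g).1, (ht g).1]
    · rw [lab_mul, (hs g).1]
      exact V.mul_mem (hs g).2 (ht g).2
  inv_mem' := by
    intro s hs g
    have h1 : act s⁻¹ g = g := ((act_eq_iff s g g).mp (hs g).1).symm
    refine ⟨h1, ?_⟩
    rw [lab_inv, h1]
    exact V.inv_mem (hs g).2

theorem mem_ker {V : Subgroup W} {t : TT S W} : t ∈ ker V ↔ ∀ g, act t g = g ∧ lab t g ∈ V :=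
  Iff.rfl

end TT

/-! ### words -/

section words
variable {X : Type*} [DecidableEq X]

/-- exponent sum -/
def chi (p : FreeGroup X) : ℤ :=
  Multiplicative.toAdd (FreeGroup.lift (fun _ => Multiplicative.ofAdd (1 : ℤ)) p)

/-- all letters of the reduced word of `p` satisfy `P` -/
def InP (P : X → Prop) (p : FreeGroup X) : Prop := ∀ l ∈ p.toWord, P l.1

end words

/-- the index of the last letter of the reduced word (`0` if the word is empty) -/
def beta (p : FreeGroup (Fin 4)) : Fin 4 := (p.toWord.getLast?.map Prod.fst).getD 0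

/-- reads a word in the letters `7⁻¹, 8⁻¹` as a list of booleans (`false = 7`, `true = 8`) -/
def good : List (Ltr × Bool) → Option (List Bool)
  | [] => some []
  | (α, b) :: L =>
    if b = false ∧ α = 7 then (good L).map (false :: ·)
    else if b = false ∧ α = 8 then (good L).map (true :: ·)
    else none

section theta
variable {W : Type*} [Group W] (w : List Bool → W)

/-- the value at the node `n` (nodes are written as inverses, so a positive word in `7,8` becomes a
word in `7⁻¹, 8⁻¹` read backwards) -/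
def theta (n : FreeGroup Ltr) : W :=
  match good n.toWord with
  | some l => w l
  | none => 1

def vv (n : FreeGroup Ltr) : W := (theta w ((FreeGroup.of 7)⁻¹ * n))⁻¹
def uu (n : FreeGroup Ltr) : W := (theta w ((FreeGroup.of 8)⁻¹ * n))⁻¹

end theta

/-- `w = v u⁻¹ v⁻¹ u` -/
def wc {W : Type*} [Group W] (v u : W) : W := v * u⁻¹ * v⁻¹ * u

/-- the matrix of (L2) -/
def Gam {W : Type*} [Group W] (v u : W) : Fin 4 → Fin 4 → W :=
  ![![1, 1, 1, 1], ![1, wc v u, v, v], ![1, u, v * u, v], ![1, u, u, 1]]

/-- `(i,j;k,l)`-loop of a matrix -/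
def loop {W : Type*} [Group W] (e : Fin 4 → Fin 4 → W) (i j k l : Fin 4) : W :=
  e i k * (e j k)⁻¹ * e j l * (e i l)⁻¹

/-- points: `(n, p, q)` (all coordinates inverted with respect to the paper proof) -/
abbrev Pt := FreeGroup Ltr × FreeGroup (Fin 4) × FreeGroup (Fin 4)

/-- the layer -/
def layer (g : Pt) : Prop := chi g.1 + chi g.2.1 + chi g.2.2 = 3

instance (g : Pt) : Decidable (layer g) := by unfold layer; infer_instance

/-- right action of `x i` : `(n, p, q) ↦ (n, x₀ xᵢ⁻¹ p, q)` -/
def sX (i : Fin 4) : Equiv.Perm Pt :=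
  (Equiv.refl _).prodCongr
    ((Equiv.mulLeft (FreeGroup.of (0 : Fin 4) * (FreeGroup.of i)⁻¹)).prodCongr (Equiv.refl _))

/-- right action of `y k` : `(n, p, q) ↦ (n, x₀ p, y_k⁻¹ q)` -/
def sY (k : Fin 4) : Equiv.Perm Pt :=
  (Equiv.refl _).prodCongr
    ((Equiv.mulLeft (FreeGroup.of (0 : Fin 4))).prodCongr (Equiv.mulLeft (FreeGroup.of k)⁻¹))

/-- right action of `r α` : `(n, p, q) ↦ (α⁻¹ n, x₀ p^, q^)` -/
def sR (α : Ltr) : Equiv.Perm Pt :=
  (Equiv.mulLeft (FreeGroup.of α)⁻¹).prodCongr
    (((FreeGroup.freeGroupCongr (pX α)).toEquiv.trans (Equiv.mulLeft (FreeGroup.of (0 : Fin 4)))).prodCongr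
      (FreeGroup.freeGroupCongr (pY α)).toEquiv)

@[simp] theorem sX_apply (i : Fin 4) (n : FreeGroup Ltr) (p q : FreeGroup (Fin 4)) :
    sX i (n, p, q) = (n, FreeGroup.of 0 * (FreeGroup.of i)⁻¹ * p, q) := rfl
@[simp] theorem sY_apply (k : Fin 4) (n : FreeGroup Ltr) (p q : FreeGroup (Fin 4)) :
    sY k (n, p, q) = (n, FreeGroup.of 0 * p, (FreeGroup.of k)⁻¹ * q) := rfl
@[simp] theorem sR_apply (α : Ltr) (n : FreeGroup Ltr) (p q : FreeGroup (Fin 4)) :
    sR α (n, p, q) = ((FreeGroup.of α)⁻¹ * n,
      FreeGroup.of 0 * FreeGroup.map (pX α) p, FreeGroup.map (pY α) q) := rfl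

open Classical in
/-- the label of `y k` -/
noncomputable def lY {W : Type*} [Group W] (w : List Bool → W) (k : Fin 4) (g : Pt) : W :=
  if layer g then
    if g.2.2 = 1 then Gam (vv w g.1) (uu w g.1) (beta g.2.1) k
    else if g.2.2 = FreeGroup.of k then (Gam (vv w g.1) (uu w g.1) (beta g.2.1) k)⁻¹
    else 1
  else 1

/-- a block gauge between the matrices at the nodes `n` and `α⁻¹ n` -/
structure Gauge {W : Type*} [Group W] (w : List Bool → W) (α : Ltr) (n : FreeGroup Ltr)
    (U V : Fin 4 → W) : Prop where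
  eq : ∀ i k, inX α i → inY α k →
    Gam (vv w n) (uu w n) i k * V k =
      U i * Gam (vv w ((FreeGroup.of α)⁻¹ * n)) (uu w ((FreeGroup.of α)⁻¹ * n)) (pX α i) (pY α k)
  triv : vv w n = 1 → uu w n = 1 → vv w ((FreeGroup.of α)⁻¹ * n) = 1 →
    uu w ((FreeGroup.of α)⁻¹ * n) = 1 → U = 1 ∧ V = 1

open Classical in
/-- the label of `r α`, given gauges `U V` -/
noncomputable def lR {W : Type*} [Group W] (w : List Bool → W)
    (U V : Ltr → FreeGroup Ltr → Fin 4 → W) (α : Ltr) (g : Pt) : W :=
  if layer g then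
    if InP (inX α) g.2.1 then
      if InP (inY α) g.2.2 then
        if g.2.2 = 1 then U α g.1 (beta g.2.1) else V α g.1 (beta g.2.2)
      else 1
    else
      if g.2.2 = 1 then 1
      else (Gam (vv w g.1) (uu w g.1) (beta g.2.1) (beta g.2.2))⁻¹ *
        Gam (vv w ((FreeGroup.of α)⁻¹ * g.1)) (uu w ((FreeGroup.of α)⁻¹ * g.1))
          (pX α (beta g.2.1)) (pY α (beta g.2.2))
  else 1

end Crest.Agent.R197.Det
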