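import Mathlib
import Crest.Agent.R197.Defs

/-!
# Row 197, module B2: node matrices and the block gauge

`theta w ν` is `w t` if the reduced word of `ν : FreeGroup Ltr` is the positive word in the letters
`7 (↦ false)`, `8 (↦ true)` coded by `t`, and `1` otherwise.
-/

set_option autoImplicit false

namespace Crest.Agent.R197

open FreeGroup

/-- exponent sum of the letters -/
def chiL : FreeGroup Ltr →* Multiplicative ℤ :=
  FreeGroup.lift (fun _ => Multiplicative.ofAdd (1 : ℤ))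

@[simp] theorem chiL_of (α : Ltr) : chiL (FreeGroup.of α) = Multiplicative.ofAdd (1 : ℤ) := by
  simp [chiL]

/-- code of the *inverse* word: all letters must be `(7, false)` or `(8, false)`; the head of the
list is the (inverse of the) LAST letter of the word. -/
def codeInv : List (Ltr × Bool) → Option (List Bool)
  | [] => some []
  | x :: L =>
    if x = (7, false) then (codeInv L).map (fun t => t ++ [false])
    else if x = (8, false) then (codeInv L).map (fun t => t ++ [true])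
    else none

section
variable {W : Type*} [Group W] (w : List Bool → W)

/-- `theta w ν = w t` if `ν` is the positive word in `7, 8` coded by `t`, else `1`. -/
def theta (ν : FreeGroup Ltr) : W := (codeInv (ν⁻¹).toWord).elim 1 w

@[simp] theorem theta_one : theta w 1 = w [] := by
  simp [theta, codeInv]

/-- the reduced word of `(ν * of α)⁻¹` -/
theorem toWord_mul_of_inv (ν : FreeGroup Ltr) (α : Ltr) :
    ((ν * of α)⁻¹).toWord = List.casesOn (ν⁻¹).toWord [(α, false)] fun hd tl =>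
      if α = hd.1 ∧ hd.2 = true then tl else (α, false) :: hd :: tl := by
  rw [mul_inv_rev, FreeGroup.toWord_mul, FreeGroup.toWord_inv (of α), FreeGroup.toWord_of]
  simp only [FreeGroup.invRev, List.map_cons, List.map_nil, List.reverse_cons, List.reverse_nil,
    List.nil_append, List.cons_append, Bool.not_true]
  rw [FreeGroup.reduce.cons, FreeGroup.reduce_toWord]
  cases (ν⁻¹).toWord with
  | nil => rfl
  | cons hd tl =>
    obtain ⟨a, b⟩ := hd
    cases b <;> simp

theorem theta_eq_of_toWord {ν : FreeGroup Ltr} {L : List (Ltr × Bool)} (h : (ν⁻¹).toWord = L) :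
    theta w ν = (codeInv L).elim 1 w := by rw [theta, h]

theorem theta_mul_of (ν : FreeGroup Ltr) (α : Ltr) :
    theta w (ν * of α) = (codeInv (List.casesOn (ν⁻¹).toWord [(α, false)] fun hd tl =>
      if α = hd.1 ∧ hd.2 = true then tl else (α, false) :: hd :: tl)).elim 1 w := by
  rw [theta, toWord_mul_of_inv]

/-- the recursion holds for ALL `ν` -/
theorem theta_rec
    (hw : ∀ ν, w ν = (w (ν ++ [false]))⁻¹ * w (ν ++ [true]) * w (ν ++ [false]) *
      (w (ν ++ [true]))⁻¹) (ν : FreeGroup Ltr) :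
    theta w ν = (theta w (ν * of 7))⁻¹ * theta w (ν * of 8) * theta w (ν * of 7) *
      (theta w (ν * of 8))⁻¹ := by
  rw [theta_mul_of, theta_mul_of, theta]
  generalize (ν⁻¹).toWord = L
  cases L with
  | nil =>
    simpa [codeInv] using hw []
  | cons hd tl =>
    by_cases h7 : hd = (7, true)
    · subst h7
      simp [codeInv]
    by_cases h8 : hd = (8, true)
    · subst h8
      simp [codeInv]
    have h7' : ¬ ((7 : Ltr) = hd.1 ∧ hd.2 = true) := by
      rintro ⟨h1, h2⟩; exact h7 (Prod.ext h1.symm h2)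
    have h8' : ¬ ((8 : Ltr) = hd.1 ∧ hd.2 = true) := by
      rintro ⟨h1, h2⟩; exact h8 (Prod.ext h1.symm h2)
    simp only [if_neg h7', if_neg h8']
    have e7 : codeInv ((7, false) :: hd :: tl) =
        (codeInv (hd :: tl)).map (fun t => t ++ [false]) := by
      conv_lhs => rw [codeInv]
      simp
    have e8 : codeInv ((8, false) :: hd :: tl) =
        (codeInv (hd :: tl)).map (fun t => t ++ [true]) := by
      conv_lhs => rw [codeInv]
      simp
    rw [e7, e8]
    cases codeInv (hd :: tl) with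
    | none => simp
    | some t => simpa using hw t

theorem codeInv_chi : ∀ (L : List (Ltr × Bool)) (t : List Bool), codeInv L = some t →
    chiL (FreeGroup.mk L) = Multiplicative.ofAdd (-(t.length : ℤ)) := by
  intro L
  induction L with
  | nil =>
    intro t h
    simp only [codeInv, Option.some.injEq] at h
    subst h
    simp [← FreeGroup.one_eq_mk]
  | cons x L ih =>
    intro t h
    have hmk : (FreeGroup.mk (x :: L)) = FreeGroup.mk [x] * FreeGroup.mk L := by
      rw [FreeGroup.mul_mk]; rfl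
    rw [codeInv] at h
    split_ifs at h with h1 h2
    · subst h1
      obtain ⟨t', ht', rfl⟩ := Option.map_eq_some_iff.mp h
      rw [hmk, _root_.map_mul, ih t' ht']
      simp only [chiL, FreeGroup.lift_mk, List.map_cons, List.map_nil, cond_false, List.prod_cons,
        List.prod_nil, mul_one, List.length_append, List.length_cons, List.length_nil]
      rw [← ofAdd_neg, ← ofAdd_add]
      congr 1
      push_cast
      ring
    · subst h2
      obtain ⟨t', ht', rfl⟩ := Option.map_eq_some_iff.mp h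
      rw [hmk, _root_.map_mul, ih t' ht']
      simp only [chiL, FreeGroup.lift_mk, List.map_cons, List.map_nil, cond_false, List.prod_cons,
        List.prod_nil, mul_one, List.length_append, List.length_cons, List.length_nil]
      rw [← ofAdd_neg, ← ofAdd_add]
      congr 1
      push_cast
      ring

/-- either `theta w ν = 1` or it is `w t` with `t` of length `χ ν` -/
theorem theta_cases (ν : FreeGroup Ltr) :
    theta w ν = 1 ∨ ∃ t : List Bool, (t.length : ℤ) = (chiL ν).toAdd ∧ theta w ν = w t := by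
  unfold theta
  cases h : codeInv (ν⁻¹).toWord with
  | none => left; rfl
  | some t =>
    right
    refine ⟨t, ?_, rfl⟩
    have h1 := codeInv_chi _ t h
    rw [FreeGroup.mk_toWord, _root_.map_inv] at h1
    have h2 : chiL ν = Multiplicative.ofAdd (t.length : ℤ) := by
      rw [← inv_inj, h1, ofAdd_neg]
    rw [h2]
    rfl

theorem theta_eq_one_of_chi {ν : FreeGroup Ltr} (h : (chiL ν).toAdd < 0) : theta w ν = 1 := by
  rcases theta_cases w ν with h1 | ⟨t, ht, -⟩
  · exact h1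
  · omega

theorem theta_mem {V : Subgroup W} {d : ℕ} (hV : ∀ t : List Bool, t.length ≤ d → w t ∈ V)
    {ν : FreeGroup Ltr} (h : (chiL ν).toAdd ≤ d) : theta w ν ∈ V := by
  rcases theta_cases w ν with h1 | ⟨t, ht, h1⟩
  · rw [h1]; exact V.one_mem
  · rw [h1]; exact hV t (by omega)

/-- the node matrix at `ν` -/
def gm (ν : FreeGroup Ltr) : Fin 4 → Fin 4 → W :=
  ![![1, 1, 1, 1],
    ![1, theta w ν, (theta w (ν * of 7))⁻¹, (theta w (ν * of 7))⁻¹],
    ![1, (theta w (ν * of 8))⁻¹, (theta w (ν * of 7))⁻¹ * (theta w (ν * of 8))⁻¹,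
      (theta w (ν * of 7))⁻¹],
    ![1, (theta w (ν * of 8))⁻¹, (theta w (ν * of 8))⁻¹, 1]]

@[simp] theorem gm_zero_left (ν : FreeGroup Ltr) (k : Fin 4) : gm w ν 0 k = 1 := by
  fin_cases k <;> rfl

@[simp] theorem gm_zero_right (ν : FreeGroup Ltr) (i : Fin 4) : gm w ν i 0 = 1 := by
  fin_cases i <;> rfl

theorem chiL_mul_of (ν : FreeGroup Ltr) (α : Ltr) :
    (chiL (ν * of α)).toAdd = (chiL ν).toAdd + 1 := by
  rw [_root_.map_mul, chiL_of, toAdd_mul, toAdd_ofAdd]

/-- the node matrix is trivial below height `-1` -/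
theorem gm_eq_one_of_chi {ν : FreeGroup Ltr} (h : (chiL ν).toAdd < -1) (i k : Fin 4) :
    gm w ν i k = 1 := by
  have h0 : theta w ν = 1 := theta_eq_one_of_chi w (by omega)
  have h7 : theta w (ν * of 7) = 1 := theta_eq_one_of_chi w (by rw [chiL_mul_of]; omega)
  have h8 : theta w (ν * of 8) = 1 := theta_eq_one_of_chi w (by rw [chiL_mul_of]; omega)
  fin_cases i <;> fin_cases k <;> simp [gm, h0, h7, h8]

theorem gm_mem {V : Subgroup W} {d : ℕ} (hV : ∀ t : List Bool, t.length ≤ d → w t ∈ V)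
    {ν : FreeGroup Ltr} (h : (chiL ν).toAdd + 1 ≤ d) (i k : Fin 4) : gm w ν i k ∈ V := by
  have h0 : theta w ν ∈ V := theta_mem w hV (by omega)
  have h7 : theta w (ν * of 7) ∈ V := theta_mem w hV (by rw [chiL_mul_of]; omega)
  have h8 : theta w (ν * of 8) ∈ V := theta_mem w hV (by rw [chiL_mul_of]; omega)
  fin_cases i <;> fin_cases k <;>
    simp [gm, h0, h7, h8, V.one_mem, V.mul_mem, V.inv_mem]

/-- gauge lemma for a 2×2 block -/
theorem gauge2 (e g : Fin 4 → Fin 4 → W) (i j k l : Fin 4) (hij : j ≠ i) (hkl : l ≠ k) (c : W)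
    (h : c⁻¹ * (e i l * (e j l)⁻¹ * e j k * (e i k)⁻¹) * c =
      g i l * (g j l)⁻¹ * g j k * (g i k)⁻¹) :
    ∃ U V : Fin 4 → W, (U i)⁻¹ * e i k * V k = g i k ∧ (U i)⁻¹ * e i l * V l = g i l ∧
      (U j)⁻¹ * e j k * V k = g j k ∧ (U j)⁻¹ * e j l * V l = g j l := by
  refine ⟨fun m => if m = i then c else e j k * ((e i k)⁻¹ * c * g i k) * (g j k)⁻¹,
    fun m => if m = k then (e i k)⁻¹ * c * g i k else (e i l)⁻¹ * c * g i l, ?_, ?_, ?_, ?_⟩
  · simp only [if_true]; group
  · simp only [if_true, if_neg hkl]; group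
  · simp only [if_true, if_neg hij]; group
  · simp only [if_neg hij, if_neg hkl]
    have h1 : c * (g i l * (g j l)⁻¹ * g j k * (g i k)⁻¹) =
        (e i l * (e j l)⁻¹ * e j k * (e i k)⁻¹) * c := by
      rw [← h]; group
    have h2 : e j k * (e i k)⁻¹ * c = e j l * (e i l)⁻¹ * c * g i l * (g j l)⁻¹ * g j k * (g i k)⁻¹ := by
      have : e j k * (e i k)⁻¹ * c = e j l * (e i l)⁻¹ * ((e i l * (e j l)⁻¹ * e j k * (e i k)⁻¹) * c) := by
        group
      rw [this, ← h1]; group
    have h3 : e j k * ((e i k)⁻¹ * c * g i k) * (g j k)⁻¹ =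
        e j l * ((e i l)⁻¹ * c * g i l) * (g j l)⁻¹ := by
      calc e j k * ((e i k)⁻¹ * c * g i k) * (g j k)⁻¹
          = (e j k * (e i k)⁻¹ * c) * g i k * (g j k)⁻¹ := by group
        _ = _ := by rw [h2]; group
    rw [h3]; group

/-- trivial holonomy of the node matrix on the seven faces -/
theorem face_hol (hw : ∀ ν, w ν = (w (ν ++ [false]))⁻¹ * w (ν ++ [true]) * w (ν ++ [false]) *
      (w (ν ++ [true]))⁻¹) (ν : FreeGroup Ltr) (α : Ltr) (h7 : α ≠ 7) (h8 : α ≠ 8) :
    gm w ν (x1 α) (y2 α) * (gm w ν (x2 α) (y2 α))⁻¹ *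
      gm w ν (x2 α) (y1 α) * (gm w ν (x1 α) (y1 α))⁻¹ = 1 := by
  have r0 := theta_rec w hw ν
  fin_cases α
  · simp [gm, x1, x2, y1, y2]
  · simp only [gm, x1, x2, y1, y2]
    simp [r0, mul_assoc]
  · simp [gm, x1, x2, y1, y2]
  · simp [gm, x1, x2, y1, y2]
  · simp [gm, x1, x2, y1, y2]
  · simp [gm, x1, x2, y1, y2]
  · simp [gm, x1, x2, y1, y2]
  · exact absurd rfl h7
  · exact absurd rfl h8

/-- the block gauge -/
theorem block_gauge (hw : ∀ ν, w ν = (w (ν ++ [false]))⁻¹ * w (ν ++ [true]) * w (ν ++ [false]) *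
      (w (ν ++ [true]))⁻¹) (ν : FreeGroup Ltr) (α : Ltr) :
    ∃ U V : Fin 4 → W, ∀ i k, inX α i → inY α k →
      (U i)⁻¹ * gm w ν i k * V k = gm w (ν * of α) (pX α i) (pY α k) := by
  have key : ∃ c : W, c⁻¹ * (gm w ν (x1 α) (y2 α) * (gm w ν (x2 α) (y2 α))⁻¹ *
      gm w ν (x2 α) (y1 α) * (gm w ν (x1 α) (y1 α))⁻¹) * c =
      gm w (ν * of α) (pX α (x1 α)) (pY α (y2 α)) *
        (gm w (ν * of α) (pX α (x2 α)) (pY α (y2 α)))⁻¹ *
        gm w (ν * of α) (pX α (x2 α)) (pY α (y1 α)) *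
        (gm w (ν * of α) (pX α (x1 α)) (pY α (y1 α)))⁻¹ := by
    by_cases h7 : α = 7
    · subst h7
      refine ⟨theta w (ν * of 8), ?_⟩
      have e1 : gm w ν (x1 7) (y2 7) * (gm w ν (x2 7) (y2 7))⁻¹ *
          gm w ν (x2 7) (y1 7) * (gm w ν (x1 7) (y1 7))⁻¹ = theta w (ν * of 7) * theta w ν := by
        simp [gm, x1, x2, y1, y2]
      have e2 : gm w (ν * of 7) (pX 7 (x1 7)) (pY 7 (y2 7)) *
        (gm w (ν * of 7) (pX 7 (x2 7)) (pY 7 (y2 7)))⁻¹ *
        gm w (ν * of 7) (pX 7 (x2 7)) (pY 7 (y1 7)) *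
        (gm w (ν * of 7) (pX 7 (x1 7)) (pY 7 (y1 7)))⁻¹ = theta w (ν * of 7) := by
        have p1 : pX 7 (x1 7) = 0 := by decide
        have p2 : pX 7 (x2 7) = 1 := by decide
        have p3 : pY 7 (y1 7) = 1 := by decide
        have p4 : pY 7 (y2 7) = 0 := by decide
        rw [p1, p2, p3, p4]
        simp [gm]
      rw [e1, e2]
      conv_lhs => rw [theta_rec w hw ν]
      group
    by_cases h8 : α = 8
    · subst h8
      refine ⟨(theta w (ν * of 7))⁻¹, ?_⟩
      have e1 : gm w ν (x1 8) (y2 8) * (gm w ν (x2 8) (y2 8))⁻¹ *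
          gm w ν (x2 8) (y1 8) * (gm w ν (x1 8) (y1 8))⁻¹ = theta w ν * theta w (ν * of 8) := by
        simp [gm, x1, x2, y1, y2]
      have e2 : gm w (ν * of 8) (pX 8 (x1 8)) (pY 8 (y2 8)) *
        (gm w (ν * of 8) (pX 8 (x2 8)) (pY 8 (y2 8)))⁻¹ *
        gm w (ν * of 8) (pX 8 (x2 8)) (pY 8 (y1 8)) *
        (gm w (ν * of 8) (pX 8 (x1 8)) (pY 8 (y1 8)))⁻¹ = theta w (ν * of 8) := by
        have p1 : pX 8 (x1 8) = 1 := by decide
        have p2 : pX 8 (x2 8) = 0 := by decide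
        have p3 : pY 8 (y1 8) = 0 := by decide
        have p4 : pY 8 (y2 8) = 1 := by decide
        rw [p1, p2, p3, p4]
        simp [gm]
      rw [e1, e2]
      conv_lhs => rw [theta_rec w hw ν]
      group
    · refine ⟨1, ?_⟩
      have hpX : pX α = 1 := by revert h7 h8; fin_cases α <;> simp [pX]
      have hpY : pY α = 1 := by revert h7 h8; fin_cases α <;> simp [pY]
      rw [face_hol w hw ν α h7 h8, hpX, hpY]
      simp only [Equiv.Perm.coe_one, id_eq]
      rw [face_hol w hw (ν * of α) α h7 h8]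
      simp
  obtain ⟨c, hc⟩ := key
  have hx : x2 α ≠ x1 α := by fin_cases α <;> decide
  have hy : y2 α ≠ y1 α := by fin_cases α <;> decide
  obtain ⟨U, V, h1, h2, h3, h4⟩ := gauge2 (gm w ν)
    (fun i k => gm w (ν * of α) (pX α i) (pY α k)) (x1 α) (x2 α) (y1 α) (y2 α) hx hy c hc
  refine ⟨U, V, ?_⟩
  rintro i k (rfl | rfl) (rfl | rfl)
  · exact h1
  · exact h2
  · exact h3
  · exact h4

/-- trivial holonomy of the node matrix on the seven faces, cyclic order of `lam` -/
theorem face_hol' (hw : ∀ ν, w ν = (w (ν ++ [false]))⁻¹ * w (ν ++ [true]) * w (ν ++ [false]) *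
      (w (ν ++ [true]))⁻¹) (ν : FreeGroup Ltr) (α : Ltr) (h7 : α ≠ 7) (h8 : α ≠ 8) :
    gm w ν (x1 α) (y1 α) * (gm w ν (x2 α) (y1 α))⁻¹ *
      gm w ν (x2 α) (y2 α) * (gm w ν (x1 α) (y2 α))⁻¹ = 1 := by
  have h := face_hol w hw ν α h7 h8
  have h2 := congrArg (fun z => z⁻¹) h
  simpa [mul_assoc] using h2

/-- `D_a` is conjugate to `(theta (ν * of 7))⁻¹` -/
theorem hol_a (hw : ∀ ν, w ν = (w (ν ++ [false]))⁻¹ * w (ν ++ [true]) * w (ν ++ [false]) *
      (w (ν ++ [true]))⁻¹) (ν : FreeGroup Ltr) :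
    gm w ν 0 1 * (gm w ν 1 1)⁻¹ * gm w ν 1 2 * (gm w ν 0 2)⁻¹ =
      theta w (ν * of 8) * (theta w (ν * of 7))⁻¹ * (theta w (ν * of 8))⁻¹ := by
  have e1 : gm w ν 0 1 * (gm w ν 1 1)⁻¹ * gm w ν 1 2 * (gm w ν 0 2)⁻¹ =
      (theta w ν)⁻¹ * (theta w (ν * of 7))⁻¹ := by simp [gm]
  rw [e1]
  conv_lhs => rw [theta_rec w hw ν]
  group

/-- `D_b` is conjugate to `(theta (ν * of 8))⁻¹` -/
theorem hol_b (hw : ∀ ν, w ν = (w (ν ++ [false]))⁻¹ * w (ν ++ [true]) * w (ν ++ [false]) *
      (w (ν ++ [true]))⁻¹) (ν : FreeGroup Ltr) :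
    gm w ν 1 0 * (gm w ν 2 0)⁻¹ * gm w ν 2 1 * (gm w ν 1 1)⁻¹ =
      (theta w (ν * of 7))⁻¹ * (theta w (ν * of 8))⁻¹ * theta w (ν * of 7) := by
  have e1 : gm w ν 1 0 * (gm w ν 2 0)⁻¹ * gm w ν 2 1 * (gm w ν 1 1)⁻¹ =
      (theta w (ν * of 8))⁻¹ * (theta w ν)⁻¹ := by simp [gm]
  rw [e1]
  conv_lhs => rw [theta_rec w hw ν]
  group

end

end Crest.Agent.R197
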