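import Mathlib
import Crest.Agent.R197.Defs

/-! Row 197, task B1c: the wreath product tower `(W, V, w)`. -/

set_option autoImplicit false

namespace Crest.Agent.R197

namespace Tower

section gam
variable {E F : Type*} [Group E] [Group F]

theorem gam_mono {N M : Subgroup E} (h : N ≤ M) (k : ℕ) : gam N k ≤ gam M k := by
  induction k with
  | zero => exact h
  | succ k ih => exact Subgroup.commutator_mono ih h

theorem gam_map (f : E →* F) (N : Subgroup E) (k : ℕ) : (gam N k).map f = gam (N.map f) k := by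
  induction k with
  | zero => rfl
  | succ k ih => simp only [gam, Subgroup.map_commutator, ih]

end gam

/-- functions with values in the `k`-th term -/
theorem gam_pi_le {S U : Type*} [Group U] (k : ℕ) :
    gam (⊤ : Subgroup (S → U)) k ≤ Subgroup.pi Set.univ (fun _ => gam (⊤ : Subgroup U) k) := by
  intro f hf
  rw [Subgroup.mem_pi]
  intro s _
  have h : (gam (⊤ : Subgroup (S → U)) k).map (Pi.evalMonoidHom (fun _ : S => U) s) ≤ gam (⊤ : Subgroup U) k := by
    rw [gam_map]
    exact gam_mono le_top k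
  exact h ⟨f, hf, rfl⟩

/-- translation action of `S` on functions `S → U` -/
def transl (S U : Type*) [Group S] [Group U] : S →* MulAut (S → U) where
  toFun s :=
    { toFun := fun f x => f (s⁻¹ * x)
      invFun := fun f x => f (s * x)
      left_inv := fun f => by ext x; simp
      right_inv := fun f => by ext x; simp
      map_mul' := fun f g => rfl }
  map_one' := by ext f x; simp
  map_mul' := fun s t => by ext f x; simp [mul_assoc]

/-- solve `x s⁻¹ * x (τ⁻¹ s) = f s` -/
theorem solve_orbit {S U : Type*} [Group S] [Group U] (τ : S) (hτ : ∀ n : ℤ, τ ^ n = 1 → n = 0)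
    (f : S → U) : ∃ x : S → U, ∀ s, (x s)⁻¹ * x (τ⁻¹ * s) = f s := by
  classical
  -- orbit representatives for the left action of ⟨τ⟩
  let r : S → Quotient (QuotientGroup.rightRel (Subgroup.zpowers τ)) := fun s => Quotient.mk'' s
  -- representative
  let ρ : S → S := fun s => (Quotient.out (r s))
  have hρ : ∀ s, ∃ n : ℤ, τ ^ n * s = ρ s := by
    intro s
    have h : (Quotient.mk'' (ρ s) : Quotient (QuotientGroup.rightRel (Subgroup.zpowers τ))) = r s :=
      Quotient.out_eq' (r s)
    have h2 := Quotient.eq''.mp h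
    rw [QuotientGroup.rightRel_apply] at h2
    obtain ⟨n, hn⟩ := Subgroup.mem_zpowers_iff.mp h2
    refine ⟨-n, ?_⟩
    rw [zpow_neg, hn]
    group
  choose e he using hρ
  have hρ1 : ∀ s, ρ (τ⁻¹ * s) = ρ s := by
    intro s
    have : r (τ⁻¹ * s) = r s := by
      apply Quotient.eq''.mpr
      rw [QuotientGroup.rightRel_apply]
      refine Subgroup.mem_zpowers_iff.mpr ⟨1, by group⟩
    simp only [ρ, this]
  have he1 : ∀ s, e (τ⁻¹ * s) = e s + 1 := by
    intro s
    have h1 := he (τ⁻¹ * s)
    rw [hρ1, ← he s] at h1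
    have h2 : τ ^ (e (τ⁻¹ * s) - e s - 1) = 1 := by
      have h3 : τ ^ (e (τ⁻¹ * s)) * τ⁻¹ = τ ^ (e s) := by
        have := congrArg (· * s⁻¹) h1
        simpa [mul_assoc] using this
      rw [sub_sub, zpow_sub, zpow_add, zpow_one, ← h3]
      group
    have := hτ _ h2
    omega
  -- product along the orbit
  -- y ρ n = value at τ^{-n} ρ
  have key : ∀ c : S, ∃ y : ℤ → U, ∀ n : ℤ, (y n)⁻¹ * y (n + 1) = f (τ ^ (-n) * c) := by
    intro c
    let g : ℤ → U := fun n => f (τ ^ (-n) * c)
    -- nonnegative and negative parts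
    let p : ℕ → U := fun n => Nat.rec 1 (fun k acc => acc * g k) n
    let q : ℕ → U := fun n => Nat.rec 1 (fun k acc => acc * (g (-(k : ℤ) - 1))⁻¹) n
    refine ⟨fun n => match n with
      | Int.ofNat n => p n
      | Int.negSucc n => q (n + 1), ?_⟩
    intro n
    rcases n with n | n
    · show (p n)⁻¹ * p (n + 1) = g n
      simp [p]
    · rcases n with _ | n
      · show (q 1)⁻¹ * p 0 = g (-1)
        simp [p, q]
      · show (q (n + 1 + 1))⁻¹ * q (n + 1) = g (Int.negSucc (n + 1))
        have : (Int.negSucc (n + 1)) = -((n + 1 : ℕ) : ℤ) - 1 := by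
          rw [Int.negSucc_eq]; push_cast; ring
        rw [this]
        have h : q (n + 1 + 1) = q (n + 1) * (g (-((n + 1 : ℕ) : ℤ) - 1))⁻¹ := rfl
        rw [h]
        group
  choose y hy using key
  refine ⟨fun s => y (ρ s) (e s), fun s => ?_⟩
  simp only [hρ1, he1]
  rw [hy, ← he s]
  congr 1
  group

variable {S U : Type} [Group S] [Group U]

abbrev WW (S U : Type) [Group S] [Group U] := (S → U) ⋊[transl S U] S

/-- the set of good elements -/
def Good (w : WW S U) : Prop :=
  (∃ v : S → U, w = SemidirectProduct.inl v) ∨ (∃ s : S, w = SemidirectProduct.inr s)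

theorem good_split (hS : ∀ q : S, ∃ s t : S, q = s⁻¹ * t * s * t⁻¹) (τ : S)
    (hτ : ∀ n : ℤ, τ ^ n = 1 → n = 0) (w : WW S U) (hw : Good w) :
    ∃ a b : WW S U, Good a ∧ Good b ∧ w = a⁻¹ * b * a * b⁻¹ := by
  rcases hw with ⟨v, rfl⟩ | ⟨q, rfl⟩
  · obtain ⟨x, hx⟩ := solve_orbit τ hτ v
    refine ⟨SemidirectProduct.inl x, SemidirectProduct.inr τ, Or.inl ⟨x, rfl⟩, Or.inr ⟨τ, rfl⟩, ?_⟩
    have h1 : (SemidirectProduct.inl x : WW S U)⁻¹ * SemidirectProduct.inr τ * SemidirectProduct.inl x *
        (SemidirectProduct.inr τ)⁻¹ = SemidirectProduct.inl (x⁻¹ * transl S U τ x) := by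
      rw [map_mul, map_inv, SemidirectProduct.inl_aut]
      simp only [map_inv, mul_assoc]
    rw [h1]
    congr 1
    ext s
    exact (hx s).symm
  · obtain ⟨s, t, h⟩ := hS q
    refine ⟨SemidirectProduct.inr s, SemidirectProduct.inr t, Or.inr ⟨s, rfl⟩, Or.inr ⟨t, rfl⟩, ?_⟩
    rw [h]
    simp

end Tower

open Tower in
theorem tower_of {S U : Type} [Group S] [Group U] (hS : ∀ q : S, ∃ s t : S, q = s⁻¹ * t * s * t⁻¹)
    (hτ : ∃ τ : S, ∀ n : ℤ, τ ^ n = 1 → n = 0) (c d : ℕ) (hc : gam (⊤ : Subgroup U) c = ⊥)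
    (u : List Bool → U)
    (hu : ∀ ν : List Bool, ν.length < d →
      u ν = (u (ν ++ [false]))⁻¹ * u (ν ++ [true]) * u (ν ++ [false]) * (u (ν ++ [true]))⁻¹)
    (hu0 : u [] ≠ 1) :
    ∃ (W : Type) (_ : Group W) (V : Subgroup W) (_ : V.Normal) (c : ℕ) (w : List Bool → W),
      gam V c = ⊥ ∧
      (∀ ν, w ν = (w (ν ++ [false]))⁻¹ * w (ν ++ [true]) * w (ν ++ [false]) * (w (ν ++ [true]))⁻¹) ∧
      (∀ ν, ν.length ≤ d → w ν ∈ V) ∧ w [] ≠ 1 := by
  classical
  obtain ⟨τ, hτ⟩ := hτ
  have hsplit : ∀ w : WW S U, ∃ a b : WW S U, Good w → (Good a ∧ Good b ∧ w = a⁻¹ * b * a * b⁻¹) := by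
    intro w
    by_cases h : Good w
    · obtain ⟨a, b, h1⟩ := good_split hS τ hτ w h
      exact ⟨a, b, fun _ => h1⟩
    · exact ⟨1, 1, fun h' => absurd h' h⟩
  choose A B hAB using hsplit
  let step : WW S U → Bool → WW S U := fun g b => cond b (B g) (A g)
  have hstep : ∀ (l : List Bool) (g : WW S U), Good g → Good (l.foldl step g) := by
    intro l
    induction l with
    | nil => intro g hg; exact hg
    | cons b l ih =>
      intro g hg
      rw [List.foldl_cons]
      apply ih
      cases b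
      · exact (hAB g hg).1
      · exact (hAB g hg).2.1
  let w : List Bool → WW S U := fun ν =>
    (ν.drop d).foldl step (SemidirectProduct.inl (fun _ => u (ν.take d)))
  have hgood : ∀ ν, Good (w ν) := fun ν => hstep _ _ (Or.inl ⟨_, rfl⟩)
  have hle : ∀ ν : List Bool, ν.length ≤ d → w ν = SemidirectProduct.inl (fun _ => u ν) := by
    intro ν h
    simp only [w, List.drop_eq_nil_of_le h, List.take_of_length_le h, List.foldl_nil]
  refine ⟨WW S U, inferInstance, (SemidirectProduct.inl : (S → U) →* WW S U).range, ?_, c, w,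
    ?_, ?_, ?_, ?_⟩
  · rw [SemidirectProduct.range_inl_eq_ker_rightHom]
    infer_instance
  · rw [MonoidHom.range_eq_map, ← gam_map]
    rw [eq_bot_iff]
    rintro _ ⟨f, hf, rfl⟩
    have h := gam_pi_le (S := S) c hf
    rw [hc] at h
    have : f = 1 := by
      ext s
      have := (Subgroup.mem_pi _).mp h s trivial
      simpa using this
    simp [this]
  · intro ν
    rcases lt_or_ge ν.length d with h | h
    · rw [hle ν h.le, hle (ν ++ [false]) (by simp; omega), hle (ν ++ [true]) (by simp; omega)]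
      rw [← map_inv, ← map_mul, ← map_mul, ← map_inv, ← map_mul]
      congr 1
      ext s
      exact hu ν h
    · have h1 : ∀ b, w (ν ++ [b]) = step (w ν) b := by
        intro b
        simp only [w]
        rw [List.drop_append_of_le_length h, List.take_append_of_le_length h, List.foldl_append]
        rfl
      rw [h1, h1]
      exact (hAB (w ν) (hgood ν)).2.2
  · intro ν h
    rw [hle ν h]
    exact ⟨_, rfl⟩
  · rw [hle [] (by simp)]
    intro h
    apply hu0
    have h2 : (fun _ : S => u []) = 1 := by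
      apply SemidirectProduct.inl_injective (φ := transl S U)
      rw [h]; simp
    exact congrFun h2 1

end Crest.Agent.R197
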