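import Crest.Agent.R197.DetPsi
import Crest.Agent.R197.DetMat
import Crest.Agent.R197.DetTower

/-!
# Row 197, module B5: holonomy of the scaled loops and the detection theorem.
-/

set_option autoImplicit false

namespace Crest.Agent.R197

namespace Wr

variable {S W : Type*} [Group W]

/-- elements whose label is the coboundary of `u` -/
def cob (u : S → W) : Subgroup (Wr S W) where
  carrier := {a | ∀ g, a.lab g = u g * (u (a.perm g))⁻¹}
  one_mem' := fun g => by simp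
  mul_mem' := by
    intro a b ha hb g
    simp only [mul_lab, mul_perm, ha g, hb (a.perm g)]
    group
  inv_mem' := by
    intro a ha g
    have h := ha (a.perm.symm g)
    rw [Equiv.apply_symm_apply] at h
    rw [inv_lab, h, inv_perm]
    group

theorem mem_cob {u : S → W} {a : Wr S W} :
    a ∈ cob u ↔ ∀ g, a.lab g = u g * (u (a.perm g))⁻¹ := Iff.rfl

theorem zpow_perm (a : Wr S W) (n : ℤ) : (a ^ n).perm = a.perm ^ n := by
  let h : Wr S W →* (Equiv.Perm S)ᵐᵒᵖ :=
    { toFun := fun a => MulOpposite.op a.perm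
      map_one' := rfl
      map_mul' := fun a b => rfl }
  have := map_zpow h a n
  exact congrArg MulOpposite.unop this

theorem gam_labIn_le (V : Subgroup W) (k : ℕ) : gam (labIn S V) k ≤ labIn S (gam V k) := by
  induction k with
  | zero => exact le_refl _
  | succ k ih =>
    exact (Subgroup.commutator_mono ih le_rfl).trans (commutator_labIn_le _ _ _ le_rfl)

end Wr

namespace Det

open FreeGroup (of)
open Beta

namespace NodeData

variable {W : Type} [Group W] (D : NodeData W)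

/-- the potential of the labels of `A_ik` -/
def pot (k : Fin 4) (g : Pt) : W :=
  if tot g = -3 ∧ g.2.2 = 1 then D.gm g.1 (bt g.2.1) k else 1

theorem Psi_A_mem_cob (i k : Fin 4) : D.Psi (Aw EE.x EE.y i k) ∈ Wr.cob (D.pot k) := by
  intro g
  rw [Psi_A_lab, Psi_A_perm]
  obtain ⟨ν, p, q⟩ := g
  have ht : tot (ν, p * (of i)⁻¹, q * of k) = tot (ν, p, q) := by
    simp only [tot, ch_mul, ch_inv, ch_of]; ring
  simp only [pot, ht]
  by_cases hg : tot (ν, p, q) = -3
  swap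
  · simp [hg]
  simp only [hg, true_and, if_true]
  simp only [tot] at hg
  by_cases hq : q = 1
  · subst hq
    rw [f_one_right, one_mul, if_pos rfl, if_neg (FreeGroup.of_ne_one k)]
    simp [f]
  · rw [if_neg hq]
    by_cases hq2 : q * of k = 1
    · have hqk : q = (of k)⁻¹ := eq_inv_of_mul_eq_one_left hq2
      have hcq : ch q = -1 := by rw [hqk, ch_inv, ch_of]
      rw [if_pos hq2, hq2, f_one_right, mul_one, one_mul]
      have hbq : bt q = k := by rw [hqk, bt_of_inv]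
      simp only [f, hbq]
      by_cases hν : ch ν < -1
      · rw [D.triv ν hν, D.triv ν hν]
      · have hp1 : p ≠ 1 := by
          rintro rfl
          rw [ch_one] at hg
          omega
        have hp2 : p * (of i)⁻¹ ≠ 1 := by
          intro h
          have : ch (p * (of i)⁻¹) = 0 := by rw [h, ch_one]
          rw [ch_mul, ch_inv, ch_of] at this
          omega
        rw [bt_mul_of_inv i hp1 hp2]
    · rw [if_neg hq2]
      simp [f, bt_mul_of k hq hq2]

theorem Psi_A_zpow_perm (i k : Fin 4) (n : ℤ) (g : Pt) :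
    (D.Psi (Aw EE.x EE.y i k) ^ n).perm g = (g.1, g.2.1 * (of i) ^ (-n), g.2.2 * (of k) ^ n) := by
  rw [Wr.zpow_perm]
  have key : ∀ n : ℤ, ∀ g : Pt, ((D.Psi (Aw EE.x EE.y i k)).perm ^ n) g =
      (g.1, g.2.1 * (of i) ^ (-n), g.2.2 * (of k) ^ n) := by
    intro n
    induction n using Int.induction_on with
    | zero => intro g; simp
    | succ n ih =>
      intro g
      rw [zpow_add_one, Equiv.Perm.mul_apply, ih, Psi_A_perm]
      simp only [mul_assoc]
      rw [← zpow_neg_one, ← zpow_add, ← zpow_one_add]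
      congr 4 <;> ring
    | pred n ih =>
      intro g
      rw [zpow_sub_one, Equiv.Perm.mul_apply, ih]
      have h1 : (D.Psi (Aw EE.x EE.y i k)).perm⁻¹ g = (g.1, g.2.1 * of i, g.2.2 * (of k)⁻¹) := by
        rw [Equiv.Perm.inv_eq_iff_eq, Psi_A_perm]
        simp
      rw [h1]
      simp only [mul_assoc]
      rw [← zpow_neg_one (of k), ← zpow_add, ← zpow_one_add]
      congr 3
      · congr 1; ring
      · congr 1; ring
  exact key n g

theorem Psi_lam (i j k l : Fin 4) (n : ℤ) (g : Pt) :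
    (D.Psi (lam EE.x EE.y i j k l n)).perm g = g ∧
    (D.Psi (lam EE.x EE.y i j k l n)).lab g =
      D.pot k g * (D.pot k (g.1, g.2.1 * (of i) ^ (-n) * (of j) ^ n, g.2.2))⁻¹ *
        D.pot l (g.1, g.2.1 * (of i) ^ (-n) * (of j) ^ n, g.2.2) * (D.pot l g)⁻¹ := by
  have hc : ∀ (i k : Fin 4) (n : ℤ), D.Psi (Aw EE.x EE.y i k) ^ n ∈ Wr.cob (D.pot k) :=
    fun i k n => Subgroup.zpow_mem _ (D.Psi_A_mem_cob i k) n
  have hc' : ∀ (i k : Fin 4) (n : ℤ) (g : Pt), (D.Psi (Aw EE.x EE.y i k) ^ n).lab g =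
      D.pot k g * (D.pot k (g.1, g.2.1 * (of i) ^ (-n), g.2.2 * (of k) ^ n))⁻¹ := by
    intro i k n g
    rw [Wr.mem_cob.1 (hc i k n) g, Psi_A_zpow_perm]
  constructor
  · simp only [lam, map_mul, map_zpow, Wr.mul_perm, Psi_A_zpow_perm]
    simp [mul_assoc]
  · simp only [lam, map_mul, map_zpow, Wr.mul_perm, Wr.mul_lab, Psi_A_zpow_perm, hc', neg_neg]
    have e1 : g.2.2 * of k ^ n * of k ^ (-n) = g.2.2 := by simp [mul_assoc]
    have e2 : g.2.1 * of i ^ (-n) * of j ^ n * of j ^ (-n) = g.2.1 * of i ^ (-n) := by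
      simp [mul_assoc]
    have e3 : g.2.2 * of l ^ n * of l ^ (-n) = g.2.2 := by simp [mul_assoc]
    have e4 : g.2.1 * of i ^ (-n) * of i ^ n = g.2.1 := by simp [mul_assoc]
    rw [e1, e2, e3, e4]
    group

/-- all labels of the scaled loops at scale `-m` lie in `V` -/
theorem Psi_lam_mem (V : Subgroup W) (m : ℕ)
    (hV : ∀ ν, ch ν + 1 ≤ m → ∀ i k, D.gm ν i k ∈ V) (i j k l : Fin 4) :
    D.Psi (lam EE.x EE.y i j k l (-(m : ℤ))) ∈ Wr.labIn Pt V := by
  refine ⟨fun g => (D.Psi_lam i j k l _ g).1, fun g => ?_⟩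
  rw [(D.Psi_lam i j k l _ g).2]
  obtain ⟨ν, p, q⟩ := g
  simp only [neg_neg]
  have ht : tot (ν, p * of i ^ (m : ℤ) * of j ^ (-(m : ℤ)), q) = tot (ν, p, q) := by
    simp only [tot, ch_mul, ch_zpow, ch_of]; ring
  simp only [pot, ht]
  by_cases hg : tot (ν, p, q) = -3 ∧ q = 1
  swap
  · simp only [if_neg hg]
    simp [V.one_mem]
  simp only [if_pos hg]
  obtain ⟨hg, rfl⟩ := hg
  simp only [tot, ch_one] at hg
  by_cases hν : ch ν < -1
  · simp only [D.triv ν hν]
    simp [V.one_mem]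
  have hp1 : p ≠ 1 := by
    rintro rfl
    rw [ch_one] at hg
    omega
  by_cases hp2 : p * of i ^ (m : ℤ) = 1
  · have hcp : ch p = -m := by
      have : ch (p * of i ^ (m : ℤ)) = 0 := by rw [hp2, ch_one]
      rw [ch_mul, ch_zpow, ch_of] at this
      omega
    have h := hV ν (by omega)
    exact V.mul_mem (V.mul_mem (V.mul_mem (h _ _) (V.inv_mem (h _ _))) (h _ _))
      (V.inv_mem (h _ _))
  · have hb1 : bt (p * of i ^ (m : ℤ)) = bt p := bt_mul_zpow hp1 hp2
    have hp3 : p * of i ^ (m : ℤ) * of j ^ (-(m : ℤ)) ≠ 1 := by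
      intro h
      have : ch (p * of i ^ (m : ℤ) * of j ^ (-(m : ℤ))) = 0 := by rw [h, ch_one]
      simp only [ch_mul, ch_zpow, ch_of] at this
      omega
    have hb2 := bt_mul_zpow (i := j) (n := -(m : ℤ)) hp2 hp3
    rw [hb2, hb1]
    simp [V.one_mem]

/-- the label of `p0` at a special point -/
theorem Psi_p0 : (D.Psi p0).lab ((of 7)⁻¹, (of 0) ^ (-2 : ℤ), 1) =
    D.gm (of 7)⁻¹ 0 1 * (D.gm (of 7)⁻¹ 1 1)⁻¹ * D.gm (of 7)⁻¹ 1 2 * (D.gm (of 7)⁻¹ 0 2)⁻¹ := by
  rw [p0, (D.Psi_lam 0 1 1 2 (-2) _).2]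
  have e1 : (of 0 : F4) ^ (-2 : ℤ) * of 0 ^ (-(-2) : ℤ) * of 1 ^ (-2 : ℤ) = of 1 ^ (-2 : ℤ) := by
    rw [← zpow_add]; simp
  have h1 : tot ((of 7 : FL)⁻¹, (of 0 : F4) ^ (-2 : ℤ), (1 : F4)) = -3 := by
    simp only [tot, ch_inv, ch_of, ch_zpow, ch_one]; norm_num
  have h2 : tot ((of 7 : FL)⁻¹, (of 1 : F4) ^ (-2 : ℤ), (1 : F4)) = -3 := by
    simp only [tot, ch_inv, ch_of, ch_zpow, ch_one]; norm_num
  simp only [pot, e1, h1, h2, true_and, if_true]
  rw [bt_zpow (by norm_num), bt_zpow (by norm_num)]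

end NodeData

/-- detection from a tower of groups -/
theorem detection_of_tower (m : ℕ) {W : Type} [Group W] (V : Subgroup W) [V.Normal] (c : ℕ)
    (w : List Bool → W) (hc : gam V c = ⊥)
    (hw : ∀ ν, w ν = (w (ν ++ [false]))⁻¹ * w (ν ++ [true]) * w (ν ++ [false]) *
      (w (ν ++ [true]))⁻¹)
    (hV : ∀ ν : List Bool, ν.length ≤ m → w ν ∈ V) (h0 : w [] ≠ 1) :
    ∃ k, p0 ∉ gam (PP m) k := by
  have hch : ∀ ν : FL, (chiL ν).toAdd = ch ν := fun ν => rfl
  obtain ⟨D, hD⟩ := NodeData.exists (gm w) (gm_zero_left w) (gm_zero_right w)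
    (fun ν h i k => gm_eq_one_of_chi w h i k) (fun ν α => block_gauge w hw ν α)
  refine ⟨c, fun hp => ?_⟩
  have hPP : (PP m).map D.Psi ≤ Wr.labIn Pt V := by
    rw [Subgroup.map_le_iff_le_comap]
    refine Subgroup.normalClosure_le_normal ?_
    have h := D.Psi_lam_mem V m (fun ν hν i k => by
      rw [hD]; exact gm_mem w hV hν i k)
    rintro _ (rfl | rfl)
    · exact h 0 1 1 2
    · exact h 1 2 0 1
  have h1 : D.Psi p0 ∈ Wr.labIn Pt (⊥ : Subgroup W) := by
    rw [← hc]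
    refine Wr.gam_labIn_le V c (Tower.gam_mono hPP c ?_)
    rw [← Tower.gam_map]
    exact ⟨p0, hp, rfl⟩
  have h2 := (Wr.mem_labIn.1 h1).2 ((of 7)⁻¹, (of 0) ^ (-2 : ℤ), 1)
  rw [Subgroup.mem_bot, D.Psi_p0, hD, hol_a w hw] at h2
  rw [inv_mul_cancel, theta_one] at h2
  apply h0
  have h3 : theta w ((of 7)⁻¹ * of 8) * (w [])⁻¹ = theta w ((of 7)⁻¹ * of 8) := by
    rwa [mul_inv_eq_one] at h2
  simpa using h3

end Det

end Crest.Agent.R197
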