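import Crest.Agent.R197.Wr
import Crest.Agent.R197.DetBeta

/-!
# Row 197, module B4: the detection homomorphism `Psi : E → Wr Pt W`.

`E` acts from the right on the points `(ν, p, q)`; the labels are the ones of the blueprint (B3).
-/

set_option autoImplicit false

namespace Crest.Agent.R197.Det

open FreeGroup (of)
open Beta

abbrev F4 := FreeGroup (Fin 4)
abbrev FL := FreeGroup Ltr
/-- the points of the connection -/
abbrev Pt := FL × F4 × F4

/-- relabelling of the letters -/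
abbrev cg (σ : Equiv.Perm (Fin 4)) : F4 →* F4 := FreeGroup.map σ

theorem cg_of (σ : Equiv.Perm (Fin 4)) (i : Fin 4) : cg σ (of i) = of (σ i) := by simp

theorem cg_cg {σ : Equiv.Perm (Fin 4)} (h : ∀ i, σ (σ i) = i) (p : F4) : cg σ (cg σ p) = p := by
  have : (cg σ).comp (cg σ) = MonoidHom.id F4 := by
    ext i; simp [h]
  exact DFunLike.congr_fun this p

/-- the sum of the exponents of a point -/
def tot (g : Pt) : ℤ := ch g.1 + ch g.2.1 + ch g.2.2

def px (i : Fin 4) : Equiv.Perm Pt where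
  toFun g := (g.1, g.2.1 * (of i * (of 0)⁻¹), g.2.2)
  invFun g := (g.1, g.2.1 * (of 0 * (of i)⁻¹), g.2.2)
  left_inv g := by simp [mul_assoc]
  right_inv g := by simp [mul_assoc]

def py (k : Fin 4) : Equiv.Perm Pt where
  toFun g := (g.1, g.2.1 * (of 0)⁻¹, g.2.2 * of k)
  invFun g := (g.1, g.2.1 * of 0, g.2.2 * (of k)⁻¹)
  left_inv g := by simp [mul_assoc]
  right_inv g := by simp [mul_assoc]

def pr (α : Ltr) : Equiv.Perm Pt where
  toFun g := (g.1 * of α, cg (pX α) g.2.1 * (of 0)⁻¹, cg (pY α) g.2.2)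
  invFun g := (g.1 * (of α)⁻¹, cg (pX α) (g.2.1 * of 0), cg (pY α) g.2.2)
  left_inv g := by
    simp only [inv_mul_cancel_right, mul_inv_cancel_right, cg_cg (pX_pX α), cg_cg (pY_pY α)]
  right_inv g := by
    simp only [inv_mul_cancel_right, mul_inv_cancel_right, cg_cg (pX_pX α), cg_cg (pY_pY α)]

@[simp] theorem px_apply (i : Fin 4) (g : Pt) :
    px i g = (g.1, g.2.1 * (of i * (of 0)⁻¹), g.2.2) := rfl
@[simp] theorem px_symm_apply (i : Fin 4) (g : Pt) :
    (px i).symm g = (g.1, g.2.1 * (of 0 * (of i)⁻¹), g.2.2) := rfl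
@[simp] theorem py_apply (k : Fin 4) (g : Pt) :
    py k g = (g.1, g.2.1 * (of 0)⁻¹, g.2.2 * of k) := rfl
@[simp] theorem py_symm_apply (k : Fin 4) (g : Pt) :
    (py k).symm g = (g.1, g.2.1 * of 0, g.2.2 * (of k)⁻¹) := rfl
@[simp] theorem pr_apply (α : Ltr) (g : Pt) :
    pr α g = (g.1 * of α, cg (pX α) g.2.1 * (of 0)⁻¹, cg (pY α) g.2.2) := rfl

theorem tot_px (i : Fin 4) (g : Pt) : tot (px i g) = tot g := by
  simp [tot]
theorem tot_py (k : Fin 4) (g : Pt) : tot (py k g) = tot g := by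
  simp only [tot, py_apply, ch_mul, ch_inv, ch_of]; ring
theorem tot_pr (α : Ltr) (g : Pt) : tot (pr α g) = tot g := by
  simp only [tot, pr_apply, ch_mul, ch_inv, ch_of, ch_map]; ring
theorem tot_px_symm (i : Fin 4) (g : Pt) : tot ((px i).symm g) = tot g := by
  simp [tot]
theorem tot_py_symm (k : Fin 4) (g : Pt) : tot ((py k).symm g) = tot g := by
  simp only [tot, py_symm_apply, ch_mul, ch_inv, ch_of]; ring

/-- Node matrices with block gauges. -/
structure NodeData (W : Type) [Group W] where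
  gm : FL → Fin 4 → Fin 4 → W
  U : FL → Ltr → Fin 4 → W
  V : FL → Ltr → Fin 4 → W
  gm_zero : ∀ ν k, gm ν 0 k = 1
  gm_zero' : ∀ ν i, gm ν i 0 = 1
  triv : ∀ ν, ch ν < -1 → ∀ i k, gm ν i k = 1
  gauge : ∀ ν α i k, inX α i → inY α k →
    (U ν α i)⁻¹ * gm ν i k * V ν α k = gm (ν * of α) (pX α i) (pY α k)
  trivU : ∀ ν α, ch ν < -2 → ∀ i, U ν α i = 1
  trivV : ∀ ν α, ch ν < -2 → ∀ k, V ν α k = 1

/-- constructor from existential gauges -/
theorem NodeData.exists {W : Type} [Group W] (gm : FL → Fin 4 → Fin 4 → W)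
    (gm_zero : ∀ ν k, gm ν 0 k = 1) (gm_zero' : ∀ ν i, gm ν i 0 = 1)
    (triv : ∀ ν, ch ν < -1 → ∀ i k, gm ν i k = 1)
    (gauge : ∀ ν α, ∃ U V : Fin 4 → W, ∀ i k, inX α i → inY α k →
      (U i)⁻¹ * gm ν i k * V k = gm (ν * of α) (pX α i) (pY α k)) :
    ∃ D : NodeData W, D.gm = gm := by
  have h : ∀ ν α, ∃ U V : Fin 4 → W, (∀ i k, inX α i → inY α k →
      (U i)⁻¹ * gm ν i k * V k = gm (ν * of α) (pX α i) (pY α k)) ∧
      (ch ν < -2 → (∀ i, U i = 1) ∧ ∀ k, V k = 1) := by
    intro ν α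
    by_cases hν : ch ν < -2
    · refine ⟨1, 1, fun i k _ _ => ?_, fun _ => ⟨fun _ => rfl, fun _ => rfl⟩⟩
      rw [triv ν (by omega), triv (ν * of α) (by rw [ch_mul, ch_of]; omega)]
      simp
    · obtain ⟨U, V, hUV⟩ := gauge ν α
      exact ⟨U, V, hUV, fun h => absurd h hν⟩
  choose U V h1 h2 using h
  exact ⟨⟨gm, U, V, gm_zero, gm_zero', triv, h1, fun ν α hν => (h2 ν α hν).1,
    fun ν α hν => (h2 ν α hν).2⟩, rfl⟩

namespace NodeData

variable {W : Type} [Group W] (D : NodeData W)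

/-- the frame function -/
def f (ν : FL) (p q : F4) : W := D.gm ν (bt p) (bt q)

open Classical in
/-- the label of `r_α` (without the layer test) -/
noncomputable def F (ν : FL) (α : Ltr) (p q : F4) : W :=
  if p ∈ subX α then
    (if q ∈ subY α then
      (if q = 1 then (if p = 1 then 1 else D.U ν α (bt p)) else D.V ν α (bt q))
    else 1)
  else (D.f ν p q)⁻¹ * D.f (ν * of α) (cg (pX α) p) (cg (pY α) q)

theorem f_one_left (ν : FL) (q : F4) : D.f ν 1 q = 1 := by
  simp [f, D.gm_zero]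
theorem f_one_right (ν : FL) (p : F4) : D.f ν p 1 = 1 := by
  simp [f, D.gm_zero']

theorem F_of_notMem {ν : FL} {α : Ltr} {p q : F4} (hp : p ∉ subX α) :
    D.F ν α p q = (D.f ν p q)⁻¹ * D.f (ν * of α) (cg (pX α) p) (cg (pY α) q) := by
  rw [F, if_neg hp]
theorem F_of_notMem' {ν : FL} {α : Ltr} {p q : F4} (hp : p ∈ subX α) (hq : q ∉ subY α) :
    D.F ν α p q = 1 := by
  rw [F, if_pos hp, if_neg hq]
theorem F_of_ne {ν : FL} {α : Ltr} {p q : F4} (hp : p ∈ subX α) (hq : q ∈ subY α) (h : q ≠ 1) :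
    D.F ν α p q = D.V ν α (bt q) := by
  rw [F, if_pos hp, if_pos hq, if_neg h]
theorem F_one {ν : FL} {α : Ltr} {p : F4} (hp : p ∈ subX α) (h : p ≠ 1) :
    D.F ν α p 1 = D.U ν α (bt p) := by
  rw [F, if_pos hp, if_pos (Subgroup.one_mem _), if_pos rfl, if_neg h]
theorem F_one_one {ν : FL} {α : Ltr} : D.F ν α 1 1 = 1 := by
  rw [F, if_pos (Subgroup.one_mem _), if_pos (Subgroup.one_mem _), if_pos rfl, if_pos rfl]

/-- the hexagon relation on the level of labels -/
theorem hexlab (ν : FL) (α : Ltr) (p q : F4) (i k : Fin 4) (hi : inX α i) (hk : inY α k)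
    (hlay : ch ν + ch p + ch q = -3) :
    (D.f ν p q)⁻¹ * D.f ν p (q * of k) * D.F ν α (p * (of i)⁻¹) (q * of k) =
      D.F ν α p q * ((D.f (ν * of α) (cg (pX α) p * (of (pX α i))⁻¹) (cg (pY α) q))⁻¹ *
        D.f (ν * of α) (cg (pX α) p * (of (pX α i))⁻¹) (cg (pY α) q * of (pY α k))) := by
  have hcp : cg (pX α) p * (of (pX α i))⁻¹ = cg (pX α) (p * (of i)⁻¹) := by
    rw [map_mul, map_inv, cg_of]
  have hcq : cg (pY α) q * of (pY α k) = cg (pY α) (q * of k) := by
    rw [map_mul, cg_of]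
  rw [hcp, hcq]
  have hpX : p * (of i)⁻¹ ∈ subX α ↔ p ∈ subX α :=
    Subgroup.mul_mem_cancel_right _ (Subgroup.inv_mem _ (of_mem_subX hi))
  have hqY : q * of k ∈ subY α ↔ q ∈ subY α :=
    Subgroup.mul_mem_cancel_right _ (of_mem_subY hk)
  by_cases hp : p ∈ subX α
  swap
  · -- case 1
    have hp' : p * (of i)⁻¹ ∉ subX α := fun h => hp (hpX.1 h)
    have hp1 : p ≠ 1 := fun h => hp (h ▸ Subgroup.one_mem _)
    have hp1' : p * (of i)⁻¹ ≠ 1 := fun h => hp' (h ▸ Subgroup.one_mem _)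
    have hb : bt (p * (of i)⁻¹) = bt p := bt_mul_of_inv i hp1 hp1'
    have hb' : bt (cg (pX α) (p * (of i)⁻¹)) = bt (cg (pX α) p) := by
      rw [bt_map _ hp1, bt_map _ hp1', hb]
    rw [D.F_of_notMem hp, D.F_of_notMem hp']
    simp only [f, hb, hb']
    group
  have hp' : p * (of i)⁻¹ ∈ subX α := hpX.2 hp
  by_cases hq : q ∈ subY α
  swap
  · -- case 2
    have hq' : q * of k ∉ subY α := fun h => hq (hqY.1 h)
    have hq1 : q ≠ 1 := fun h => hq (h ▸ Subgroup.one_mem _)
    have hq1' : q * of k ≠ 1 := fun h => hq' (h ▸ Subgroup.one_mem _)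
    have hb : bt (q * of k) = bt q := bt_mul_of k hq1 hq1'
    have hb' : bt (cg (pY α) (q * of k)) = bt (cg (pY α) q) := by
      rw [bt_map _ hq1, bt_map _ hq1', hb]
    rw [D.F_of_notMem' hp hq, D.F_of_notMem' hp' hq']
    simp only [f, hb, hb']
    group
  have hq' : q * of k ∈ subY α := hqY.2 hq
  -- case 3
  by_cases hq1 : q = 1
  · subst hq1
    rw [ch_one] at hlay
    rw [map_one, one_mul, f_one_right, f_one_right, D.F_of_ne hp' (of_mem_subY hk)
      (FreeGroup.of_ne_one k), bt_of, cg_of]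
    simp only [f, bt_of]
    by_cases hp1 : p = 1
    · subst hp1
      rw [ch_one] at hlay
      rw [D.F_one_one, D.trivV ν α (by omega) k, D.triv ν (by omega),
        D.triv (ν * of α) (by rw [ch_mul, ch_of]; omega)]
      simp
    · by_cases hp2 : p * (of i)⁻¹ = 1
      · have hpi : p = of i := by rwa [mul_inv_eq_one] at hp2
        subst hpi
        rw [ch_of] at hlay
        rw [D.F_one hp hp1, D.trivU ν α (by omega), D.trivV ν α (by omega) k,
          D.triv ν (by omega), D.triv (ν * of α) (by rw [ch_mul, ch_of]; omega)]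
        simp
      · have hb : bt (p * (of i)⁻¹) = bt p := bt_mul_of_inv i hp1 hp2
        have hX := inX_bt hp hp1
        have hg := D.gauge ν α (bt p) k hX hk
        rw [D.F_one hp hp1, bt_map _ hp2, hb, ← hg]
        group
  · by_cases hq2 : q * of k = 1
    · have hqk : q = (of k)⁻¹ := eq_inv_of_mul_eq_one_left hq2
      have hbq : bt q = k := by rw [hqk, bt_of_inv]
      have hbq' : bt (cg (pY α) q) = pY α k := by rw [bt_map _ hq1, hbq]
      have hcq1 : ch q = -1 := by rw [hqk, ch_inv, ch_of]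
      rw [hq2, map_one, f_one_right, f_one_right, D.F_of_ne hp hq hq1]
      simp only [f, hbq, hbq', mul_one]
      by_cases hp2 : p * (of i)⁻¹ = 1
      · have hpi : p = of i := by rwa [mul_inv_eq_one] at hp2
        subst hpi
        rw [ch_of] at hlay
        rw [hp2, D.F_one_one, D.trivV ν α (by omega) k,
          D.triv ν (by omega), D.triv (ν * of α) (by rw [ch_mul, ch_of]; omega)]
        simp
      · rw [D.F_one hp' hp2]
        by_cases hp1 : p = 1
        · subst hp1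
          rw [ch_one] at hlay
          have h3 := D.triv ν (by omega)
          have hg := D.gauge ν α i k hi hk
          rw [h3] at hg
          have e3 : bt ((1 : F4) * (of i)⁻¹) = i := by rw [one_mul, bt_of_inv]
          rw [bt_map _ hp2, e3, ← hg, h3]
          group
        · have hb : bt (p * (of i)⁻¹) = bt p := bt_mul_of_inv i hp1 hp2
          have hX := inX_bt hp hp1
          have hg := D.gauge ν α (bt p) k hX hk
          rw [bt_map _ hp2, hb, ← hg]
          group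
    · have hb : bt (q * of k) = bt q := bt_mul_of k hq1 hq2
      have hb' : bt (cg (pY α) (q * of k)) = bt (cg (pY α) q) := by
        rw [bt_map _ hq1, bt_map _ hq2, hb]
      rw [D.F_of_ne hp hq hq1, D.F_of_ne hp' hq' hq2]
      simp only [f, hb, hb']
      group

/-- the image of `x_i` -/
def gx (_D : NodeData W) (i : Fin 4) : Wr Pt W := ⟨px i, fun _ => 1⟩
/-- the image of `y_k` -/
def gy (k : Fin 4) : Wr Pt W :=
  ⟨py k, fun g => if tot g = -3 then (D.f g.1 g.2.1 g.2.2)⁻¹ * D.f g.1 g.2.1 (g.2.2 * of k) else 1⟩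
/-- the image of `r_α` -/
noncomputable def gr (α : Ltr) : Wr Pt W :=
  ⟨pr α, fun g => if tot g = -3 then D.F g.1 α g.2.1 g.2.2 else 1⟩

@[simp] theorem gx_perm (i : Fin 4) : (D.gx i).perm = px i := rfl
@[simp] theorem gx_lab (i : Fin 4) (g : Pt) : (D.gx i).lab g = 1 := rfl
@[simp] theorem gy_perm (k : Fin 4) : (D.gy k).perm = py k := rfl
theorem gy_lab (k : Fin 4) (g : Pt) : (D.gy k).lab g =
    if tot g = -3 then (D.f g.1 g.2.1 g.2.2)⁻¹ * D.f g.1 g.2.1 (g.2.2 * of k) else 1 := rfl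
@[simp] theorem gr_perm (α : Ltr) : (D.gr α).perm = pr α := rfl
theorem gr_lab (α : Ltr) (g : Pt) : (D.gr α).lab g =
    if tot g = -3 then D.F g.1 α g.2.1 g.2.2 else 1 := rfl

theorem relE : RelE D.gx D.gy D.gr where
  x0 := by
    apply Wr.ext
    · ext g : 1
      simp only [gx_perm, px_apply, mul_inv_cancel, mul_one, Wr.one_perm]
    · rfl
  hex := by
    intro α i k hi hk
    have e1 : ∀ g : Pt, (px i).symm (py k g) = (g.1, g.2.1 * (of i)⁻¹, g.2.2 * of k) := by
      intro g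
      simp [mul_assoc]
    have e2 : ∀ g : Pt, (px (pX α i)).symm (pr α g) =
        (g.1 * of α, cg (pX α) g.2.1 * (of (pX α i))⁻¹, cg (pY α) g.2.2) := by
      intro g
      simp [mul_assoc]
    apply Wr.ext
    · ext g : 1
      simp only [Aw, Bw, Wr.mul_perm, Wr.inv_perm, gx_perm, gy_perm, gr_perm, e1, e2]
      simp only [pr_apply, py_apply, map_mul, map_inv, cg_of]
    · funext g
      simp only [Aw, Bw, Wr.mul_lab, Wr.mul_perm, Wr.inv_perm, Wr.inv_lab, gx_lab, gx_perm,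
        gy_perm, gr_perm, e1, e2, gy_lab, gr_lab, inv_one, mul_one, one_mul]
      have t1 : tot (g.1, g.2.1 * (of i)⁻¹, g.2.2 * of k) = tot g := by
        rw [← e1, tot_px_symm, tot_py]
      have t2 : tot (g.1 * of α, cg (pX α) g.2.1 * (of (pX α i))⁻¹, cg (pY α) g.2.2) = tot g := by
        rw [← e2, tot_px_symm, tot_pr]
      rw [t1, t2]
      by_cases hg : tot g = -3
      · simp only [if_pos hg]
        exact D.hexlab g.1 α g.2.1 g.2.2 i k hi hk hg
      · simp only [if_neg hg, mul_one]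

/-- **The detection homomorphism.** -/
noncomputable def Psi : EE →* Wr Pt W := EE.lift D.relE

@[simp] theorem Psi_x (i : Fin 4) : D.Psi (EE.x i) = D.gx i := EE.lift_x _ i
@[simp] theorem Psi_y (k : Fin 4) : D.Psi (EE.y k) = D.gy k := EE.lift_y _ k
@[simp] theorem Psi_r (α : Ltr) : D.Psi (EE.r α) = D.gr α := EE.lift_r _ α

/-- the permutation of `A_ik` -/
theorem Psi_A_perm (i k : Fin 4) (g : Pt) :
    (D.Psi (Aw EE.x EE.y i k)).perm g = (g.1, g.2.1 * (of i)⁻¹, g.2.2 * of k) := by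
  simp [Aw, mul_assoc]

theorem Psi_A_lab (i k : Fin 4) (g : Pt) :
    (D.Psi (Aw EE.x EE.y i k)).lab g =
      if tot g = -3 then (D.f g.1 g.2.1 g.2.2)⁻¹ * D.f g.1 g.2.1 (g.2.2 * of k) else 1 := by
  simp [Aw, gy_lab]

end NodeData

end Crest.Agent.R197.Det
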