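import Mathlib

/-!
# Row 197, module B1b

A group in which every element is a commutator `s⁻¹ t s t⁻¹` and which contains an element of
infinite order: the unit quaternions (written out by components).
-/

set_option autoImplicit false

namespace Crest.Agent.R197

namespace DetS

/-- the unit quaternions -/
@[ext]
structure SQ : Type where
  a : ℝ
  b : ℝ
  c : ℝ
  d : ℝ
  h : a ^ 2 + b ^ 2 + c ^ 2 + d ^ 2 = 1

namespace SQ

noncomputable instance : Mul SQ where
  mul p q :=
    { a := p.a * q.a - p.b * q.b - p.c * q.c - p.d * q.d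
      b := p.a * q.b + p.b * q.a + p.c * q.d - p.d * q.c
      c := p.a * q.c - p.b * q.d + p.c * q.a + p.d * q.b
      d := p.a * q.d + p.b * q.c - p.c * q.b + p.d * q.a
      h := by
        have h1 := p.h
        have h2 := q.h
        have : (p.a * q.a - p.b * q.b - p.c * q.c - p.d * q.d) ^ 2 +
            (p.a * q.b + p.b * q.a + p.c * q.d - p.d * q.c) ^ 2 +
            (p.a * q.c - p.b * q.d + p.c * q.a + p.d * q.b) ^ 2 +
            (p.a * q.d + p.b * q.c - p.c * q.b + p.d * q.a) ^ 2 =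
            (p.a ^ 2 + p.b ^ 2 + p.c ^ 2 + p.d ^ 2) * (q.a ^ 2 + q.b ^ 2 + q.c ^ 2 + q.d ^ 2) := by
          ring
        rw [this, h1, h2, one_mul] }

noncomputable instance : One SQ where
  one := { a := 1, b := 0, c := 0, d := 0, h := by norm_num }

noncomputable instance : Inv SQ where
  inv p := { a := p.a, b := -p.b, c := -p.c, d := -p.d, h := by have := p.h; nlinarith }

@[simp] theorem mul_a (p q : SQ) : (p * q).a = p.a * q.a - p.b * q.b - p.c * q.c - p.d * q.d := rfl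
@[simp] theorem mul_b (p q : SQ) : (p * q).b = p.a * q.b + p.b * q.a + p.c * q.d - p.d * q.c := rfl
@[simp] theorem mul_c (p q : SQ) : (p * q).c = p.a * q.c - p.b * q.d + p.c * q.a + p.d * q.b := rfl
@[simp] theorem mul_d (p q : SQ) : (p * q).d = p.a * q.d + p.b * q.c - p.c * q.b + p.d * q.a := rfl
@[simp] theorem one_a : (1 : SQ).a = 1 := rfl
@[simp] theorem one_b : (1 : SQ).b = 0 := rfl
@[simp] theorem one_c : (1 : SQ).c = 0 := rfl
@[simp] theorem one_d : (1 : SQ).d = 0 := rfl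
@[simp] theorem inv_a (p : SQ) : (p⁻¹).a = p.a := rfl
@[simp] theorem inv_b (p : SQ) : (p⁻¹).b = -p.b := rfl
@[simp] theorem inv_c (p : SQ) : (p⁻¹).c = -p.c := rfl
@[simp] theorem inv_d (p : SQ) : (p⁻¹).d = -p.d := rfl

noncomputable instance : Group SQ :=
  Group.ofLeftAxioms
    (fun p q r => by ext <;> simp <;> ring)
    (fun p => by ext <;> simp)
    (fun p => by
      have := p.h
      ext
      · simp; nlinarith
      · simp; ring
      · simp; ring
      · simp; ring)

/-- every unit quaternion has a square root -/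
theorem exists_sqrt (q : SQ) : ∃ w : SQ, q = w * w := by
  by_cases h0 : q.a = -1
  · have hb : q.b = 0 := by have := q.h; nlinarith [sq_nonneg q.b, sq_nonneg q.c, sq_nonneg q.d]
    have hc : q.c = 0 := by have := q.h; nlinarith [sq_nonneg q.b, sq_nonneg q.c, sq_nonneg q.d]
    have hd : q.d = 0 := by have := q.h; nlinarith [sq_nonneg q.b, sq_nonneg q.c, sq_nonneg q.d]
    refine ⟨⟨0, 1, 0, 0, by norm_num⟩, ?_⟩
    ext <;> simp [h0, hb, hc, hd]
  · have hq := q.h
    have ha : -1 < q.a := by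
      rcases lt_or_gt_of_ne h0 with h | h
      · exfalso; nlinarith [sq_nonneg q.b, sq_nonneg q.c, sq_nonneg q.d]
      · exact h
    have hpos : 0 < 2 + 2 * q.a := by linarith
    set r : ℝ := Real.sqrt (2 + 2 * q.a) with hr
    have hr0 : 0 < r := Real.sqrt_pos.mpr hpos
    have hr2 : r ^ 2 = 2 + 2 * q.a := Real.sq_sqrt hpos.le
    have hrne : r ≠ 0 := hr0.ne'
    have hbcd : q.b ^ 2 + q.c ^ 2 + q.d ^ 2 = 1 - q.a ^ 2 := by linarith
    refine ⟨⟨(1 + q.a) / r, q.b / r, q.c / r, q.d / r, ?_⟩, ?_⟩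
    · have : ((1 + q.a) / r) ^ 2 + (q.b / r) ^ 2 + (q.c / r) ^ 2 + (q.d / r) ^ 2 =
          ((1 + q.a) ^ 2 + (q.b ^ 2 + q.c ^ 2 + q.d ^ 2)) / r ^ 2 := by
        field_simp; ring
      rw [this, hbcd, hr2, div_eq_one_iff_eq hpos.ne']
      ring
    · ext
      · simp only [mul_a]
        have : (1 + q.a) / r * ((1 + q.a) / r) - q.b / r * (q.b / r) - q.c / r * (q.c / r) -
            q.d / r * (q.d / r) = ((1 + q.a) ^ 2 - (q.b ^ 2 + q.c ^ 2 + q.d ^ 2)) / r ^ 2 := by
          field_simp; ring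
        rw [this, hbcd, hr2, eq_div_iff hpos.ne']
        ring
      · simp only [mul_b]
        have : (1 + q.a) / r * (q.b / r) + q.b / r * ((1 + q.a) / r) + q.c / r * (q.d / r) -
            q.d / r * (q.c / r) = (q.b * (2 + 2 * q.a)) / r ^ 2 := by
          field_simp; ring
        rw [this, hr2, mul_div_assoc, div_self hpos.ne', mul_one]
      · simp only [mul_c]
        have : (1 + q.a) / r * (q.c / r) - q.b / r * (q.d / r) + q.c / r * ((1 + q.a) / r) +
            q.d / r * (q.b / r) = (q.c * (2 + 2 * q.a)) / r ^ 2 := by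
          field_simp; ring
        rw [this, hr2, mul_div_assoc, div_self hpos.ne', mul_one]
      · simp only [mul_d]
        have : (1 + q.a) / r * (q.d / r) + q.b / r * (q.c / r) - q.c / r * (q.b / r) +
            q.d / r * ((1 + q.a) / r) = (q.d * (2 + 2 * q.a)) / r ^ 2 := by
          field_simp; ring
        rw [this, hr2, mul_div_assoc, div_self hpos.ne', mul_one]

/-- for every unit quaternion there is a unit imaginary quaternion orthogonal to it -/
theorem exists_orth (w : SQ) :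
    ∃ t : SQ, t.a = 0 ∧ t.b * w.b + t.c * w.c + t.d * w.d = 0 := by
  by_cases h0 : w.b ^ 2 + w.c ^ 2 = 0
  · have hb : w.b = 0 := by nlinarith [sq_nonneg w.b, sq_nonneg w.c]
    have hc : w.c = 0 := by nlinarith [sq_nonneg w.b, sq_nonneg w.c]
    exact ⟨⟨0, 1, 0, 0, by norm_num⟩, rfl, by simp [hb]⟩
  · have hpos : 0 < w.b ^ 2 + w.c ^ 2 :=
      lt_of_le_of_ne (by positivity) (Ne.symm h0)
    set r : ℝ := Real.sqrt (w.b ^ 2 + w.c ^ 2) with hr
    have hr0 : 0 < r := Real.sqrt_pos.mpr hpos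
    have hr2 : r ^ 2 = w.b ^ 2 + w.c ^ 2 := Real.sq_sqrt hpos.le
    have hrne : r ≠ 0 := hr0.ne'
    refine ⟨⟨0, w.c / r, -w.b / r, 0, ?_⟩, rfl, ?_⟩
    · have : (0:ℝ) ^ 2 + (w.c / r) ^ 2 + (-w.b / r) ^ 2 + 0 ^ 2 = (w.b ^ 2 + w.c ^ 2) / r ^ 2 := by
        field_simp; ring
      rw [this, hr2, div_self hpos.ne']
    · simp only
      field_simp
      ring

theorem exists_comm (q : SQ) : ∃ s t : SQ, q = s⁻¹ * t * s * t⁻¹ := by
  obtain ⟨w, hw⟩ := exists_sqrt q
  obtain ⟨t, ht0, ht⟩ := exists_orth w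
  have key : t * w⁻¹ = w * t := by
    ext
    · simp only [mul_a, inv_a, inv_b, inv_c, inv_d, ht0]; linarith
    · simp only [mul_b, inv_a, inv_b, inv_c, inv_d, ht0]; ring
    · simp only [mul_c, inv_a, inv_b, inv_c, inv_d, ht0]; ring
    · simp only [mul_d, inv_a, inv_b, inv_c, inv_d, ht0]; ring
  refine ⟨w⁻¹, t, ?_⟩
  rw [inv_inv, mul_assoc w t, key, hw]
  group

/-- the element `(3 + 4 i) / 5` -/
noncomputable def tau : SQ := ⟨3 / 5, 4 / 5, 0, 0, by norm_num⟩

theorem tau_pow (n : ℕ) : ∃ u v : ℤ, (tau ^ (n + 1)).a = u / 5 ^ (n + 1) ∧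
    (tau ^ (n + 1)).b = v / 5 ^ (n + 1) ∧ (tau ^ (n + 1)).c = 0 ∧ (tau ^ (n + 1)).d = 0 ∧
    u % 5 = 3 ∧ v % 5 = 4 := by
  induction n with
  | zero => exact ⟨3, 4, by simp [tau], by simp [tau], by simp [tau], by simp [tau], by norm_num,
      by norm_num⟩
  | succ n ih =>
    obtain ⟨u, v, hu, hv, hc, hd, hu5, hv5⟩ := ih
    refine ⟨3 * u - 4 * v, 4 * u + 3 * v, ?_, ?_, ?_, ?_, ?_, ?_⟩
    · rw [pow_succ, mul_a, hu, hv, hc, hd]
      simp only [tau]
      push_cast
      field_simp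
      ring
    · rw [pow_succ, mul_b, hu, hv, hc, hd]
      simp only [tau]
      push_cast
      field_simp
      ring
    · rw [pow_succ, mul_c, hu, hv, hc, hd]
      simp [tau]
    · rw [pow_succ, mul_d, hu, hv, hc, hd]
      simp [tau]
    · omega
    · omega

theorem tau_pow_ne (n : ℕ) : tau ^ (n + 1) ≠ 1 := by
  intro h
  obtain ⟨u, v, -, hv, -, -, -, hv5⟩ := tau_pow n
  rw [h, one_b] at hv
  have h5 : (5 : ℝ) ^ (n + 1) ≠ 0 := by positivity
  have : (v : ℝ) = 0 := by
    rcases (div_eq_zero_iff.mp hv.symm) with h | h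
    · exact h
    · exact absurd h h5
  have : v = 0 := by exact_mod_cast this
  omega

theorem tau_zpow (n : ℤ) (h : tau ^ n = 1) : n = 0 := by
  by_contra hn
  have h2 : tau ^ n.natAbs = 1 := by
    rcases Int.natAbs_eq n with h3 | h3
    · rw [h3, zpow_natCast] at h; exact h
    · rw [h3, zpow_neg, zpow_natCast, inv_eq_one] at h; exact h
  obtain ⟨m, hm⟩ : ∃ m, n.natAbs = m + 1 := ⟨n.natAbs - 1, by omega⟩
  rw [hm] at h2
  exact tau_pow_ne m h2

end SQ

/-- **Module B1b**. -/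
theorem exists_group :
    ∃ (S : Type) (_ : Group S), (∀ q : S, ∃ s t : S, q = s⁻¹ * t * s * t⁻¹) ∧
      ∃ τ : S, ∀ n : ℤ, τ ^ n = 1 → n = 0 :=
  ⟨SQ, inferInstance, SQ.exists_comm, SQ.tau, SQ.tau_zpow⟩

end DetS

end Crest.Agent.R197
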