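import Mathlib
import Crest.Agent.R197.Defs
import Crest.Agent.R197.DetDefs

/-! Row 197, module B: frozen statements of the sub-modules (sorried; never import this file in proofs). -/

set_option autoImplicit false

namespace Crest.Agent.R197.Det

/-- DetAlg.lean (B1). Suggestion: `W = (SS → U) ⋊[mulAutArrow] SS`, `SS = unitary ℍ[ℝ]` acting on itself by
left multiplication, `U` = unitriangular matrices over `ZMod 2` (finite 2-group, `IsPGroup.isNilpotent`);
states `top s k` (constant function `1 + E_{s,s+2^k}`), `vee x` (`x : SS → U`), `rot ax θ`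
(`cos θ + i_ax sin θ`); children: `top s (k+1) ↦ top s k, top (s+2^k) k`; `vee x ↦ vee (solve x), rot 0 1`;
`rot ax θ ↦ rot ax (-θ/2), rot (ax+1) (π/2)`. -/
theorem exists_wdata (d : ℕ) : Nonempty (WData d) := by
  sorry

section words
variable {X : Type*} [DecidableEq X]

/-! DetWords.lean -/

theorem chi_mul (p q : FreeGroup X) : chi (p * q) = chi p + chi q := by sorry
theorem chi_inv (p : FreeGroup X) : chi p⁻¹ = - chi p := by sorry
theorem chi_of (x : X) : chi (FreeGroup.of x) = 1 := by sorry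
theorem chi_one : chi (1 : FreeGroup X) = 0 := by sorry
theorem chi_map (π : Equiv.Perm X) (p : FreeGroup X) : chi (FreeGroup.map π p) = chi p := by sorry

theorem beta_of (i : Fin 4) : beta (FreeGroup.of i) = i := by sorry
theorem beta_of_inv (i : Fin 4) : beta (FreeGroup.of i)⁻¹ = i := by sorry
theorem beta_of_mul (i : Fin 4) (p : FreeGroup (Fin 4)) (h : p ≠ 1) (h' : FreeGroup.of i * p ≠ 1) :
    beta (FreeGroup.of i * p) = beta p := by sorry
theorem beta_of_inv_mul (i : Fin 4) (p : FreeGroup (Fin 4)) (h : p ≠ 1)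
    (h' : (FreeGroup.of i)⁻¹ * p ≠ 1) : beta ((FreeGroup.of i)⁻¹ * p) = beta p := by sorry
theorem beta_map (π : Equiv.Perm (Fin 4)) (p : FreeGroup (Fin 4)) (h : p ≠ 1) :
    beta (FreeGroup.map π p) = π (beta p) := by sorry
theorem inP_of_mul (P : X → Prop) (x : X) (hx : P x) (p : FreeGroup X) :
    InP P (FreeGroup.of x * p) ↔ InP P p := by sorry
theorem inP_of_inv_mul (P : X → Prop) (x : X) (hx : P x) (p : FreeGroup X) :
    InP P ((FreeGroup.of x)⁻¹ * p) ↔ InP P p := by sorry
theorem inP_beta (P : Fin 4 → Prop) (p : FreeGroup (Fin 4)) (h : InP P p) (hp : p ≠ 1) :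
    P (beta p) := by sorry
theorem inP_one (P : X → Prop) : InP P 1 := by sorry

variable {W : Type*} [Group W] (w : List Bool → W)

theorem theta_rec (hw : ∀ l, w l = cc (w (false :: l)) (w (true :: l))) (n : FreeGroup Ltr) :
    theta w n = cc (theta w ((FreeGroup.of 7)⁻¹ * n)) (theta w ((FreeGroup.of 8)⁻¹ * n)) := by sorry
theorem theta_ne_one (n : FreeGroup Ltr) (h : theta w n ≠ 1) :
    ∃ l : List Bool, chi n = - (l.length : ℤ) ∧ theta w n = w l := by sorry
theorem theta_one : theta w 1 = w [] := by sorry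

end words

variable {W : Type*} [Group W] (w : List Bool → W)

/-- DetGauge.lean (B2) -/
theorem exists_gauge (hw : ∀ l, w l = cc (w (false :: l)) (w (true :: l))) (α : Ltr)
    (n : FreeGroup Ltr) : ∃ U V : Fin 4 → W, Gauge w α n U V := by sorry

/-- `Ψ` has the prescribed actions and labels on `x i`, `y k` -/
structure IsConn (Ψ : EE →* TT Pt W) : Prop where
  actx : ∀ i g, TT.act (Ψ (EE.x i)) g = sX i g
  labx : ∀ i g, TT.lab (Ψ (EE.x i)) g = 1
  acty : ∀ k g, TT.act (Ψ (EE.y k)) g = sY k g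
  laby : ∀ k g, TT.lab (Ψ (EE.y k)) g = lY w k g

/-- DetConn.lean (B3) -/
theorem exists_conn (hw : ∀ l, w l = cc (w (false :: l)) (w (true :: l))) :
    ∃ Ψ : EE →* TT Pt W, IsConn w Ψ := by sorry

open Classical in
/-- DetHol.lean (B4) -/
theorem hol {Ψ : EE →* TT Pt W} (hΨ : IsConn w Ψ) (i j k l : Fin 4) (hij : i ≠ j) (hkl : k ≠ l)
    (m : ℕ) (hm : 2 ≤ m) (g : Pt) :
    TT.act (Ψ (lam EE.x EE.y i j k l (-(m : ℤ)))) g = g ∧
    TT.lab (Ψ (lam EE.x EE.y i j k l (-(m : ℤ)))) g =
      if layer g ∧ g.2.2 = 1 ∧ g.2.1 = (FreeGroup.of i) ^ m then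
        loop (Gam (vv w g.1) (uu w g.1)) i j k l else 1 := by sorry

/-- Detection.lean (final) -/
theorem detection (m : ℕ) : ∃ k, p0 ∉ gam (PP m) k := by
  sorry

end Crest.Agent.R197.Det
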