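import Mathlib
import Crest.Agent.R197.Defs

/-!
# Row 197, module B1a: a nilpotent group with a nontrivial iterated commutator of depth `d`
-/

set_option autoImplicit false

namespace Crest.Agent.R197.DetU

open Matrix

/-- index type of the matrices -/
abbrev Ix (N : ℕ) := Fin (N + 1)
abbrev Mt (N : ℕ) := Matrix (Ix N) (Ix N) (ZMod 2)

/-- strictly upper triangular -/
def SU {N : ℕ} (M : Mt N) : Prop := ∀ i j : Ix N, j ≤ i → M i j = 0

theorem SU.add {N : ℕ} {M M' : Mt N} (h : SU M) (h' : SU M') : SU (M + M') := by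
  intro i j hij
  simp [h i j hij, h' i j hij]

theorem SU.mul {N : ℕ} {M M' : Mt N} (h : SU M) (h' : SU M') : SU (M * M') := by
  intro i j hij
  rw [Matrix.mul_apply]
  apply Finset.sum_eq_zero
  intro k _
  by_cases hk : k ≤ i
  · rw [h i k hk, zero_mul]
  · rw [h' k j (hij.trans (le_of_not_ge hk)), mul_zero]

theorem SU.pow_apply {N : ℕ} {M : Mt N} (h : SU M) (n : ℕ) :
    ∀ i j : Ix N, (j : ℕ) < (i : ℕ) + n → (M ^ n) i j = 0 := by
  induction n with
  | zero =>
    intro i j hij
    rw [pow_zero, Matrix.one_apply_ne]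
    intro e
    subst e
    simp at hij
  | succ n ih =>
    intro i j hij
    rw [pow_succ, Matrix.mul_apply]
    apply Finset.sum_eq_zero
    intro k _
    by_cases hk : (k : ℕ) < (i : ℕ) + n
    · rw [ih i k hk, zero_mul]
    · rw [h k j (by rw [Fin.le_def]; omega), mul_zero]

theorem SU.pow_eq_zero {N : ℕ} {M : Mt N} (h : SU M) {n : ℕ} (hn : N < n) : M ^ n = 0 := by
  ext i j
  exact h.pow_apply n i j (by omega)

/-- the submonoid of upper unitriangular matrices -/
def UM (N : ℕ) : Submonoid (Mt N)ˣ where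
  carrier := {g | SU ((g : Mt N) - 1)}
  one_mem' := by
    intro i j _
    simp
  mul_mem' := by
    intro a b ha hb
    have e : ((a * b : (Mt N)ˣ) : Mt N) - 1
        = (((a : Mt N) - 1) * ((b : Mt N) - 1) + ((a : Mt N) - 1)) + ((b : Mt N) - 1) := by
      rw [Units.val_mul]
      noncomm_ring
    change SU _
    rw [e]
    exact ((SU.mul ha hb).add ha).add hb

theorem pow_two_pow {N : ℕ} (g : (Mt N)ˣ) (hg : g ∈ UM N) : g ^ (2 ^ (N + 1)) = 1 := by
  have hN : N < 2 ^ (N + 1) := (Nat.lt_succ_self N).trans (Nat.lt_two_pow_self)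
  have : CharP (Mt N) 2 := inferInstance
  have h0 : ((g : Mt N) - 1) ^ (2 ^ (N + 1)) = 0 := SU.pow_eq_zero hg hN
  have h1 : (g : Mt N) ^ (2 ^ (N + 1)) = 1 := by
    have := add_pow_char_pow_of_commute (R := Mt N) (p := 2) (n := N + 1) (x := (g : Mt N) - 1) (y := 1)
      (Commute.one_right _)
    rw [sub_add_cancel, h0, one_pow, zero_add] at this
    exact this
  exact Units.ext (by rw [Units.val_pow_eq_pow_val, h1, Units.val_one])

/-- the group of upper unitriangular matrices over `ZMod 2` -/
def UU (N : ℕ) : Subgroup (Mt N)ˣ where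
  toSubmonoid := UM N
  inv_mem' := by
    intro g hg
    have h := pow_two_pow g hg
    have h2 : g⁻¹ = g ^ (2 ^ (N + 1) - 1) := by
      apply inv_eq_of_mul_eq_one_left
      rw [← pow_succ, Nat.sub_add_cancel Nat.one_le_two_pow, h]
    rw [h2]
    exact (UM N).pow_mem hg _

theorem isPGroup (N : ℕ) : IsPGroup 2 (UU N) := by
  intro g
  refine ⟨N + 1, ?_⟩
  ext1
  exact pow_two_pow g.1 g.2

instance (N : ℕ) : Finite (UU N) := inferInstance

theorem nilp (N : ℕ) : Group.IsNilpotent (UU N) := (isPGroup N).isNilpotent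

theorem gam_top {U : Type*} [Group U] (n : ℕ) :
    gam (⊤ : Subgroup U) n = Subgroup.lowerCentralSeries ⊤ n := by
  induction n with
  | zero => rfl
  | succ n ih =>
    simp only [gam, ih]
    rfl

/-- `1 + E_{ij}` (for `i < j ≤ N`) -/
def el (N : ℕ) (i j : ℕ) : UU N :=
  if h : i < j ∧ j < N + 1 then
    ⟨⟨transvection ⟨i, h.1.trans h.2⟩ ⟨j, h.2⟩ 1, transvection ⟨i, h.1.trans h.2⟩ ⟨j, h.2⟩ 1, by
        have hne : (⟨i, h.1.trans h.2⟩ : Ix N) ≠ ⟨j, h.2⟩ := by
          intro e; simp at e; omega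
        rw [transvection_mul_transvection_same _ _ hne]
        have : (1 : ZMod 2) + 1 = 0 := by decide
        rw [this, transvection_zero], by
        have hne : (⟨i, h.1.trans h.2⟩ : Ix N) ≠ ⟨j, h.2⟩ := by
          intro e; simp at e; omega
        rw [transvection_mul_transvection_same _ _ hne]
        have : (1 : ZMod 2) + 1 = 0 := by decide
        rw [this, transvection_zero]⟩, by
      change SU _
      intro a b hab
      simp only [transvection, add_sub_cancel_left]
      rw [Matrix.single_apply_of_ne]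
      rintro ⟨rfl, rfl⟩
      rw [Fin.le_def] at hab
      simp at hab
      omega⟩
  else 1

theorem el_val {N i j : ℕ} (hij : i < j) (hj : j < N + 1) :
    ((el N i j : (Mt N)ˣ) : Mt N) = transvection ⟨i, hij.trans hj⟩ ⟨j, hj⟩ 1 := by
  rw [el, dif_pos ⟨hij, hj⟩]

theorem el_inv {N i j : ℕ} (hij : i < j) (hj : j < N + 1) : (el N i j)⁻¹ = el N i j := by
  rw [inv_eq_iff_mul_eq_one]
  ext1
  apply Units.ext
  simp only [Subgroup.coe_mul, Units.val_mul, el_val hij hj, Subgroup.coe_one, Units.val_one]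
  have hne : (⟨i, hij.trans hj⟩ : Ix N) ≠ ⟨j, hj⟩ := by
    intro e; simp at e; omega
  rw [transvection_mul_transvection_same _ _ hne]
  have : (1 : ZMod 2) + 1 = 0 := by decide
  rw [this, transvection_zero]

theorem el_comm {N a m b : ℕ} (ham : a < m) (hmb : m < b) (hb : b < N + 1) :
    el N a b = (el N a m)⁻¹ * el N m b * el N a m * (el N m b)⁻¹ := by
  have hm : m < N + 1 := hmb.trans hb
  have hab : a < b := ham.trans hmb
  rw [el_inv ham hm, el_inv hmb hb]
  ext1
  apply Units.ext
  simp only [Subgroup.coe_mul, Units.val_mul, el_val ham hm, el_val hmb hb, el_val hab hb]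
  have h1 : (⟨a, ham.trans hm⟩ : Ix N) ≠ ⟨m, hm⟩ := by
    intro e; simp at e; omega
  have h2 : (⟨m, hm⟩ : Ix N) ≠ ⟨b, hb⟩ := by
    intro e; simp at e; omega
  have h3 : (⟨a, ham.trans hm⟩ : Ix N) ≠ ⟨b, hb⟩ := by
    intro e; simp at e; omega
  generalize (⟨a, ham.trans hm⟩ : Ix N) = A at *
  generalize (⟨m, hm⟩ : Ix N) = M at *
  generalize (⟨b, hb⟩ : Ix N) = B at *
  simp only [transvection]
  set x : Mt N := Matrix.single A M 1 with hx
  set y : Mt N := Matrix.single M B 1 with hy
  set z : Mt N := Matrix.single A B 1 with hz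
  have hxy : x * y = z := by simp [hx, hy, hz]
  have hyx : y * x = 0 := by simp [hx, hy, Matrix.single_mul_single_of_ne, h3.symm]
  have hxx : x * x = 0 := by simp [hx, Matrix.single_mul_single_of_ne, h1.symm]
  have hyy : y * y = 0 := by simp [hy, Matrix.single_mul_single_of_ne, h2.symm]
  have hxyx : x * y * x = 0 := by rw [mul_assoc, hyx, mul_zero]
  have h2' : ∀ w : Mt N, w + w = 0 := fun w => CharTwo.add_self_eq_zero w
  have key : (1 + x) * (1 + y) * (1 + x) * (1 + y)
      = 1 + x * y + ((x + x) + (y + y) + (x * y + x * y) + (x * x + x * x * y) + (y * x + y * x * y)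
          + (y * y + x * y * y) + x * y * x + x * y * x * y) := by
    noncomm_ring
  rw [key, h2', h2', h2', hxyx, hxx, hyy, hyx, mul_assoc x y y, hyy, hxy]
  simp [h2']

theorem el_ne_one {N a b : ℕ} (hab : a < b) (hb : b < N + 1) : el N a b ≠ 1 := by
  intro h
  have h' : ((el N a b : (Mt N)ˣ) : Mt N) = 1 := by rw [h]; rfl
  rw [el_val hab hb] at h'
  have h3 : (⟨a, hab.trans hb⟩ : Ix N) ≠ ⟨b, hb⟩ := by
    intro e; simp at e; omega
  have := congrFun (congrFun h' ⟨a, hab.trans hb⟩) ⟨b, hb⟩
  rw [transvection, Matrix.add_apply, Matrix.one_apply_ne h3, Matrix.single_apply_same] at this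
  simp at this

/-- the binary number of a word -/
def num (ν : List Bool) : ℕ := ν.foldl (fun n b => 2 * n + b.toNat) 0

theorem num_append (ν : List Bool) (b : Bool) : num (ν ++ [b]) = 2 * num ν + b.toNat := by
  simp [num, List.foldl_append]

theorem num_lt (ν : List Bool) : num ν + 1 ≤ 2 ^ ν.length := by
  induction ν using List.reverseRecOn with
  | nil => simp [num]
  | append_singleton ν b ih =>
    rw [num_append, List.length_append, List.length_singleton, pow_succ]
    have : b.toNat ≤ 1 := by cases b <;> simp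
    omega

/-- For every `d` there is a nilpotent group with a binary tree of commutators of depth `d` whose root
is nontrivial. -/
theorem exists_detU (d : ℕ) :
    ∃ (U : Type) (_ : Group U) (c : ℕ) (u : List Bool → U),
      gam (⊤ : Subgroup U) c = ⊥ ∧
      (∀ ν : List Bool, ν.length < d →
        u ν = (u (ν ++ [false]))⁻¹ * u (ν ++ [true]) * u (ν ++ [false]) * (u (ν ++ [true]))⁻¹) ∧
      u [] ≠ 1 := by
  obtain ⟨c, hc⟩ := Subgroup.nilpotent_iff_lowerCentralSeries.mp (nilp (2 ^ d))
  refine ⟨UU (2 ^ d), inferInstance, c,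
    fun ν => el (2 ^ d) (num ν * 2 ^ (d - ν.length)) ((num ν + 1) * 2 ^ (d - ν.length)), ?_, ?_, ?_⟩
  · rw [gam_top, hc]
  · intro ν hν
    simp only [num_append, List.length_append, List.length_singleton, Bool.toNat_false, add_zero,
      Bool.toNat_true]
    obtain ⟨e, he⟩ : ∃ e, d - ν.length = e + 1 := ⟨d - ν.length - 1, by omega⟩
    have he' : d - (ν.length + 1) = e := by omega
    rw [he, he']
    have hpos : 0 < 2 ^ e := by positivity
    have e1 : num ν * 2 ^ (e + 1) = 2 * num ν * 2 ^ e := by ring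
    have e2 : (num ν + 1) * 2 ^ (e + 1) = (2 * num ν + 1 + 1) * 2 ^ e := by ring
    rw [e1, e2]
    apply el_comm
    · nlinarith
    · nlinarith
    · have h1 := num_lt ν
      have h2 : (2 * num ν + 1 + 1) * 2 ^ e = (num ν + 1) * 2 ^ (e + 1) := by ring
      have h3 : (2 : ℕ) ^ d = 2 ^ ν.length * 2 ^ (e + 1) := by
        rw [← pow_add]; congr 1; omega
      rw [h2, h3]
      have := Nat.mul_le_mul_right (2 ^ (e + 1)) h1
      omega
  · have : num [] = 0 := rfl
    simp only [this, List.length_nil, Nat.sub_zero, zero_mul, zero_add, one_mul]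
    exact el_ne_one (by positivity) (by omega)

end Crest.Agent.R197.DetU
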