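import Mathlib
import Crest.Agent.R197.Coind

/-! Row 197, module D1a: dimension shift. If all classes in `H²(G, Map(G,M)/M)` vanish then
`Hⁿ(G, A) = 0` for all `n ≥ 3`. -/

set_option autoImplicit false

namespace Crest.Agent.R197

open CategoryTheory

section contraction
variable (G M : Type) [Group G] [AddCommGroup M]

/-- the coinduced representation -/
noncomputable abbrev CCRep : Rep ℤ G := Rep.ofDistribMulAction ℤ G (CC G M)

variable {G M}

theorem contractNth_zero_cons {n : ℕ} (g : G) (gs : Fin (n + 1) → G) :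
    Fin.contractNth (0 : Fin (n + 2)) (· * ·) (Fin.cons g gs : Fin (n + 2) → G) =
      Fin.cons (g * gs 0) (fun i : Fin n => gs i.succ) := by
  funext k
  refine Fin.cases ?_ (fun k => ?_) k
  · rw [Fin.contractNth_apply_of_eq _ _ _ _ (by simp)]
    simp
  · rw [Fin.contractNth_apply_of_gt _ _ _ _ (by simp)]
    simp

theorem contractNth_succ_cons {n : ℕ} (j : Fin (n + 1)) (g : G) (gs : Fin (n + 1) → G) :
    Fin.contractNth j.succ (· * ·) (Fin.cons g gs : Fin (n + 2) → G) =
      Fin.cons g (Fin.contractNth j (· * ·) gs) := by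
  funext k
  refine Fin.cases ?_ (fun k => ?_) k
  · rw [Fin.contractNth_apply_of_lt _ _ _ _ (by simp)]
    simp
  · rw [Fin.cons_succ]
    rcases lt_trichotomy (k : ℕ) (j : ℕ) with h | h | h
    · rw [Fin.contractNth_apply_of_lt _ _ _ _ (by simpa using h),
        Fin.contractNth_apply_of_lt _ _ _ _ h, ← Fin.succ_castSucc, Fin.cons_succ]
    · rw [Fin.contractNth_apply_of_eq _ _ _ _ (by simpa using h),
        Fin.contractNth_apply_of_eq _ _ _ _ h, ← Fin.succ_castSucc, Fin.cons_succ, Fin.cons_succ]
    · rw [Fin.contractNth_apply_of_gt _ _ _ _ (by simpa using h),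
        Fin.contractNth_apply_of_gt _ _ _ _ h, Fin.cons_succ]

/-- contraction of cochains with values in the coinduced module -/
def contr (n : ℕ) (c : (Fin (n + 1) → G) → CC G M) : (Fin n → G) → CC G M :=
  fun gs g => c (Fin.cons g gs) 1

/-- the differential with values in the coinduced module, unfolded -/
def dC (n : ℕ) (c : (Fin n → G) → CC G M) : (Fin (n + 1) → G) → CC G M :=
  fun gs => gs 0 • c (fun i => gs i.succ) +
    ∑ j : Fin (n + 1), (-1 : ℤ) ^ ((j : ℕ) + 1) • c (Fin.contractNth j (· * ·) gs)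

theorem dC_eq (n : ℕ) (c : (Fin n → G) → CC G M) :
    dC n c = (inhomogeneousCochains.d (CCRep G M) n).hom c := rfl

omit [Group G] in
theorem CC.sum_apply {ι : Type*} (s : Finset ι) (f : ι → CC G M) (g : G) :
    (∑ i ∈ s, f i) g = ∑ i ∈ s, f i g := Finset.sum_apply g s f

omit [Group G] in
theorem CC.add_apply (a b : CC G M) (g : G) : (a + b) g = a g + b g := rfl

omit [Group G] in
theorem CC.zsmul_apply (n : ℤ) (a : CC G M) (g : G) : (n • a) g = n • a g := rfl

theorem contr_homotopy (n : ℕ) (c : (Fin (n + 1) → G) → CC G M) :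
    dC n (contr n c) + contr (n + 1) (dC (n + 1) c) = c := by
  funext gs
  funext g
  change dC n (contr n c) gs g + (dC (n + 1) c) (Fin.cons g gs) 1 = c gs g
  unfold dC
  rw [Fin.sum_univ_succ (n := n + 1)]
  simp only [contractNth_zero_cons, contractNth_succ_cons, CC.add_apply, CC.sum_apply,
    CC.zsmul_apply, CC.smul_apply, contr, Fin.cons_zero, Fin.cons_succ, Fin.val_zero, Fin.val_succ,
    one_mul]
  have h2 : ∀ j : Fin (n + 1), (-1 : ℤ) ^ ((j : ℕ) + 1 + 1) •
      c (Fin.cons g (Fin.contractNth j (· * ·) gs)) 1 =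
      - ((-1 : ℤ) ^ ((j : ℕ) + 1) • c (Fin.cons g (Fin.contractNth j (· * ·) gs)) 1) := by
    intro j
    rw [pow_succ, mul_neg_one, neg_smul]
  rw [Finset.sum_congr rfl (fun j _ => h2 j), Finset.sum_neg_distrib]
  simp only [zero_add, pow_one, neg_smul, one_smul]
  abel

theorem isZero_CC (n : ℕ) : Limits.IsZero (groupCohomology (CCRep G M) (n + 1)) := by
  change Limits.IsZero ((groupCohomology.inhomogeneousCochains (CCRep G M)).homology (n + 1))
  rw [← HomologicalComplex.exactAt_iff_isZero_homology,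
    HomologicalComplex.exactAt_iff' _ n (n + 1) (n + 2) (by simp) (by simp),
    ShortComplex.moduleCat_exact_iff]
  intro c hc
  have hc' : dC (n + 1) (c : (Fin (n + 1) → G) → CC G M) = 0 := by
    have := hc
    change ((groupCohomology.inhomogeneousCochains (CCRep G M)).d (n + 1) (n + 1 + 1)).hom c = 0
      at this
    rw [groupCohomology.inhomogeneousCochains.d_def] at this
    exact this
  refine ⟨contr n (c : (Fin (n + 1) → G) → CC G M), ?_⟩
  have := contr_homotopy n (c : (Fin (n + 1) → G) → CC G M)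
  rw [hc'] at this
  have h0 : contr (n + 1) (0 : (Fin (n + 1 + 1) → G) → CC G M) = 0 := rfl
  rw [h0, add_zero] at this
  change ((groupCohomology.inhomogeneousCochains (CCRep G M)).d n (n + 1)).hom
    (contr n (c : (Fin (n + 1) → G) → CC G M)) = c
  rw [groupCohomology.inhomogeneousCochains.d_def]
  exact this

end contraction

section shift
variable {G : Type} [Group G]

/-- the action on the module underlying a representation -/
@[implicit_reducible] def repAct (A : Rep ℤ G) : DistribMulAction G A.V where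
  smul g a := A.ρ g a
  one_smul a := by change A.ρ 1 a = a; simp
  mul_smul g h a := by change A.ρ (g * h) a = A.ρ g (A.ρ h a); simp
  smul_zero g := map_zero (A.ρ g)
  smul_add g := map_add (A.ρ g)

/-- the quotient `Map(G,M)/M` as a representation -/
noncomputable abbrev CQRep (G M : Type) [Group G] [AddCommGroup M] [DistribMulAction G M] :
    Rep ℤ G := Rep.ofDistribMulAction ℤ G (CQ G M)

theorem map_zsmul_any {X Y : Type} [AddCommGroup X] [mX : Module ℤ X] [AddCommGroup Y]
    [mY : Module ℤ Y] (f : X →+ Y) (n : ℤ) (x : X) :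
    f (@SMul.smul ℤ X mX.toSMul n x) = @SMul.smul ℤ Y mY.toSMul n (f x) := by
  obtain rfl : mX = AddCommGroup.toIntModule X := Subsingleton.elim _ _
  obtain rfl : mY = AddCommGroup.toIntModule Y := Subsingleton.elim _ _
  exact map_zsmul f n x

theorem rep_comp_zero {k : Type} [CommRing k] {A B C : Rep k G} (f : A ⟶ B) (g : B ⟶ C)
    (h : ∀ a : A.V, g.hom (f.hom a) = 0) : f ≫ g = 0 := by
  ext a
  exact h a

theorem rep_shortExact {k : Type} [CommRing k] (S : ShortComplex (Rep k G))
    (h1 : Function.Injective S.f.hom) (h2 : Function.Surjective S.g.hom)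
    (h3 : ∀ x : S.X₂.V, S.g.hom x = 0 → ∃ y : S.X₁.V, S.f.hom y = x) : S.ShortExact where
  exact := (forget₂ (Rep k G) (ModuleCat k)).reflects_exact_of_faithful _ <|
    (ShortComplex.moduleCat_exact_iff _).2 fun x hx => h3 x hx
  mono_f := (Rep.mono_iff_injective _).2 h1
  epi_g := (Rep.epi_iff_surjective _).2 h2

/-- an additive equivariant map as an intertwining map over `ℤ` -/
def interOfAdd {X Y : Type} [AddCommGroup X] [mX : Module ℤ X] [AddCommGroup Y] [mY : Module ℤ Y]
    (ρ : Representation ℤ G X) (σ : Representation ℤ G Y) (f : X →+ Y)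
    (hf : ∀ (g : G) (a : X), f (ρ g a) = σ g (f a)) : ρ.IntertwiningMap σ :=
  LinearMap.intertwiningMap_of_isIntertwiningMap (ρ := ρ) (σ := σ)
      (f := { f with
        map_smul' := fun n x => map_zsmul_any f n x }) hf

theorem interOfAdd_apply {X Y : Type} [AddCommGroup X] [mX : Module ℤ X] [AddCommGroup Y]
    [mY : Module ℤ Y] (ρ : Representation ℤ G X) (σ : Representation ℤ G Y) (f : X →+ Y)
    (hf : ∀ (g : G) (a : X), f (ρ g a) = σ g (f a)) (a : X) :
    interOfAdd ρ σ f hf a = f a := rfl

/-- an additive equivariant map as a morphism of representations over `ℤ` -/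
noncomputable def homOfAdd (A B : Rep ℤ G) (f : A.V →+ B.V)
    (hf : ∀ (g : G) (a : A.V), f (A.ρ g a) = B.ρ g (f a)) : A ⟶ B :=
  ConcreteCategory.ofHom (C := Rep ℤ G) (@interOfAdd G _ A.V B.V _ A.hV2 _ B.hV2 A.ρ B.ρ f hf)

theorem homOfAdd_apply (A B : Rep ℤ G) (f : A.V →+ B.V)
    (hf : ∀ (g : G) (a : A.V), f (A.ρ g a) = B.ρ g (f a)) (a : A.V) :
    (homOfAdd A B f hf).hom a = f a := rfl

/-- `A → Map(G, A)` -/
noncomputable def toCC (A : Rep ℤ G) : A ⟶ CCRep G A.V :=
  letI := repAct A
  homOfAdd A (CCRep G A.V) (diagC G A.V) (fun g a => diagC_smul g a)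

theorem toCC_apply (A : Rep ℤ G) (a : A.V) :
    (toCC A).hom a = (letI := repAct A; diagC G A.V a) := rfl

/-- `Map(G, A) → Map(G, A) / A` -/
noncomputable def toCQ (A : Rep ℤ G) :
    CCRep G A.V ⟶ (letI := repAct A; CQRep G A.V) :=
  letI := repAct A
  homOfAdd (CCRep G A.V) (CQRep G A.V) (CQ.mk (G := G) (M := A.V)) (fun g a => CQ.mk_smul g a)

theorem toCQ_apply (A : Rep ℤ G) (a : CC G A.V) :
    (toCQ A).hom a = (letI := repAct A; CQ.mk (G := G) (M := A.V) a) := rfl

/-- the short complex `A → Map(G, A) → Map(G, A)/A` -/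
noncomputable def shiftComplex (A : Rep ℤ G) : ShortComplex (Rep ℤ G) where
  X₁ := A
  X₂ := CCRep G A.V
  X₃ := letI := repAct A; CQRep G A.V
  f := toCC A
  g := toCQ A
  zero := by
    let _ := repAct A
    apply rep_comp_zero
    intro a
    exact (CQ.mk_eq_zero (G := G) (M := A.V) _).2 ⟨a, rfl⟩

theorem shiftComplex_shortExact (A : Rep ℤ G) : (shiftComplex A).ShortExact := by
  let _ := repAct A
  apply rep_shortExact
  · exact diagC_injective (G := G) (M := A.V)
  · exact CQ.mk_surjective (G := G) (M := A.V)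
  · intro x hx
    obtain ⟨m, hm⟩ := (CQ.mk_eq_zero (G := G) (M := A.V) x).1 hx
    exact ⟨m, hm⟩

theorem shift_iso (A : Rep ℤ G) (n : ℕ) (hn : 1 ≤ n)
    (h : Limits.IsZero (groupCohomology (shiftComplex A).X₃ n)) :
    Limits.IsZero (groupCohomology A (n + 1)) := by
  obtain ⟨m, rfl⟩ : ∃ m, n = m + 1 := ⟨n - 1, by omega⟩
  have := groupCohomology.isIso_δ_of_isZero (shiftComplex_shortExact A) (m + 1)
    (isZero_CC m) (isZero_CC (m + 1))
  exact h.of_iso (asIso (groupCohomology.δ (shiftComplex_shortExact A) (m + 1) (m + 1 + 1) rfl)).symm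

theorem isZero_two (B : Rep ℤ G)
    (h : ∀ f ∈ groupCohomology.cocycles₂ B, f ∈ groupCohomology.coboundaries₂ B) :
    Limits.IsZero (groupCohomology B 2) := by
  have : Subsingleton (groupCohomology.H2 B) := by
    refine ⟨fun a b => ?_⟩
    have key : ∀ a : groupCohomology.H2 B, a = 0 := by
      intro a
      induction a using groupCohomology.H2_induction_on with
      | h x =>
        rw [groupCohomology.H2π_eq_zero_iff]
        exact h x.1 x.2
    rw [key a, key b]
  exact ModuleCat.isZero_of_subsingleton (groupCohomology.H2 B)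

/-- dimension shift -/
theorem cd_of_H2 (G : Type) [Group G]
    (h : ∀ (M : Type) [AddCommGroup M] [DistribMulAction G M] (f : G × G → CQ G M),
      groupCohomology.IsCocycle₂ f → groupCohomology.IsCoboundary₂ f) :
    ∀ (A : Rep ℤ G) (n : ℕ), 3 ≤ n → Limits.IsZero (groupCohomology A n) := by
  have h3 : ∀ (m : ℕ) (A : Rep ℤ G), Limits.IsZero (groupCohomology A (m + 3)) := by
    intro m
    induction m with
    | zero =>
      intro A
      apply shift_iso A 2 (by norm_num)
      apply isZero_two
      intro f hf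
      let _ := repAct A
      have h1 : groupCohomology.IsCocycle₂ (G := G) (A := CQ G A.V) f :=
        groupCohomology.isCocycle₂_of_mem_cocycles₂ (k := ℤ) (G := G) (A := CQ G A.V) f hf
      obtain ⟨x, hx⟩ := h A.V f h1
      exact ⟨x, funext fun p => hx p.1 p.2⟩
    | succ m ih =>
      intro A
      exact shift_iso A (m + 3) (by omega) (ih _)
  intro A n hn
  obtain ⟨m, rfl⟩ : ∃ m, n = m + 3 := ⟨n - 3, by omega⟩
  exact h3 m A

end shift

end Crest.Agent.R197
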