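import Mathlib
import Crest.Agent.R197.TreeDefs
import Crest.Agent.R197.E3Top
import Crest.Agent.R197.E3CoverAbs

/-!
# Row 197, module T4: the covering `E3 T → E3 T / G`
-/

set_option autoImplicit false

open Topology Set

namespace Crest.Agent.R197

section e3

variable {G : Type} [Group G] {T : Fin 3 → OrGraph} [∀ i, MulAction G (T i).V]
  [∀ i, MulAction G (T i).E] [∀ i, OrGraph.GAct G (T i)]

variable (G T) in
/-- orbits of `G` on `E3 T` are separated -/
theorem e3_orbSep : OrbSep G (E3 T) := fun z z' => e3_sep (G := G) z z'

variable (G T) in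
/-- the quotient is Hausdorff -/
theorem e3q_t2 : T2Space (MulAction.orbitRel.Quotient G (E3 T)) :=
  abs_t2 (e3_orbSep G T)

/-- the projection is a quotient covering map -/
theorem e3q_isQuotientCoveringMap (h : FreeOnVertices G T) :
    IsQuotientCoveringMap (Quotient.mk (MulAction.orbitRel G (E3 T))) G :=
  abs_isQuotientCoveringMap (e3_orbSep G T) (e3_free h)

/-- the quotient has a contractible cover -/
theorem e3q_hasContractibleCover (h : FreeOnVertices G T) [ContractibleSpace (E3 T)] :
    Crest.Topology.HasContractibleCover (MulAction.orbitRel.Quotient G (E3 T)) :=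
  abs_hasContractibleCover (e3_orbSep G T) (e3_free h)

/-- the fundamental group of the quotient (at the image of any point) -/
theorem e3q_pi1_at (h : FreeOnVertices G T) [ContractibleSpace (E3 T)] (z : E3 T) :
    Nonempty (FundamentalGroup (MulAction.orbitRel.Quotient G (E3 T))
      (Quotient.mk (MulAction.orbitRel G (E3 T)) z) ≃* G) :=
  abs_pi1 (e3_orbSep G T) (e3_free h) z

/-- the fundamental group of the quotient -/
theorem e3q_pi1 (h : FreeOnVertices G T) [ContractibleSpace (E3 T)] :
    ∃ x : MulAction.orbitRel.Quotient G (E3 T),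
      Nonempty (FundamentalGroup (MulAction.orbitRel.Quotient G (E3 T)) x ≃* G) := by
  obtain ⟨z⟩ : Nonempty (E3 T) := inferInstance
  exact ⟨_, e3q_pi1_at h z⟩

end e3

end Crest.Agent.R197
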