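import Mathlib

/-!
# Row 197, module F: base definitions for two-dimensional CW complexes

`ctr c` = centre of the 2-cell `c`, `U0 X` = complement of all centres of 2-cells,
`sq c : C(I × I, X)` = characteristic map of `c` as a square, `bdry c` = its boundary loop in `U0 X`.
-/

set_option autoImplicit false

open Topology Set unitInterval

namespace Crest.Agent.R197.CW2

variable (X : Type) [TopologicalSpace X] [CWComplex (Set.univ : Set X)]

/-- the `n`-cells -/
abbrev Cell (n : ℕ) : Type := RelCWComplex.cell (Set.univ : Set X) n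

variable {X}

/-- the characteristic map of a cell -/
noncomputable abbrev cmap {n : ℕ} (c : Cell X n) : PartialEquiv (Fin n → ℝ) X :=
  RelCWComplex.map (C := (Set.univ : Set X)) n c

/-- the centre of a 2-cell -/
noncomputable def ctr (c : Cell X 2) : X := cmap c 0

variable (X) in
/-- the complement of the centres of the 2-cells -/
def U0 : Set X := {x | ∀ c : Cell X 2, x ≠ ctr c}

/-- the affine map from the unit square to `[-1,1]²` -/
noncomputable def sqPt (z : I × I) : Fin 2 → ℝ := ![2 * (z.1 : ℝ) - 1, 2 * (z.2 : ℝ) - 1]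

theorem continuous_sqPt : Continuous sqPt := by
  unfold sqPt
  fun_prop

theorem abs_two_mul_sub_one_le (t : I) : |2 * (t : ℝ) - 1| ≤ 1 := by
  rw [abs_le]
  have h0 := t.2.1
  have h1 := t.2.2
  constructor <;> linarith

theorem sqPt_mem (z : I × I) : sqPt z ∈ Metric.closedBall (0 : Fin 2 → ℝ) 1 := by
  rw [mem_closedBall_zero_iff, pi_norm_le_iff_of_nonneg zero_le_one]
  intro i
  fin_cases i
  · exact abs_two_mul_sub_one_le z.1
  · exact abs_two_mul_sub_one_le z.2

/-- the characteristic map of a 2-cell as a map of the unit square -/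
noncomputable def sq (c : Cell X 2) : C(I × I, X) :=
  ⟨fun z => cmap c (sqPt z),
    (RelCWComplex.continuousOn (C := (Set.univ : Set X)) 2 c).comp_continuous continuous_sqPt
      sqPt_mem⟩

/-- the boundary of the unit square -/
def OnBd (z : I × I) : Prop := z.1 = 0 ∨ z.1 = 1 ∨ z.2 = 0 ∨ z.2 = 1

theorem sqPt_mem_sphere {z : I × I} (hz : OnBd z) : sqPt z ∈ Metric.sphere (0 : Fin 2 → ℝ) 1 := by
  rw [mem_sphere_zero_iff_norm]
  apply le_antisymm
  · exact mem_closedBall_zero_iff.1 (sqPt_mem z)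
  · rcases hz with h | h | h | h
    · have := norm_le_pi_norm (sqPt z) 0
      simpa [sqPt, h] using this
    · have := norm_le_pi_norm (sqPt z) 0
      have h2 : (2 : ℝ) - 1 = 1 := by norm_num
      simpa [sqPt, h, h2] using this
    · have := norm_le_pi_norm (sqPt z) 1
      simpa [sqPt, h] using this
    · have := norm_le_pi_norm (sqPt z) 1
      have h2 : (2 : ℝ) - 1 = 1 := by norm_num
      simpa [sqPt, h, h2] using this

/-- an open cell is disjoint from the frontier of a cell of dimension `≤` its own dimension -/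
theorem disjoint_openCell_cellFrontier {n m : ℕ} (c : Cell X n) (d : Cell X m) (hmn : m ≤ n) :
    Disjoint (RelCWComplex.openCell n c) (RelCWComplex.cellFrontier m d) := by
  obtain ⟨J, hJ⟩ := CWComplex.cellFrontier_subset_finite_openCell m d
  refine Disjoint.mono_right hJ ?_
  simp only [Set.disjoint_iUnion_right]
  intro l hl j _
  apply RelCWComplex.disjoint_openCell_of_ne
  intro h
  have := congrArg Sigma.fst h
  simp only at this
  omega

theorem ctr_mem_openCell (c : Cell X 2) : ctr c ∈ RelCWComplex.openCell 2 c :=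
  RelCWComplex.map_zero_mem_openCell 2 c

theorem frontier_subset_U0 (c : Cell X 2) : RelCWComplex.cellFrontier 2 c ⊆ U0 X := by
  intro x hx c' h
  have := disjoint_openCell_cellFrontier c' c le_rfl
  rw [Set.disjoint_left] at this
  exact this (h ▸ ctr_mem_openCell c') hx

theorem sq_mem_U0 (c : Cell X 2) {z : I × I} (hz : OnBd z) : sq c z ∈ U0 X :=
  frontier_subset_U0 c ⟨_, sqPt_mem_sphere hz, rfl⟩

/-- the lower left corner of a 2-cell -/
noncomputable def corner (c : Cell X 2) : U0 X := ⟨sq c (0, 0), sq_mem_U0 c (Or.inl rfl)⟩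

/-- generic boundary loop of a square: bottom, right, top reversed, left reversed
(first coordinate horizontal) -/
noncomputable def sqLoop {Y : Type*} [TopologicalSpace Y] (f : C(I × I, Y)) :
    Path (f (0, 0)) (f (0, 0)) :=
  ((⟨⟨fun t => f (t, 0), by fun_prop⟩, rfl, rfl⟩ : Path (f (0, 0)) (f (1, 0))).trans
    (⟨⟨fun t => f (1, t), by fun_prop⟩, rfl, rfl⟩ : Path (f (1, 0)) (f (1, 1)))).trans
  ((⟨⟨fun t => f (0, t), by fun_prop⟩, rfl, rfl⟩ : Path (f (0, 0)) (f (0, 1))).trans
    (⟨⟨fun t => f (t, 1), by fun_prop⟩, rfl, rfl⟩ : Path (f (0, 1)) (f (1, 1)))).symm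

/-- bottom side of a 2-cell, as a path in `U0` -/
noncomputable def sideB (c : Cell X 2) :
    Path (corner c) (⟨sq c (1, 0), sq_mem_U0 c (Or.inr (Or.inl rfl))⟩ : U0 X) :=
  ⟨⟨fun t => ⟨sq c (t, 0), sq_mem_U0 c (Or.inr (Or.inr (Or.inl rfl)))⟩, by fun_prop⟩, rfl, rfl⟩

/-- right side of a 2-cell, as a path in `U0` -/
noncomputable def sideR (c : Cell X 2) :
    Path (⟨sq c (1, 0), sq_mem_U0 c (Or.inr (Or.inl rfl))⟩ : U0 X)
      (⟨sq c (1, 1), sq_mem_U0 c (Or.inr (Or.inl rfl))⟩ : U0 X) :=
  ⟨⟨fun t => ⟨sq c (1, t), sq_mem_U0 c (Or.inr (Or.inl rfl))⟩, by fun_prop⟩, rfl, rfl⟩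

/-- left side of a 2-cell, as a path in `U0` -/
noncomputable def sideL (c : Cell X 2) :
    Path (corner c) (⟨sq c (0, 1), sq_mem_U0 c (Or.inl rfl)⟩ : U0 X) :=
  ⟨⟨fun t => ⟨sq c (0, t), sq_mem_U0 c (Or.inl rfl)⟩, by fun_prop⟩, rfl, rfl⟩

/-- top side of a 2-cell, as a path in `U0` -/
noncomputable def sideT (c : Cell X 2) :
    Path (⟨sq c (0, 1), sq_mem_U0 c (Or.inl rfl)⟩ : U0 X)
      (⟨sq c (1, 1), sq_mem_U0 c (Or.inr (Or.inl rfl))⟩ : U0 X) :=
  ⟨⟨fun t => ⟨sq c (t, 1), sq_mem_U0 c (Or.inr (Or.inr (Or.inr rfl)))⟩, by fun_prop⟩, rfl, rfl⟩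

/-- boundary loop of a 2-cell in `U0`: bottom, right, top reversed, left reversed -/
noncomputable def bdry (c : Cell X 2) : Path (corner c) (corner c) :=
  ((sideB c).trans (sideR c)).trans ((sideL c).trans (sideT c)).symm

/-- the inclusion `U0 → X` -/
def incU0 : C(U0 X, X) := ⟨Subtype.val, continuous_subtype_val⟩

/-- the homomorphism `π₁(U0, x₀) → π₁(X, x₀)` -/
noncomputable def iU (x₀ : U0 X) : FundamentalGroup (U0 X) x₀ →* FundamentalGroup X x₀.1 :=
  FundamentalGroup.map incU0 x₀

/-- a loop as an element of the fundamental group -/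
def cls {Y : Type*} [TopologicalSpace Y] {y : Y} (γ : Path y y) : FundamentalGroup Y y :=
  FundamentalGroup.fromPath (Path.Homotopic.Quotient.mk γ)

/-- INTERFACE (module Deg*, helper830): the equivariant homomorphism on
`ker (π₁(U0) → π₁(X))` with prescribed values on the boundary loops of the 2-cells. -/
def ExistsS (X : Type) [TopologicalSpace X] [CWComplex (Set.univ : Set X)] : Prop :=
  ∀ (x₀ : U0 X) (V : Type) [AddCommGroup V] [DistribMulAction (FundamentalGroup X x₀.1) V]
    (k : ∀ c : Cell X 2, Path x₀ (corner c)) (v : Cell X 2 → V),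
    ∃ S : FundamentalGroup (U0 X) x₀ → V,
      (∀ a b, iU x₀ a = 1 → iU x₀ b = 1 → S (a * b) = S a + S b) ∧
      (∀ w a, iU x₀ a = 1 → S (w * a * w⁻¹) = iU x₀ w • S a) ∧
      ∀ c, S (cls ((k c).trans ((bdry c).trans (k c).symm))) = v c

end Crest.Agent.R197.CW2
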