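import Mathlib

/-! Row 197, module F: lifting maps from contractible spaces through coverings (no local connectivity
hypothesis), coherence of the topology of a covering with respect to lifted characteristic maps, and the
deck group of a contractible cover. -/

set_option autoImplicit false
set_option linter.unusedVariables false
set_option linter.unusedSectionVars false

namespace Crest.Agent.R197.F

open unitInterval Topology Function

section lift
variable {E X A : Type*} [TopologicalSpace E] [TopologicalSpace X] [TopologicalSpace A] {p : E → X}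

/-- A continuous map from a contractible space lifts through a covering, with prescribed value at a
point. -/
theorem exists_lift (cov : IsCoveringMap p) [ContractibleSpace A] (f : C(A, X)) (a₀ : A) (e : E)
    (h : p e = f a₀) : ∃ F : C(A, E), (∀ a, p (F a) = f a) ∧ F a₀ = e := by
  obtain ⟨c, ⟨H⟩⟩ := id_nullhomotopic A
  -- H : homotopy from id to const c
  let K : C(I × A, X) := f.comp ⟨fun ta => H (σ ta.1, ta.2), by fun_prop⟩
  have K0 : ∀ a, K (0, a) = f c := by intro a; simp [K]
  have K1 : ∀ a, K (1, a) = f a := by intro a; simp [K]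
  let γ : C(I, X) := ⟨fun t => K (σ t, a₀), by fun_prop⟩
  have γ0 : γ 0 = p e := by simp [γ, K1, h]
  obtain ⟨Γ, hΓ, hΓ0⟩ := cov.exists_path_lifts γ e γ0
  have hΓ1 : p (Γ 1) = f c := by
    have := congrFun hΓ 1
    simp only [Function.comp_apply] at this
    rw [this]; simp [γ, K0]
  let L := cov.liftHomotopy K (ContinuousMap.const A (Γ 1)) (by intro a; simp [K0, hΓ1])
  have hL : ∀ ta, p (L ta) = K ta := fun ta => congrFun (cov.liftHomotopy_lifts K _ _) ta
  have hL0 : ∀ a, L (0, a) = Γ 1 := fun a => cov.liftHomotopy_zero K _ _ a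
  refine ⟨⟨fun a => L (1, a), by fun_prop⟩, fun a => by simp [hL, K1], ?_⟩
  -- compare the two lifts of `t ↦ K (t, a₀)`
  have key : (fun t : I => L (t, a₀)) = fun t => Γ (σ t) := by
    refine cov.eq_of_comp_eq (by fun_prop) (by fun_prop) ?_ 0 ?_
    · funext t
      simp only [Function.comp_apply, hL]
      have := congrFun hΓ (σ t)
      simp only [Function.comp_apply] at this
      rw [this]; simp [γ]
    · simp [hL0]
  have := congrFun key 1
  simpa [hΓ0] using this

theorem lift_unique (cov : IsCoveringMap p) [PreconnectedSpace A] {F G : C(A, E)}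
    (h : ∀ a, p (F a) = p (G a)) (a₀ : A) (h0 : F a₀ = G a₀) : F = G := by
  have := cov.eq_of_comp_eq F.continuous G.continuous (funext h) a₀ h0
  exact DFunLike.coe_injective this

end lift

section coherent

/-- The topology of `X` is coherent with the family of maps `ψ`. -/
def Coh {X : Type*} [TopologicalSpace X] {K : Type*} {D : K → Type*} [∀ k, TopologicalSpace (D k)]
    (ψ : ∀ k, C(D k, X)) : Prop :=
  ∀ O : Set X, (∀ k, IsOpen (ψ k ⁻¹' O)) → IsOpen O

theorem Coh.isOpen_iff {X : Type*} [TopologicalSpace X] {K : Type*} {D : K → Type*}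
    [∀ k, TopologicalSpace (D k)] {ψ : ∀ k, C(D k, X)} (h : Coh ψ) {O : Set X} :
    IsOpen O ↔ ∀ k, IsOpen (ψ k ⁻¹' O) :=
  ⟨fun hO k => hO.preimage (ψ k).continuous, h O⟩

theorem Coh.isClosed_iff {X : Type*} [TopologicalSpace X] {K : Type*} {D : K → Type*}
    [∀ k, TopologicalSpace (D k)] {ψ : ∀ k, C(D k, X)} (h : Coh ψ) {C : Set X} :
    IsClosed C ↔ ∀ k, IsClosed (ψ k ⁻¹' C) := by
  rw [← isOpen_compl_iff, h.isOpen_iff]
  simp only [← isOpen_compl_iff, Set.preimage_compl]

theorem Coh.continuous_iff {X Z : Type*} [TopologicalSpace X] [TopologicalSpace Z] {K : Type*}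
    {D : K → Type*} [∀ k, TopologicalSpace (D k)] {ψ : ∀ k, C(D k, X)} (h : Coh ψ) {f : X → Z} :
    Continuous f ↔ ∀ k, Continuous (f ∘ ψ k) := by
  refine ⟨fun hf k => hf.comp (ψ k).continuous, fun hf => ?_⟩
  rw [continuous_def]
  intro O hO
  apply h
  intro k
  rw [← Set.preimage_comp]
  exact hO.preimage (hf k)

/-- continuity on an open subset -/
theorem Coh.continuousOn_of_isOpen {X Z : Type*} [TopologicalSpace X] [TopologicalSpace Z] {K : Type*}
    {D : K → Type*} [∀ k, TopologicalSpace (D k)] {ψ : ∀ k, C(D k, X)} (h : Coh ψ) {f : X → Z}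
    {U : Set X} (hU : IsOpen U) (hf : ∀ k, ContinuousOn (f ∘ ψ k) (ψ k ⁻¹' U)) : ContinuousOn f U := by
  rw [continuousOn_open_iff hU]
  intro O hO
  apply h
  intro k
  have := (continuousOn_open_iff (hU.preimage (ψ k).continuous)).1 (hf k) O hO
  simpa [Set.preimage_inter, Set.preimage_comp] using this

/-- A covering space of a coherent space is coherent with respect to all the lifts. -/
theorem Coh.lifts {E X : Type*} [TopologicalSpace E] [TopologicalSpace X] {p : E → X}
    (cov : IsCoveringMap p) {K : Type*} {D : K → Type*} [∀ k, TopologicalSpace (D k)]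
    [∀ k, ContractibleSpace (D k)] {ψ : ∀ k, C(D k, X)} (h : Coh ψ) :
    Coh (K := Σ k, {F : C(D k, E) // ∀ a, p (F a) = ψ k a}) (D := fun kF => D kF.1)
      (fun kF => kF.2.1) := by
  intro O hO
  rw [isOpen_iff_mem_nhds]
  intro e he
  obtain ⟨φ, heφ, hφ⟩ := cov.isLocalHomeomorph e
  have hpφ : ∀ x, φ x = p x := fun x => by rw [hφ]
  -- `T` is open
  have hT : IsOpen (p '' (O ∩ φ.source)) := by
    apply h
    intro k
    rw [isOpen_iff_mem_nhds]
    rintro x ⟨e', ⟨he'O, he's⟩, he'⟩
    obtain ⟨F, hF, hFx⟩ := exists_lift cov (ψ k) x e' he'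
    have h1 : IsOpen (F ⁻¹' (O ∩ φ.source)) := by
      rw [Set.preimage_inter]
      exact (hO ⟨k, ⟨F, hF⟩⟩).inter (φ.open_source.preimage F.continuous)
    refine Filter.mem_of_superset (h1.mem_nhds (by simp [hFx, he'O, he's])) ?_
    intro y hy
    exact ⟨F y, hy, hF y⟩
  have h2 : φ.source ∩ p ⁻¹' (p '' (O ∩ φ.source)) ⊆ O := by
    rintro y ⟨hy, e', ⟨he'O, he's⟩, he'⟩
    have : e' = y := φ.injOn he's hy (by rw [hpφ, hpφ, he'])
    exact this ▸ he'O
  refine Filter.mem_of_superset ?_ h2
  exact (φ.open_source.inter (hT.preimage cov.continuous)).mem_nhds ⟨heφ, e, ⟨he, heφ⟩, rfl⟩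

end coherent

section deck
variable {E X : Type*} [TopologicalSpace E] [TopologicalSpace X]

/-- deck transformations of `p` -/
def Deck (p : E → X) : Subgroup (E ≃ₜ E) where
  carrier := {f | ∀ x, p (f x) = p x}
  mul_mem' := by
    intro f g hf hg x
    change p (f (g x)) = p x
    rw [hf, hg]
  one_mem' := fun x => rfl
  inv_mem' := by
    intro f hf x
    change p (f.symm x) = p x
    rw [← hf (f.symm x), f.apply_symm_apply]

instance (p : E → X) : MulAction (Deck p) E where
  smul g x := g.1 x
  one_smul x := rfl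
  mul_smul g h x := rfl

theorem Deck.smul_def {p : E → X} (g : Deck p) (x : E) : g • x = g.1 x := rfl

theorem Deck.proj_smul {p : E → X} (g : Deck p) (x : E) : p (g • x) = p x := g.2 x

instance (p : E → X) : ContinuousConstSMul (Deck p) E where
  continuous_const_smul g := g.1.continuous

variable {p : E → X} (cov : IsCoveringMap p)

include cov

theorem Deck.ext_of_smul_eq [PreconnectedSpace E] {g h : Deck p} (x : E) (hx : g • x = h • x) :
    g = h := by
  have := cov.eq_of_comp_eq g.1.continuous h.1.continuous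
    (funext fun y => (g.2 y).trans (h.2 y).symm) x hx
  exact Subtype.ext (DFunLike.coe_injective this)

theorem Deck.exists_smul_eq [ContractibleSpace E] (x y : E) (h : p x = p y) :
    ∃ g : Deck p, g • x = y := by
  obtain ⟨F, hF, hFx⟩ := exists_lift cov ⟨p, cov.continuous⟩ x y h.symm
  obtain ⟨F', hF', hFy⟩ := exists_lift cov ⟨p, cov.continuous⟩ y x h
  have h1 : F.comp F' = ContinuousMap.id E := by
    refine lift_unique cov (fun a => ?_) y (by simp [hFy, hFx])
    simp only [ContinuousMap.comp_apply, ContinuousMap.id_apply]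
    rw [hF]; simp only [ContinuousMap.coe_mk]; rw [hF']; rfl
  have h2 : F'.comp F = ContinuousMap.id E := by
    refine lift_unique cov (fun a => ?_) x (by simp [hFy, hFx])
    simp only [ContinuousMap.comp_apply, ContinuousMap.id_apply]
    rw [hF']; simp only [ContinuousMap.coe_mk]; rw [hF]; rfl
  refine ⟨⟨⟨⟨F, F', fun a => DFunLike.congr_fun h2 a, fun a => DFunLike.congr_fun h1 a⟩,
    F.continuous, F'.continuous⟩, fun a => hF a⟩, hFx⟩

theorem isQuotientCoveringMap [ContractibleSpace E] (hs : Surjective p) :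
    IsQuotientCoveringMap p (Deck p) := by
  rw [isQuotientCoveringMap_iff_isCoveringMap_and]
  refine ⟨cov, hs, inferInstance, ⟨fun g h x hx => Deck.ext_of_smul_eq cov x hx⟩, ?_⟩
  intro e₁ e₂
  constructor
  · intro h
    obtain ⟨g, hg⟩ := Deck.exists_smul_eq cov e₂ e₁ h.symm
    exact ⟨g, hg⟩
  · rintro ⟨g, rfl⟩
    exact Deck.proj_smul g e₂

/-- The deck group of a contractible cover is the fundamental group of the base. -/
theorem nonempty_deck_equiv [ContractibleSpace E] (hs : Surjective p) (x : X) {G : Type*} [Group G]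
    (e : FundamentalGroup X x ≃* G) : Nonempty (Deck p ≃* G) := by
  obtain ⟨e₀, he₀⟩ := hs x
  have h1 := (isQuotientCoveringMap cov hs).fundamentalGroupEquiv (x := x) ⟨e₀, he₀⟩
  exact ⟨(MulEquiv.inv' (Deck p)).trans (h1.symm.trans e)⟩

end deck

end Crest.Agent.R197.F
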