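import Mathlib

/-!
# Row 197, module F4a: a continuous family of nonzero idempotent operators over a contractible
space has a nowhere vanishing invariant section (discrete parallel transport along a contraction).
-/

set_option autoImplicit false

open scoped unitInterval Topology
open Filter

namespace Crest.Agent.R197

section transport

variable {𝕜 F : Type*} [NontriviallyNormedField 𝕜] [NormedAddCommGroup F] [NormedSpace 𝕜 F]

/-- modulus of continuity depending continuously on the path of operators -/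
theorem exists_modulus :
    ∃ δ : C(C(I, F →L[𝕜] F), ℝ), ∀ A : C(I, F →L[𝕜] F), 0 < δ A ∧
      ∀ s t : I, |(s : ℝ) - t| ≤ δ A → ‖A s - A t‖ < 1 := by
  have h := exists_continuous_forall_mem_convex_of_local_const (X := C(I, F →L[𝕜] F)) (E := ℝ)
    (t := fun A => {δ : ℝ | 0 < δ ∧ ∀ s t : I, |(s : ℝ) - t| ≤ δ → ‖A s - A t‖ < 1}) ?_ ?_
  · obtain ⟨g, hg⟩ := h
    exact ⟨g, hg⟩
  · intro A
    rw [convex_iff_forall_pos]
    intro a ha b hb p q hp hq hpq
    refine ⟨by have := ha.1; have := hb.1; positivity, fun s t hst => ?_⟩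
    rcases le_total a b with hab | hab
    · refine hb.2 s t (hst.trans ?_)
      simp only [smul_eq_mul]
      calc p * a + q * b ≤ p * b + q * b := by
            have := mul_le_mul_of_nonneg_left hab hp.le; linarith
        _ = b := by rw [← add_mul, hpq, one_mul]
    · refine ha.2 s t (hst.trans ?_)
      simp only [smul_eq_mul]
      calc p * a + q * b ≤ p * a + q * a := by
            have := mul_le_mul_of_nonneg_left hab hq.le; linarith
        _ = a := by rw [← add_mul, hpq, one_mul]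
  · intro A
    have huc : UniformContinuous A := CompactSpace.uniformContinuous_of_continuous A.continuous
    rw [Metric.uniformContinuous_iff] at huc
    obtain ⟨δ, hδ, hA⟩ := huc (1 / 2) (by norm_num)
    refine ⟨δ / 2, ?_⟩
    filter_upwards [Metric.ball_mem_nhds A (show (0 : ℝ) < 1 / 4 by norm_num)] with B hB
    refine ⟨by positivity, fun s t hst => ?_⟩
    have h1 : dist (A s) (A t) < 1 / 2 := by
      apply hA
      rw [Subtype.dist_eq, Real.dist_eq]
      linarith
    rw [Metric.mem_ball] at hB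
    have h2 : dist (B s) (A s) < 1 / 4 := lt_of_le_of_lt (ContinuousMap.dist_apply_le_dist s) hB
    have h3 : dist (B t) (A t) < 1 / 4 := lt_of_le_of_lt (ContinuousMap.dist_apply_le_dist t) hB
    rw [← dist_eq_norm]
    calc dist (B s) (B t) ≤ dist (B s) (A s) + dist (A s) (A t) + dist (A t) (B t) :=
          dist_triangle4 _ _ _ _
      _ < 1 / 4 + 1 / 2 + 1 / 4 := by
          rw [dist_comm (A t) (B t)]
          linarith
      _ = 1 := by norm_num

/-- the `k`-th time -/
noncomputable def tm (δ : C(C(I, F →L[𝕜] F), ℝ)) (k : ℕ) (A : C(I, F →L[𝕜] F)) : I :=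
  Set.projIcc 0 1 zero_le_one (k * δ A)

theorem continuous_tm (δ : C(C(I, F →L[𝕜] F), ℝ)) (k : ℕ) : Continuous (tm δ k) := by
  unfold tm
  exact continuous_projIcc.comp (continuous_const.mul δ.continuous)

theorem tm_zero (δ : C(C(I, F →L[𝕜] F), ℝ)) (A : C(I, F →L[𝕜] F)) : tm δ 0 A = 0 := by
  unfold tm
  simp

theorem tm_of_le (δ : C(C(I, F →L[𝕜] F), ℝ)) {A : C(I, F →L[𝕜] F)} {k : ℕ}
    (h : 1 ≤ k * δ A) : tm δ k A = 1 := by
  unfold tm
  rw [Set.projIcc_of_right_le _ h]
  rfl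

theorem abs_tm_succ_sub (δ : C(C(I, F →L[𝕜] F), ℝ)) {A : C(I, F →L[𝕜] F)} (h : 0 < δ A) (k : ℕ) :
    |(tm δ (k + 1) A : ℝ) - tm δ k A| ≤ δ A := by
  unfold tm
  rw [Set.coe_projIcc, Set.coe_projIcc]
  have h2 : (((k + 1 : ℕ) : ℝ)) * δ A = k * δ A + δ A := by push_cast; ring
  rw [h2]
  have h3 : 0 ≤ (k : ℝ) * δ A := by positivity
  rw [abs_le]
  constructor
  · rw [max_eq_right, max_eq_right]
    · rcases le_total 1 ((k : ℝ) * δ A) with h4 | h4
      · rw [min_eq_left h4, min_eq_left (by linarith)]; linarith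
      · rw [min_eq_right h4]
        have : min 1 ((k : ℝ) * δ A + δ A) ≥ k * δ A := by
          apply le_min h4; linarith
        linarith
    · exact le_min zero_le_one h3
    · exact le_min zero_le_one (by linarith)
  · rw [max_eq_right, max_eq_right]
    · rcases le_total 1 ((k : ℝ) * δ A) with h4 | h4
      · rw [min_eq_left h4, min_eq_left (by linarith)]; linarith
      · rw [min_eq_right h4]
        have : min 1 ((k : ℝ) * δ A + δ A) ≤ k * δ A + δ A := min_le_right _ _
        linarith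
    · exact le_min zero_le_one h3
    · exact le_min zero_le_one (by linarith)

/-- discrete parallel transport -/
noncomputable def vk (δ : C(C(I, F →L[𝕜] F), ℝ)) (u₀ : F) : ℕ → C(I, F →L[𝕜] F) → F
  | 0, _ => u₀
  | k + 1, A => A (tm δ (k + 1) A) (vk δ u₀ k A)

theorem continuous_vk (δ : C(C(I, F →L[𝕜] F), ℝ)) (u₀ : F) (k : ℕ) : Continuous (vk δ u₀ k) := by
  induction k with
  | zero => exact continuous_const
  | succ k ih =>
    have h1 : Continuous (fun A : C(I, F →L[𝕜] F) => A (tm δ (k + 1) A)) :=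
      continuous_id.eval (continuous_tm δ (k + 1))
    exact h1.clm_apply ih

theorem vk_spec {δ : C(C(I, F →L[𝕜] F), ℝ)} (hδ : ∀ A : C(I, F →L[𝕜] F), 0 < δ A ∧
      ∀ s t : I, |(s : ℝ) - t| ≤ δ A → ‖A s - A t‖ < 1) {u₀ : F} (hu₀ : u₀ ≠ 0)
    {A : C(I, F →L[𝕜] F)} (hidem : ∀ t v, A t (A t v) = A t v) (h0 : A 0 u₀ = u₀) (k : ℕ) :
    vk δ u₀ k A ≠ 0 ∧ A (tm δ k A) (vk δ u₀ k A) = vk δ u₀ k A := by
  induction k with
  | zero => exact ⟨hu₀, by rw [tm_zero]; exact h0⟩
  | succ k ih =>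
    obtain ⟨ih1, ih2⟩ := ih
    refine ⟨?_, hidem _ _⟩
    intro hz
    change A (tm δ (k + 1) A) (vk δ u₀ k A) = 0 at hz
    have h1 : (A (tm δ k A) - A (tm δ (k + 1) A)) (vk δ u₀ k A) = vk δ u₀ k A := by
      rw [sub_apply, hz, ih2, sub_zero]
    have h2 := (A (tm δ k A) - A (tm δ (k + 1) A)).le_opNorm (vk δ u₀ k A)
    rw [h1] at h2
    have h3 : ‖A (tm δ k A) - A (tm δ (k + 1) A)‖ < 1 := by
      apply (hδ A).2
      rw [abs_sub_comm]
      exact abs_tm_succ_sub δ (hδ A).1 k
    have h4 : 0 < ‖vk δ u₀ k A‖ := norm_pos_iff.2 ih1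
    nlinarith

theorem vk_stable {δ : C(C(I, F →L[𝕜] F), ℝ)} (hδ : ∀ A : C(I, F →L[𝕜] F), 0 < δ A ∧
      ∀ s t : I, |(s : ℝ) - t| ≤ δ A → ‖A s - A t‖ < 1) {u₀ : F} (hu₀ : u₀ ≠ 0)
    {A : C(I, F →L[𝕜] F)} (hidem : ∀ t v, A t (A t v) = A t v) (h0 : A 0 u₀ = u₀) {k : ℕ}
    (hk : 1 ≤ k * δ A) {n : ℕ} (hn : k ≤ n) : vk δ u₀ n A = vk δ u₀ k A := by
  induction n, hn using Nat.le_induction with
  | base => rfl
  | succ n hn ih =>
    have hpos := (hδ A).1
    have h1 : (1 : ℝ) ≤ n * δ A := by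
      have : (k : ℝ) ≤ n := by exact_mod_cast hn
      nlinarith
    have h2 : (1 : ℝ) ≤ ((n + 1 : ℕ) : ℝ) * δ A := by
      push_cast; nlinarith
    change A (tm δ (n + 1) A) (vk δ u₀ n A) = _
    rw [tm_of_le δ h2, ← ih]
    have h3 := (vk_spec hδ hu₀ hidem h0 n).2
    rwa [tm_of_le δ h1] at h3

end transport

/-- LEMMA L. Over a contractible space every continuous family of idempotent operators which is
nonzero has a nowhere vanishing invariant continuous section. -/
theorem exists_section {𝕜 F E : Type*} [NontriviallyNormedField 𝕜] [NormedAddCommGroup F]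
    [NormedSpace 𝕜 F] [TopologicalSpace E] [ContractibleSpace E]
    (P : C(E, F →L[𝕜] F)) (hidem : ∀ x v, P x (P x v) = P x v) (hne : ∀ x, P x ≠ 0) :
    ∃ u : C(E, F), ∀ x, u x ≠ 0 ∧ P x (u x) = u x := by
  obtain ⟨δ, hδ⟩ := exists_modulus (𝕜 := 𝕜) (F := F)
  obtain ⟨y, ⟨H⟩⟩ := id_nullhomotopic E
  -- the starting vector
  obtain ⟨v, hv⟩ : ∃ v, P y v ≠ 0 := by
    by_contra hcon
    push Not at hcon
    exact hne y (ContinuousLinearMap.ext hcon)
  set u₀ := P y v with hu₀
  -- the family of paths of operators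
  let A : C(E, C(I, F →L[𝕜] F)) := ContinuousMap.curry
    ⟨fun q : E × I => P (H (unitInterval.symm q.2, q.1)), by fun_prop⟩
  have hA : ∀ x t, A x t = P (H (unitInterval.symm t, x)) := fun x t => rfl
  have hidA : ∀ x t v, A x t (A x t v) = A x t v := fun x t v => hidem _ _
  have hA0 : ∀ x, A x 0 u₀ = u₀ := by
    intro x
    rw [hA]
    simp only [unitInterval.symm_zero, ContinuousMap.Homotopy.apply_one, ContinuousMap.const_apply]
    exact hidem y v
  have hA1 : ∀ x, A x 1 = P x := by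
    intro x
    rw [hA]
    simp
  let K : E → ℕ := fun x => ⌈1 / δ (A x)⌉₊
  have hK : ∀ x, 1 ≤ (K x : ℝ) * δ (A x) := by
    intro x
    have h1 := Nat.le_ceil (1 / δ (A x))
    rw [div_le_iff₀ (hδ (A x)).1] at h1
    exact h1
  have hstab : ∀ (x : E) (n : ℕ), 1 ≤ (n : ℝ) * δ (A x) → vk δ u₀ n (A x) = vk δ u₀ (K x) (A x) := by
    intro x n hn
    rcases le_total n (K x) with h | h
    · exact (vk_stable hδ hv (hidA x) (hA0 x) hn h).symm
    · exact vk_stable hδ hv (hidA x) (hA0 x) (hK x) h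
  refine ⟨⟨fun x => vk δ u₀ (K x) (A x), ?_⟩, fun x => ?_⟩
  · rw [continuous_iff_continuousAt]
    intro x₀
    obtain ⟨n, hn⟩ := exists_nat_gt (2 / δ (A x₀))
    have hpos := (hδ (A x₀)).1
    have h1 : ∀ᶠ x in 𝓝 x₀, δ (A x₀) / 2 < δ (A x) := by
      have hc : Continuous (fun x => δ (A x)) := δ.continuous.comp A.continuous
      exact hc.continuousAt.eventually (lt_mem_nhds (by linarith))
    have h2 : (fun x => vk δ u₀ n (A x)) =ᶠ[𝓝 x₀] fun x => vk δ u₀ (K x) (A x) := by
      filter_upwards [h1] with x hx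
      apply hstab
      have h3 : 2 < (n : ℝ) * δ (A x₀) := by
        rwa [div_lt_iff₀ hpos] at hn
      have h4 : (0 : ℝ) ≤ n := Nat.cast_nonneg n
      nlinarith
    refine ContinuousAt.congr ?_ h2
    exact ((continuous_vk δ u₀ n).comp A.continuous).continuousAt
  · have h1 := vk_spec hδ hv (hidA x) (hA0 x) (K x)
    refine ⟨h1.1, ?_⟩
    have h2 := h1.2
    rw [tm_of_le δ (hK x), hA1] at h2
    exact h2

end Crest.Agent.R197
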