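import Mathlib
import Crest.Agent.R197.Defs

/-!
# Row 197, module H: `H²(G, ℤ) ≠ 0`

The bilinear cocycle `(g, h) ↦ f₁ g * f₂ h`, where `f₁`, `f₂ : G → ℤ` are homomorphisms, is not a
coboundary since `f₁ s * f₂ t - f₁ t * f₂ s ≠ 0` for the commuting elements `s = x₁`,
`t = y₁⁻¹ y₂`.
-/

set_option autoImplicit false

namespace Crest.Agent.R197

open CategoryTheory

/-- general criterion -/
theorem h2_ne_zero_of_hom {G : Type} [Group G] (f₁ f₂ : G →* Multiplicative ℤ) (s t : G)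
    (hst : s * t = t * s)
    (hne : (f₁ s).toAdd * (f₂ t).toAdd ≠ (f₁ t).toAdd * (f₂ s).toAdd) :
    ¬ Limits.IsZero (groupCohomology (Rep.trivial ℤ G ℤ) 2) := by
  intro hz
  let c : G × G → ℤ := fun p => (f₁ p.1).toAdd * (f₂ p.2).toAdd
  have hc : c ∈ groupCohomology.cocycles₂ (Rep.trivial ℤ G ℤ) := by
    rw [groupCohomology.mem_cocycles₂_iff]
    intro g h j
    change (f₁ (g * h)).toAdd * (f₂ j).toAdd + (f₁ g).toAdd * (f₂ h).toAdd =
      (f₁ h).toAdd * (f₂ j).toAdd + (f₁ g).toAdd * (f₂ (h * j)).toAdd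
    simp only [map_mul, toAdd_mul]
    ring
  have h0 : groupCohomology.H2π (Rep.trivial ℤ G ℤ) ⟨c, hc⟩ = 0 := by
    have : Subsingleton (groupCohomology.H2 (Rep.trivial ℤ G ℤ)) :=
      ModuleCat.subsingleton_of_isZero hz
    exact Subsingleton.elim _ _
  rw [groupCohomology.H2π_eq_zero_iff] at h0
  obtain ⟨ψ, hψ⟩ := h0
  have key : ∀ g h : G, ψ h - ψ (g * h) + ψ g = (f₁ g).toAdd * (f₂ h).toAdd := fun g h =>
    congrFun hψ (g, h)
  have e1 := key s t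
  have e2 := key t s
  rw [hst] at e1
  apply hne
  rw [← e1, ← e2]
  ring

/-- target data for `f₁` -/
def fx1 : Fin 4 → Multiplicative ℤ := ![1, Multiplicative.ofAdd 1, 1, 1]

theorem relG_f₁ : RelG fx1 (fun _ => (1 : Multiplicative ℤ)) (fun _ => 1) := by
  refine { x0 := rfl, hex := ?_, la := ?_, lb := ?_ }
  · intro α i k hi hk
    simp only [Aw, Bw]
    revert α i k
    decide
  · intro n
    simp only [lam, Aw]
    simp [mul_comm]
  · intro n
    simp only [lam, Aw]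
    simp [mul_comm]

theorem relG_f₂ : RelG (fun _ => (1 : Multiplicative ℤ)) fx1 (fun _ => 1) := by
  refine { x0 := rfl, hex := ?_, la := ?_, lb := ?_ }
  · intro α i k hi hk
    simp only [Aw, Bw]
    revert α i k
    decide
  · intro n
    simp only [lam, Aw]
    simp [mul_comm]
  · intro n
    simp only [lam, Aw]
    simp [mul_comm]

/-- module H -/
theorem h2_GG : ∃ A : Rep ℤ GG, ¬ CategoryTheory.Limits.IsZero (groupCohomology A 2) := by
  refine ⟨Rep.trivial ℤ GG ℤ, h2_ne_zero_of_hom (GG.lift relG_f₁) (GG.lift relG_f₂) (GG.x 1)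
    ((GG.y 1)⁻¹ * GG.y 2) ?_ ?_⟩
  · have h := GG.rel.la 1
    have hx := GG.rel.x0
    simp only [lam, Aw, hx, inv_one, mul_one, zpow_one, Int.reduceNeg, zpow_neg] at h
    -- y1 * (y1 x1⁻¹)⁻¹ * (y2 x1⁻¹) * y2⁻¹ = 1
    have h2 : GG.y 1 * (GG.x 1 * ((GG.y 1)⁻¹ * GG.y 2) * (GG.x 1)⁻¹ * ((GG.y 1)⁻¹ * GG.y 2)⁻¹) *
        (GG.y 1)⁻¹ = 1 := by
      rw [← h]; group
    have h3 : GG.x 1 * ((GG.y 1)⁻¹ * GG.y 2) * (GG.x 1)⁻¹ * ((GG.y 1)⁻¹ * GG.y 2)⁻¹ = 1 := by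
      rwa [conj_eq_one_iff] at h2
    rw [mul_inv_eq_one, mul_inv_eq_iff_eq_mul] at h3
    exact h3
  · simp [fx1]

end Crest.Agent.R197
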