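import Mathlib

/-!
# Row 197, module A1: reduced products of groups over a filter on `ℕ`

`RP W F = (∀ n, W n) ⧸ {w | ∀ᶠ n in F, w n = 1}`, functoriality, and lifting of homomorphisms from
finitely presented groups.
-/

set_option autoImplicit false

open Filter

namespace Crest.Agent.R197

/-- the subgroup of families which are eventually trivial -/
def evTriv (W : ℕ → Type*) [∀ n, Group (W n)] (F : Filter ℕ) : Subgroup (∀ n, W n) where
  carrier := {w | ∀ᶠ n in F, w n = 1}
  one_mem' := Eventually.of_forall fun _ => rfl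
  mul_mem' := by
    intro a b ha hb
    filter_upwards [ha, hb] with n h1 h2
    simp [h1, h2]
  inv_mem' := by
    intro a ha
    filter_upwards [ha] with n h1
    simp [h1]

theorem mem_evTriv {W : ℕ → Type*} [∀ n, Group (W n)] {F : Filter ℕ} {w : ∀ n, W n} :
    w ∈ evTriv W F ↔ ∀ᶠ n in F, w n = 1 := Iff.rfl

instance evTriv_normal (W : ℕ → Type*) [∀ n, Group (W n)] (F : Filter ℕ) :
    (evTriv W F).Normal := by
  refine ⟨fun a ha g => ?_⟩
  filter_upwards [mem_evTriv.mp ha] with n h1
  simp [h1]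

/-- reduced product of the groups `W n` along the filter `F` -/
abbrev RP (W : ℕ → Type*) [∀ n, Group (W n)] (F : Filter ℕ) := (∀ n, W n) ⧸ evTriv W F

namespace RP

variable {W : ℕ → Type*} [∀ n, Group (W n)] {F : Filter ℕ}

/-- the class of a family -/
def mk (F : Filter ℕ) : (∀ n, W n) →* RP W F := QuotientGroup.mk' (evTriv W F)

theorem mk_surjective : Function.Surjective (mk (W := W) F) := QuotientGroup.mk'_surjective _

theorem mk_eq_one_iff {w : ∀ n, W n} : mk F w = 1 ↔ ∀ᶠ n in F, w n = 1 := by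
  rw [← mem_evTriv]
  exact QuotientGroup.eq_one_iff w

theorem mk_eq_mk_iff {w w' : ∀ n, W n} : mk F w = mk F w' ↔ ∀ᶠ n in F, w n = w' n := by
  rw [← mul_inv_eq_one, ← map_inv, ← map_mul, mk_eq_one_iff]
  simp only [Pi.mul_apply, Pi.inv_apply, mul_inv_eq_one]

/-- every element of the reduced product is the class of a family -/
theorem exists_mk (z : RP W F) : ∃ w : ∀ n, W n, mk F w = z := mk_surjective z

section map
variable {W' : ℕ → Type*} [∀ n, Group (W' n)]

/-- the homomorphism of reduced products induced by a family of homomorphisms -/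
def map (F : Filter ℕ) (q : ∀ n, W n →* W' n) : RP W F →* RP W' F :=
  QuotientGroup.map (evTriv W F) (evTriv W' F)
    (MonoidHom.mk' (fun w n => q n (w n)) (by intro a b; funext n; simp)) (by
      intro w hw
      filter_upwards [mem_evTriv.mp hw] with n h
      simp [h])

@[simp] theorem map_mk (q : ∀ n, W n →* W' n) (w : ∀ n, W n) :
    map F q (mk F w) = mk F (fun n => q n (w n)) := rfl

theorem map_surjective {q : ∀ n, W n →* W' n} (hq : ∀ n, Function.Surjective (q n)) :
    Function.Surjective (map F q) := by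
  intro z
  obtain ⟨w, rfl⟩ := mk_surjective z
  choose u hu using hq
  exact ⟨mk F (fun n => u n (w n)), by simp [hu]⟩

theorem map_mk_eq_one_iff {q : ∀ n, W n →* W' n} {w : ∀ n, W n} :
    map F q (mk F w) = 1 ↔ ∀ᶠ n in F, q n (w n) = 1 := by
  rw [map_mk, mk_eq_one_iff]

/-- every element of the kernel is represented by a family in the kernels -/
theorem exists_mk_of_mem_ker {q : ∀ n, W n →* W' n} {z : RP W F} (hz : z ∈ (map F q).ker) :
    ∃ w : ∀ n, W n, (∀ n, w n ∈ (q n).ker) ∧ mk F w = z := by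
  classical
  obtain ⟨w, rfl⟩ := mk_surjective z
  have h := map_mk_eq_one_iff.mp hz
  refine ⟨fun n => if q n (w n) = 1 then w n else 1, fun n => ?_, ?_⟩
  · by_cases hn : q n (w n) = 1
    · simp [hn, MonoidHom.mem_ker]
    · simp [hn]
  · rw [mk_eq_mk_iff]
    filter_upwards [h] with n hn
    simp [hn]

/-- `F`-eventually surjective families induce a surjection. -/
theorem map_surjective_of_eventually {q : ∀ n, W n →* W' n}
    (hq : ∀ᶠ n in F, Function.Surjective (q n)) :
    Function.Surjective (map F q) := by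
  classical
  intro z
  obtain ⟨w, rfl⟩ := mk_surjective z
  have key : ∀ n, ∃ u : W n, Function.Surjective (q n) → q n u = w n := by
    intro n
    by_cases h : Function.Surjective (q n)
    · obtain ⟨u, hu⟩ := h (w n)
      exact ⟨u, fun _ => hu⟩
    · exact ⟨1, fun h' => absurd h' h⟩
  choose u hu using key
  refine ⟨mk F u, ?_⟩
  rw [map_mk, mk_eq_mk_iff]
  filter_upwards [hq] with n hn
  exact hu n hn

end map

section ofFam
variable {E : Type*} [Group E]

/-- the homomorphism into the reduced product given by a family of homomorphisms -/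
def ofFam (F : Filter ℕ) (ρ : ∀ n, E →* W n) : E →* RP W F :=
  (mk F).comp (MonoidHom.mk' (fun e n => ρ n e) (by intro a b; funext n; simp))

@[simp] theorem ofFam_apply (ρ : ∀ n, E →* W n) (e : E) :
    ofFam F ρ e = mk F (fun n => ρ n e) := rfl

theorem ofFam_eq_iff {ρ ρ' : ∀ n, E →* W n} {e : E} :
    ofFam F ρ e = ofFam F ρ' e ↔ ∀ᶠ n in F, ρ n e = ρ' n e := by
  rw [ofFam_apply, ofFam_apply, mk_eq_mk_iff]

theorem map_comp_ofFam {W' : ℕ → Type*} [∀ n, Group (W' n)] (q : ∀ n, W n →* W' n)
    (ρ : ∀ n, E →* W n) :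
    (map F q).comp (ofFam F ρ) = ofFam F (fun n => (q n).comp (ρ n)) := by
  ext e
  rfl

/-- Two families of homomorphisms from a finitely generated group with the same classes agree
`F`-eventually. -/
theorem eventually_eq_of_fg [Group.FG E] {ρ ρ' : ∀ n, E →* W n}
    (h : ∀ e, mk F (fun n => ρ n e) = mk F (fun n => ρ' n e)) :
    ∀ᶠ n in F, ρ n = ρ' n := by
  obtain ⟨S, hS⟩ := Group.FG.out (G := E)
  have h1 : ∀ᶠ n in F, ∀ e ∈ S, ρ n e = ρ' n e := by
    rw [Filter.eventually_all_finset]
    intro e _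
    exact mk_eq_mk_iff.mp (h e)
  filter_upwards [h1] with n hn
  refine MonoidHom.eq_of_eqOn_dense hS ?_
  intro e he
  exact hn e (Finset.mem_coe.mp he)

theorem eventually_eq_of_fg' [Group.FG E] {ρ ρ' : ∀ n, E →* W n}
    (h : ofFam F ρ = ofFam F ρ') :
    ∀ᶠ n in F, ρ n = ρ' n :=
  eventually_eq_of_fg fun e => DFunLike.congr_fun h e

end ofFam

/-- A homomorphism from a finitely presented group to a reduced product lifts to a family of
homomorphisms. -/
theorem lift_fp {E' : Type*} [Group E'] [hE : Group.IsFinitelyPresented E'] (ρ : E' →* RP W F) :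
    ∃ ρn : ∀ n, E' →* W n, ∀ e, mk F (fun n => ρn n e) = ρ e := by
  classical
  obtain ⟨d, φ, hφ, S, hS, hker⟩ := hE.out
  -- lift the generators
  choose w hw using fun i : Fin d => mk_surjective (W := W) (F := F) (ρ (φ (FreeGroup.of i)))
  let σ : ∀ n, FreeGroup (Fin d) →* W n := fun n => FreeGroup.lift (fun i => w i n)
  have hσ : ofFam F σ = ρ.comp φ := by
    apply FreeGroup.ext_hom
    intro i
    simp only [ofFam_apply, MonoidHom.comp_apply, ← hw i]
    congr 1
    funext n
    simp [σ]
  have hσ' : ∀ a, mk F (fun n => σ n a) = ρ (φ a) := fun a => DFunLike.congr_fun hσ a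
  have hrel : ∀ᶠ n in F, ∀ s ∈ S, σ n s = 1 := by
    rw [Filter.eventually_all_finite hS]
    intro s hs
    have h1 : φ s = 1 := by
      rw [← MonoidHom.mem_ker, ← hker]
      exact Subgroup.subset_normalClosure hs
    have h2 := hσ' s
    rw [h1, map_one, mk_eq_one_iff] at h2
    exact h2
  have key : ∀ n, ∃ τ : E' →* W n, (∀ s ∈ S, σ n s = 1) → ∀ a, τ (φ a) = σ n a := by
    intro n
    by_cases hn : ∀ s ∈ S, σ n s = 1
    · have hle : φ.ker ≤ (σ n).ker := by
        rw [← hker]
        exact Subgroup.normalClosure_le_normal (fun s hs => hn s hs)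
      refine ⟨(φ.liftOfSurjective hφ) ⟨σ n, hle⟩, fun _ a => ?_⟩
      exact MonoidHom.liftOfRightInverse_comp_apply _ _ _ ⟨σ n, hle⟩ a
    · exact ⟨1, fun h => absurd h hn⟩
  choose τ hτ using key
  refine ⟨τ, fun e => ?_⟩
  obtain ⟨a, rfl⟩ := hφ e
  rw [← hσ' a, mk_eq_mk_iff]
  filter_upwards [hrel] with n hn
  exact hτ n hn a

/-- variant with `ofFam` -/
theorem lift_fp' {E' : Type*} [Group E'] [Group.IsFinitelyPresented E'] (ρ : E' →* RP W F) :
    ∃ ρn : ∀ n, E' →* W n, ofFam F ρn = ρ := by
  obtain ⟨ρn, h⟩ := lift_fp ρ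
  exact ⟨ρn, MonoidHom.ext h⟩

end RP

end Crest.Agent.R197
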