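import Crest.Agent.R197.Defs

/-!
# Row 197, task A2: single step lemma (helper490)
-/

set_option autoImplicit false

namespace Crest.Agent.R197

theorem step_single {E E' G W W' : Type} [Group E] [Group E'] [Group G] [Group W] [Group W']
    (π : E →* G) (hπ : Function.Surjective π) (hperf : ⁅π.ker, π.ker⁆ = π.ker)
    (f : E →* E') (f₂ : E' →* G) (hf : f₂.comp f = π)
    (hext : ∀ (V : Type) [AddCommGroup V] [DistribMulAction G V] (X' : ExtVia f₂ V),
      ∃ (X : ExtVia (MonoidHom.id G) V) (Θ : X'.U →* X.U),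
        (∀ v, Θ (X'.ι v) = X.ι v) ∧ ∀ u, X.κ (Θ u) = f₂ (X'.κ u))
    (q : W →* W') (hq : Function.Surjective q) (hab : ∀ a ∈ q.ker, ∀ b ∈ q.ker, a * b = b * a)
    (ρ : E →* W) (ρ' : E' →* W') (hρ : q.comp ρ = ρ'.comp f)
    (hc : ∀ (e' : E') (w : W) (e : E), q w = ρ' e' → f₂ e' = π e →
      ∀ v ∈ q.ker, w * v * w⁻¹ = ρ e * v * (ρ e)⁻¹) :
    ∃ ρ'' : E' →* W, q.comp ρ'' = ρ' ∧ ρ''.comp f = ρ := by
  classical
  have hfe : ∀ e, f₂ (f e) = π e := fun e => DFunLike.congr_fun hf e
  have hρe : ∀ e, q (ρ e) = ρ' (f e) := fun e => DFunLike.congr_fun hρ e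
  -- the module
  letI cgV : CommGroup q.ker :=
    { (inferInstance : Group q.ker) with
      mul_comm := fun a b => Subtype.ext (hab a a.2 b b.2) }
  -- the action of `E` on `ker q`
  let φE : E →* MulAut q.ker := (MulAut.conjNormal (H := q.ker)).comp ρ
  have hφE : π.ker ≤ φE.ker := by
    intro e he
    rw [MonoidHom.mem_ker] at he ⊢
    ext v
    change ρ e * (v : W) * (ρ e)⁻¹ = v
    have h1 := hc (f e) (ρ e) 1 (hρe e) (by rw [hfe, he, map_one]) v v.2
    rw [h1]; simp
  let φ : G →* MulAut q.ker := (π.liftOfSurjective hπ) ⟨φE, hφE⟩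
  have hφ : ∀ e, φ (π e) = φE e := fun e => π.liftOfRightInverse_comp_apply _ (Function.rightInverse_surjInv hπ) ⟨φE, hφE⟩ e
  letI actV : DistribMulAction G (Additive q.ker) :=
    { smul := fun g v => Additive.ofMul (φ g (Additive.toMul v))
      one_smul := fun v => by
        change Additive.ofMul (φ 1 (Additive.toMul v)) = v
        rw [map_one]; rfl
      mul_smul := fun g h v => by
        change Additive.ofMul (φ (g * h) (Additive.toMul v)) =
          Additive.ofMul (φ g (φ h (Additive.toMul v)))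
        rw [map_mul]; rfl
      smul_zero := fun g => by
        change Additive.ofMul (φ g 1) = 0
        rw [map_one]; rfl
      smul_add := fun g v w => by
        change Additive.ofMul (φ g (Additive.toMul v * Additive.toMul w)) =
          Additive.ofMul (φ g (Additive.toMul v)) + Additive.ofMul (φ g (Additive.toMul w))
        rw [map_mul]; rfl }
  have hact : ∀ (e : E) (v : Additive q.ker),
      ((Additive.toMul (π e • v) : q.ker) : W) = ρ e * ((Additive.toMul v : q.ker) : W) * (ρ e)⁻¹ := by
    intro e v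
    change ((φ (π e) (Additive.toMul v) : q.ker) : W) = _
    rw [hφ]
    rfl
  -- the pull back extension
  let U' : Subgroup (E' × W) :=
    (ρ'.comp (MonoidHom.fst E' W)).eqLocus (q.comp (MonoidHom.snd E' W))
  have hU' : ∀ u : U', ρ' (u : E' × W).1 = q (u : E' × W).2 := fun u => u.2
  let ι' : Multiplicative (Additive q.ker) →* U' :=
    { toFun := fun v => ⟨(1, ((Additive.toMul (Multiplicative.toAdd v) : q.ker) : W)), by
        change ρ' 1 = q _
        rw [map_one]
        exact ((Additive.toMul (Multiplicative.toAdd v) : q.ker).2).symm⟩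
      map_one' := rfl
      map_mul' := fun a b => by
        apply Subtype.ext
        exact Prod.ext (by simp) rfl }
  have hι'1 : ∀ v, ((ι' v : U') : E' × W).1 = 1 := fun v => rfl
  have hι'2 : ∀ v, ((ι' v : U') : E' × W).2 =
      ((Additive.toMul (Multiplicative.toAdd v) : q.ker) : W) := fun v => rfl
  let κ' : U' →* E' := (MonoidHom.fst E' W).comp U'.subtype
  have hκ' : ∀ u : U', κ' u = (u : E' × W).1 := fun u => rfl
  let X' : ExtVia f₂ (Additive q.ker) :=
    { U := U'
      ι := ι'
      κ := κ'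
      inj := by
        intro a b hab'
        have h1 := congrArg (fun u : U' => (u : E' × W).2) hab'
        simp only [hι'2] at h1
        exact Subtype.ext h1
      surj := by
        intro e'
        obtain ⟨w, hw⟩ := hq (ρ' e')
        exact ⟨⟨(e', w), hw.symm⟩, rfl⟩
      exact := by
        intro u
        constructor
        · intro h
          have h1 : (u : E' × W).1 = 1 := h
          have h2 : q (u : E' × W).2 = 1 := by rw [← hU' u, h1, map_one]
          refine ⟨Multiplicative.ofAdd (Additive.ofMul (⟨(u : E' × W).2, h2⟩ : q.ker)), ?_⟩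
          apply Subtype.ext
          exact Prod.ext h1.symm rfl
        · rintro ⟨v, rfl⟩
          rfl
      act := by
        intro u v
        apply Subtype.ext
        refine Prod.ext ?_ ?_
        · change (u : E' × W).1 * 1 * ((u : E' × W).1)⁻¹ = 1
          simp
        · obtain ⟨e, he⟩ := hπ (f₂ (u : E' × W).1)
          have h1 : f₂ (κ' u) = π e := he.symm
          change (u : E' × W).2 * ((Additive.toMul v : q.ker) : W) * ((u : E' × W).2)⁻¹ =
            ((Additive.toMul (f₂ (κ' u) • v) : q.ker) : W)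
          rw [h1, hact]
          exact hc (u : E' × W).1 (u : E' × W).2 e (hU' u).symm he.symm _
            (Additive.toMul v : q.ker).2 }
  obtain ⟨X, Θ, hΘι, hΘκ⟩ := hext (Additive q.ker) X'
  -- the homomorphism `j`
  let j : E →* U' :=
    { toFun := fun e => ⟨(f e, ρ e), (hρe e).symm⟩
      map_one' := by apply Subtype.ext; exact Prod.ext (map_one f) (map_one ρ)
      map_mul' := fun a b => by
        apply Subtype.ext; exact Prod.ext (map_mul f a b) (map_mul ρ a b) }
  have hj1 : ∀ e, ((j e : U') : E' × W).1 = f e := fun e => rfl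
  have hj2 : ∀ e, ((j e : U') : E' × W).2 = ρ e := fun e => rfl
  let Θ' : U' →* X.U := Θ
  let Θj : E →* X.U := Θ'.comp j
  have hXκ : ∀ e, X.κ (Θj e) = π e := fun e => by
    change X.κ (Θ (j e)) = _
    rw [hΘκ]
    exact hfe e
  -- `Θ ∘ j` is trivial on `ker π`
  have hker : π.ker ≤ Θj.ker := by
    rw [← hperf, Subgroup.commutator_le]
    intro a ha b hb
    rw [MonoidHom.mem_ker] at ha hb ⊢
    obtain ⟨va, hva⟩ := (X.exact (Θj a)).1 (by rw [hXκ, ha])
    obtain ⟨vb, hvb⟩ := (X.exact (Θj b)).1 (by rw [hXκ, hb])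
    rw [map_commutatorElement, ← hva, ← hvb, commutatorElement_eq_one_iff_mul_comm, ← map_mul,
      ← map_mul, mul_comm]
  let σ : G →* X.U := (π.liftOfSurjective hπ) ⟨Θj, hker⟩
  have hσ : ∀ e, σ (π e) = Θj e := fun e => π.liftOfRightInverse_comp_apply _ (Function.rightInverse_surjInv hπ) ⟨Θj, hker⟩ e
  have hκσ : ∀ g, X.κ (σ g) = g := by
    intro g
    obtain ⟨e, rfl⟩ := hπ g
    rw [hσ, hXκ]
  -- the subgroup of `U'` which is the graph of the lift
  let S : Subgroup U' := Θ'.eqLocus (σ.comp (f₂.comp κ'))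
  let κS : S →* E' := κ'.comp S.subtype
  have hS : ∀ u : S, Θ' (u : U') = σ (f₂ (κ' (u : U'))) := fun u => u.2
  have hbij : Function.Bijective κS := by
    constructor
    · rw [injective_iff_map_eq_one]
      intro u hu
      have h1 : κ' (u : U') = 1 := hu
      obtain ⟨v, hv⟩ := (X'.exact (u : U')).1 h1
      have h2 := hS u
      rw [h1, map_one, map_one, ← hv] at h2
      have h3 : X.ι v = 1 := by rw [← hΘι]; exact h2
      have h4 : v = 1 := X.inj (by rw [h3, map_one])
      apply Subtype.ext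
      rw [← hv, h4]
      exact map_one X'.ι
    · intro e'
      obtain ⟨u₀, hu₀⟩ := X'.surj e'
      have h1 : X.κ ((Θ u₀)⁻¹ * σ (f₂ e')) = 1 := by
        rw [map_mul, map_inv, hκσ, hΘκ, hu₀]
        simp
      obtain ⟨v, hv⟩ := (X.exact _).1 h1
      have h2 : Θ (u₀ * X'.ι v) = σ (f₂ e') := by
        rw [map_mul, hΘι, hv]; group
      have h3 : X'.κ (u₀ * X'.ι v) = e' := by
        have : X'.κ (X'.ι v) = 1 := (X'.exact _).2 ⟨v, rfl⟩
        rw [map_mul, this, hu₀, mul_one]
      refine ⟨⟨u₀ * X'.ι v, ?_⟩, h3⟩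
      change Θ (u₀ * X'.ι v) = σ (f₂ (X'.κ (u₀ * X'.ι v)))
      rw [h2, h3]
  let eqv : S ≃* E' := MulEquiv.ofBijective κS hbij
  let ρ'' : E' →* W :=
    (MonoidHom.snd E' W).comp (U'.subtype.comp (S.subtype.comp eqv.symm.toMonoidHom))
  refine ⟨ρ'', ?_, ?_⟩
  · ext e'
    change q (((eqv.symm e' : S) : U') : E' × W).2 = ρ' e'
    rw [← hU']
    have : κS (eqv.symm e') = e' := eqv.apply_symm_apply e'
    exact congrArg ρ' this
  · ext e
    have hjS : (⟨j e, by
        change Θj e = σ (f₂ (f e))
        rw [hfe, hσ]⟩ : S) = eqv.symm (f e) := by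
      apply eqv.injective
      rw [eqv.apply_symm_apply]
      rfl
    change (((eqv.symm (f e) : S) : U') : E' × W).2 = ρ e
    rw [← hjS]
    rfl

end Crest.Agent.R197
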