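import Mathlib
import Crest.Agent.R197.Defs
import Crest.Agent.R197.RedProd
import Crest.Agent.R197.Step

/-! # Row 197, module A3: the obstruction theorem -/

set_option autoImplicit false

namespace Crest.Agent.R197

namespace Obs

open Filter
open scoped commutatorElement

section gamma
variable {E : Type*} [Group E] (N : Subgroup E) [hN : N.Normal]

instance gam_normal (k : ℕ) : (gam N k).Normal := by
  induction k with
  | zero => exact hN
  | succ k ih => exact Subgroup.commutator_normal _ _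

theorem gam_succ_le (k : ℕ) : gam N (k + 1) ≤ gam N k := Subgroup.commutator_le_left _ _

theorem gam_le (k : ℕ) : gam N k ≤ N := by
  induction k with
  | zero => exact le_rfl
  | succ k ih => exact (gam_succ_le N k).trans ih

/-- canonical projection -/
abbrev can (k : ℕ) : E →* E ⧸ gam N k := QuotientGroup.mk' _

/-- one step of the tower -/
def qq (k : ℕ) : (E ⧸ gam N (k + 1)) →* (E ⧸ gam N k) :=
  QuotientGroup.map _ _ (MonoidHom.id E) (gam_succ_le N k)

/-- projection to `E ⧸ N` -/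
def ee (k : ℕ) : (E ⧸ gam N k) →* (E ⧸ N) :=
  QuotientGroup.map _ _ (MonoidHom.id E) (gam_le N k)

@[simp] theorem qq_mk (k : ℕ) (e : E) : qq N k (QuotientGroup.mk e) = QuotientGroup.mk e := rfl
@[simp] theorem ee_mk (k : ℕ) (e : E) : ee N k (QuotientGroup.mk e) = QuotientGroup.mk e := rfl

theorem qq_surjective (k : ℕ) : Function.Surjective (qq N k) := by
  intro z
  obtain ⟨e, rfl⟩ := QuotientGroup.mk_surjective z
  exact ⟨QuotientGroup.mk e, rfl⟩

theorem ee_qq (k : ℕ) (z : E ⧸ gam N (k + 1)) : ee N k (qq N k z) = ee N (k + 1) z := by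
  obtain ⟨e, rfl⟩ := QuotientGroup.mk_surjective z
  rfl

theorem ee_zero (z : E ⧸ N) : ee N 0 (show E ⧸ gam N 0 from z) = z := by
  obtain ⟨e, rfl⟩ := QuotientGroup.mk_surjective z
  rfl

theorem qq_eq_one_iff (k : ℕ) (e : E) :
    qq N k (QuotientGroup.mk e) = 1 ↔ e ∈ gam N k := by
  rw [qq_mk, QuotientGroup.eq_one_iff]

/-- Elements over `N` centralise the kernel of a step. -/
theorem central_step (k : ℕ) (z v : E ⧸ gam N (k + 1)) (hz : ee N (k + 1) z = 1)
    (hv : qq N k v = 1) : z * v = v * z := by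
  obtain ⟨a, rfl⟩ := QuotientGroup.mk_surjective z
  obtain ⟨b, rfl⟩ := QuotientGroup.mk_surjective v
  rw [ee_mk, QuotientGroup.eq_one_iff] at hz
  rw [qq_eq_one_iff] at hv
  rw [← QuotientGroup.mk_mul, ← QuotientGroup.mk_mul, eq_comm, QuotientGroup.eq]
  have h1 : ⁅a⁻¹, b⁻¹⁆ ∈ gam N (k + 1) := by
    have h2 : ⁅b⁻¹, a⁻¹⁆ ∈ gam N (k + 1) :=
      Subgroup.commutator_mem_commutator ((gam N k).inv_mem hv) (N.inv_mem hz)
    rw [← inv_mem_iff, commutatorElement_inv]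
    exact h2
  have h3 : (b * a)⁻¹ * (a * b) = ⁅a⁻¹, b⁻¹⁆ := by
    simp [commutatorElement_def, mul_assoc]
  rw [h3]
  exact h1

end gamma

/-- The uniform step lemma. -/
theorem step_uniform {E E' G : Type} [Group E] [Group E'] [Group G] [Group.FG E]
    [Group.IsFinitelyPresented E'] [Group.FG E']
    (π : E →* G) (hπ : Function.Surjective π) (P : ℕ → Subgroup E) [hn : ∀ n, (P n).Normal]
    (hperf : ⁅π.ker, π.ker⁆ = π.ker)
    (f : E →* E') (f₂ : E' →* G) (hf : f₂.comp f = π)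
    (hext : ∀ (V : Type) [AddCommGroup V] [DistribMulAction G V] (X' : ExtVia f₂ V),
      ∃ (X : ExtVia (MonoidHom.id G) V) (Θ : X'.U →* X.U),
        (∀ v, Θ (X'.ι v) = X.ι v) ∧ ∀ u, X.κ (Θ u) = f₂ (X'.κ u))
    (τ : ∀ n, E' →* E ⧸ P n)
    (hτ : ∀ e' e, f₂ e' = π e → ∀ᶠ n in atTop, τ n e' = (QuotientGroup.mk e : E ⧸ P n)) :
    ∃ n₀, ∀ n, n₀ ≤ n → ∀ (k : ℕ) (ρ' : E' →* E ⧸ gam (P n) k), ρ'.comp f = can (P n) k →
      (ee (P n) k).comp ρ' = τ n →
      ∃ ρ'' : E' →* E ⧸ gam (P n) (k + 1), (qq (P n) k).comp ρ'' = ρ' ∧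
        ρ''.comp f = can (P n) (k + 1) := by
  classical
  by_contra hcon
  push Not at hcon
  -- bad indices
  let Bad : ℕ → Prop := fun n => ∃ (k : ℕ) (ρ' : E' →* E ⧸ gam (P n) k),
    ρ'.comp f = can (P n) k ∧ (ee (P n) k).comp ρ' = τ n ∧
      ∀ ρ'' : E' →* E ⧸ gam (P n) (k + 1), (qq (P n) k).comp ρ'' = ρ' →
        ρ''.comp f ≠ can (P n) (k + 1)
  have hfreq : ∃ᶠ n in atTop, Bad n := by
    rw [frequently_atTop]
    intro n₀
    obtain ⟨n, hn₀, k, ρ', h1, h2, h3⟩ := hcon n₀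
    exact ⟨n, hn₀, k, ρ', h1, h2, h3⟩
  have hdata : ∀ n, ∃ (k : ℕ) (ρ' : E' →* E ⧸ gam (P n) k), Bad n →
      (ρ'.comp f = can (P n) k ∧ (ee (P n) k).comp ρ' = τ n ∧
      ∀ ρ'' : E' →* E ⧸ gam (P n) (k + 1), (qq (P n) k).comp ρ'' = ρ' →
        ρ''.comp f ≠ can (P n) (k + 1)) := by
    intro n
    by_cases hb : Bad n
    · obtain ⟨k, ρ', h⟩ := hb
      exact ⟨k, ρ', fun _ => h⟩
    · exact ⟨0, 1, fun h => absurd h hb⟩
  choose k ρ' hρ' using hdata
  let F : Filter ℕ := atTop ⊓ 𝓟 {n | Bad n}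
  have hF : NeBot F := frequently_iff_neBot.mp hfreq
  have hFb : ∀ᶠ n in F, Bad n := by
    have : {n | Bad n} ∈ F := mem_inf_of_right (mem_principal_self _)
    exact this
  have hFt : F ≤ atTop := inf_le_left
  let W : ℕ → Type := fun n => E ⧸ gam (P n) (k n + 1)
  let W' : ℕ → Type := fun n => E ⧸ gam (P n) (k n)
  let q : RP W F →* RP W' F := RP.map F (fun n => qq (P n) (k n))
  have hq : Function.Surjective q := RP.map_surjective (fun n => qq_surjective (P n) (k n))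
  let ρ : E →* RP W F := RP.ofFam F (fun n => can (P n) (k n + 1))
  let ρR : E' →* RP W' F := RP.ofFam F ρ'
  have hρ : q.comp ρ = ρR.comp f := by
    ext e
    change RP.mk F (fun n => qq (P n) (k n) (can (P n) (k n + 1) e)) =
      RP.mk F (fun n => ρ' n (f e))
    rw [RP.mk_eq_mk_iff]
    filter_upwards [hFb] with n hb
    have h1 := DFunLike.congr_fun (hρ' n hb).1 e
    exact h1.symm
  have hab : ∀ a ∈ q.ker, ∀ b ∈ q.ker, a * b = b * a := by
    intro a ha b hb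
    obtain ⟨a, ha', rfl⟩ := RP.exists_mk_of_mem_ker ha
    obtain ⟨b, hb', rfl⟩ := RP.exists_mk_of_mem_ker hb
    rw [← map_mul, ← map_mul]
    congr 1
    funext n
    have h1 : qq (P n) (k n) (a n) = 1 := ha' n
    have h2 : qq (P n) (k n) (b n) = 1 := hb' n
    refine central_step (P n) (k n) (a n) (b n) ?_ h2
    rw [← ee_qq, h1, map_one]
  have hc : ∀ (e' : E') (w : RP W F) (e : E), q w = ρR e' → f₂ e' = π e →
      ∀ v ∈ q.ker, w * v * w⁻¹ = ρ e * v * (ρ e)⁻¹ := by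
    intro e' w e hw he v hv
    obtain ⟨w, rfl⟩ := RP.mk_surjective w
    obtain ⟨v, hv', rfl⟩ := RP.exists_mk_of_mem_ker hv
    have hw' : RP.mk F (fun n => qq (P n) (k n) (w n)) = RP.mk F (fun n => ρ' n e') := hw
    rw [RP.mk_eq_mk_iff] at hw'
    change RP.mk F w * RP.mk F v * (RP.mk F w)⁻¹ =
      RP.mk F (fun n => can (P n) (k n + 1) e) * RP.mk F v *
        (RP.mk F (fun n => can (P n) (k n + 1) e))⁻¹
    rw [← map_inv, ← map_inv, ← map_mul, ← map_mul, ← map_mul, ← map_mul, RP.mk_eq_mk_iff]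
    filter_upwards [hw', hFb, hFt (hτ e' e he)] with n h1 hb h2
    have h3 : qq (P n) (k n) (v n) = 1 := hv' n
    have h4 : ee (P n) (k n) (ρ' n e') = τ n e' := DFunLike.congr_fun (hρ' n hb).2.1 e'
    simp only [Pi.mul_apply, Pi.inv_apply]
    -- `z = can e⁻¹ * w` lies over `P n`
    have h5 : ee (P n) (k n + 1) ((can (P n) (k n + 1) e)⁻¹ * w n) = 1 := by
      rw [map_mul, map_inv, ← ee_qq _ _ (w n), h1, h4, h2]
      simp
    have h6 := central_step (P n) (k n) _ (v n) h5 h3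
    have h7 : w n = can (P n) (k n + 1) e * ((can (P n) (k n + 1) e)⁻¹ * w n) := by
      rw [mul_inv_cancel_left]
    generalize (can (P n) (k n + 1) e)⁻¹ * w n = z at h6 h7
    rw [h7, mul_inv_rev]
    calc can (P n) (k n + 1) e * z * v n * (z⁻¹ * (can (P n) (k n + 1) e)⁻¹)
        = can (P n) (k n + 1) e * (z * v n) * z⁻¹ * (can (P n) (k n + 1) e)⁻¹ := by group
      _ = can (P n) (k n + 1) e * (v n * z) * z⁻¹ * (can (P n) (k n + 1) e)⁻¹ := by rw [h6]
      _ = can (P n) (k n + 1) e * v n * (can (P n) (k n + 1) e)⁻¹ := by group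
  obtain ⟨ρ'', h1, h2⟩ := step_single π hπ hperf f f₂ hf hext q hq hab ρ ρR hρ hc
  obtain ⟨ρn, hρn⟩ := RP.lift_fp ρ''
  have e1 : ∀ᶠ n in F, (qq (P n) (k n)).comp (ρn n) = ρ' n := by
    refine RP.eventually_eq_of_fg (E := E') ?_
    intro e'
    have h3 : q (ρ'' e') = ρR e' := DFunLike.congr_fun h1 e'
    rw [← hρn e'] at h3
    exact h3
  have e2 : ∀ᶠ n in F, (ρn n).comp f = can (P n) (k n + 1) := by
    refine RP.eventually_eq_of_fg (E := E) ?_
    intro e
    have h3 : ρ'' (f e) = ρ e := DFunLike.congr_fun h2 e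
    rw [← hρn (f e)] at h3
    exact h3
  obtain ⟨n, hb, h3, h4⟩ := (hFb.and (e1.and e2)).exists
  exact (hρ' n hb).2.2 (ρn n) h3 h4

theorem fg_of_fp (E : Type*) [Group E] [hE : Group.IsFinitelyPresented E] : Group.FG E := by
  obtain ⟨n, φ, hφ, _⟩ := hE.out
  exact Group.fg_of_surjective hφ

/-- The homs `τ n : E' → E ⧸ P n` for large `n`. -/
theorem exists_tau {E E' G : Type} [Group E] [Group E'] [Group G] [Group.FG E]
    [Group.IsFinitelyPresented E']
    (π : E →* G) (hπ : Function.Surjective π) (P : ℕ → Subgroup E) [hn : ∀ n, (P n).Normal]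
    (hmono : Monotone P) (hker : π.ker = ⨆ n, P n)
    (f : E →* E') (f₂ : E' →* G) (hf : f₂.comp f = π) :
    ∃ τ : ∀ n, E' →* E ⧸ P n,
      (∀ e' e, f₂ e' = π e → ∀ᶠ n in atTop, τ n e' = (QuotientGroup.mk e : E ⧸ P n)) ∧
      ∀ᶠ n in atTop, (τ n).comp f = QuotientGroup.mk' (P n) := by
  -- the hom `G → RP`
  let θ : E →* RP (fun n => E ⧸ P n) atTop := RP.ofFam atTop (fun n => QuotientGroup.mk' (P n))
  have hθ : π.ker ≤ θ.ker := by
    rw [hker, iSup_le_iff]
    intro n e he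
    rw [MonoidHom.mem_ker]
    change RP.mk atTop (fun n => (QuotientGroup.mk e : E ⧸ P n)) = 1
    rw [RP.mk_eq_one_iff]
    filter_upwards [eventually_ge_atTop n] with j hj
    rw [QuotientGroup.eq_one_iff]
    exact hmono hj he
  let ϑ : G →* RP (fun n => E ⧸ P n) atTop := (π.liftOfSurjective hπ) ⟨θ, hθ⟩
  have hϑ : ∀ e, ϑ (π e) = θ e := fun e =>
    MonoidHom.liftOfRightInverse_comp_apply _ _ _ ⟨θ, hθ⟩ e
  obtain ⟨τ, hτ⟩ := RP.lift_fp (ϑ.comp f₂)
  have key : ∀ e' e, f₂ e' = π e → ∀ᶠ n in atTop, τ n e' = (QuotientGroup.mk e : E ⧸ P n) := by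
    intro e' e he
    have h1 := hτ e'
    rw [MonoidHom.comp_apply, he, hϑ] at h1
    exact RP.mk_eq_mk_iff.mp h1
  refine ⟨τ, key, ?_⟩
  refine RP.eventually_eq_of_fg (E := E) ?_
  intro e
  rw [RP.mk_eq_mk_iff]
  exact key (f e) e (DFunLike.congr_fun hf e)

end Obs

open Obs Filter in
/-- The obstruction theorem. -/
theorem obstruction {E G : Type} [Group E] [Group G] [Group.IsFinitelyPresented E]
    (π : E →* G) (hπ : Function.Surjective π) (P : ℕ → Subgroup E) (hn : ∀ n, (P n).Normal)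
    (hmono : Monotone P) (hfng : ∀ n, (P n).IsFinitelyNormallyGenerated)
    (hker : π.ker = ⨆ n, P n) (hperf : ⁅π.ker, π.ker⁆ = π.ker) (hG : ExtProp G) (m : ℕ) :
    ∃ n₀, ∀ n, n₀ ≤ n → ∀ k, P m ≤ gam (P n) k := by
  have := hn
  have : Group.FG E := fg_of_fp E
  have hPm : P m ≤ π.ker := by rw [hker]; exact le_iSup P m
  have : Group.IsFinitelyPresented (E ⧸ P m) :=
    Group.IsFinitelyPresented.quotient (P m) (hfng m)
  obtain ⟨E', _, hE', g₁, g₂, hg, hext⟩ := hG (E ⧸ P m) (QuotientGroup.lift (P m) π hPm)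
  have := hE'
  have : Group.FG E' := fg_of_fp E'
  let f : E →* E' := g₁.comp (QuotientGroup.mk' (P m))
  have hf : g₂.comp f = π := by
    ext e
    exact DFunLike.congr_fun hg (QuotientGroup.mk e)
  obtain ⟨τ, hτ1, hτ2⟩ := exists_tau π hπ P hmono hker f g₂ hf
  obtain ⟨n₀, hn₀⟩ := step_uniform π hπ P hperf f g₂ hf hext τ hτ1
  obtain ⟨n₁, hn₁⟩ := eventually_atTop.mp hτ2
  refine ⟨max n₀ n₁, fun n hnn k => ?_⟩
  have main : ∀ k, ∃ ρ' : E' →* E ⧸ gam (P n) k, ρ'.comp f = can (P n) k ∧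
      (ee (P n) k).comp ρ' = τ n := by
    intro k
    induction k with
    | zero =>
      refine ⟨τ n, hn₁ n (le_of_max_le_right hnn), ?_⟩
      refine MonoidHom.ext fun e' => ?_
      exact ee_zero (P n) (τ n e')
    | succ k ih =>
      obtain ⟨ρ', h1, h2⟩ := ih
      obtain ⟨ρ'', h3, h4⟩ := hn₀ n (le_of_max_le_left hnn) k ρ' h1 h2
      refine ⟨ρ'', h4, ?_⟩
      ext e'
      rw [MonoidHom.comp_apply, ← ee_qq, ← h2, MonoidHom.comp_apply, ← h3]
      rfl
  obtain ⟨ρ', h1, _⟩ := main k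
  intro p hp
  have h2 : can (P n) k p = 1 := by
    rw [← h1]
    change ρ' (g₁ (QuotientGroup.mk' (P m) p)) = 1
    have : QuotientGroup.mk' (P m) p = 1 := (QuotientGroup.eq_one_iff p).mpr hp
    rw [this, map_one, map_one]
  exact (QuotientGroup.eq_one_iff p).mp h2

end Crest.Agent.R197
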