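import Crest.Agent.R197.Defs

/-!
# Row 197, module C2: `EE` is finitely presented, the subgroups `PP m` are increasing, their union is the
kernel of `proj : EE → GG`, and this kernel is perfect.
-/

set_option autoImplicit false

namespace Crest.Agent.R197

open Subgroup
open scoped commutatorElement

section words
variable {H : Type*} [Group H]

private theorem comm_key (a0 a1 a b b' c c' : H) (h1 : a1 * b * c' = a * b * c)
    (h2 : a * b' * c = a0 * b' * c') :
    a1 * a0⁻¹ = (a * b) * ⁅c * c'⁻¹, b⁻¹ * b'⁆ * (a * b)⁻¹ := by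
  have e1 : a1 = a * b * c * c'⁻¹ * b⁻¹ := by rw [← h1]; group
  have e2 : a0 = a * b' * c * c'⁻¹ * b'⁻¹ := by rw [h2]; group
  rw [e1, e2, commutatorElement_def]; group

/-- row differences -/
private def dl (e : Fin 4 → Fin 4 → H) (i k l : Fin 4) : H := (e i k)⁻¹ * e i l

private theorem dl_mul (e : Fin 4 → Fin 4 → H) (i k l m : Fin 4) :
    dl e i k l * dl e i l m = dl e i k m := by
  unfold dl; group

private theorem D_eq (e : Fin 4 → Fin 4 → H) (i j k l : Fin 4) :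
    e i k * (e j k)⁻¹ * e j l * (e i l)⁻¹ = e i k * (dl e j k l * (dl e i k l)⁻¹) * (e i k)⁻¹ := by
  unfold dl; group

private theorem D_one (e : Fin 4 → Fin 4 → H) (i j k l : Fin 4)
    (h : e i k * (e j k)⁻¹ * e j l * (e i l)⁻¹ = 1) : dl e j k l = dl e i k l := by
  rw [D_eq, mul_inv_eq_one, mul_eq_left, mul_inv_eq_one] at h
  exact h

/-- the seven faces vanish -/
private def Faces (e : Fin 4 → Fin 4 → H) : Prop :=
  ∀ f : Ltr, f.val < 7 →
    e (x1 f) (y1 f) * (e (x2 f) (y1 f))⁻¹ * e (x2 f) (y2 f) * (e (x1 f) (y2 f))⁻¹ = 1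

private theorem faces_dl {e : Fin 4 → Fin 4 → H} (h : Faces e) :
    dl e 1 2 3 = dl e 0 2 3 ∧ dl e 2 1 2 = dl e 1 1 2 ∧ dl e 2 3 0 = dl e 1 3 0 ∧
    dl e 3 0 1 = dl e 2 0 1 ∧ dl e 3 2 3 = dl e 2 2 3 ∧ dl e 0 1 2 = dl e 3 1 2 ∧
    dl e 0 3 0 = dl e 3 3 0 := by
  refine ⟨D_one e 0 1 2 3 ?_, D_one e 1 2 1 2 ?_, D_one e 1 2 3 0 ?_, D_one e 2 3 0 1 ?_,
    D_one e 2 3 2 3 ?_, D_one e 3 0 1 2 ?_, D_one e 3 0 3 0 ?_⟩
  · exact h 0 (by decide)
  · exact h 1 (by decide)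
  · exact h 2 (by decide)
  · exact h 3 (by decide)
  · exact h 4 (by decide)
  · exact h 5 (by decide)
  · exact h 6 (by decide)

/-- the matrix lemma -/
private theorem matrix_comm {e : Fin 4 → Fin 4 → H} (h : Faces e) (K : Subgroup H) (hK : K.Normal)
    (ha : e 0 1 * (e 1 1)⁻¹ * e 1 2 * (e 0 2)⁻¹ ∈ K)
    (hb : e 1 0 * (e 2 0)⁻¹ * e 2 1 * (e 1 1)⁻¹ ∈ K) :
    e 0 0 * (e 1 0)⁻¹ * e 1 1 * (e 0 1)⁻¹ ∈ ⁅K, K⁆ := by
  obtain ⟨f0, f1, f2, f3, f4, f5, f6⟩ := faces_dl h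
  have inv30 : ∀ i, dl e i 3 0 = (dl e i 0 1 * dl e i 1 2 * dl e i 2 3)⁻¹ := by
    intro i; rw [dl_mul, dl_mul]; unfold dl; group
  rw [inv30, inv30, inv_inj] at f2 f6
  -- f2 : a2 b2 c2 = a1 b1 c1 ; f6 : a0 b0 c0 = a3 b3 c3
  have h1 : dl e 1 0 1 * dl e 1 1 2 * dl e 0 2 3 = dl e 2 0 1 * dl e 1 1 2 * dl e 2 2 3 := by
    rw [← f0, ← f2, f1]
  have h2 : dl e 2 0 1 * dl e 0 1 2 * dl e 2 2 3 = dl e 0 0 1 * dl e 0 1 2 * dl e 0 2 3 := by
    rw [f6, f3, f4, ← f5]
  have key := comm_key _ _ _ _ _ _ _ h1 h2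
  have hz : dl e 2 2 3 * (dl e 0 2 3)⁻¹ ∈ K := by
    rw [D_eq] at hb
    have hb' : dl e 2 0 1 * (dl e 1 0 1)⁻¹ ∈ K := by
      have := hK.conj_mem _ hb (e 1 0)⁻¹
      have e' : (e 1 0)⁻¹ * (e 1 0 * (dl e 2 0 1 * (dl e 1 0 1)⁻¹) * (e 1 0)⁻¹) * ((e 1 0)⁻¹)⁻¹
          = dl e 2 0 1 * (dl e 1 0 1)⁻¹ := by group
      rwa [e'] at this
    have h3 : dl e 1 0 1 = dl e 2 0 1 * dl e 1 1 2 * dl e 2 2 3 * (dl e 0 2 3)⁻¹ * (dl e 1 1 2)⁻¹ := by
      rw [← h1]; group
    have h4 : dl e 2 2 3 * (dl e 0 2 3)⁻¹ =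
        (dl e 1 1 2)⁻¹ * ((dl e 2 0 1)⁻¹ * (dl e 2 0 1 * (dl e 1 0 1)⁻¹)⁻¹ * dl e 2 0 1) *
          dl e 1 1 2 := by
      rw [h3]; group
    rw [h4]
    have h5 := hK.conj_mem _ (K.inv_mem hb') (dl e 2 0 1)⁻¹
    rw [inv_inv] at h5
    have h6 := hK.conj_mem _ h5 (dl e 1 1 2)⁻¹
    rw [inv_inv] at h6
    exact h6
  have ht : (dl e 1 1 2)⁻¹ * dl e 0 1 2 ∈ K := by
    rw [D_eq] at ha
    have ha' : dl e 1 1 2 * (dl e 0 1 2)⁻¹ ∈ K := by
      have := hK.conj_mem _ ha (e 0 1)⁻¹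
      have e' : (e 0 1)⁻¹ * (e 0 1 * (dl e 1 1 2 * (dl e 0 1 2)⁻¹) * (e 0 1)⁻¹) * ((e 0 1)⁻¹)⁻¹
          = dl e 1 1 2 * (dl e 0 1 2)⁻¹ := by group
      rwa [e'] at this
    have h5 := hK.conj_mem _ (K.inv_mem ha') (dl e 1 1 2)⁻¹
    have e' : (dl e 1 1 2)⁻¹ * (dl e 1 1 2 * (dl e 0 1 2)⁻¹)⁻¹ * ((dl e 1 1 2)⁻¹)⁻¹ =
        (dl e 1 1 2)⁻¹ * dl e 0 1 2 := by group
    rwa [e'] at h5
  have hN : (⁅K, K⁆ : Subgroup H).Normal := by
    have := hK; infer_instance
  rw [D_eq, key]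
  apply hN.conj_mem
  apply hN.conj_mem
  exact Subgroup.commutator_mem_commutator hz ht

end words

section lamwords
variable {H : Type*} [Group H] (x y : Fin 4 → H)

private theorem lam_def (i j k l : Fin 4) (n : ℤ) :
    lam x y i j k l n = (Aw x y i k) ^ n * ((Aw x y j k) ^ n)⁻¹ * (Aw x y j l) ^ n *
      ((Aw x y i l) ^ n)⁻¹ := by
  simp [lam, zpow_neg]

private theorem lam_zero' (i j k l : Fin 4) : lam x y i j k l 0 = 1 := by
  simp [lam]

private theorem lam_swap_kl (i j k l : Fin 4) (n : ℤ) :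
    lam x y i j l k n = (lam x y i j k l n)⁻¹ := by
  simp only [lam_def, mul_inv_rev, inv_inv, mul_assoc]

private theorem lam_swap_ij (i j k l : Fin 4) (n : ℤ) :
    ∃ g : H, lam x y j i k l n = g * (lam x y i j k l n)⁻¹ * g⁻¹ := by
  refine ⟨((Aw x y i l) ^ n * ((Aw x y j l) ^ n)⁻¹)⁻¹, ?_⟩
  simp only [lam_def]
  group

private theorem Bw_eq (i k : Fin 4) : Bw x y i k = (x i)⁻¹ * Aw x y i k * x i := by
  unfold Aw Bw; group

private theorem Bw_zpow (i k : Fin 4) (n : ℤ) :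
    (Bw x y i k) ^ n = (x i)⁻¹ * (Aw x y i k) ^ n * x i := by
  rw [Bw_eq]
  have := conj_zpow (i := n) (a := (x i)⁻¹) (b := Aw x y i k)
  rw [inv_inv] at this
  exact this

private theorem loopB (i j k l : Fin 4) (n : ℤ) :
    (Bw x y i k) ^ n * ((Bw x y j k) ^ n)⁻¹ * (Bw x y j l) ^ n * ((Bw x y i l) ^ n)⁻¹ =
      (x i)⁻¹ * lam x y i j k l (n - 1) * x i := by
  have hx1 : x i * (x j)⁻¹ = (Aw x y i k)⁻¹ * Aw x y j k := by unfold Aw; group
  have hx2 : x j * (x i)⁻¹ = (Aw x y j l)⁻¹ * Aw x y i l := by unfold Aw; group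
  have e1 : (Bw x y i k) ^ n * ((Bw x y j k) ^ n)⁻¹ * (Bw x y j l) ^ n * ((Bw x y i l) ^ n)⁻¹ =
      (x i)⁻¹ * ((Aw x y i k) ^ n * (x i * (x j)⁻¹) * ((Aw x y j k) ^ n)⁻¹ *
        ((Aw x y j l) ^ n * (x j * (x i)⁻¹) * ((Aw x y i l) ^ n)⁻¹)) * x i := by
    simp only [Bw_zpow]; group
  rw [e1, hx1, hx2, lam_def]
  simp only [zpow_sub_one]
  group

end lamwords

section relE
variable {H : Type*} [Group H] {x y : Fin 4 → H} {r : Ltr → H} (h : RelE x y r)
include h

private theorem conj_r (α : Ltr) (i k : Fin 4) (hi : inX α i) (hk : inY α k) (n : ℤ) :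
    (r α)⁻¹ * (Aw x y i k) ^ n * r α = (Bw x y (pX α i) (pY α k)) ^ n := by
  have h1 : (r α)⁻¹ * Aw x y i k * r α = Bw x y (pX α i) (pY α k) := by
    rw [mul_assoc, h.hex α i k hi hk]; group
  have := conj_zpow (i := n) (a := (r α)⁻¹) (b := Aw x y i k)
  rw [inv_inv] at this
  rw [← this, h1]

private theorem shift (α : Ltr) (n : ℤ) :
    (r α)⁻¹ * lam x y (x1 α) (x2 α) (y1 α) (y2 α) n * r α =
      (x (pX α (x1 α)))⁻¹ * lam x y (pX α (x1 α)) (pX α (x2 α)) (pY α (y1 α)) (pY α (y2 α)) (n - 1)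
        * x (pX α (x1 α)) := by
  have hi1 : inX α (x1 α) := Or.inl rfl
  have hi2 : inX α (x2 α) := Or.inr rfl
  have hk1 : inY α (y1 α) := Or.inl rfl
  have hk2 : inY α (y2 α) := Or.inr rfl
  rw [← loopB, ← conj_r h α _ _ hi1 hk1, ← conj_r h α _ _ hi2 hk1, ← conj_r h α _ _ hi2 hk2,
    ← conj_r h α _ _ hi1 hk2, lam_def]
  group

private theorem shift_iff (α : Ltr) (n : ℤ) :
    lam x y (x1 α) (x2 α) (y1 α) (y2 α) n = 1 ↔
      lam x y (pX α (x1 α)) (pX α (x2 α)) (pY α (y1 α)) (pY α (y2 α)) (n - 1) = 1 := by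
  have hs := shift h α n
  constructor
  · intro h1
    rw [h1] at hs
    have : (x (pX α (x1 α)))⁻¹ * lam x y (pX α (x1 α)) (pX α (x2 α)) (pY α (y1 α)) (pY α (y2 α))
        (n - 1) * x (pX α (x1 α)) = 1 := by rw [← hs]; group
    have h2 := congrArg (fun t => x (pX α (x1 α)) * t * (x (pX α (x1 α)))⁻¹) this
    simp only [mul_one, mul_inv_cancel] at h2
    rw [← h2]; group
  · intro h1
    rw [h1] at hs
    have : (r α)⁻¹ * lam x y (x1 α) (x2 α) (y1 α) (y2 α) n * r α = 1 := by rw [hs]; group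
    have h2 := congrArg (fun t => r α * t * (r α)⁻¹) this
    simp only [mul_one, mul_inv_cancel] at h2
    rw [← h2]; group

private theorem lam_face (f : Ltr) (hf : f.val < 7) (n : ℤ) :
    lam x y (x1 f) (x2 f) (y1 f) (y2 f) n = 1 := by
  have hp : pX f = 1 ∧ pY f = 1 := by
    revert hf; revert f; decide
  have hstep : ∀ n, lam x y (x1 f) (x2 f) (y1 f) (y2 f) n = 1 ↔
      lam x y (x1 f) (x2 f) (y1 f) (y2 f) (n - 1) = 1 := by
    intro n
    have := shift_iff h f n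
    rw [hp.1, hp.2] at this
    simpa using this
  induction n using Int.induction_on with
  | zero => exact lam_zero' x y _ _ _ _
  | succ n ih => rw [hstep]; simpa using ih
  | pred n ih => exact (hstep _).1 ih

private theorem faces_zpow (n : ℤ) : Faces (fun i k => (Aw x y i k) ^ n) := by
  intro f hf
  have := lam_face h f hf n
  rwa [lam_def] at this

private theorem lam_c_mem (n : ℤ) (K : Subgroup H) (hK : K.Normal)
    (ha : lam x y 0 1 1 2 n ∈ K) (hb : lam x y 1 2 0 1 n ∈ K) : lam x y 0 1 0 1 n ∈ ⁅K, K⁆ := by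
  rw [lam_def] at ha hb ⊢
  exact matrix_comm (faces_zpow h n) K hK ha hb

/-- `lam_n(a)` and `lam_n(b)` are conjugate to elements of any normal subgroup containing
`lam_{n-1}(c)`. -/
private theorem lam_ab_mem (n : ℤ) (K : Subgroup H) (hK : K.Normal)
    (hc : lam x y 0 1 0 1 (n - 1) ∈ K) : lam x y 0 1 1 2 n ∈ K ∧ lam x y 1 2 0 1 n ∈ K := by
  have conj : ∀ (g a b : H), g⁻¹ * a * g = b → b ∈ K → a ∈ K := by
    intro g a b hab hb
    have := hK.conj_mem _ hb g
    rw [← hab] at this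
    have e : g * (g⁻¹ * a * g) * g⁻¹ = a := by group
    rwa [e] at this
  have conj' : ∀ (g a : H), a ∈ K → g⁻¹ * a * g ∈ K := by
    intro g a ha
    have := hK.conj_mem _ ha g⁻¹
    rwa [inv_inv] at this
  constructor
  · have hs := shift h 7 n
    have e1 : x1 7 = 0 := rfl
    have e2 : x2 7 = 1 := rfl
    have e3 : y1 7 = 1 := rfl
    have e4 : y2 7 = 2 := rfl
    have e5 : pX 7 0 = 0 := by decide
    have e6 : pX 7 1 = 1 := by decide
    have e7 : pY 7 1 = 1 := by decide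
    have e8 : pY 7 2 = 0 := by decide
    rw [e1, e2, e3, e4, e5, e6, e7, e8] at hs
    refine conj _ _ _ hs (conj' _ _ ?_)
    rw [lam_swap_kl]
    exact K.inv_mem hc
  · have hs := shift h 8 n
    have e1 : x1 8 = 1 := rfl
    have e2 : x2 8 = 2 := rfl
    have e3 : y1 8 = 0 := rfl
    have e4 : y2 8 = 1 := rfl
    have e5 : pX 8 1 = 1 := by decide
    have e6 : pX 8 2 = 0 := by decide
    have e7 : pY 8 0 = 0 := by decide
    have e8 : pY 8 1 = 1 := by decide
    rw [e1, e2, e3, e4, e5, e6, e7, e8] at hs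
    refine conj _ _ _ hs (conj' _ _ ?_)
    obtain ⟨g, hg⟩ := lam_swap_ij x y 0 1 0 1 (n - 1)
    rw [hg]
    exact hK.conj_mem _ (K.inv_mem hc) g

private theorem lam_nonneg (n : ℕ) : lam x y 0 1 1 2 (n : ℤ) = 1 ∧ lam x y 1 2 0 1 (n : ℤ) = 1 := by
  induction n with
  | zero => exact ⟨lam_zero' x y _ _ _ _, lam_zero' x y _ _ _ _⟩
  | succ n ih =>
    have hb : (⊥ : Subgroup H).Normal := inferInstance
    have hc : lam x y 0 1 0 1 (n : ℤ) ∈ (⊥ : Subgroup H) := by
      have := lam_c_mem h (n : ℤ) ⊥ hb (by rw [ih.1]; exact one_mem _) (by rw [ih.2]; exact one_mem _)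
      rwa [Subgroup.commutator_bot_left] at this
    have := lam_ab_mem h ((n : ℤ) + 1) ⊥ hb (by simpa using hc)
    simpa using this

end relE

/-! ### The statements of module C -/

theorem ee_fp : Group.IsFinitelyPresented EE := by
  have hfin : relsE.Finite := by
    unfold relsE
    exact (Set.finite_singleton _).union ((Set.toFinite _).image _)
  have : Finite relsE := hfin.to_subtype
  exact inferInstanceAs (Group.IsFinitelyPresented (PresentedGroup relsE))

theorem pp_normal' (m : ℕ) : (PP m).Normal := by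
  unfold PP; infer_instance

theorem pp_le_commutator (m : ℕ) : PP m ≤ ⁅PP (m + 1), PP (m + 1)⁆ := by
  have := pp_normal' (m + 1)
  have hN : (⁅PP (m + 1), PP (m + 1)⁆ : Subgroup EE).Normal := inferInstance
  have ha : lam EE.x EE.y 0 1 1 2 (-((m + 1 : ℕ) : ℤ)) ∈ PP (m + 1) :=
    Subgroup.subset_normalClosure (by simp)
  have hb : lam EE.x EE.y 1 2 0 1 (-((m + 1 : ℕ) : ℤ)) ∈ PP (m + 1) :=
    Subgroup.subset_normalClosure (by simp)
  have hc := lam_c_mem EE.rel _ (PP (m + 1)) (pp_normal' _) ha hb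
  have e : -((m + 1 : ℕ) : ℤ) = -(m : ℤ) - 1 := by push_cast; ring
  rw [e] at hc
  have := lam_ab_mem EE.rel (-(m : ℤ)) _ hN hc
  unfold PP at *
  apply Subgroup.normalClosure_le_normal
  rintro w (rfl | rfl)
  · exact this.1
  · exact this.2

theorem pp_mono : Monotone PP := by
  apply monotone_nat_of_le_succ
  intro m
  have := pp_normal' (m + 1)
  exact (pp_le_commutator m).trans (Subgroup.commutator_le_left _ _)

@[simp] theorem proj_x (i : Fin 4) : proj (EE.x i) = GG.x i := by simp [proj]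
@[simp] theorem proj_y (k : Fin 4) : proj (EE.y k) = GG.y k := by simp [proj]
@[simp] theorem proj_r (α : Ltr) : proj (EE.r α) = GG.r α := by simp [proj]

theorem proj_surjective : Function.Surjective proj := by
  rw [← MonoidHom.range_eq_top, eq_top_iff]
  intro g _
  obtain ⟨w, rfl⟩ := PresentedGroup.mk_surjective relsG g
  induction w using FreeGroup.induction_on with
  | C1 => exact one_mem _
  | of z =>
    rcases z with i | k | α
    · exact ⟨EE.x i, proj_x i⟩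
    · exact ⟨EE.y k, proj_y k⟩
    · exact ⟨EE.r α, proj_r α⟩
  | inv_of z hz => rw [map_inv]; exact inv_mem (hz trivial)
  | mul a b ha hb => rw [map_mul]; exact mul_mem (ha trivial) (hb trivial)

theorem proj_lam (i j k l : Fin 4) (n : ℤ) :
    proj (lam EE.x EE.y i j k l n) = lam GG.x GG.y i j k l n := by
  rw [map_lam]; simp

theorem iSup_pp_normal : (⨆ n, PP n).Normal := by
  have := pp_normal'
  infer_instance

theorem proj_ker : proj.ker = ⨆ n, PP n := by
  apply le_antisymm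
  · have : (⨆ n, PP n).Normal := iSup_pp_normal
    set N : Subgroup EE := ⨆ n, PP n with hN
    let mk : EE →* EE ⧸ N := QuotientGroup.mk' N
    have hmem : ∀ n : ℤ, lam EE.x EE.y 0 1 1 2 n ∈ N ∧ lam EE.x EE.y 1 2 0 1 n ∈ N := by
      intro n
      rcases le_or_gt 0 n with hn | hn
      · obtain ⟨k, rfl⟩ := Int.eq_ofNat_of_zero_le hn
        have := lam_nonneg EE.rel k
        rw [this.1, this.2]
        exact ⟨one_mem _, one_mem _⟩
      · obtain ⟨k, hk⟩ := Int.eq_ofNat_of_zero_le (show 0 ≤ -n by omega)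
        have e : n = -(k : ℤ) := by omega
        rw [e]
        exact ⟨(le_iSup PP k) (Subgroup.subset_normalClosure (by simp)),
          (le_iSup PP k) (Subgroup.subset_normalClosure (by simp))⟩
    have hrel : RelG (fun i => mk (EE.x i)) (fun k => mk (EE.y k)) (fun α => mk (EE.r α)) := by
      refine { x0 := ?_, hex := ?_, la := ?_, lb := ?_ }
      · rw [EE.rel.x0, map_one]
      · intro α i k hi hk
        have := congrArg mk (EE.rel.hex α i k hi hk)
        rw [map_mul, map_mul, map_Aw, map_Bw] at this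
        exact this
      · intro n
        rw [← map_lam mk EE.x EE.y]
        exact (QuotientGroup.eq_one_iff _).2 (hmem n).1
      · intro n
        rw [← map_lam mk EE.x EE.y]
        exact (QuotientGroup.eq_one_iff _).2 (hmem n).2
    have hcomp : (GG.lift hrel).comp proj = mk := by
      apply EE.hom_ext <;> intro i <;> simp
    intro w hw
    rw [MonoidHom.mem_ker] at hw
    have : mk w = 1 := by rw [← hcomp, MonoidHom.comp_apply, hw, map_one]
    exact (QuotientGroup.eq_one_iff _).1 this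
  · apply iSup_le
    intro n
    unfold PP
    apply Subgroup.normalClosure_le_normal
    rintro w (rfl | rfl)
    · change proj _ = 1
      rw [proj_lam]; exact GG.rel.la _
    · change proj _ = 1
      rw [proj_lam]; exact GG.rel.lb _

theorem proj_perfect : ⁅proj.ker, proj.ker⁆ = proj.ker := by
  rw [proj_ker]
  have : (⨆ n, PP n).Normal := iSup_pp_normal
  apply le_antisymm
  · exact Subgroup.commutator_le_left _ _
  · apply iSup_le
    intro n
    exact (pp_le_commutator n).trans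
      (Subgroup.commutator_mono (le_iSup PP (n + 1)) (le_iSup PP (n + 1)))

end Crest.Agent.R197
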