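import Mathlib
import Crest.Agent.R197.NDefs
import Crest.Agent.R197.RFree

/-! Row 197, module R (part 2): reduced representations of elements of `G` and permutation
representations which detect them. -/

set_option autoImplicit false

namespace Crest.Agent.R197

/-- signed letter -/
def rr (α : Ltr) (e : Bool) : GG := cond e (GG.r α) (GG.r α)⁻¹

/-- `Rep k g`: `g` is a product of `k` signed letters, separated by elements of `Nbar`. -/
def Rep : ℕ → GG → Prop
  | 0, g => g ∈ Nbar
  | k + 1, g => ∃ n ∈ Nbar, ∃ (α : Ltr) (e : Bool) (g' : GG), Rep k g' ∧ g = n * rr α e * g'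

theorem Rep.mul_left {k : ℕ} {g n : GG} (hn : n ∈ Nbar) (h : Rep k g) : Rep k (n * g) := by
  cases k with
  | zero => exact mul_mem hn h
  | succ k =>
    obtain ⟨n', hn', α, e, g', hg', rfl⟩ := h
    exact ⟨n * n', mul_mem hn hn', α, e, g', hg', by simp only [mul_assoc]⟩

theorem Rep.mul_right {k : ℕ} {n : GG} (hn : n ∈ Nbar) : ∀ {g : GG}, Rep k g → Rep k (g * n) := by
  induction k with
  | zero => intro g h; exact mul_mem h hn
  | succ k ih =>
    rintro g ⟨n', hn', α, e, g', hg', rfl⟩
    exact ⟨n', hn', α, e, g' * n, ih hg', by simp only [mul_assoc]⟩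

theorem Rep.mul_rr {k : ℕ} (β : Ltr) (b : Bool) :
    ∀ {g : GG}, Rep k g → Rep (k + 1) (g * rr β b) := by
  induction k with
  | zero => intro g h; exact ⟨g, h, β, b, 1, one_mem Nbar, by rw [mul_one]⟩
  | succ k ih =>
    rintro g ⟨n', hn', α, e, g', hg', rfl⟩
    exact ⟨n', hn', α, e, g' * rr β b, ih hg', by simp only [mul_assoc]⟩

theorem exists_rep (g : GG) : ∃ k, Rep k g := by
  have hg : g ∈ Subgroup.closure (Set.range (PresentedGroup.of (rels := relsG))) := by
    rw [PresentedGroup.closure_range_of relsG]; trivial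
  refine Subgroup.closure_induction_right (p := fun g _ => ∃ k, Rep k g) ⟨0, one_mem Nbar⟩ ?_ ?_ hg
  · rintro g _ _ ⟨u, rfl⟩ ⟨k, h⟩
    rcases u with i | i | α
    · exact ⟨k, h.mul_right (x_mem_Nbar i)⟩
    · exact ⟨k, h.mul_right (y_mem_Nbar i)⟩
    · exact ⟨k + 1, h.mul_rr α true⟩
  · rintro g _ _ ⟨u, rfl⟩ ⟨k, h⟩
    rcases u with i | i | α
    · exact ⟨k, h.mul_right (inv_mem (x_mem_Nbar i))⟩
    · exact ⟨k, h.mul_right (inv_mem (y_mem_Nbar i))⟩
    · exact ⟨k + 1, h.mul_rr α false⟩

open Classical in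
/-- the least number of letters -/
noncomputable def rlen (g : GG) : ℕ := Nat.find (exists_rep g)

theorem rlen_spec (g : GG) : Rep (rlen g) g := by
  classical
  exact Nat.find_spec (exists_rep g)

theorem rlen_le {k : ℕ} {g : GG} (h : Rep k g) : rlen g ≤ k := by
  classical
  exact Nat.find_min' (exists_rep g) h

theorem rlen_mul_left {n : GG} (hn : n ∈ Nbar) (g : GG) : rlen (n * g) ≤ rlen g :=
  rlen_le ((rlen_spec g).mul_left hn)

theorem exists_chain (k : ℕ) : ∀ g : GG, rlen g = k →
    ∃ (p : ℕ → GG) (a : ℕ → Ltr) (e : ℕ → Bool) (ν : ℕ → GG), p k = g ∧ p 0 ∈ Nbar ∧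
      (∀ m ≤ k, rlen (p m) = m) ∧
      ∀ m < k, ν m ∈ Nbar ∧ p (m + 1) = ν m * rr (a m) (e m) * p m := by
  induction k with
  | zero =>
    intro g hg
    refine ⟨fun _ => g, fun _ => 0, fun _ => true, fun _ => 1, rfl, ?_, ?_, ?_⟩
    · have := rlen_spec g
      rw [hg] at this
      exact this
    · intro m hm
      rw [Nat.le_zero.mp hm]
      exact hg
    · intro m hm
      omega
  | succ k ih =>
    intro g hg
    have h1 := rlen_spec g
    rw [hg] at h1
    obtain ⟨n, hn, α, b, g', hg', hgg⟩ := h1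
    have h2 : rlen g' = k := by
      have h3 : rlen g' ≤ k := rlen_le hg'
      by_contra hne
      have h4 : Rep (rlen g' + 1) g := ⟨n, hn, α, b, g', rlen_spec g', hgg⟩
      have h5 := rlen_le h4
      omega
    obtain ⟨p, a, e, ν, hp, hp0, hlen, hstep⟩ := ih g' h2
    refine ⟨fun m => if m ≤ k then p m else g, fun m => if m < k then a m else α,
      fun m => if m < k then e m else b, fun m => if m < k then ν m else n, ?_, ?_, ?_, ?_⟩
    · simp
    · simpa using hp0
    · intro m hm
      by_cases h : m ≤ k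
      · simp only [h, if_true]
        exact hlen m h
      · simp only [h, if_false]
        omega
    · intro m hm
      by_cases h : m < k
      · have h' : m ≤ k := h.le
        have h'' : m + 1 ≤ k := h
        simp only [h, h', h'', if_true]
        exact hstep m h
      · have h' : m = k := by omega
        subst h'
        simp only [lt_irrefl, if_false, le_refl, if_true, Nat.not_succ_le_self]
        exact ⟨hn, by rw [hgg, hp]⟩

theorem chain_reduced {p : ℕ → GG} {a : ℕ → Ltr} {e : ℕ → Bool} {ν : ℕ → GG} {k : ℕ}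
    (hlen : ∀ m ≤ k, rlen (p m) = m)
    (hstep : ∀ m < k, ν m ∈ Nbar ∧ p (m + 1) = ν m * rr (a m) (e m) * p m)
    {m : ℕ} (hm : m + 1 < k) (ha : a m = a (m + 1)) :
    (e m = true → e (m + 1) = false → ν m ∉ Qbar (a m)) ∧
    (e m = false → e (m + 1) = true → GG.r (a m) * ν m * (GG.r (a m))⁻¹ ∉ Qbar (a m)) := by
  have key : ∀ z : GG, z ∈ Nbar → p (m + 2) = ν (m + 1) * z * p m → False := by
    intro z hz h
    have h1 := hlen (m + 2) (by omega)
    have h2 := rlen_mul_left (mul_mem (hstep (m + 1) hm).1 hz) (p m)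
    rw [← h, h1, hlen m (by omega)] at h2
    omega
  have h1 := (hstep m (by omega)).2
  have h2 := (hstep (m + 1) hm).2
  rw [h1] at h2
  constructor
  · intro e1 e2 hq
    refine key _ (r_conj_mem_Nbar hq) ?_
    rw [show m + 2 = m + 1 + 1 from rfl, h2, ← ha, e1, e2]
    simp only [rr, cond_true, cond_false, mul_assoc]
  · intro e1 e2 hq
    refine key _ (Qbar_le_Nbar _ hq) ?_
    rw [show m + 2 = m + 1 + 1 from rfl, h2, ← ha, e1, e2]
    simp only [rr, cond_true, cond_false, mul_assoc]

/-! ### permutations -/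

section perm
variable {F : Type*} [Group F] {J : Type*}

/-- left multiplication on the first coordinate -/
def Lm (F J : Type*) [Group F] : F →* Equiv.Perm (F × J) where
  toFun h := (Equiv.mulLeft h).prodCongr (Equiv.refl J)
  map_one' := by ext ⟨o, j⟩ <;> simp
  map_mul' a b := by ext ⟨o, j⟩ <;> simp [mul_assoc]

@[simp] theorem Lm_apply (h : F) (o : F) (j : J) : Lm F J h (o, j) = (h * o, j) := rfl

/-- right coset of `H` -/
def rc (H : Subgroup F) (o : F) : Set F := {x | x * o⁻¹ ∈ H}

theorem rc_mul (H : Subgroup F) {h : F} (hh : h ∈ H) (o : F) : rc H (h * o) = rc H o := by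
  ext x
  simp only [rc, Set.mem_ofPred_eq, mul_inv_rev, ← mul_assoc]
  exact mul_mem_cancel_right (inv_mem hh)

theorem mem_of_rc_eq {H : Subgroup F} {o o' : F} (h : rc H o = rc H o') : o * o'⁻¹ ∈ H := by
  have : o ∈ rc H o := by simp [rc]
  rw [h] at this
  exact this

/-- permutation of the second coordinate depending on the right coset of the first. -/
def zc (H : Subgroup F) (π : Set F → Equiv.Perm J) : Equiv.Perm (F × J) :=
  Equiv.prodShear (Equiv.refl F) fun o => π (rc H o)

@[simp] theorem zc_apply (H : Subgroup F) (π : Set F → Equiv.Perm J) (o : F) (j : J) :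
    zc H π (o, j) = (o, π (rc H o) j) := rfl

theorem zc_inv_apply (H : Subgroup F) (π : Set F → Equiv.Perm J) (o : F) (j : J) :
    (zc H π)⁻¹ (o, j) = (o, (π (rc H o))⁻¹ j) := by
  rw [Equiv.Perm.inv_eq_iff_eq, zc_apply]
  simp

theorem Lm_zc (H : Subgroup F) (π : Set F → Equiv.Perm J) {h : F} (hh : h ∈ H) :
    Lm F J h * zc H π = zc H π * Lm F J h := by
  ext1 ⟨o, j⟩
  simp only [Equiv.Perm.mul_apply, zc_apply, Lm_apply, rc_mul H hh]

end perm

section perm2
variable {F : Type*} [Group F] {J : Type*} (f : GG →* F) (π : Ltr → Set F → Equiv.Perm J)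

/-- image of the letter -/
def rz (α : Ltr) : Equiv.Perm (F × J) := zc ((Qbar α).map f) (π α) * Lm F J (f (GG.r α))

theorem rz_rel : RelG (fun i => (Lm F J).comp f (GG.x i)) (fun k => (Lm F J).comp f (GG.y k))
    (rz f π) := by
  refine { x0 := ?_, hex := ?_, la := ?_, lb := ?_ }
  · rw [GG.rel.x0, map_one]
  · intro α i k hi hk
    rw [← map_Aw, ← map_Bw, rz]
    have h1 : f (Aw GG.x GG.y i k) ∈ (Qbar α).map f := ⟨_, Aw_mem_Qbar hi hk, rfl⟩
    rw [MonoidHom.comp_apply, MonoidHom.comp_apply, ← mul_assoc, Lm_zc _ _ h1, mul_assoc,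
      mul_assoc, ← map_mul, ← map_mul, ← map_mul, ← map_mul, GG.rel.hex α i k hi hk]
  · intro n
    rw [← map_lam, GG.rel.la, map_one]
  · intro n
    rw [← map_lam, GG.rel.lb, map_one]

/-- the permutation representation -/
def rzHom : GG →* Equiv.Perm (F × J) := GG.lift (rz_rel f π)

theorem rzHom_r (α : Ltr) : rzHom f π (GG.r α) = rz f π α := GG.lift_r _ α

theorem rzHom_of_mem {n : GG} (hn : n ∈ Nbar) : rzHom f π n = Lm F J (f n) := by
  unfold Nbar at hn
  induction hn using Subgroup.closure_induction with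
  | mem g hg =>
    rcases hg with ⟨i, rfl⟩ | ⟨k, rfl⟩
    · exact GG.lift_x _ i
    · exact GG.lift_y _ k
  | one => simp
  | mul a b _ _ ha hb => rw [map_mul, map_mul, map_mul, ha, hb]
  | inv a _ ha => rw [map_inv, map_inv, map_inv, ha]

end perm2

/-- Elements outside `Nbar` are detected by finite quotients, if the edge groups are separable. -/
theorem exists_finiteIndex_of_notMem_Nbar
    (hsep1 : ∀ (α : Ltr) (n : GG), n ∈ Nbar → n ∉ Qbar α → Sep (Qbar α) n)
    (hsep2 : ∀ (α : Ltr) (n : GG), n ∈ Nbar → GG.r α * n * (GG.r α)⁻¹ ∉ Qbar α →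
      Sep (Qbar α) (GG.r α * n * (GG.r α)⁻¹))
    (g : GG) (hg : g ∉ Nbar) : ∃ M : Subgroup GG, M.FiniteIndex ∧ g ∉ M := by
  classical
  obtain ⟨p, a, e, ν, hp, hp0, hlen, hstep⟩ := exists_chain (rlen g) g rfl
  set k := rlen g with hk
  have hkpos : 0 < k := by
    by_contra h0
    apply hg
    have h1 := rlen_spec g
    rw [← hk, Nat.eq_zero_of_not_pos h0] at h1
    exact h1
  -- the separating subgroups
  have hM : ∀ m : Fin k, ∃ M : Subgroup GG, M.FiniteIndex ∧
      (ν m ∉ Qbar (a m) → Qbar (a m) ≤ M ∧ ν m ∉ M) := by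
    intro m
    by_cases h : ν m ∈ Qbar (a m)
    · exact ⟨⊤, inferInstance, fun h' => absurd h h'⟩
    · obtain ⟨M, h1, h2, h3⟩ := hsep1 (a m) (ν m) (hstep m m.2).1 h
      exact ⟨M, h1, fun _ => ⟨h2, h3⟩⟩
  have hM' : ∀ m : Fin k, ∃ M : Subgroup GG, M.FiniteIndex ∧
      (GG.r (a m) * ν m * (GG.r (a m))⁻¹ ∉ Qbar (a m) →
        Qbar (a m) ≤ M ∧ GG.r (a m) * ν m * (GG.r (a m))⁻¹ ∉ M) := by
    intro m
    by_cases h : GG.r (a m) * ν m * (GG.r (a m))⁻¹ ∈ Qbar (a m)
    · exact ⟨⊤, inferInstance, fun h' => absurd h h'⟩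
    · obtain ⟨M, h1, h2, h3⟩ := hsep2 (a m) (ν m) (hstep m m.2).1 h
      exact ⟨M, h1, fun _ => ⟨h2, h3⟩⟩
  choose M1 hM1 hM1' using hM
  choose M2 hM2 hM2' using hM'
  have hI : (⨅ m : Fin k, (M1 m ⊓ M2 m)).FiniteIndex := by
    refine Subgroup.finiteIndex_iInf fun m => ?_
    have := hM1 m
    have := hM2 m
    infer_instance
  set K := (⨅ m : Fin k, (M1 m ⊓ M2 m)).normalCore with hK
  have hKle : ∀ m : Fin k, K ≤ M1 m ∧ K ≤ M2 m := by
    intro m
    have h1 : K ≤ M1 m ⊓ M2 m := (Subgroup.normalCore_le _).trans (iInf_le _ m)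
    exact ⟨h1.trans inf_le_left, h1.trans inf_le_right⟩
  have hKf : K.FiniteIndex := inferInstance
  have hfin : Finite (GG ⧸ K) := Subgroup.finite_quotient_of_finiteIndex
  let f := QuotientGroup.mk' K
  -- separation in the quotient
  have hsepq : ∀ (M : Subgroup GG), K ≤ M → ∀ (α : Ltr) (z : GG), Qbar α ≤ M → z ∉ M →
      f z ∉ (Qbar α).map f := by
    rintro M hKM α z hQ hz ⟨q, hq, hqz⟩
    apply hz
    have h1 : q⁻¹ * z ∈ K := QuotientGroup.eq.mp hqz
    have h2 : z = q * (q⁻¹ * z) := by group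
    rw [h2]
    exact mul_mem (hQ hq) (hKM h1)
  -- labels
  let lab : ℕ → Ltr × Set (GG ⧸ K) := fun m =>
    (a m, rc ((Qbar (a m)).map f) (cond (e m) (f (GG.r (a m)) * f (p m)) (f (p m))))
  obtain ⟨π, hπ⟩ := exists_perm_path k lab e (by
    intro m hm hlab
    have ha : a m = a (m + 1) := congrArg Prod.fst hlab
    have hc := congrArg Prod.snd hlab
    simp only [lab] at hc
    rw [← ha] at hc
    have hred := chain_reduced hlen hstep hm ha
    have hmk : m < k := by omega
    have hpm : f (p (m + 1)) = f (ν m) * f (rr (a m) (e m)) * f (p m) := by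
      rw [(hstep m hmk).2, map_mul, map_mul]
    rcases hb : e m with _ | _ <;> rcases hb' : e (m + 1) with _ | _
    · rfl
    · exfalso
      have h1 := hred.2 hb hb'
      have h2 := hM2' ⟨m, hmk⟩ h1
      refine hsepq _ (hKle ⟨m, hmk⟩).2 _ _ h2.1 h2.2 ?_
      rw [hb, hb', hpm, hb] at hc
      have h3 := mem_of_rc_eq hc.symm
      simp only [cond_true, cond_false, rr, map_inv] at h3
      have h4 : f (GG.r (a m) * ν m * (GG.r (a m))⁻¹) =
          f (GG.r (a m)) * (f (ν m) * (f (GG.r (a m)))⁻¹ * f (p m)) * (f (p m))⁻¹ := by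
        rw [map_mul, map_mul, map_inv]; group
      rw [h4]
      exact h3
    · exfalso
      have h1 := hred.1 hb hb'
      have h2 := hM1' ⟨m, hmk⟩ h1
      refine hsepq _ (hKle ⟨m, hmk⟩).1 _ _ h2.1 h2.2 ?_
      rw [hb, hb', hpm, hb] at hc
      have h3 := mem_of_rc_eq hc.symm
      simp only [cond_true, cond_false, rr] at h3
      have h4 : f (ν m) =
          f (ν m) * f (GG.r (a m)) * f (p m) * (f (GG.r (a m)) * f (p m))⁻¹ := by
        group
      rw [h4]
      exact h3
    · rfl)
  let Φ := rzHom f (fun α s => π (α, s))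
  have key : ∀ m (hm : m ≤ k), Φ (p m) (1, ⟨0, by omega⟩) = (f (p m), ⟨m, by omega⟩) := by
    intro m
    induction m with
    | zero =>
      intro _
      show rzHom f (fun α s => π (α, s)) (p 0) _ = _
      rw [rzHom_of_mem _ _ hp0, Lm_apply, mul_one]
    | succ m ih =>
      intro hm
      have hmk : m < k := by omega
      have h1 := hstep m hmk
      have h2 := hπ m hmk
      have h3 : Φ (rr (a m) (e m)) (f (p m), ⟨m, by omega⟩) =
          (f (rr (a m) (e m)) * f (p m), ⟨m + 1, by omega⟩) := by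
        rcases hb : e m with _ | _
        · simp only [rr, cond_false]
          rw [map_inv, Equiv.Perm.inv_eq_iff_eq]
          show _ = rzHom f (fun α s => π (α, s)) _ _
          rw [rzHom_r, rz, Equiv.Perm.mul_apply, Lm_apply, map_inv, mul_inv_cancel_left, zc_apply]
          have h4 := h2.2 hb
          simp only [lab, hb, cond_false] at h4
          rw [h4]
        · simp only [rr, cond_true]
          show rzHom f (fun α s => π (α, s)) _ _ = _
          rw [rzHom_r, rz, Equiv.Perm.mul_apply, Lm_apply, zc_apply]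
          have h4 := h2.1 hb
          simp only [lab, hb, cond_true] at h4
          rw [h4]
      rw [h1.2, map_mul, map_mul, Equiv.Perm.mul_apply, Equiv.Perm.mul_apply, ih (by omega), h3]
      show rzHom f (fun α s => π (α, s)) _ _ = _
      rw [rzHom_of_mem _ _ h1.1, Lm_apply, map_mul, map_mul, mul_assoc]
  refine ⟨Φ.ker, inferInstance, ?_⟩
  intro hker
  have h1 := key k le_rfl
  rw [hp, (MonoidHom.mem_ker).mp hker] at h1
  have h2 := congrArg (fun z => (z.2 : Fin (k + 1)).1) h1
  simp only [Equiv.Perm.coe_one, id_eq] at h2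
  omega

end Crest.Agent.R197
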