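import Mathlib
import Crest.Agent.R197.Omega
import Crest.Agent.R197.RRep

/-! Row 197, module R (part 3): the edge groups are separable; `G` is residually finite, given that
`toOmega` is injective on `Nbar`. -/

set_option autoImplicit false

namespace Crest.Agent.R197

open SemidirectProduct

/-- the constant homomorphism of generators -/
def cst (a : FreeGroup (Fin 4)) : FreeGroup (Fin 4) →* FreeGroup (Fin 4) :=
  FreeGroup.lift fun _ => a

@[simp] theorem cst_of (a : FreeGroup (Fin 4)) (i : Fin 4) : cst a (FreeGroup.of i) = a := by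
  simp [cst]

theorem cst_mem (a w : FreeGroup (Fin 4)) : cst a w ∈ Subgroup.closure {a} := by
  have h : (cst a).range ≤ Subgroup.closure {a} := by
    rw [cst, FreeGroup.range_lift_eq_closure]
    refine Subgroup.closure_mono ?_
    rintro _ ⟨i, rfl⟩
    rfl
  exact h ⟨w, rfl⟩

theorem cst_comm (a w : FreeGroup (Fin 4)) : a⁻¹ * cst a w * a = cst a w := by
  have h := cst_mem a w
  rw [Subgroup.mem_closure_singleton] at h
  obtain ⟨n, hn⟩ := h
  rw [← hn]
  group

theorem cst_cst (a w : FreeGroup (Fin 4)) (k : Fin 4) :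
    cst a⁻¹ (cst (FreeGroup.of k)⁻¹ w) = cst a w := by
  have h : (cst a⁻¹).comp (cst (FreeGroup.of k)⁻¹) = cst a := by
    apply FreeGroup.ext_hom
    intro i
    simp
  exact DFunLike.congr_fun h w

theorem cst_phi4 (a w : FreeGroup (Fin 4)) (σ : Equiv.Perm (Fin 4)) :
    cst a (phi4 σ w) = cst a w := by
  have h : (cst a).comp (phi4 σ).toMonoidHom = cst a := by
    apply FreeGroup.ext_hom
    intro i
    simp
  exact DFunLike.congr_fun h w

/-- elements with trivial permutation part and total exponent `0` -/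
def Good (g : GG) : Prop :=
  ∃ u v : FreeGroup (Fin 4), toOmega g = (inl u, inl v) ∧ ∀ a, cst a u = cst a⁻¹ v

theorem good_of_mem {g : GG} (hg : g ∈ Nbar) : Good g := by
  unfold Nbar at hg
  induction hg using Subgroup.closure_induction with
  | mem g hg =>
    rcases hg with ⟨i, rfl⟩ | ⟨k, rfl⟩
    · refine ⟨FreeGroup.of i * (FreeGroup.of 0)⁻¹, 1, ?_, ?_⟩
      · rw [toOmega_x, omgX, map_one]
      · intro a; simp
    · refine ⟨(FreeGroup.of 0)⁻¹, FreeGroup.of k, ?_, ?_⟩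
      · rw [toOmega_y, omgY]
      · intro a; simp
  | one => exact ⟨1, 1, by simp only [map_one]; rfl, fun a => by simp⟩
  | mul a b _ _ ha hb =>
    obtain ⟨u, v, h1, h2⟩ := ha
    obtain ⟨u', v', h1', h2'⟩ := hb
    refine ⟨u * u', v * v', ?_, ?_⟩
    · rw [map_mul, h1, h1', Prod.mk_mul_mk, map_mul, map_mul]
    · intro a
      rw [map_mul, map_mul, h2, h2']
  | inv a _ ha =>
    obtain ⟨u, v, h1, h2⟩ := ha
    refine ⟨u⁻¹, v⁻¹, ?_, ?_⟩
    · rw [map_inv, h1, Prod.inv_mk, map_inv, map_inv]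
    · intro a
      rw [map_inv, map_inv, h2]

theorem good_conj {g : GG} (hg : Good g) (α : Ltr) : Good (GG.r α * g * (GG.r α)⁻¹) := by
  obtain ⟨u, v, h1, h2⟩ := hg
  refine ⟨phi4 (pX α) ((FreeGroup.of 0)⁻¹ * u * FreeGroup.of 0), phi4 (pY α) v, ?_, ?_⟩
  · rw [map_mul, map_mul, map_inv, h1, toOmega_r, omgR]
    simp only [Prod.mk_mul_mk, Prod.inv_mk, Prod.mk.injEq]
    constructor
    · rw [mul_inv_rev, mul_assoc, ← map_inv inl, inv_inv, ← mul_assoc (inl u), ← map_mul,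
        ← mul_assoc, mul_assoc (inr (pX α)), ← map_mul]
      ext1
      · simp [mul_assoc]
      · simp
    · ext1
      · simp
      · simp
  · intro a
    rw [cst_phi4, cst_phi4, map_mul, map_mul, map_inv, cst_of, cst_comm, h2]

/-- free factor of the `X`-letters -/
def WX (α : Ltr) : Subgroup (FreeGroup (Fin 4)) := Subgroup.closure (FreeGroup.of '' {i | inX α i})
/-- free factor of the `Y`-letters -/
def WY (α : Ltr) : Subgroup (FreeGroup (Fin 4)) := Subgroup.closure (FreeGroup.of '' {i | inY α i})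

theorem inX_x1 (α : Ltr) : inX α (x1 α) := Or.inl rfl
theorem inY_y1 (α : Ltr) : inY α (y1 α) := Or.inl rfl

theorem exq1 (α : Ltr) {u : FreeGroup (Fin 4)} (hu : u ∈ WX α) :
    ∃ q ∈ Qbar α, toOmega q = (inl u, inl (cst (FreeGroup.of (y1 α))⁻¹ u)) := by
  unfold WX at hu
  induction hu using Subgroup.closure_induction with
  | mem u hu =>
    obtain ⟨i, hi, rfl⟩ := hu
    refine ⟨(Aw GG.x GG.y i (y1 α))⁻¹, inv_mem (Aw_mem_Qbar hi (inY_y1 α)), ?_⟩
    rw [map_inv, toOmega_Aw, Prod.inv_mk, cst_of, ← map_inv, ← map_inv, inv_inv]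
  | one => exact ⟨1, one_mem _, by simp only [map_one]; rfl⟩
  | mul a b _ _ ha hb =>
    obtain ⟨q, hq, h1⟩ := ha
    obtain ⟨q', hq', h1'⟩ := hb
    refine ⟨q * q', mul_mem hq hq', ?_⟩
    rw [map_mul, h1, h1', Prod.mk_mul_mk, ← map_mul, ← map_mul, ← map_mul]
  | inv a _ ha =>
    obtain ⟨q, hq, h1⟩ := ha
    refine ⟨q⁻¹, inv_mem hq, ?_⟩
    rw [map_inv, h1, Prod.inv_mk, ← map_inv, ← map_inv, ← map_inv]

theorem exq2 (α : Ltr) {v : FreeGroup (Fin 4)} (hv : v ∈ WY α) :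
    ∃ q ∈ Qbar α, toOmega q = (inl (cst (FreeGroup.of (x1 α))⁻¹ v), inl v) := by
  unfold WY at hv
  induction hv using Subgroup.closure_induction with
  | mem u hu =>
    obtain ⟨i, hi, rfl⟩ := hu
    refine ⟨Aw GG.x GG.y (x1 α) i, Aw_mem_Qbar (inX_x1 α) hi, ?_⟩
    rw [toOmega_Aw, cst_of]
  | one => exact ⟨1, one_mem _, by simp only [map_one]; rfl⟩
  | mul a b _ _ ha hb =>
    obtain ⟨q, hq, h1⟩ := ha
    obtain ⟨q', hq', h1'⟩ := hb
    refine ⟨q * q', mul_mem hq hq', ?_⟩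
    rw [map_mul, h1, h1', Prod.mk_mul_mk, ← map_mul, ← map_mul, ← map_mul]
  | inv a _ ha =>
    obtain ⟨q, hq, h1⟩ := ha
    refine ⟨q⁻¹, inv_mem hq, ?_⟩
    rw [map_inv, h1, Prod.inv_mk, ← map_inv, ← map_inv, ← map_inv]

theorem exq (α : Ltr) {u v : FreeGroup (Fin 4)} (hu : u ∈ WX α) (hv : v ∈ WY α)
    (h : ∀ a, cst a u = cst a⁻¹ v) : ∃ q ∈ Qbar α, toOmega q = (inl u, inl v) := by
  obtain ⟨q1, hq1, h1⟩ := exq1 α hu
  have hv' : (cst (FreeGroup.of (y1 α))⁻¹ u)⁻¹ * v ∈ WY α := by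
    refine mul_mem (inv_mem ?_) hv
    have h2 : Subgroup.closure {(FreeGroup.of (y1 α))⁻¹} ≤ WY α := by
      rw [Subgroup.closure_le, Set.singleton_subset_iff]
      exact inv_mem (Subgroup.subset_closure ⟨_, inY_y1 α, rfl⟩)
    exact h2 (cst_mem _ _)
  obtain ⟨q2, hq2, h2⟩ := exq2 α hv'
  refine ⟨q1 * q2, mul_mem hq1 hq2, ?_⟩
  have h3 : cst (FreeGroup.of (x1 α))⁻¹ ((cst (FreeGroup.of (y1 α))⁻¹ u)⁻¹ * v) = 1 := by
    rw [map_mul, map_inv, cst_cst, h, inv_mul_cancel]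
  rw [map_mul, h1, h2, h3, Prod.mk_mul_mk, ← map_mul, ← map_mul, mul_one, mul_inv_cancel_left]

theorem inl_range_finiteIndex :
    (inl : FreeGroup (Fin 4) →* Om4).range.FiniteIndex := by
  rw [SemidirectProduct.range_inl_eq_ker_rightHom]
  infer_instance

theorem sepX {A : Set (Fin 4)} {V : Subgroup GG} {g : GG} {u : FreeGroup (Fin 4)}
    (hg : (toOmega g).1 = inl u) (hu : u ∉ Subgroup.closure (FreeGroup.of '' A))
    (hV : ∀ q ∈ V, ∃ w ∈ Subgroup.closure (FreeGroup.of '' A), (toOmega q).1 = inl w) :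
    Sep V g := by
  have h1 := (sep_freeFactor A u hu).map (inl : FreeGroup (Fin 4) →* Om4)
    SemidirectProduct.inl_injective inl_range_finiteIndex
  rw [← hg] at h1
  refine Sep.comap ((MonoidHom.fst Om4 Om4).comp toOmega) h1 ?_
  intro q hq
  obtain ⟨w, hw, h2⟩ := hV q hq
  exact ⟨w, hw, h2.symm⟩

theorem sepY {A : Set (Fin 4)} {V : Subgroup GG} {g : GG} {u : FreeGroup (Fin 4)}
    (hg : (toOmega g).2 = inl u) (hu : u ∉ Subgroup.closure (FreeGroup.of '' A))
    (hV : ∀ q ∈ V, ∃ w ∈ Subgroup.closure (FreeGroup.of '' A), (toOmega q).2 = inl w) :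
    Sep V g := by
  have h1 := (sep_freeFactor A u hu).map (inl : FreeGroup (Fin 4) →* Om4)
    SemidirectProduct.inl_injective inl_range_finiteIndex
  rw [← hg] at h1
  refine Sep.comap ((MonoidHom.snd Om4 Om4).comp toOmega) h1 ?_
  intro q hq
  obtain ⟨w, hw, h2⟩ := hV q hq
  exact ⟨w, hw, h2.symm⟩

theorem toOmega_Qbar {α : Ltr} {q : GG} (hq : q ∈ Qbar α) :
    ∃ w ∈ WX α, ∃ w' ∈ WY α, toOmega q = (inl w, inl w') := by
  unfold Qbar at hq
  induction hq using Subgroup.closure_induction with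
  | mem q hq =>
    obtain ⟨i, k, hi, hk, rfl⟩ := hq
    refine ⟨(FreeGroup.of i)⁻¹, inv_mem (Subgroup.subset_closure ⟨i, hi, rfl⟩),
      FreeGroup.of k, Subgroup.subset_closure ⟨k, hk, rfl⟩, toOmega_Aw i k⟩
  | one => exact ⟨1, one_mem _, 1, one_mem _, by simp only [map_one]; rfl⟩
  | mul a b _ _ ha hb =>
    obtain ⟨u, hu, v, hv, h1⟩ := ha
    obtain ⟨u', hu', v', hv', h1'⟩ := hb
    refine ⟨u * u', mul_mem hu hu', v * v', mul_mem hv hv', ?_⟩
    rw [map_mul, h1, h1', Prod.mk_mul_mk, map_mul, map_mul]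
  | inv a _ ha =>
    obtain ⟨u, hu, v, hv, h1⟩ := ha
    refine ⟨u⁻¹, inv_mem hu, v⁻¹, inv_mem hv, ?_⟩
    rw [map_inv, h1, Prod.inv_mk, map_inv, map_inv]

theorem sep_of_good {α : Ltr} {g : GG} (hg : Good g)
    (hne : ∀ q ∈ Qbar α, toOmega q ≠ toOmega g) : Sep (Qbar α) g := by
  obtain ⟨u, v, h1, h2⟩ := hg
  by_cases hu : u ∈ WX α
  · by_cases hv : v ∈ WY α
    · obtain ⟨q, hq, h3⟩ := exq α hu hv h2
      exact absurd (h3.trans h1.symm) (hne q hq)
    · refine sepY (congrArg Prod.snd h1) hv ?_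
      intro q hq
      obtain ⟨w, hw, w', hw', h3⟩ := toOmega_Qbar hq
      exact ⟨w', hw', congrArg Prod.snd h3⟩
  · refine sepX (congrArg Prod.fst h1) hu ?_
    intro q hq
    obtain ⟨w, hw, w', hw', h3⟩ := toOmega_Qbar hq
    exact ⟨w, hw, congrArg Prod.fst h3⟩

/-- residual finiteness of `G`, given injectivity on `Nbar`. -/
theorem rf_of_injOn (hinj : ∀ g : GG, g ∈ Nbar → toOmega g = 1 → g = 1) :
    Group.ResiduallyFinite GG := by
  rw [Group.residuallyFinite_iff_exists_finiteIndex]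
  intro g hg1
  by_cases hg : g ∈ Nbar
  · obtain ⟨u, v, h1, h2⟩ := good_of_mem hg
    have hne : toOmega g ≠ 1 := fun h => hg1 (hinj g hg h)
    have hbot : Subgroup.closure (FreeGroup.of '' (∅ : Set (Fin 4))) = ⊥ := by simp
    by_cases hu : u = 1
    · have hv : v ∉ Subgroup.closure (FreeGroup.of '' (∅ : Set (Fin 4))) := by
        rw [hbot, Subgroup.mem_bot]
        rintro rfl
        apply hne
        rw [h1, hu]
        simp
      obtain ⟨M, hM, -, hM2⟩ := sepY (V := ⊥) (congrArg Prod.snd h1) hv (by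
        intro q hq
        rw [Subgroup.mem_bot] at hq
        subst hq
        exact ⟨1, one_mem _, by simp⟩)
      exact ⟨M, hM, hM2⟩
    · have hu' : u ∉ Subgroup.closure (FreeGroup.of '' (∅ : Set (Fin 4))) := by
        rw [hbot, Subgroup.mem_bot]
        exact hu
      obtain ⟨M, hM, -, hM2⟩ := sepX (V := ⊥) (congrArg Prod.fst h1) hu' (by
        intro q hq
        rw [Subgroup.mem_bot] at hq
        subst hq
        exact ⟨1, one_mem _, by simp⟩)
      exact ⟨M, hM, hM2⟩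
  · refine exists_finiteIndex_of_notMem_Nbar ?_ ?_ g hg
    · intro α n hn hq
      refine sep_of_good (good_of_mem hn) ?_
      intro q hq' h
      have h1 : q⁻¹ * n = 1 := by
        apply hinj _ (mul_mem (inv_mem (Qbar_le_Nbar α hq')) hn)
        rw [map_mul, map_inv, h, inv_mul_cancel]
      exact hq (inv_mul_eq_one.mp h1 ▸ hq')
    · intro α n hn hq
      refine sep_of_good (good_conj (good_of_mem hn) α) ?_
      intro q hq' h
      have h1 : ((GG.r α)⁻¹ * q * GG.r α)⁻¹ * n = 1 := by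
        apply hinj _ (mul_mem (inv_mem (r_conj_mem_Nbar hq')) hn)
        rw [map_mul, map_inv, map_mul, map_mul, h, map_mul, map_mul, map_inv]
        group
      apply hq
      rw [← inv_mul_eq_one.mp h1]
      have h2 : GG.r α * ((GG.r α)⁻¹ * q * GG.r α) * (GG.r α)⁻¹ = q := by group
      rw [h2]
      exact hq'

end Crest.Agent.R197
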