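import Mathlib
import Crest.Agent.R197.NPres
import Crest.Agent.R197.RSep

/-! Row 197, module R: `G` is finitely generated and residually finite. -/

set_option autoImplicit false

namespace Crest.Agent.R197

theorem fg_GG : Group.FG GG :=
  Group.fg_of_surjective (f := PresentedGroup.mk relsG) (PresentedGroup.mk_surjective relsG)

theorem rf_GG : Group.ResiduallyFinite GG :=
  rf_of_injOn fun _ hg h => toOm_injOn_Nbar hg h

end Crest.Agent.R197
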