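import Mathlib

/-! # Row 197: gluing of path labels (van Kampen for functors to a group) -/

set_option autoImplicit false

open Set unitInterval Topology

namespace Crest.Agent.R197

universe u v w

/-- A homotopy invariant, multiplicative labelling of the paths of `X` by elements of `H`. -/
structure PathLabel (X : Type u) [TopologicalSpace X] (H : Type v) [Group H] where
  lab : ∀ {x y : X}, Path x y → H
  lab_trans : ∀ {x y z : X} (p : Path x y) (q : Path y z), lab (p.trans q) = lab p * lab q
  lab_hom : ∀ {x y : X} {p q : Path x y}, p.Homotopic q → lab p = lab q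

/-- `L` is a multiplicative, homotopy invariant label for the paths with range in `U`. -/
structure IsLabelOn {X : Type u} [TopologicalSpace X] {H : Type v} [Group H] (U : Set X)
    (L : ∀ {x y : X}, Path x y → H) : Prop where
  trans : ∀ {x y z : X} (p : Path x y) (q : Path y z), range p ⊆ U → range q ⊆ U →
    L (p.trans q) = L p * L q
  hom : ∀ {x y : X} {p q : Path x y} (F : Path.Homotopy p q), (∀ z, F z ∈ U) → L p = L q

section
variable {X : Type u} [TopologicalSpace X] {H : Type v} [Group H]

namespace PathLabel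

theorem ext' {T T' : PathLabel X H} (h : ∀ {x y : X} (p : Path x y), T.lab p = T'.lab p) :
    T = T' := by
  cases T; cases T'
  congr
  funext x y p
  exact h p

variable (T : PathLabel X H)

@[simp] theorem lab_refl (x : X) : T.lab (Path.refl x) = 1 := by
  have h := T.lab_trans (Path.refl x) (Path.refl x)
  rw [Path.refl_trans_refl] at h
  exact left_eq_mul.mp h

@[simp] theorem lab_symm {x y : X} (p : Path x y) : T.lab p.symm = (T.lab p)⁻¹ := by
  have h := T.lab_trans p.symm p
  rw [T.lab_hom (p := p.symm.trans p) (q := Path.refl y) ⟨(Path.Homotopy.reflSymmTrans p).symm⟩,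
    lab_refl] at h
  exact eq_inv_of_mul_eq_one_left h.symm

@[simp] theorem lab_cast {x y x' y' : X} (p : Path x y) (hx : x' = x) (hy : y' = y) :
    T.lab (p.cast hx hy) = T.lab p := by
  subst hx; subst hy; rfl

theorem isLabelOn (U : Set X) : IsLabelOn U (fun {x y} (p : Path x y) => T.lab p) where
  trans p q _ _ := T.lab_trans p q
  hom F _ := T.lab_hom ⟨F⟩

/-- pull back a label along a continuous map -/
def comap {Y : Type w} [TopologicalSpace Y] (f : C(Y, X)) : PathLabel Y H where
  lab p := T.lab (p.map f.continuous)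
  lab_trans p q := by rw [Path.map_trans, T.lab_trans]
  lab_hom h := T.lab_hom (h.map f)

@[simp] theorem comap_lab {Y : Type w} [TopologicalSpace Y] (f : C(Y, X)) {x y : Y}
    (p : Path x y) : (T.comap f).lab p = T.lab (p.map f.continuous) := rfl

/-- compose with a group homomorphism -/
def mapHom {K : Type w} [Group K] (φ : H →* K) : PathLabel X K where
  lab p := φ (T.lab p)
  lab_trans p q := by rw [T.lab_trans, map_mul]
  lab_hom h := by rw [T.lab_hom h]

@[simp] theorem mapHom_lab {K : Type w} [Group K] (φ : H →* K) {x y : X} (p : Path x y) :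
    (T.mapHom φ).lab p = φ (T.lab p) := rfl

/-- gauge change -/
def gauge (g : X → H) : PathLabel X H where
  lab {x y} p := (g x)⁻¹ * T.lab p * g y
  lab_trans p q := by rw [T.lab_trans]; group
  lab_hom h := by rw [T.lab_hom h]

@[simp] theorem gauge_lab (g : X → H) {x y : X} (p : Path x y) :
    (T.gauge g).lab p = (g x)⁻¹ * T.lab p * g y := rfl

/-- the label on homotopy classes -/
def labQ {x y : X} (p : Path.Homotopic.Quotient x y) : H :=
  Quotient.lift (fun p : Path x y => T.lab p) (fun _ _ h => T.lab_hom h) p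

end PathLabel

/-- straight-line homotopy in a rectangle of the unit square -/
noncomputable def rectHomotopy {y y' : I × I} (p q : Path y y') : Path.Homotopy p q where
  toFun z := (Icc.convexComb (p z.2).1 (q z.2).1 z.1, Icc.convexComb (p z.2).2 (q z.2).2 z.1)
  continuous_toFun := by
    refine Continuous.prodMk ?_ ?_
    · exact Set.Icc.continuous_convexComb_prod.comp
        (Continuous.prodMk (by fun_prop) (Continuous.prodMk (by fun_prop) (by fun_prop)))
    · exact Set.Icc.continuous_convexComb_prod.comp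
        (Continuous.prodMk (by fun_prop) (Continuous.prodMk (by fun_prop) (by fun_prop)))
  map_zero_left x := by simp
  map_one_left x := by simp
  prop' t x hx := by
    rcases hx with rfl | rfl <;> simp [Icc.convexComb_eq]

theorem convexComb_mem {a b x y : I} (hx : x ∈ Icc a b) (hy : y ∈ Icc a b) (t : I) :
    Icc.convexComb x y t ∈ Icc a b := by
  rcases le_total x y with h | h
  · exact ⟨hx.1.trans (Icc.le_convexComb h t), (Icc.convexComb_le h t).trans hy.2⟩
  · rw [← Icc.convexComb_symm]
    exact ⟨hy.1.trans (Icc.le_convexComb h _), (Icc.convexComb_le h _).trans hx.2⟩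

/-- the straight path from `s` to `t` in the unit interval -/
noncomputable def segI (s t : I) : Path s t where
  toFun x := Icc.convexComb s t x
  continuous_toFun := Icc.continuous_convexComb s t
  source' := by simp
  target' := by simp

theorem segI_mem {a b s t : I} (hs : s ∈ Icc a b) (ht : t ∈ Icc a b) (x : I) :
    segI s t x ∈ Icc a b := convexComb_mem hs ht x

/-- two paths in the square with the same end points, contained in a rectangle which is mapped to `U`,
have the same label. -/
theorem IsLabelOn.rect {U : Set X} {L : ∀ {x y : X}, Path x y → H} (hL : IsLabelOn U L)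
    (F : C(I × I, X)) {a b c d : I} (hF : ∀ z ∈ Icc a b ×ˢ Icc c d, F z ∈ U) {y y' : I × I}
    (p q : Path y y') (hp : ∀ t, p t ∈ Icc a b ×ˢ Icc c d) (hq : ∀ t, q t ∈ Icc a b ×ˢ Icc c d) :
    L (p.map F.continuous) = L (q.map F.continuous) := by
  refine hL.hom ((rectHomotopy p q).map F) ?_
  intro z
  exact hF _ ⟨convexComb_mem (hp _).1 (hq _).1 _, convexComb_mem (hp _).2 (hq _).2 _⟩

/-- the piece of `f` from `s` to `t` -/
noncomputable def sg (f : C(I, X)) (s t : I) : Path (f s) (f t) := (segI s t).map f.continuous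

theorem sg_mem {f : C(I, X)} {U : Set X} {a b s t : I} (hf : ∀ x ∈ Icc a b, f x ∈ U)
    (hs : s ∈ Icc a b) (ht : t ∈ Icc a b) : range (sg f s t) ⊆ U := by
  rintro _ ⟨x, rfl⟩
  exact hf _ (segI_mem hs ht x)

theorem trans_mem' {Y : Type u} [TopologicalSpace Y] {x y z : Y} {S : Set Y} (p : Path x y)
    (q : Path y z) (hp : ∀ t, p t ∈ S) (hq : ∀ t, q t ∈ S) (t : I) : (p.trans q) t ∈ S := by
  rw [Path.trans_apply]
  split_ifs
  · exact hp _
  · exact hq _

/-- 1-dimensional version of `rect` -/
theorem IsLabelOn.line {U : Set X} {L : ∀ {x y : X}, Path x y → H} (hL : IsLabelOn U L)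
    (f : C(I, X)) {a b : I} (hf : ∀ x ∈ Icc a b, f x ∈ U) {y y' : I}
    (p q : Path y y') (hp : ∀ t, p t ∈ Icc a b) (hq : ∀ t, q t ∈ Icc a b) :
    L (p.map f.continuous) = L (q.map f.continuous) := by
  have hg : Continuous (fun x : I => ((x, 0) : I × I)) := by fun_prop
  have h := hL.rect (f.comp ⟨Prod.fst, continuous_fst⟩) (a := a) (b := b) (c := 0) (d := 0)
    (fun z hz => hf _ hz.1) (p.map hg) (q.map hg) (fun t => ⟨hp t, by simp⟩)
    (fun t => ⟨hq t, by simp⟩)
  exact h

theorem IsLabelOn.sg_trans {U : Set X} {L : ∀ {x y : X}, Path x y → H} (hL : IsLabelOn U L)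
    (f : C(I, X)) {a b : I} (hf : ∀ x ∈ Icc a b, f x ∈ U) {s t u : I} (hs : s ∈ Icc a b)
    (ht : t ∈ Icc a b) (hu : u ∈ Icc a b) : L (sg f s u) = L (sg f s t) * L (sg f t u) := by
  rw [← hL.trans _ _ (sg_mem hf hs ht) (sg_mem hf ht hu)]
  unfold sg
  rw [← Path.map_trans]
  exact hL.line f hf _ _ (segI_mem hs hu) (trans_mem' _ _ (segI_mem hs ht) (segI_mem ht hu))

theorem IsLabelOn.sg_self {U : Set X} {L : ∀ {x y : X}, Path x y → H} (hL : IsLabelOn U L)
    (f : C(I, X)) {s : I} (hf : f s ∈ U) : L (sg f s s) = 1 := by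
  have h := hL.sg_trans f (a := s) (b := s) (fun x hx => by
    have : x = s := le_antisymm hx.2 hx.1
    rw [this]; exact hf) (s := s) (t := s) (u := s) ⟨le_rfl, le_rfl⟩ ⟨le_rfl, le_rfl⟩
    ⟨le_rfl, le_rfl⟩
  exact left_eq_mul.mp h

/-- constant paths have label one -/
theorem IsLabelOn.const {U : Set X} {L : ∀ {x y : X}, Path x y → H} (hL : IsLabelOn U L)
    {x y : X} (p : Path x y) (hp : ∀ t, p t = x) (hx : x ∈ U) : L p = 1 := by
  have hxy : y = x := by rw [← hp 1, p.target]
  subst hxy
  have : p = Path.refl y := by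
    ext t
    simpa using hp t
  rw [this]
  have h := hL.trans (Path.refl y) (Path.refl y) (by simpa using hx) (by simpa using hx)
  rw [Path.refl_trans_refl] at h
  exact left_eq_mul.mp h

variable {ι : Type w} {U : ι → Set X} {L : ι → ∀ {x y : X}, Path x y → H}

/-- a developing function of `f` -/
def IsDev (U : ι → Set X) (L : ι → ∀ {x y : X}, Path x y → H) (f : C(I, X)) (h : I → H)
    (b : I) : Prop :=
  h 0 = 1 ∧ ∀ i s t, s ≤ t → t ≤ b → (∀ x ∈ Icc s t, f x ∈ U i) → h t = h s * L i (sg f s t)

/-- compatible labels on an open cover -/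
structure GlueData (U : ι → Set X) (L : ι → ∀ {x y : X}, Path x y → H) : Prop where
  isOpen : ∀ i, IsOpen (U i)
  cover : ∀ x, ∃ i, x ∈ U i
  label : ∀ i, IsLabelOn (U i) (L i)
  compat : ∀ i j {x y : X} (p : Path x y), range p ⊆ U i → range p ⊆ U j → L i p = L j p

theorem GlueData.partition (hD : GlueData U L) (f : C(I, X)) :
    ∃ t : ℕ → I, t 0 = 0 ∧ Monotone t ∧ (∃ n, ∀ m ≥ n, t m = 1) ∧
      ∀ n, ∃ i, ∀ x ∈ Icc (t n) (t (n + 1)), f x ∈ U i := by
  have := exists_monotone_Icc_subset_open_cover_unitInterval (c := fun i => f ⁻¹' (U i))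
    (fun i => (hD.isOpen i).preimage f.continuous)
    (fun x _ => by
      obtain ⟨i, hi⟩ := hD.cover (f x)
      exact mem_iUnion.mpr ⟨i, hi⟩)
  exact this

theorem GlueData.exists_dev (hD : GlueData U L) (f : C(I, X)) : ∃ h, IsDev U L f h 1 := by
  obtain ⟨t, t0, tmono, ⟨n, hn⟩, ht⟩ := hD.partition f
  have key : ∀ n, ∃ h, IsDev U L f h (t n) := by
    intro n
    induction n with
    | zero =>
      refine ⟨fun _ => 1, rfl, ?_⟩
      intro i s u hsu hu hU
      rw [t0] at hu
      have hu0 : u = 0 := le_antisymm hu u.2.1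
      subst hu0
      have hs0 : s = 0 := le_antisymm hsu s.2.1
      subst hs0
      rw [(hD.label i).sg_self f (hU 0 ⟨le_rfl, le_rfl⟩)]
      simp
    | succ n ih =>
      obtain ⟨h, h0, hh⟩ := ih
      obtain ⟨j, hj⟩ := ht n
      have hle : t n ≤ t (n + 1) := tmono (Nat.le_succ n)
      refine ⟨fun s => if s ≤ t n then h s else h (t n) * L j (sg f (t n) s), ?_, ?_⟩
      · simp [h0]
      intro i s u hsu hu hU
      by_cases hu1 : u ≤ t n
      · simp only [hu1, hsu.trans hu1, if_true]
        exact hh i s u hsu hu1 hU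
      · simp only [hu1, if_false]
        push Not at hu1
        by_cases hs1 : s ≤ t n
        · simp only [hs1, if_true]
          rw [(hD.label i).sg_trans f hU (s := s) (t := t n) (u := u) ⟨le_rfl, hsu⟩
            ⟨hs1, hu1.le⟩ ⟨hsu, le_rfl⟩, ← mul_assoc,
            ← hh i s (t n) hs1 le_rfl (fun x hx => hU x ⟨hx.1, hx.2.trans hu1.le⟩)]
          congr 1
          exact hD.compat j i _ (sg_mem hj ⟨le_rfl, hle⟩ ⟨hu1.le, hu⟩)
            (sg_mem hU ⟨hs1, hu1.le⟩ ⟨hsu, le_rfl⟩)
        · simp only [hs1, if_false]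
          push Not at hs1
          rw [(hD.label j).sg_trans f hj (s := t n) (t := s) (u := u) ⟨le_rfl, hle⟩
            ⟨hs1.le, hsu.trans hu⟩ ⟨hu1.le, hu⟩, ← mul_assoc]
          congr 1
          exact hD.compat j i _ (sg_mem hj ⟨hs1.le, hsu.trans hu⟩ ⟨hu1.le, hu⟩)
            (sg_mem hU ⟨le_rfl, hsu⟩ ⟨hsu, le_rfl⟩)
  obtain ⟨h, hh⟩ := key n
  rw [hn n le_rfl] at hh
  exact ⟨h, hh⟩

theorem GlueData.dev_unique (hD : GlueData U L) (f : C(I, X)) {h h' : I → H}
    (hh : IsDev U L f h 1) (hh' : IsDev U L f h' 1) : h = h' := by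
  obtain ⟨t, t0, tmono, ⟨n, hn⟩, ht⟩ := hD.partition f
  have key : ∀ n, ∀ s ≤ t n, h s = h' s := by
    intro n
    induction n with
    | zero =>
      intro s hs
      rw [t0] at hs
      have : s = 0 := le_antisymm hs s.2.1
      rw [this, hh.1, hh'.1]
    | succ n ih =>
      intro s hs
      by_cases hs1 : s ≤ t n
      · exact ih s hs1
      · push Not at hs1
        obtain ⟨j, hj⟩ := ht n
        rw [hh.2 j (t n) s hs1.le s.2.2 (fun x hx => hj x ⟨hx.1, hx.2.trans hs⟩),
          hh'.2 j (t n) s hs1.le s.2.2 (fun x hx => hj x ⟨hx.1, hx.2.trans hs⟩), ih _ le_rfl]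
  funext s
  exact key n s (by rw [hn n le_rfl]; exact s.2.2)

/-- the developing function -/
noncomputable def GlueData.dev (hD : GlueData U L) (f : C(I, X)) : I → H := (hD.exists_dev f).choose

theorem GlueData.dev_spec (hD : GlueData U L) (f : C(I, X)) : IsDev U L f (hD.dev f) 1 :=
  (hD.exists_dev f).choose_spec

theorem GlueData.dev_eq (hD : GlueData U L) (f : C(I, X)) {h : I → H} (hh : IsDev U L f h 1) :
    hD.dev f = h := hD.dev_unique f (hD.dev_spec f) hh

/-- affine reparametrisation -/
theorem GlueData.dev_reparam (hD : GlueData U L) (f : C(I, X)) (a b : I) (hab : a ≤ b) (s : I) :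
    hD.dev (f.comp ⟨Icc.convexComb a b, Icc.continuous_convexComb a b⟩) s =
      (hD.dev f a)⁻¹ * hD.dev f (Icc.convexComb a b s) := by
  have hmono : Monotone (Icc.convexComb a b) := by
    intro s t hst
    have h1 : ((s : I) : ℝ) ≤ t := hst
    have h2 : ((a : I) : ℝ) ≤ b := hab
    rw [← Subtype.coe_le_coe, Icc.coe_convexComb, Icc.coe_convexComb]
    nlinarith
  have := hD.dev_eq (f.comp ⟨Icc.convexComb a b, Icc.continuous_convexComb a b⟩)
    (h := fun s => (hD.dev f a)⁻¹ * hD.dev f (Icc.convexComb a b s)) ?_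
  · rw [this]
  refine ⟨by simp, ?_⟩
  intro i s t hst ht hU
  have hU' : ∀ x ∈ Icc (Icc.convexComb a b s) (Icc.convexComb a b t), f x ∈ U i := by
    intro x hx
    have hc : ContinuousOn (Icc.convexComb a b) (Icc s t) :=
      (Icc.continuous_convexComb a b).continuousOn
    obtain ⟨y, hy, rfl⟩ := intermediate_value_Icc hst hc hx
    exact hU y hy
  simp only
  rw [(hD.dev_spec f).2 i _ _ (hmono hst) (Icc.convexComb a b t).2.2 hU', ← mul_assoc]
  congr 1
  exact (hD.label i).line f hU' (segI _ _) ((segI s t).map (Icc.continuous_convexComb a b))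
    (segI_mem ⟨le_rfl, hmono hst⟩ ⟨hmono hst, le_rfl⟩)
    (fun x => ⟨hmono (segI_mem ⟨le_rfl, hst⟩ ⟨hst, le_rfl⟩ x).1,
      hmono (segI_mem ⟨le_rfl, hst⟩ ⟨hst, le_rfl⟩ x).2⟩)

theorem GlueData.dev_trans (hD : GlueData U L) {x y z : X} (p : Path x y) (q : Path y z) :
    hD.dev (p.trans q).toContinuousMap 1 = hD.dev p.toContinuousMap 1 * hD.dev q.toContinuousMap 1 := by
  let c : I := ⟨1 / 2, by norm_num, by norm_num⟩
  have h1 : (p.trans q).toContinuousMap.comp ⟨Icc.convexComb 0 c, Icc.continuous_convexComb 0 c⟩ =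
      p.toContinuousMap := by
    ext t
    simp only [ContinuousMap.comp_apply, ContinuousMap.coe_mk]
    change (p.trans q) _ = p t
    rw [Path.trans_apply]
    have ht := t.2.2
    have hle : ((Icc.convexComb 0 c t : I) : ℝ) ≤ 1 / 2 := by
      rw [Icc.coe_convexComb]; simp [c]; linarith
    rw [dif_pos hle]
    congr 1
    ext
    simp [Icc.coe_convexComb, c]
    ring
  have h2 : (p.trans q).toContinuousMap.comp ⟨Icc.convexComb c 1, Icc.continuous_convexComb c 1⟩ =
      q.toContinuousMap := by
    ext t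
    simp only [ContinuousMap.comp_apply, ContinuousMap.coe_mk]
    change (p.trans q) _ = q t
    rw [Path.trans_apply]
    have ht := t.2.1
    by_cases hle : ((Icc.convexComb c 1 t : I) : ℝ) ≤ 1 / 2
    · have ht0 : t = 0 := by
        rw [Icc.coe_convexComb] at hle
        simp only [c] at hle
        refine Subtype.ext ?_
        change (t : ℝ) = 0
        have : ((1 : I) : ℝ) = 1 := rfl
        rw [this] at hle
        linarith
      rw [dif_pos hle]
      subst ht0
      simp [c]
    · rw [dif_neg hle]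
      congr 1
      ext
      simp [Icc.coe_convexComb, c]
      ring
  have e1 := hD.dev_reparam (p.trans q).toContinuousMap 0 c (by rw [← Subtype.coe_le_coe]; simp [c]) 1
  have e2 := hD.dev_reparam (p.trans q).toContinuousMap c 1 c.2.2 1
  rw [h1] at e1
  rw [h2] at e2
  rw [e1, e2, (hD.dev_spec _).1]
  simp

/-- slices of a homotopy -/
def slice (F : C(I × I, X)) (a : I) : C(I, X) := F.comp ⟨fun x => (a, x), by fun_prop⟩

/-- vertical paths in a homotopy -/
noncomputable def vert (F : C(I × I, X)) (s a b : I) : Path (slice F a s) (slice F b s) :=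
  ((segI a b).map (f := fun x => ((x, s) : I × I)) (by fun_prop)).map F.continuous

theorem vert_mem {F : C(I × I, X)} {V : Set X} {s a b : I} (hab : a ≤ b)
    (hF : ∀ x ∈ Icc a b, F (x, s) ∈ V) : range (vert F s a b) ⊆ V := by
  rintro _ ⟨x, rfl⟩
  exact hF _ (segI_mem ⟨le_rfl, hab⟩ ⟨hab, le_rfl⟩ x)

theorem IsLabelOn.square {V : Set X} {L : ∀ {x y : X}, Path x y → H} (hL : IsLabelOn V L)
    (F : C(I × I, X)) {a b c d : I} (hab : a ≤ b) (hcd : c ≤ d)
    (hF : ∀ z ∈ Icc a b ×ˢ Icc c d, F z ∈ V) :
    L (sg (slice F a) c d) * L (vert F d a b) = L (vert F c a b) * L (sg (slice F b) c d) := by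
  have ha : a ∈ Icc a b := ⟨le_rfl, hab⟩
  have hb : b ∈ Icc a b := ⟨hab, le_rfl⟩
  have hc : c ∈ Icc c d := ⟨le_rfl, hcd⟩
  have hd : d ∈ Icc c d := ⟨hcd, le_rfl⟩
  rw [← hL.trans _ _ (sg_mem (f := slice F a) (fun x hx => hF (a, x) ⟨ha, hx⟩) hc hd)
    (vert_mem hab (fun x hx => hF (x, d) ⟨hx, hd⟩)),
    ← hL.trans _ _ (vert_mem hab (fun x hx => hF (x, c) ⟨hx, hc⟩))
    (sg_mem (f := slice F b) (fun x hx => hF (b, x) ⟨hb, hx⟩) hc hd)]
  have key := hL.rect F hF
    (((segI c d).map (f := fun x => ((a, x) : I × I)) (by fun_prop)).trans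
      ((segI a b).map (f := fun x => ((x, d) : I × I)) (by fun_prop)))
    (((segI a b).map (f := fun x => ((x, c) : I × I)) (by fun_prop)).trans
      ((segI c d).map (f := fun x => ((b, x) : I × I)) (by fun_prop)))
    (trans_mem' _ _ (fun t => ⟨ha, segI_mem hc hd t⟩) (fun t => ⟨segI_mem ha hb t, hd⟩))
    (trans_mem' _ _ (fun t => ⟨segI_mem ha hb t, hc⟩) (fun t => ⟨hb, segI_mem hc hd t⟩))
  rw [Path.map_trans, Path.map_trans] at key
  exact key

theorem GlueData.dev_homotopy (hD : GlueData U L) (F : C(I × I, X))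
    (h0 : ∀ a, F (a, 0) = F (0, 0)) (h1 : ∀ a, F (a, 1) = F (0, 1)) :
    hD.dev (slice F 0) 1 = hD.dev (slice F 1) 1 := by
  obtain ⟨t, t0, tmono, ⟨N, hN⟩, ht⟩ := exists_monotone_Icc_subset_open_cover_unitInterval_prod_self
    (c := fun i => F ⁻¹' (U i)) (fun i => (hD.isOpen i).preimage F.continuous)
    (fun x _ => by
      obtain ⟨i, hi⟩ := hD.cover (F x)
      exact mem_iUnion.mpr ⟨i, hi⟩)
  have step : ∀ n m i, (∀ x ∈ Icc (t n) (t (n + 1)), F (x, t m) ∈ U i) →
      hD.dev (slice F (t n)) (t m) * L i (vert F (t m) (t n) (t (n + 1))) =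
        hD.dev (slice F (t (n + 1))) (t m) := by
    intro n m
    have hn : t n ≤ t (n + 1) := tmono (Nat.le_succ n)
    induction m with
    | zero =>
      intro i hi
      have : L i (vert F (t 0) (t n) (t (n + 1))) = 1 := by
        refine (hD.label i).const _ (fun x => ?_) (hi _ ⟨le_rfl, hn⟩)
        rw [t0]
        exact (h0 _).trans (h0 _).symm
      rw [this, t0, (hD.dev_spec _).1, (hD.dev_spec _).1, mul_one]
    | succ m ih =>
      intro i hi
      have hm : t m ≤ t (m + 1) := tmono (Nat.le_succ m)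
      obtain ⟨j, hj⟩ := ht n m
      have hj' : ∀ z ∈ Icc (t n) (t (n + 1)) ×ˢ Icc (t m) (t (m + 1)), F z ∈ U j := hj
      have hij : L i (vert F (t (m + 1)) (t n) (t (n + 1))) =
          L j (vert F (t (m + 1)) (t n) (t (n + 1))) :=
        hD.compat _ _ _ (vert_mem hn hi) (vert_mem hn (fun x hx => hj' _ ⟨hx, hm, le_rfl⟩))
      rw [hij, (hD.dev_spec (slice F (t n))).2 j (t m) (t (m + 1)) hm (t (m + 1)).2.2
        (fun x hx => hj' _ ⟨⟨le_rfl, hn⟩, hx⟩),
        (hD.dev_spec (slice F (t (n + 1)))).2 j (t m) (t (m + 1)) hm (t (m + 1)).2.2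
        (fun x hx => hj' _ ⟨⟨hn, le_rfl⟩, hx⟩),
        ← ih j (fun x hx => hj' _ ⟨hx, le_rfl, hm⟩), mul_assoc, mul_assoc,
        (hD.label j).square F hn hm hj']
  have key : ∀ n, hD.dev (slice F (t n)) 1 = hD.dev (slice F 0) 1 := by
    intro n
    induction n with
    | zero => rw [t0]
    | succ n ih =>
      have hn : t n ≤ t (n + 1) := tmono (Nat.le_succ n)
      obtain ⟨i, hi⟩ := hD.cover (F (0, 1))
      have hi' : ∀ x ∈ Icc (t n) (t (n + 1)), F (x, t N) ∈ U i := by
        intro x _
        rw [hN N le_rfl, h1]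
        exact hi
      have hs := step n N i hi'
      have : L i (vert F (t N) (t n) (t (n + 1))) = 1 := by
        refine (hD.label i).const _ (fun x => ?_) (hi' _ ⟨le_rfl, hn⟩)
        rw [hN N le_rfl]
        exact (h1 _).trans (h1 _).symm
      rw [this, mul_one, hN N le_rfl] at hs
      rw [← hs, ih]
  have := key N
  rw [hN N le_rfl] at this
  exact this.symm

/-- **Gluing of labels.** -/
theorem glue (hD : GlueData U L) :
    ∃ T : PathLabel X H, ∀ i {x y : X} (p : Path x y), range p ⊆ U i → T.lab p = L i p := by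
  refine ⟨⟨fun p => hD.dev p.toContinuousMap 1, fun p q => hD.dev_trans p q, ?_⟩, ?_⟩
  · rintro x y p q ⟨F⟩
    have h := hD.dev_homotopy F.toContinuousMap (by intro a; simp) (by intro a; simp)
    have e0 : slice F.toContinuousMap 0 = p.toContinuousMap := by
      ext t
      simp [slice]
    have e1 : slice F.toContinuousMap 1 = q.toContinuousMap := by
      ext t
      simp [slice]
    rw [e0, e1] at h
    exact h
  · intro i x y p hp
    have h := (hD.dev_spec p.toContinuousMap).2 i 0 1 (by simp) le_rfl (fun x _ => hp ⟨x, rfl⟩)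
    change hD.dev p.toContinuousMap 1 = _
    rw [h, (hD.dev_spec _).1, one_mul]
    have key : ∀ {a b : X} (q : Path a b) (ha : a = x) (hb : b = y), (∀ t, q t = p t) →
        L i q = L i p := by
      intro a b q ha hb hq
      subst ha; subst hb
      congr 1
      ext t
      exact hq t
    refine key _ p.source p.target (fun t => ?_)
    change p (Icc.convexComb 0 1 t) = p t
    rw [Icc.convexComb_zero_one]

/-- a label is determined by its values on short paths -/
theorem glue_unique {ι : Type w} {U : ι → Set X} (hU : ∀ i, IsOpen (U i))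
    (hcov : ∀ x, ∃ i, x ∈ U i) (T T' : PathLabel X H)
    (h : ∀ i {x y : X} (p : Path x y), range p ⊆ U i → T.lab p = T'.lab p) : T = T' := by
  have hD : GlueData U (fun _ {x y} (p : Path x y) => T'.lab p) :=
    ⟨hU, hcov, fun i => T'.isLabelOn (U i), fun _ _ _ _ _ _ _ => rfl⟩
  have key : ∀ (S : PathLabel X H), (∀ i {x y : X} (p : Path x y), range p ⊆ U i →
      S.lab p = T'.lab p) → ∀ {x y : X} (p : Path x y), S.lab p = hD.dev p.toContinuousMap 1 := by
    intro S hS x y p
    have hdev : IsDev U (fun _ {x y} (p : Path x y) => T'.lab p) p.toContinuousMap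
        (fun s => S.lab (sg p.toContinuousMap 0 s)) 1 := by
      refine ⟨?_, ?_⟩
      · exact (S.isLabelOn univ).sg_self _ (mem_univ _)
      · intro i s t hst _ hi
        simp only
        rw [← hS i (sg p.toContinuousMap s t) (sg_mem hi ⟨le_rfl, hst⟩ ⟨hst, le_rfl⟩)]
        exact (S.isLabelOn univ).sg_trans p.toContinuousMap (a := 0) (b := 1)
          (fun _ _ => mem_univ _) ⟨le_rfl, by simp⟩ ⟨s.2.1, s.2.2⟩ ⟨t.2.1, t.2.2⟩
    rw [hD.dev_eq _ hdev]
    have key : ∀ {a b : X} (q : Path a b) (ha : a = x) (hb : b = y), (∀ t, q t = p t) →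
        S.lab q = S.lab p := by
      intro a b q ha hb hq
      subst ha; subst hb
      congr 1
      ext t
      exact hq t
    refine (key _ p.source p.target (fun t => ?_)).symm
    change p (Icc.convexComb 0 1 t) = p t
    rw [Icc.convexComb_zero_one]
  exact PathLabel.ext' fun p => (key T h p).trans (key T' (fun _ _ _ _ _ => rfl) p).symm

/-- uniqueness, pointwise form: two labels which agree on short paths agree -/
theorem glue_unique_lab {ι : Type w} {U : ι → Set X} (hU : ∀ i, IsOpen (U i))
    (hcov : ∀ x, ∃ i, x ∈ U i) (T T' : PathLabel X H)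
    (h : ∀ i {x y : X} (p : Path x y), range p ⊆ U i → T.lab p = T'.lab p) {x y : X}
    (p : Path x y) : T.lab p = T'.lab p := by
  rw [glue_unique hU hcov T T' h]

/-- the label given by a function -/
def labelFun (g : X → H) : PathLabel X H where
  lab {x y} _ := (g x)⁻¹ * g y
  lab_trans p q := by group
  lab_hom _ := rfl

@[simp] theorem labelFun_lab (g : X → H) {x y : X} (p : Path x y) :
    (labelFun g).lab p = (g x)⁻¹ * g y := rfl

/-- **Gluing of labels given by functions.** -/
theorem glueFun {ι : Type w} {U : ι → Set X} (hU : ∀ i, IsOpen (U i))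
    (hcov : ∀ x, ∃ i, x ∈ U i) (g : ι → X → H)
    (hg : ∀ i j {x y : X} (p : Path x y), range p ⊆ U i → range p ⊆ U j →
      (g i x)⁻¹ * g i y = (g j x)⁻¹ * g j y) :
    ∃ T : PathLabel X H, ∀ i {x y : X} (p : Path x y), range p ⊆ U i →
      T.lab p = (g i x)⁻¹ * g i y :=
  glue (L := fun i {x y} (p : Path x y) => (labelFun (g i)).lab p)
    ⟨hU, hcov, fun i => (labelFun (g i)).isLabelOn (U i), fun i j _ _ p hi hj => hg i j p hi hj⟩

/-- **Gluing of two labels given on subspaces**: `A`, `B` open, `X = A ∪ B`. -/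
theorem glue_two {A B : Set X} (hA : IsOpen A) (hB : IsOpen B) (hAB : ∀ x, x ∈ A ∨ x ∈ B)
    (LA LB : ∀ {x y : X}, Path x y → H) (hLA : IsLabelOn A LA) (hLB : IsLabelOn B LB)
    (h : ∀ {x y : X} (p : Path x y), range p ⊆ A → range p ⊆ B → LA p = LB p) :
    ∃ T : PathLabel X H, (∀ {x y : X} (p : Path x y), range p ⊆ A → T.lab p = LA p) ∧
      ∀ {x y : X} (p : Path x y), range p ⊆ B → T.lab p = LB p := by
  obtain ⟨T, hT⟩ := glue (U := fun b : Bool => cond b A B)
    (L := fun b {x y} (p : Path x y) => cond b (LA p) (LB p))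
    ⟨by rintro (_ | _) <;> assumption, by
      intro x
      rcases hAB x with hx | hx
      · exact ⟨true, hx⟩
      · exact ⟨false, hx⟩, by
      rintro (_ | _)
      · exact hLB
      · exact hLA, by
      rintro (_ | _) (_ | _) x y p hi hj
      · rfl
      · exact (h p hj hi).symm
      · exact h p hi hj
      · rfl⟩
  exact ⟨T, fun p hp => hT true p hp, fun p hp => hT false p hp⟩

/-! ### labels on subspaces -/

/-- restrict a path to a subspace -/
def pathIn {A : Set X} {x y : X} (p : Path x y) (hp : range p ⊆ A) :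
    Path (⟨x, hp ⟨0, p.source⟩⟩ : A) ⟨y, hp ⟨1, p.target⟩⟩ where
  toFun t := ⟨p t, hp ⟨t, rfl⟩⟩
  continuous_toFun := by fun_prop
  source' := by simp
  target' := by simp

@[simp] theorem pathIn_apply {A : Set X} {x y : X} (p : Path x y) (hp : range p ⊆ A) (t : I) :
    ((pathIn p hp t : A) : X) = p t := rfl

open Classical in
/-- a label on the subspace `A`, extended by `1` to all paths of `X`. -/
noncomputable def extLabel {A : Set X} (T : PathLabel A H) {x y : X} (p : Path x y) : H :=
  if hp : range p ⊆ A then T.lab (pathIn p hp) else 1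

theorem extLabel_of {A : Set X} (T : PathLabel A H) {x y : X} (p : Path x y) (hp : range p ⊆ A) :
    extLabel T p = T.lab (pathIn p hp) := by
  rw [extLabel, dif_pos hp]

theorem isLabelOn_extLabel {A : Set X} (T : PathLabel A H) :
    IsLabelOn A (fun {x y} (p : Path x y) => extLabel T p) where
  trans := by
    intro x y z p q hp hq
    have hpq : range (p.trans q) ⊆ A := by
      rw [Path.trans_range]; exact union_subset hp hq
    rw [extLabel_of T p hp, extLabel_of T q hq, extLabel_of T _ hpq, ← T.lab_trans]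
    congr 1
    ext t
    simp only [pathIn_apply, Path.trans_apply]
    split_ifs <;> rfl
  hom := by
    intro x y p q F hF
    have hp : range p ⊆ A := by
      rintro _ ⟨t, rfl⟩
      simpa using hF (0, t)
    have hq : range q ⊆ A := by
      rintro _ ⟨t, rfl⟩
      simpa using hF (1, t)
    rw [extLabel_of T p hp, extLabel_of T q hq]
    refine T.lab_hom ⟨?_⟩
    exact
      { toFun := fun z => ⟨F z, hF z⟩
        continuous_toFun := by fun_prop
        map_zero_left := fun t => by ext; simp
        map_one_left := fun t => by ext; simp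
        prop' := fun t s hs => by
          ext
          rcases hs with rfl | rfl <;> simp }

/-! ### the induced map on fundamental groups -/

namespace PathLabel
variable (T : PathLabel X H)

@[simp] theorem labQ_mk {x y : X} (p : Path x y) :
    T.labQ (Path.Homotopic.Quotient.mk p) = T.lab p := rfl

theorem labQ_trans {x y z : X} (p : Path.Homotopic.Quotient x y) (q : Path.Homotopic.Quotient y z) :
    T.labQ (p.trans q) = T.labQ p * T.labQ q := by
  induction p using Quotient.inductionOn
  induction q using Quotient.inductionOn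
  exact T.lab_trans _ _

/-- the induced homomorphism; Mathlib's product is `p * q = q.trans p`. -/
def toMonoidHom (x : X) : FundamentalGroup X x →* Hᵐᵒᵖ where
  toFun p := MulOpposite.op (T.labQ (x := x) (y := x) p)
  map_one' := by
    have : (1 : FundamentalGroup X x) = Path.Homotopic.Quotient.mk (Path.refl x) := rfl
    rw [this, labQ_mk, lab_refl]
    rfl
  map_mul' p q := by
    rw [FundamentalGroup.mul_def, ← MulOpposite.op_mul]
    congr 1
    exact T.labQ_trans _ _

/-- the induced homomorphism `p ↦ (lab p)⁻¹`. -/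
def toMonoidHomInv (x : X) : FundamentalGroup X x →* H where
  toFun p := (T.labQ (x := x) (y := x) p)⁻¹
  map_one' := by
    have : (1 : FundamentalGroup X x) = Path.Homotopic.Quotient.mk (Path.refl x) := rfl
    rw [this, labQ_mk, lab_refl]
    simp
  map_mul' p q := by
    rw [FundamentalGroup.mul_def, ← mul_inv_rev]
    congr 1
    exact T.labQ_trans _ _

end PathLabel

end

end Crest.Agent.R197
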