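import Mathlib
import Crest.Agent.R197.Coind

/-! Row 197, module D1b: a 2-cocycle is a coboundary as soon as the corresponding extension splits. -/

set_option autoImplicit false

namespace Crest.Agent.R197

open groupCohomology

section ext
variable {G V : Type} [Group G] [AddCommGroup V] [DistribMulAction G V]

/-- the underlying set of the extension attached to a 2-cocycle -/
structure CocExt (f : G × G → V) (hf : IsCocycle₂ f) : Type where
  a : V
  g : G

namespace CocExt
variable {f : G × G → V} {hf : IsCocycle₂ f}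

@[ext] theorem ext' {u v : CocExt f hf} (h1 : u.a = v.a) (h2 : u.g = v.g) : u = v := by
  cases u; cases v; simp_all

theorem one_left (hf : IsCocycle₂ f) (h : G) : f (1, h) = f (1, 1) := by
  have h1 := hf 1 1 h
  simp only [one_mul, one_smul] at h1
  -- f (1,h) + f (1,1) = f (1,h) + f (1,h)
  exact (add_left_cancel h1).symm

theorem one_right (hf : IsCocycle₂ f) (g : G) : f (g, 1) = g • f (1, 1) := by
  have h1 := hf g 1 1
  simp only [mul_one] at h1
  exact add_right_cancel h1

instance : Mul (CocExt f hf) := ⟨fun u v => ⟨u.a + u.g • v.a + f (u.g, v.g), u.g * v.g⟩⟩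
instance : One (CocExt f hf) := ⟨⟨-f (1, 1), 1⟩⟩
instance : Inv (CocExt f hf) :=
  ⟨fun u => ⟨-(u.g⁻¹ • u.a) - f (u.g⁻¹, u.g) - f (1, 1), u.g⁻¹⟩⟩

@[simp] theorem mul_a (u v : CocExt f hf) : (u * v).a = u.a + u.g • v.a + f (u.g, v.g) := rfl
@[simp] theorem mul_g (u v : CocExt f hf) : (u * v).g = u.g * v.g := rfl
@[simp] theorem one_a : (1 : CocExt f hf).a = -f (1, 1) := rfl
@[simp] theorem one_g : (1 : CocExt f hf).g = 1 := rfl
@[simp] theorem inv_a (u : CocExt f hf) :
    (u⁻¹).a = -(u.g⁻¹ • u.a) - f (u.g⁻¹, u.g) - f (1, 1) := rfl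
@[simp] theorem inv_g (u : CocExt f hf) : (u⁻¹).g = u.g⁻¹ := rfl

instance : Group (CocExt f hf) := Group.ofLeftAxioms
  (by
    intro u v w
    apply ext'
    · have h := hf u.g v.g w.g
      simp only [mul_a, mul_g, smul_add, mul_smul]
      have h' : f (u.g * v.g, w.g) = u.g • f (v.g, w.g) + f (u.g, v.g * w.g) - f (u.g, v.g) := by
        rw [← h]; abel
      rw [h']; abel
    · simp [mul_assoc])
  (by
    intro u
    apply ext'
    · simp [one_left hf u.g]
    · simp)
  (by
    intro u
    apply ext'
    · simp only [mul_a, inv_a, inv_g, one_a]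
      abel
    · simp)

/-- the projection to `G` -/
def pr (f : G × G → V) (hf : IsCocycle₂ f) : CocExt f hf →* G where
  toFun u := u.g
  map_one' := rfl
  map_mul' _ _ := rfl

/-- the inclusion of `V` -/
def inc (f : G × G → V) (hf : IsCocycle₂ f) : Multiplicative V →* CocExt f hf where
  toFun v := ⟨v.toAdd - f (1, 1), 1⟩
  map_one' := by apply ext' <;> simp
  map_mul' u v := by
    apply ext'
    · simp only [mul_a, one_smul, toAdd_mul]
      abel
    · simp

@[simp] theorem inc_a (v : Multiplicative V) : (inc f hf v).a = v.toAdd - f (1, 1) := rfl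
@[simp] theorem inc_g (v : Multiplicative V) : (inc f hf v).g = 1 := rfl
@[simp] theorem pr_apply (u : CocExt f hf) : pr f hf u = u.g := rfl

end CocExt

/-- the extension attached to a 2-cocycle, packaged as an `ExtVia`. -/
def extOfCocycle (f : G × G → V) (hf : IsCocycle₂ f) : ExtVia (MonoidHom.id G) V where
  U := CocExt f hf
  ι := CocExt.inc f hf
  κ := CocExt.pr f hf
  inj := by
    intro u v h
    have := congrArg CocExt.a h
    simpa using this
  surj := fun g => ⟨⟨0, g⟩, rfl⟩
  exact := by
    intro u
    constructor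
    · intro h
      refine ⟨Multiplicative.ofAdd (u.a + f (1, 1)), ?_⟩
      apply CocExt.ext'
      · simp
      · simpa using h.symm
    · rintro ⟨v, rfl⟩
      rfl
  act := by
    intro u v
    rw [mul_inv_eq_iff_eq_mul]
    apply CocExt.ext'
    · have h1 := CocExt.one_right hf u.g
      have h2 := CocExt.one_left hf u.g
      simp only [CocExt.mul_a, CocExt.inc_a, CocExt.inc_g, toAdd_ofAdd, CocExt.pr_apply,
        MonoidHom.id_apply, one_smul, h1, h2, smul_sub]
      abel
    · simp

/-- if the extension of a 2-cocycle splits then the cocycle is a coboundary. -/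
theorem isCoboundary_of_splits (f : G × G → V) (hf : IsCocycle₂ f)
    (h : ∃ σ : G →* (extOfCocycle f hf).U, (extOfCocycle f hf).κ.comp σ = MonoidHom.id G) :
    IsCoboundary₂ f := by
  obtain ⟨σ, hσ⟩ := h
  have hg : ∀ g, (show CocExt f hf from σ g).g = g := fun g => DFunLike.congr_fun hσ g
  refine ⟨fun g => -(show CocExt f hf from σ g).a, fun g h => ?_⟩
  have h1 : (show CocExt f hf from σ (g * h)).a
      = (show CocExt f hf from σ g).a + g • (show CocExt f hf from σ h).a + f (g, h) := by
    have h2 : (show CocExt f hf from σ (g * h))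
        = (show CocExt f hf from σ g) * (show CocExt f hf from σ h) := map_mul σ g h
    rw [h2, CocExt.mul_a, hg g, hg h]
  simp only [h1, smul_neg]
  abel

end ext

/-- if all extensions of `G` by the modules `CQ G M` split then all 2-cocycles with values in `CQ G M`
are coboundaries. -/
theorem coboundary_of_CQSplit (G : Type) [Group G]
    (h : ∀ (M : Type) [AddCommGroup M] [DistribMulAction G M], CQSplit G M) :
    ∀ (M : Type) [AddCommGroup M] [DistribMulAction G M],
      ∀ f : G × G → CQ G M, IsCocycle₂ f → IsCoboundary₂ f := by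
  intro M _ _ f hf
  exact isCoboundary_of_splits f hf (h M _)

end Crest.Agent.R197
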