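import Crest.Agent.R197.ProjLift

/-!
Row 197, task F7: logarithmic increments (winding numbers) (helper862).
-/

set_option autoImplicit false

open scoped unitInterval

namespace Crest.Agent.R197

/-- nonzero complex numbers -/
abbrev Cs : Type := {z : ℂ // z ≠ 0}

namespace LInc

theorem cov : IsCoveringMap fun z : ℂ ↦ (⟨_, z.exp_ne_zero⟩ : Cs) := Complex.isCoveringMap_exp

/-- every path in `ℂ ∖ 0` has a continuous logarithm -/
theorem exists_log (γ : C(I, Cs)) : ∃ l : C(I, ℂ), ∀ s, Complex.exp (l s) = γ s := by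
  obtain ⟨l, hl, _⟩ := cov.exists_path_lifts γ (Complex.log (γ 0))
    (Subtype.ext (Complex.exp_log (γ 0).2).symm)
  exact ⟨l, fun s => congrArg Subtype.val (congrFun hl s)⟩

/-- every map from the square to `ℂ ∖ 0` has a continuous logarithm -/
theorem exists_log_sq (β : C(I × I, Cs)) : ∃ l : C(I × I, ℂ), ∀ s, Complex.exp (l s) = β s := by
  obtain ⟨l0, hl0⟩ := exists_log ⟨fun s => β (0, s), by fun_prop⟩
  have H0 : ∀ a : I, β (0, a) = (fun z : ℂ ↦ (⟨_, z.exp_ne_zero⟩ : Cs)) (l0 a) := fun a =>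
    Subtype.ext (hl0 a).symm
  refine ⟨cov.liftHomotopy β l0 H0, fun s => ?_⟩
  exact congrArg Subtype.val (congrFun (cov.liftHomotopy_lifts β l0 H0) s)

theorem log_unique {l l' : C(I, ℂ)} (h : ∀ s, Complex.exp (l s) = Complex.exp (l' s)) :
    l 1 - l 0 = l' 1 - l' 0 := by
  -- `l - l'` takes values in `2πiℤ`, so it is constant
  have h1 : ∀ s, (fun z : ℂ ↦ (⟨_, z.exp_ne_zero⟩ : Cs)) (l s - l' s) = ⟨1, one_ne_zero⟩ := by
    intro s
    apply Subtype.ext
    simp only
    rw [Complex.exp_sub, h s, div_self (Complex.exp_ne_zero _)]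
  have h2 : (l - l') 1 = (l - l') 0 := cov.const_of_comp (l - l').continuous
    (fun s s' => (h1 s).trans (h1 s').symm) 1 0
  simp only [ContinuousMap.sub_apply] at h2
  linear_combination h2

end LInc

open LInc

/-- the logarithmic increment of a path in `ℂ ∖ 0` -/
noncomputable def linc (γ : C(I, Cs)) : ℂ := (exists_log γ).choose 1 - (exists_log γ).choose 0

theorem linc_eq {γ : C(I, Cs)} (l : C(I, ℂ)) (h : ∀ s, Complex.exp (l s) = γ s) :
    linc γ = l 1 - l 0 :=
  log_unique fun s => ((exists_log γ).choose_spec s).trans (h s).symm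

theorem linc_congr {γ γ' : C(I, Cs)} (h : ∀ s, (γ s : ℂ) = γ' s) : linc γ = linc γ' := by
  have : γ = γ' := by ext s; exact h s
  rw [this]

theorem exp_linc (γ : C(I, Cs)) : Complex.exp (linc γ) = (γ 1 : ℂ) / γ 0 := by
  obtain ⟨l, hl⟩ := exists_log γ
  rw [linc_eq l hl, Complex.exp_sub, hl, hl]

theorem linc_const (z : Cs) : linc (ContinuousMap.const I z) = 0 := by
  rw [linc_eq (ContinuousMap.const I (Complex.log z)) (fun s => by simp [Complex.exp_log z.2])]
  simp

/-- multiplicativity -/
theorem linc_mul {γ δ η : C(I, Cs)} (h : ∀ s, (η s : ℂ) = γ s * δ s) :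
    linc η = linc γ + linc δ := by
  obtain ⟨l, hl⟩ := exists_log γ
  obtain ⟨m, hm⟩ := exists_log δ
  rw [linc_eq l hl, linc_eq m hm, linc_eq (l + m) (fun s => by
    rw [ContinuousMap.add_apply, Complex.exp_add, hl, hm, h])]
  simp only [ContinuousMap.add_apply]
  ring

/-- multiplication by a constant does not change the increment -/
theorem linc_const_mul {γ η : C(I, Cs)} (c : ℂ) (h : ∀ s, (η s : ℂ) = c * γ s) :
    linc η = linc γ := by
  have hc : c ≠ 0 := by
    intro h0
    apply (η 0).2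
    rw [h, h0, zero_mul]
  rw [linc_mul (γ := ContinuousMap.const I ⟨c, hc⟩) (δ := γ) (η := η) h, linc_const, zero_add]

theorem linc_refl (a : Cs) : linc (Path.refl a).toContinuousMap = 0 :=
  (linc_congr fun s => rfl).trans (linc_const a)

/-- additivity under concatenation -/
theorem linc_trans {a b c : Cs} (γ : Path a b) (δ : Path b c) :
    linc (γ.trans δ).toContinuousMap = linc γ.toContinuousMap + linc δ.toContinuousMap := by
  obtain ⟨l, hl⟩ := exists_log γ.toContinuousMap
  obtain ⟨m, hm⟩ := exists_log δ.toContinuousMap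
  -- shift `m` so that it starts at `l 1`
  have hlm : Complex.exp (l 1 - m 0) = 1 := by
    rw [Complex.exp_sub, hl, hm]
    have e1 : γ.toContinuousMap 1 = b := γ.target
    have e2 : δ.toContinuousMap 0 = b := δ.source
    rw [e1, e2, div_self b.2]
  let p : Path (l 0) (l 1) := ⟨l, rfl, rfl⟩
  let q : Path (l 1) (m 1 + (l 1 - m 0)) :=
    ⟨m + ContinuousMap.const I (l 1 - m 0), by simp, by simp⟩
  have h : ∀ s, Complex.exp ((p.trans q).toContinuousMap s) = (γ.trans δ).toContinuousMap s := by
    intro s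
    change Complex.exp ((p.trans q) s) = (γ.trans δ) s
    rw [Path.trans_apply, Path.trans_apply]
    split_ifs
    · exact hl _
    · change Complex.exp (m _ + (l 1 - m 0)) = _
      rw [Complex.exp_add, hlm, mul_one]
      exact hm _
  rw [linc_eq _ h, linc_eq l hl, linc_eq m hm]
  change (p.trans q) 1 - (p.trans q) 0 = _
  rw [(p.trans q).target, (p.trans q).source]
  ring

theorem linc_symm {a b : Cs} (γ : Path a b) :
    linc γ.symm.toContinuousMap = - linc γ.toContinuousMap := by
  obtain ⟨l, hl⟩ := exists_log γ.toContinuousMap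
  rw [linc_eq (l.comp ⟨unitInterval.symm, unitInterval.continuous_symm⟩) (fun s => hl _),
    linc_eq l hl]
  simp only [ContinuousMap.comp_apply, ContinuousMap.coe_mk, unitInterval.symm_one,
    unitInterval.symm_zero]
  ring

/-- homotopy invariance -/
theorem linc_homotopic {a b : Cs} {γ δ : Path a b} (h : Path.Homotopic γ δ) :
    linc γ.toContinuousMap = linc δ.toContinuousMap := by
  obtain ⟨F⟩ := h
  obtain ⟨l, hl⟩ := exists_log_sq F.toContinuousMap
  -- `F (t, s)`
  have hF0 : ∀ s, F.toContinuousMap (0, s) = γ s := fun s => F.apply_zero s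
  have hF1 : ∀ s, F.toContinuousMap (1, s) = δ s := fun s => F.apply_one s
  have hs0 : ∀ t, F.toContinuousMap (t, 0) = a := fun t => Path.Homotopy.source F t
  have hs1 : ∀ t, F.toContinuousMap (t, 1) = b := fun t => Path.Homotopy.target F t
  rw [linc_eq (l.comp ⟨fun s => (0, s), by fun_prop⟩) (fun s => by
      rw [ContinuousMap.comp_apply, hl]; exact congrArg Subtype.val (hF0 s)),
    linc_eq (l.comp ⟨fun s => (1, s), by fun_prop⟩) (fun s => by
      rw [ContinuousMap.comp_apply, hl]; exact congrArg Subtype.val (hF1 s))]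
  have e0 := log_unique (l := l.comp ⟨fun t => (t, 0), by fun_prop⟩)
    (l' := ContinuousMap.const I (l (0, 0))) (fun s => by
      simp only [ContinuousMap.comp_apply, ContinuousMap.coe_mk, ContinuousMap.const_apply]
      rw [hl, hl, hs0, hs0])
  have e1 := log_unique (l := l.comp ⟨fun t => (t, 1), by fun_prop⟩)
    (l' := ContinuousMap.const I (l (0, 1))) (fun s => by
      simp only [ContinuousMap.comp_apply, ContinuousMap.coe_mk, ContinuousMap.const_apply]
      rw [hl, hl, hs1, hs1])
  simp only [ContinuousMap.comp_apply, ContinuousMap.coe_mk, ContinuousMap.const_apply] at e0 e1 ⊢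
  linear_combination e0 - e1

/-- the increment of a homotopy class of paths -/
noncomputable def lincQ {a b : Cs} (c : Path.Homotopic.Quotient a b) : ℂ :=
  Quotient.lift (fun γ : Path a b => linc γ.toContinuousMap) (fun _ _ h => linc_homotopic h) c

@[simp] theorem lincQ_mk {a b : Cs} (γ : Path a b) :
    lincQ (Path.Homotopic.Quotient.mk γ) = linc γ.toContinuousMap := rfl

@[simp] theorem lincQ_refl (a : Cs) : lincQ (Path.Homotopic.Quotient.refl a) = 0 := linc_refl a

@[simp] theorem lincQ_trans {a b c : Cs} (x : Path.Homotopic.Quotient a b)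
    (y : Path.Homotopic.Quotient b c) :
    lincQ (Path.Homotopic.Quotient.trans x y) = lincQ x + lincQ y := by
  induction x using Quotient.inductionOn
  induction y using Quotient.inductionOn
  exact linc_trans _ _

@[simp] theorem lincQ_symm {a b : Cs} (x : Path.Homotopic.Quotient a b) :
    lincQ (Path.Homotopic.Quotient.symm x) = - lincQ x := by
  induction x using Quotient.inductionOn
  exact linc_symm _

/-- maps of the square have zero increment along the boundary -/
theorem linc_square (β : C(I × I, Cs)) : linc (β.comp TwoCx.bdSq.toContinuousMap) = 0 := by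
  obtain ⟨l, hl⟩ := exists_log_sq β
  rw [linc_eq (l.comp TwoCx.bdSq.toContinuousMap) (fun s => hl _)]
  simp only [ContinuousMap.comp_apply]
  have e1 : TwoCx.bdSq.toContinuousMap 1 = (0, 0) := TwoCx.bdSq.target
  have e2 : TwoCx.bdSq.toContinuousMap 0 = (0, 0) := TwoCx.bdSq.source
  rw [e1, e2, sub_self]

/-! ### the standard loop -/

/-- the coordinate `zc` on the boundary of the square -/
noncomputable def zB : C({s : I × I // s ∉ Sint}, Cs) :=
  ⟨fun s => ⟨SqModel.zc s.1, SqModel.zc_ne_zero s.2⟩,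
    Continuous.subtype_mk (SqModel.continuous_zc.comp continuous_subtype_val) _⟩

namespace LInc

theorem sideA_ne (s : ℝ) : ((s - 1 / 2 : ℝ) : ℂ) + ((-1 / 2 : ℝ) : ℂ) * Complex.I ≠ 0 := by
  intro h
  have := congrArg Complex.im h
  simp at this

/-- bottom side -/
noncomputable def sideA : C(I, Cs) :=
  ⟨fun s => ⟨((s - 1 / 2 : ℝ) : ℂ) + ((-1 / 2 : ℝ) : ℂ) * Complex.I, sideA_ne s⟩,
    Continuous.subtype_mk (by fun_prop) _⟩

/-- the increment along one side -/
theorem linc_sideA : linc sideA = Real.pi / 2 * Complex.I := by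
  -- multiply by `I`: real part `1/2`
  have hre : ∀ s : I, Complex.I * ((sideA s : Cs) : ℂ) = ((1 / 2 : ℝ) : ℂ) +
      ((s - 1 / 2 : ℝ) : ℂ) * Complex.I := by
    intro s
    simp only [sideA, ContinuousMap.coe_mk]
    apply Complex.ext <;> simp
    norm_num
  have hslit : ∀ s : I, Complex.I * ((sideA s : Cs) : ℂ) ∈ Complex.slitPlane := by
    intro s
    rw [hre]
    left
    simp
  have hne : ∀ s : I, Complex.I * ((sideA s : Cs) : ℂ) ≠ 0 := fun s =>
    Complex.slitPlane_ne_zero (hslit s)
  let ηf : C(I, Cs) := ⟨fun s => ⟨Complex.I * ((sideA s : Cs) : ℂ), hne s⟩,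
    Continuous.subtype_mk (by fun_prop) _⟩
  have e1 : linc ηf = linc sideA := linc_const_mul Complex.I (fun s => rfl)
  rw [← e1]
  have hcont : Continuous fun s : I => Complex.log (Complex.I * ((sideA s : Cs) : ℂ)) :=
    Continuous.clog (by fun_prop) hslit
  rw [linc_eq ⟨_, hcont⟩ (fun s => Complex.exp_log (hne s))]
  simp only [ContinuousMap.coe_mk]
  rw [hre, hre]
  have h1 : (((1 / 2 : ℝ) : ℂ) + (((1 : I) - 1 / 2 : ℝ) : ℂ) * Complex.I) =
      ((Real.sqrt 2 / 2 : ℝ) : ℂ) * (Real.cos (Real.pi / 4) + Real.sin (Real.pi / 4) * Complex.I) := by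
    rw [Real.cos_pi_div_four, Real.sin_pi_div_four]
    have h2 : ((Real.sqrt 2 / 2 : ℝ) : ℂ) * ((Real.sqrt 2 / 2 : ℝ) : ℂ) = ((1 / 2 : ℝ) : ℂ) := by
      rw [← Complex.ofReal_mul]
      congr 1
      have := Real.mul_self_sqrt (show (0 : ℝ) ≤ 2 by norm_num)
      linarith
    rw [mul_add, ← mul_assoc, h2]
    have : (((1 : I) : ℝ) - 1 / 2 : ℝ) = 1 / 2 := by norm_num
    rw [this]
  have h0 : (((1 / 2 : ℝ) : ℂ) + (((0 : I) - 1 / 2 : ℝ) : ℂ) * Complex.I) =
      (starRingEnd ℂ) (((1 / 2 : ℝ) : ℂ) + (((1 : I) - 1 / 2 : ℝ) : ℂ) * Complex.I) := by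
    apply Complex.ext <;> simp
    norm_num
  have hpi := Real.pi_pos
  have harg : Complex.arg (((1 / 2 : ℝ) : ℂ) + (((1 : I) - 1 / 2 : ℝ) : ℂ) * Complex.I) =
      Real.pi / 4 := by
    rw [h1]
    push_cast
    rw [← Complex.ofReal_ofNat, ← Complex.ofReal_div] 
    have := Complex.arg_mul_cos_add_sin_mul_I (r := Real.sqrt 2 / 2) (θ := Real.pi / 4)
      (by positivity) ⟨by linarith, by linarith⟩
    push_cast at this ⊢
    exact this
  rw [h0, Complex.log_conj _ (by rw [harg]; linarith)]
  apply Complex.ext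
  · simp
  · rw [Complex.sub_im, Complex.conj_im, Complex.log_im, harg]
    simp
    ring

end LInc

open LInc in
/-- the standard loop has increment `2πi` -/
theorem linc_zB : linc (TwoCx.bdS.map zB.continuous).toContinuousMap = 2 * Real.pi * Complex.I := by
  -- sides as paths in the boundary
  have m1 : ∀ s : I, ((s, 0) : I × I) ∉ Sint := fun s h => by simp [Sint, Iint] at h
  have m2 : ∀ s : I, ((1, s) : I × I) ∉ Sint := fun s h => by simp [Sint, Iint] at h
  have m3 : ∀ s : I, ((unitInterval.symm s, 1) : I × I) ∉ Sint := fun s h => by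
    simp [Sint, Iint] at h
  have m4 : ∀ s : I, ((0, unitInterval.symm s) : I × I) ∉ Sint := fun s h => by
    simp [Sint, Iint] at h
  let Z : I × I → Prop := fun s => s ∉ Sint
  let p1 : Path (zB ⟨(0, 0), m1 0⟩) (zB ⟨(1, 0), m1 1⟩) :=
    ⟨⟨fun s => zB ⟨(s, 0), m1 s⟩, by fun_prop⟩, rfl, rfl⟩
  let p2 : Path (zB ⟨(1, 0), m1 1⟩) (zB ⟨(1, 1), m2 1⟩) :=
    ⟨⟨fun s => zB ⟨(1, s), m2 s⟩, by fun_prop⟩, rfl, rfl⟩
  let p3 : Path (zB ⟨(1, 1), m2 1⟩) (zB ⟨(0, 1), by simpa using m3 1⟩) :=
    ⟨⟨fun s => zB ⟨(unitInterval.symm s, 1), m3 s⟩, by fun_prop⟩, by simp, by simp⟩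
  let p4 : Path (zB ⟨(0, 1), by simpa using m3 1⟩) (zB ⟨(0, 0), m1 0⟩) :=
    ⟨⟨fun s => zB ⟨(0, unitInterval.symm s), m4 s⟩, by fun_prop⟩, by simp, by simp⟩
  have e : linc (TwoCx.bdS.map zB.continuous).toContinuousMap =
      linc (((p1.trans p2).trans p3).trans p4).toContinuousMap := by
    refine linc_congr fun s => ?_
    change ((zB (TwoCx.bdS s) : Cs) : ℂ) = (((((p1.trans p2).trans p3).trans p4) s : Cs) : ℂ)
    have hb : ((zB (TwoCx.bdS s) : Cs) : ℂ) = SqModel.zc (TwoCx.bdSq s) := rfl
    rw [hb, TwoCx.bdSq]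
    simp only [Path.trans_apply]
    split_ifs <;> rfl
  rw [e, linc_trans, linc_trans, linc_trans]
  have c1 : linc p1.toContinuousMap = Real.pi / 2 * Complex.I := by
    rw [← linc_sideA]
    refine linc_congr fun s => ?_
    change SqModel.zc (s, 0) = _
    simp only [sideA, ContinuousMap.coe_mk]
    apply Complex.ext
    · rw [SqModel.zc_re]; simp
    · rw [SqModel.zc_im]; simp; norm_num
  have c2 : linc p2.toContinuousMap = Real.pi / 2 * Complex.I := by
    rw [← linc_sideA]
    refine linc_const_mul Complex.I fun s => ?_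
    change SqModel.zc (1, s) = _
    simp only [sideA, ContinuousMap.coe_mk]
    apply Complex.ext
    · rw [SqModel.zc_re]; simp; norm_num
    · rw [SqModel.zc_im]; simp
  have c3 : linc p3.toContinuousMap = Real.pi / 2 * Complex.I := by
    rw [← linc_sideA]
    refine linc_const_mul (-1) fun s => ?_
    change SqModel.zc (unitInterval.symm s, 1) = _
    simp only [sideA, ContinuousMap.coe_mk]
    apply Complex.ext
    · rw [SqModel.zc_re]; simp; ring
    · rw [SqModel.zc_im]; simp; norm_num
  have c4 : linc p4.toContinuousMap = Real.pi / 2 * Complex.I := by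
    rw [← linc_sideA]
    refine linc_const_mul (-Complex.I) fun s => ?_
    change SqModel.zc (0, unitInterval.symm s) = _
    simp only [sideA, ContinuousMap.coe_mk]
    apply Complex.ext
    · rw [SqModel.zc_re]; simp; norm_num
    · rw [SqModel.zc_im]; simp; ring
  rw [c1, c2, c3, c4]
  ring

end Crest.Agent.R197
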