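import Crest.Agent.R197.CW2Defs

/-!
Row 197, task F8: lifting of line fields along homotopies of projections (helper862).
-/

set_option autoImplicit false

open scoped unitInterval

namespace Crest.Agent.R197

/-- A homotopy of projection fields over a compact space: if the field at time `1` has a nowhere zero
section, so has the field at time `0`. -/
theorem line_lift {N V : Type} [TopologicalSpace N] [CompactSpace N] [NormedAddCommGroup V]
    [NormedSpace ℂ V] (P : C(N × I, V →L[ℂ] V)) (hP : ∀ z, (P z).comp (P z) = P z)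
    (v : V) (hv : v ≠ 0) (h1 : ∀ x, P (x, 1) v = v) :
    ∃ h : C(N, V), ∀ x, P (x, 0) (h x) = h x ∧ h x ≠ 0 := by
  set Q : C(I, C(N, V →L[ℂ] V)) := (P.comp ⟨fun z : I × N => (z.2, z.1), by fun_prop⟩).curry with hQ
  have hQa : ∀ t x, Q t x = P (x, t) := fun t x => rfl
  set S : Set I := {t | ∃ h : C(N, V), ∀ x, P (x, t) (h x) = h x ∧ h x ≠ 0} with hS
  -- one step
  have step : ∀ s t : I, dist (Q s) (Q t) < 1 → t ∈ S → s ∈ S := by
    rintro s t hst ⟨h, hh⟩
    refine ⟨⟨fun x => Q s x (h x), by fun_prop⟩, fun x => ⟨?_, ?_⟩⟩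
    · simp only [ContinuousMap.coe_mk, hQa]
      exact congrArg (fun A : V →L[ℂ] V => A (h x)) (hP (x, s))
    · simp only [ContinuousMap.coe_mk]
      intro h0
      have e1 : ‖h x‖ = ‖(Q t x - Q s x) (h x)‖ := by
        rw [sub_apply, h0, sub_zero, hQa, (hh x).1]
      have e2 : ‖(Q t x - Q s x) (h x)‖ ≤ ‖Q t x - Q s x‖ * ‖h x‖ :=
        ContinuousLinearMap.le_opNorm _ _
      have e3 : ‖Q t x - Q s x‖ < 1 := by
        rw [← dist_eq_norm, dist_comm]
        exact (ContinuousMap.dist_apply_le_dist x).trans_lt hst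
      have e4 : 0 < ‖h x‖ := norm_pos_iff.mpr (hh x).2
      nlinarith
  have hnb : ∀ t : I, ∀ᶠ s in nhds t, dist (Q s) (Q t) < 1 := fun t =>
    (Metric.continuousAt_iff'.mp Q.continuous.continuousAt) 1 one_pos
  have hclopen : IsClopen S := by
    constructor
    · rw [← isOpen_compl_iff, isOpen_iff_mem_nhds]
      intro t ht
      filter_upwards [hnb t] with s hs hsS
      exact ht (step t s (by rwa [dist_comm]) hsS)
    · rw [isOpen_iff_mem_nhds]
      intro t ht
      filter_upwards [hnb t] with s hs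
      exact step s t hs ht
  have h1S : (1 : I) ∈ S := ⟨ContinuousMap.const N v, fun x => ⟨h1 x, hv⟩⟩
  have huniv : S = Set.univ := hclopen.eq_univ ⟨1, h1S⟩
  have : (0 : I) ∈ S := by rw [huniv]; trivial
  exact this

/-! ### the model on the square -/

namespace SqModel

/-- the complex coordinate of the square -/
noncomputable def zc (s : I × I) : ℂ := (((s.1 : ℝ) - 1 / 2 : ℝ) : ℂ) + (((s.2 : ℝ) - 1 / 2 : ℝ) : ℂ) * Complex.I

/-- bump function of the square -/
noncomputable def rho (s : I × I) : ℝ := (s.1 : ℝ) * (1 - s.1) * ((s.2 : ℝ) * (1 - s.2))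

theorem continuous_zc : Continuous zc := by unfold zc; fun_prop

theorem continuous_rho : Continuous rho := by unfold rho; fun_prop

theorem rho_pos {s : I × I} (h : s ∈ Sint) : 0 < rho s := by
  obtain ⟨⟨a1, a2⟩, ⟨b1, b2⟩⟩ := h
  have a1' : (0 : ℝ) < s.1 := a1
  have a2' : (s.1 : ℝ) < 1 := a2
  have b1' : (0 : ℝ) < s.2 := b1
  have b2' : (s.2 : ℝ) < 1 := b2
  unfold rho
  have := sub_pos.mpr a2'
  have := sub_pos.mpr b2'
  positivity

theorem notMem_Sint_iff {s : I × I} :
    s ∉ Sint ↔ (s.1 : ℝ) = 0 ∨ (s.1 : ℝ) = 1 ∨ (s.2 : ℝ) = 0 ∨ (s.2 : ℝ) = 1 := by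
  constructor
  · intro h
    by_contra hc
    push Not at hc
    obtain ⟨h1, h2, h3, h4⟩ := hc
    apply h
    refine ⟨⟨?_, ?_⟩, ⟨?_, ?_⟩⟩
    · exact lt_of_le_of_ne s.1.2.1 (fun h => h1 (by rw [← h]; simp))
    · exact lt_of_le_of_ne s.1.2.2 (fun h => h2 (by rw [h]; simp))
    · exact lt_of_le_of_ne s.2.2.1 (fun h => h3 (by rw [← h]; simp))
    · exact lt_of_le_of_ne s.2.2.2 (fun h => h4 (by rw [h]; simp))
  · rintro h ⟨⟨a1, a2⟩, ⟨b1, b2⟩⟩
    have a1' : (0 : ℝ) < s.1 := a1
    have a2' : (s.1 : ℝ) < 1 := a2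
    have b1' : (0 : ℝ) < s.2 := b1
    have b2' : (s.2 : ℝ) < 1 := b2
    rcases h with h | h | h | h <;> linarith

theorem rho_eq_zero {s : I × I} (h : s ∉ Sint) : rho s = 0 := by
  unfold rho
  rcases notMem_Sint_iff.mp h with h | h | h | h <;> rw [h] <;> ring

theorem zc_re (s : I × I) : (zc s).re = (s.1 : ℝ) - 1 / 2 := by
  simp [zc]

theorem zc_im (s : I × I) : (zc s).im = (s.2 : ℝ) - 1 / 2 := by
  simp [zc]

theorem zc_ne_zero {s : I × I} (h : s ∉ Sint) : zc s ≠ 0 := by
  intro h0
  have hre := zc_re s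
  have him := zc_im s
  rw [h0] at hre him
  simp only [Complex.zero_re, Complex.zero_im] at hre him
  rcases notMem_Sint_iff.mp h with h | h | h | h <;> linarith

/-- the nowhere zero section `(z, ρ)` -/
noncomputable def sig (s : I × I) : ℂ × ℂ := (zc s, (rho s : ℂ))

theorem continuous_sig : Continuous sig := by
  unfold sig
  have := continuous_zc
  have := continuous_rho
  fun_prop

/-- squared norm of `sig` -/
noncomputable def den (s : I × I) : ℝ := Complex.normSq (zc s) + rho s ^ 2

theorem den_pos (s : I × I) : 0 < den s := by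
  unfold den
  by_cases h : s ∈ Sint
  · have := rho_pos h
    have := Complex.normSq_nonneg (zc s)
    positivity
  · have := Complex.normSq_pos.mpr (zc_ne_zero h)
    positivity

theorem sig_ne_zero (s : I × I) : sig s ≠ 0 := by
  intro h
  have h1 : zc s = 0 := congrArg Prod.fst h
  have h2 : (rho s : ℂ) = 0 := congrArg Prod.snd h
  have h3 : rho s = 0 := by exact_mod_cast h2
  have := den_pos s
  unfold den at this
  rw [h1, h3] at this
  simp at this

theorem sig_bd {s : I × I} (h : s ∉ Sint) : sig s = (zc s, 0) := by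
  unfold sig
  rw [rho_eq_zero h]
  simp

theorem continuous_den : Continuous den := by
  unfold den
  have := continuous_zc
  have := continuous_rho
  have := Complex.continuous_normSq
  fun_prop

/-- the coefficient functional: `Proj s v = coef s v • sig s` -/
noncomputable def coef (s : I × I) : (ℂ × ℂ) →L[ℂ] ℂ :=
  ((starRingEnd ℂ) (zc s) / (den s : ℂ)) • ContinuousLinearMap.fst ℂ ℂ ℂ +
    ((rho s : ℂ) / (den s : ℂ)) • ContinuousLinearMap.snd ℂ ℂ ℂ

theorem coef_apply (s : I × I) (v : ℂ × ℂ) :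
    coef s v = ((starRingEnd ℂ) (zc s) / (den s : ℂ)) * v.1 + ((rho s : ℂ) / (den s : ℂ)) * v.2 := by
  simp [coef]

theorem den_ne (s : I × I) : (den s : ℂ) ≠ 0 := by
  have := (den_pos s).ne'
  exact_mod_cast this

theorem continuous_coef : Continuous coef := by
  unfold coef
  have h1 := continuous_zc
  have h2 := continuous_rho
  have h3 := continuous_den
  have e1 : Continuous fun s => (starRingEnd ℂ) (zc s) / (den s : ℂ) :=
    (Complex.continuous_conj.comp h1).div (Complex.continuous_ofReal.comp h3) den_ne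
  have e2 : Continuous fun s => (rho s : ℂ) / (den s : ℂ) :=
    (Complex.continuous_ofReal.comp h2).div (Complex.continuous_ofReal.comp h3) den_ne
  exact (e1.smul continuous_const).add (e2.smul continuous_const)

theorem coef_sig (s : I × I) : coef s (sig s) = 1 := by
  rw [coef_apply]
  unfold sig
  simp only
  have hd := den_ne s
  have e : (starRingEnd ℂ) (zc s) * zc s = (Complex.normSq (zc s) : ℂ) :=
    (Complex.normSq_eq_conj_mul_self).symm
  rw [div_mul_eq_mul_div, div_mul_eq_mul_div, ← add_div, e, div_eq_one_iff_eq hd]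
  unfold den
  push_cast
  ring

/-- the projection onto the line `ℂ • sig s` -/
noncomputable def ProjF (s : I × I) : (ℂ × ℂ) →L[ℂ] (ℂ × ℂ) :=
  ContinuousLinearMap.smulRight (coef s) (sig s)

theorem ProjF_apply (s : I × I) (v : ℂ × ℂ) : ProjF s v = coef s v • sig s := by
  unfold ProjF
  rw [ContinuousLinearMap.smulRight_apply]

theorem continuous_ProjF : Continuous ProjF := by
  unfold ProjF
  have h := (ContinuousLinearMap.smulRightL ℂ (ℂ × ℂ) (ℂ × ℂ)).continuous.comp continuous_coef
  exact h.clm_apply continuous_sig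

theorem ProjF_idem (s : I × I) : (ProjF s).comp (ProjF s) = ProjF s := by
  ext <;> simp [ProjF_apply, coef_sig]

theorem ProjF_sig (s : I × I) : ProjF s (sig s) = sig s := by
  rw [ProjF_apply, coef_sig, one_smul]

/-- projection to the first coordinate -/
noncomputable def Pinf : (ℂ × ℂ) →L[ℂ] (ℂ × ℂ) :=
  (ContinuousLinearMap.inl ℂ ℂ ℂ).comp (ContinuousLinearMap.fst ℂ ℂ ℂ)

theorem Pinf_apply (v : ℂ × ℂ) : Pinf v = (v.1, 0) := by simp [Pinf]

theorem Pinf_idem : Pinf.comp Pinf = Pinf := by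
  ext <;> simp [Pinf]

theorem ProjF_bd {s : I × I} (h : s ∉ Sint) : ProjF s = Pinf := by
  apply ContinuousLinearMap.ext
  intro v
  rw [ProjF_apply, Pinf_apply, coef_apply, sig_bd h, rho_eq_zero h]
  have hz := zc_ne_zero h
  have hd : (den s : ℂ) = (starRingEnd ℂ) (zc s) * zc s := by
    unfold den
    rw [rho_eq_zero h, ← Complex.normSq_eq_conj_mul_self]
    push_cast
    ring
  have hc : (starRingEnd ℂ) (zc s) ≠ 0 := by
    rw [Ne, map_eq_zero]; exact hz
  rw [hd]
  ext
  · simp
    field_simp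
  · simp

/-- fixed vectors of `ProjF s` are the multiples of `sig s` -/
theorem eq_coef_smul {s : I × I} {v : ℂ × ℂ} (h : ProjF s v = v) : v = coef s v • sig s := by
  rw [← ProjF_apply, h]

theorem coef_ne_zero {s : I × I} {v : ℂ × ℂ} (h : ProjF s v = v) (hv : v ≠ 0) : coef s v ≠ 0 := by
  intro h0
  apply hv
  rw [eq_coef_smul h, h0, zero_smul]

theorem fst_ne_zero {v : ℂ × ℂ} (h : Pinf v = v) (hv : v ≠ 0) : v.1 ≠ 0 := by
  intro h0
  apply hv
  rw [← h, Pinf_apply, h0]
  rfl

/-- bundled projection field on the square -/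
noncomputable def Proj : C(I × I, (ℂ × ℂ) →L[ℂ] (ℂ × ℂ)) := ⟨ProjF, continuous_ProjF⟩

/-- bundled section on the square -/
noncomputable def sigma : C(I × I, ℂ × ℂ) := ⟨sig, continuous_sig⟩

end SqModel

end Crest.Agent.R197
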