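import Mathlib
import Crest.Agent.R197.Defs

/-!
# Row 197, module D5a: the recursion in a `G`-module
-/

set_option autoImplicit false

namespace Crest.Agent.R197

/-- two-sided recursion along an additive automorphism given by a group element -/
theorem exists_rec {G M : Type*} [Group G] [AddCommGroup M] [DistribMulAction G M] (g : G)
    (μ : ℤ → M) : ∃ h : ℤ → M, h 0 = 0 ∧ ∀ n, h n - g • h (n - 1) = - μ n := by
  let up : ℕ → M := fun n => Nat.rec 0 (fun n a => g • a - μ ((n : ℤ) + 1)) n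
  let dn : ℕ → M := fun n => Nat.rec 0 (fun n a => g⁻¹ • (a + μ (-(n : ℤ)))) n
  have up0 : up 0 = 0 := rfl
  have upS : ∀ n, up (n + 1) = g • up n - μ ((n : ℤ) + 1) := fun n => rfl
  have dn0 : dn 0 = 0 := rfl
  have dnS : ∀ n, dn (n + 1) = g⁻¹ • (dn n + μ (-(n : ℤ))) := fun n => rfl
  let h : ℤ → M := fun n => if 0 ≤ n then up n.toNat else dn (-n).toNat
  have hup : ∀ n : ℕ, h (n : ℤ) = up n := by
    intro n
    simp only [h]
    rw [if_pos (Int.natCast_nonneg n), Int.toNat_natCast]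
  have hdn : ∀ n : ℕ, h (-(n : ℤ)) = dn n := by
    intro n
    cases n with
    | zero => simp [h, up0, dn0]
    | succ n =>
      simp only [h]
      rw [if_neg (by push_cast; omega), neg_neg, Int.toNat_natCast]
  refine ⟨h, ?_, ?_⟩
  · exact hup 0
  · intro n
    rcases le_or_gt 1 n with hn | hn
    · obtain ⟨k, rfl⟩ : ∃ k : ℕ, n = (k : ℤ) + 1 := ⟨(n - 1).toNat, by omega⟩
      have e1 : h ((k : ℤ) + 1) = up (k + 1) := by
        have := hup (k + 1)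
        push_cast at this
        exact this
      rw [e1, upS, add_sub_cancel_right, hup]
      abel
    · obtain ⟨k, rfl⟩ : ∃ k : ℕ, n = -(k : ℤ) := ⟨(-n).toNat, by omega⟩
      have e1 : h (-(k : ℤ) - 1) = dn (k + 1) := by
        have := hdn (k + 1)
        rw [← this]
        congr 1
        push_cast
        ring
      rw [e1, dnS, hdn, smul_inv_smul]
      abel

/-- `Λ i n = y_0 ^ n (y_0 x_i⁻¹) ^ (-n)` in `G` -/
def Lam (i : Fin 4) (n : ℤ) : GG := (GG.y 0) ^ n * ((GG.y 0) * (GG.x i)⁻¹) ^ (-n)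

section
variable {M : Type*} [AddCommGroup M] [DistribMulAction GG M]

/-- `(Λ i n)⁻¹ • (v j k n - v i k n + v i l n - v j l n)` -/
def HH (v : Fin 4 → Fin 4 → ℤ → M) (i j k l : Fin 4) (n : ℤ) : M :=
  (Lam i n)⁻¹ • (v j k n - v i k n + v i l n - v j l n)

theorem recur (μ : Ltr → ℤ → M) (h0 : ∀ α, μ α 0 = 0) (h1 : ∀ α, μ α (-1) = 0) :
    ∃ v : Fin 4 → Fin 4 → ℤ → M,
      (∀ k n, v 0 k n = 0) ∧ (∀ i n, v i 0 n = 0) ∧ (∀ i k, v i k 0 = 0) ∧
      (∀ i k, v i k (-1) = 0) ∧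
      (∀ α, HH v (pX α (x1 α)) (pX α (x2 α)) (pY α (y1 α)) (pY α (y2 α)) (-2) = 0) ∧
      ∀ α n, HH v (x1 α) (x2 α) (y1 α) (y2 α) n -
        GG.r α • ((GG.x (pX α (x1 α)))⁻¹ •
          HH v (pX α (x1 α)) (pX α (x2 α)) (pY α (y1 α)) (pY α (y2 α)) (n - 1)) = - μ α n := by
  choose h hz hr using fun α : Ltr =>
    exists_rec (M := M) (GG.r α * (GG.x (x1 α))⁻¹) (μ α)
  have hm1 : ∀ α, h α (-1) = 0 := by
    intro α
    have := hr α 0
    rw [hz, h0, zero_sub, neg_zero, neg_eq_zero, zero_sub] at this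
    exact (smul_eq_zero_iff_eq _).1 this
  have hm2 : ∀ α, h α (-2) = 0 := by
    intro α
    have := hr α (-1)
    rw [hm1, h1, zero_sub, neg_zero, neg_eq_zero] at this
    exact (smul_eq_zero_iff_eq _).1 this
  -- values of the linear forms on the faces
  let c : Ltr → ℤ → M := fun α n => Lam (x1 α) n • h α n
  let w : ℤ → M := fun n => c 0 n - c 1 n - c 2 n + c 3 n + c 4 n - c 5 n - c 6 n
  let c7 : ℤ → M := fun n => Lam 0 n • (GG.r 7 • ((GG.x 0)⁻¹ • (Lam 0 (n - 1))⁻¹ • w (n - 1)) - μ 7 n)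
  let c8 : ℤ → M := fun n => Lam 1 n • (GG.r 8 • ((GG.x 1)⁻¹ • (Lam 1 (n - 1))⁻¹ • w (n - 1)) - μ 8 n)
  let v12 : ℤ → M := fun n => w n - c7 n
  let v21 : ℤ → M := fun n => w n - c8 n
  let v : Fin 4 → Fin 4 → ℤ → M := fun i k n =>
    (![![0, 0, 0, 0],
      ![0, w n, v12 n, v12 n - c 0 n],
      ![0, v21 n, v21 n - w n + v12 n - c 1 n, v12 n - c 0 n + c 2 n],
      ![0, v21 n - c 3 n, v21 n - c 3 n + c 5 n, - c 6 n]] : Fin 4 → Fin 4 → M) i k
  have cz : ∀ α n, h α n = 0 → c α n = 0 := fun α n hh => by simp [c, hh]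
  have wz : ∀ n, (∀ α, h α n = 0) → w n = 0 := fun n hh => by
    simp [w, cz _ _ (hh _)]
  have w0 : w 0 = 0 := wz 0 hz
  have wm1 : w (-1) = 0 := wz _ hm1
  have wm2 : w (-2) = 0 := wz _ hm2
  have c70 : c7 0 = 0 := by simp [c7, wm1, h0]
  have c80 : c8 0 = 0 := by simp [c8, wm1, h0]
  have c7m : c7 (-1) = 0 := by
    have : (-1 - 1 : ℤ) = -2 := by norm_num
    simp [c7, this, wm2, h1]
  have c8m : c8 (-1) = 0 := by
    have : (-1 - 1 : ℤ) = -2 := by norm_num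
    simp [c8, this, wm2, h1]
  -- the forms
  have f0 : ∀ n, v 1 2 n - v 0 2 n + v 0 3 n - v 1 3 n = c 0 n := by
    intro n; simp [v]
  have f1 : ∀ n, v 2 1 n - v 1 1 n + v 1 2 n - v 2 2 n = c 1 n := by
    intro n; simp [v]
  have f2 : ∀ n, v 2 3 n - v 1 3 n + v 1 0 n - v 2 0 n = c 2 n := by
    intro n; simp [v]
  have f3 : ∀ n, v 3 0 n - v 2 0 n + v 2 1 n - v 3 1 n = c 3 n := by
    intro n; simp [v]
  have f4 : ∀ n, v 3 2 n - v 2 2 n + v 2 3 n - v 3 3 n = c 4 n := by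
    intro n; simp [v, w]; abel
  have f5 : ∀ n, v 0 1 n - v 3 1 n + v 3 2 n - v 0 2 n = c 5 n := by
    intro n; simp [v]; abel
  have f6 : ∀ n, v 0 3 n - v 3 3 n + v 3 0 n - v 0 0 n = c 6 n := by
    intro n; simp [v]
  have f7 : ∀ n, v 1 1 n - v 0 1 n + v 0 2 n - v 1 2 n = c7 n := by
    intro n; simp [v, v12]
  have f8 : ∀ n, v 2 0 n - v 1 0 n + v 1 1 n - v 2 1 n = c8 n := by
    intro n; simp [v, v21]
  have g7 : ∀ n, v 1 1 n - v 0 1 n + v 0 0 n - v 1 0 n = w n := by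
    intro n; simp [v]
  have g8 : ∀ n, v 0 0 n - v 1 0 n + v 1 1 n - v 0 1 n = w n := by
    intro n; simp [v]
  have Hf : ∀ (α : Ltr) (i j k l : Fin 4), x1 α = i →
      (∀ n, v j k n - v i k n + v i l n - v j l n = c α n) → ∀ n, HH v i j k l n = h α n := by
    intro α i j k l hi hc n
    subst hi
    simp only [HH, hc, c, inv_smul_smul]
  have H0 := Hf 0 0 1 2 3 rfl f0
  have H1 := Hf 1 1 2 1 2 rfl f1
  have H2 := Hf 2 1 2 3 0 rfl f2
  have H3 := Hf 3 2 3 0 1 rfl f3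
  have H4 := Hf 4 2 3 2 3 rfl f4
  have H5 := Hf 5 3 0 1 2 rfl f5
  have H6 := Hf 6 3 0 3 0 rfl f6
  have face : ∀ (α : Ltr) (i : Fin 4), x1 α = i → ∀ n,
      h α n - GG.r α • ((GG.x i)⁻¹ • h α (n - 1)) = - μ α n := by
    intro α i hi n
    subst hi
    rw [← mul_smul]
    exact hr α n
  have s20 : Equiv.swap (0 : Fin 4) 2 1 = 1 := by decide
  have s21 : Equiv.swap (0 : Fin 4) 2 2 = 0 := by decide
  refine ⟨v, ?_, ?_, ?_, ?_, ?_, ?_⟩
  · intro k n; fin_cases k <;> rfl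
  · intro i n; fin_cases i <;> rfl
  · intro i k
    fin_cases i <;> fin_cases k <;>
      simp [v, v12, v21, w0, c70, c80, cz _ _ (hz _)]
  · intro i k
    fin_cases i <;> fin_cases k <;>
      simp [v, v12, v21, wm1, c7m, c8m, cz _ _ (hm1 _)]
  · intro α
    fin_cases α
    · exact (H0 (-2)).trans (hm2 _)
    · exact (H1 (-2)).trans (hm2 _)
    · exact (H2 (-2)).trans (hm2 _)
    · exact (H3 (-2)).trans (hm2 _)
    · exact (H4 (-2)).trans (hm2 _)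
    · exact (H5 (-2)).trans (hm2 _)
    · exact (H6 (-2)).trans (hm2 _)
    · change HH v 0 1 (Equiv.swap 0 2 1) (Equiv.swap 0 2 2) (-2) = 0
      rw [s20, s21, HH, g7, wm2, smul_zero]
    · change HH v (Equiv.swap 0 2 1) (Equiv.swap 0 2 2) 0 1 (-2) = 0
      rw [s20, s21, HH, g8, wm2, smul_zero]
  · intro α n
    fin_cases α
    · change HH v 0 1 2 3 n - GG.r 0 • ((GG.x 0)⁻¹ • HH v 0 1 2 3 (n - 1)) = - μ 0 n
      rw [H0, H0]; exact face 0 0 rfl n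
    · change HH v 1 2 1 2 n - GG.r 1 • ((GG.x 1)⁻¹ • HH v 1 2 1 2 (n - 1)) = - μ 1 n
      rw [H1, H1]; exact face 1 1 rfl n
    · change HH v 1 2 3 0 n - GG.r 2 • ((GG.x 1)⁻¹ • HH v 1 2 3 0 (n - 1)) = - μ 2 n
      rw [H2, H2]; exact face 2 1 rfl n
    · change HH v 2 3 0 1 n - GG.r 3 • ((GG.x 2)⁻¹ • HH v 2 3 0 1 (n - 1)) = - μ 3 n
      rw [H3, H3]; exact face 3 2 rfl n
    · change HH v 2 3 2 3 n - GG.r 4 • ((GG.x 2)⁻¹ • HH v 2 3 2 3 (n - 1)) = - μ 4 n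
      rw [H4, H4]; exact face 4 2 rfl n
    · change HH v 3 0 1 2 n - GG.r 5 • ((GG.x 3)⁻¹ • HH v 3 0 1 2 (n - 1)) = - μ 5 n
      rw [H5, H5]; exact face 5 3 rfl n
    · change HH v 3 0 3 0 n - GG.r 6 • ((GG.x 3)⁻¹ • HH v 3 0 3 0 (n - 1)) = - μ 6 n
      rw [H6, H6]; exact face 6 3 rfl n
    · change HH v 0 1 1 2 n - GG.r 7 • ((GG.x 0)⁻¹ •
        HH v 0 1 (Equiv.swap 0 2 1) (Equiv.swap 0 2 2) (n - 1)) = - μ 7 n
      rw [s20, s21, HH, HH, f7, g7]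
      simp only [c7, inv_smul_smul]
      abel
    · change HH v 1 2 0 1 n - GG.r 8 • ((GG.x (Equiv.swap 0 2 1))⁻¹ •
        HH v (Equiv.swap 0 2 1) (Equiv.swap 0 2 2) 0 1 (n - 1)) = - μ 8 n
      rw [s20, s21, HH, HH, f8, g8]
      simp only [c8, inv_smul_smul]
      abel

end

end Crest.Agent.R197
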