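import Mathlib
import Crest.Agent.R197.Defs
import Crest.Agent.R197.Coind
import Crest.Agent.R197.Flat
import Crest.Agent.R197.NDefs

/-! Row 197, D4: splitting over `Nbar`.

`split_values`: in every extension `X` of `GG` by a quotient `Q` of a `GG`-module `C` in which derivations with
prescribed values on the words `Λ_n^{ik}` exist, the generators `x_i`, `y_k` have lifts `X_i`, `Y_k` with
`X_0 = 1` and `lam X Y = 1`. -/

set_option autoImplicit false

namespace Crest.Agent.R197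

/-- the free group on the letters `x_i`, `y_k` -/
abbrev FXY := FreeGroup (Fin 4 ⊕ Fin 4)

/-- the map `x_i ↦ GG.x i`, `y_k ↦ GG.y k` -/
def phiXY : FXY →* GG := FreeGroup.lift (Sum.elim GG.x GG.y)

section ext
variable {V : Type} [AddCommGroup V] [DistribMulAction GG V]

theorem ExtVia.comm_ι (X : ExtVia (MonoidHom.id GG) V) (u : X.U) (v : V) :
    u * X.ι (Multiplicative.ofAdd v) = X.ι (Multiplicative.ofAdd (X.κ u • v)) * u := by
  have h := X.act u v
  rw [MonoidHom.id_apply] at h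
  rw [← h]; simp [mul_assoc]

/-- twisting a homomorphism by a derivation -/
def twist {Γ : Type} [Group Γ] (X : ExtVia (MonoidHom.id GG) V) (F : Γ →* X.U)
    (d : Γ → V) (hd : ∀ a b, d (a * b) = d a + X.κ (F a) • d b) : Γ →* X.U :=
  MonoidHom.mk' (fun w => X.ι (Multiplicative.ofAdd (d w)) * F w) (by
    intro a b
    rw [hd, ofAdd_add, map_mul, map_mul]
    rw [mul_assoc, ← mul_assoc _ (F a) (F b), ← X.comm_ι (F a) (d b)]
    simp only [mul_assoc])

theorem twist_apply {Γ : Type} [Group Γ] (X : ExtVia (MonoidHom.id GG) V) (F : Γ →* X.U)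
    (d : Γ → V) (hd : ∀ a b, d (a * b) = d a + X.κ (F a) • d b) (w : Γ) :
    twist X F d hd w = X.ι (Multiplicative.ofAdd (d w)) * F w := rfl

end ext

section lamfacts
variable {H : Type*} [Group H]

theorem lam_col (x y : Fin 4 → H) (i k : Fin 4) (n : ℤ) :
    lam x y 0 i k 0 n =
      ((Aw x y 0 k) ^ n * (Aw x y i k) ^ (-n)) * ((Aw x y 0 0) ^ n * (Aw x y i 0) ^ (-n))⁻¹ := by
  simp only [lam, mul_inv_rev, zpow_neg, inv_inv, mul_assoc]

theorem lam_m1 (x y : Fin 4 → H) (i j k l : Fin 4) : lam x y i j k l (-1) = 1 := by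
  simp [lam, Aw, mul_assoc]

/-- all scaled loops follow from those of the form `(0,i;k,0)` -/
theorem lam_all_of_base {x y : Fin 4 → H} {n : ℤ} (h : ∀ i k, lam x y 0 i k 0 n = 1)
    (i j k l : Fin 4) : lam x y i j k l n = 1 := by
  have h1 : ∀ i k, (Aw x y 0 k) ^ n * (Aw x y i k) ^ (-n) = (Aw x y 0 0) ^ n * (Aw x y i 0) ^ (-n) := by
    intro i k
    have := h i k
    rw [lam_col] at this
    exact mul_inv_eq_one.mp this
  have h2 : lam x y i j k l n = ((Aw x y 0 k) ^ n * (Aw x y i k) ^ (-n))⁻¹ *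
      ((Aw x y 0 k) ^ n * (Aw x y j k) ^ (-n)) * ((Aw x y 0 l) ^ n * (Aw x y j l) ^ (-n))⁻¹ *
      ((Aw x y 0 l) ^ n * (Aw x y i l) ^ (-n)) := by
    simp only [lam, mul_inv_rev, zpow_neg, inv_inv, mul_assoc, inv_mul_cancel_left]
  rw [h2, h1 i k, h1 j k, h1 j l, h1 i l]
  simp [mul_assoc]

end lamfacts

/-- D4, core: lifts of the generators of `Nbar` satisfying all relations -/
theorem split_values {C Q : Type} [AddCommGroup C] [AddCommGroup Q] [DistribMulAction GG C]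
    [DistribMulAction GG Q] (p : C →+ Q) (hp : Function.Surjective p)
    (hpg : ∀ (g : GG) (c : C), p (g • c) = g • p c)
    (hbeta : ∀ v : Fin 4 → Fin 4 → ℤ → C, (∀ k n, v 0 k n = 0) → (∀ i n, v i 0 n = 0) →
      (∀ i k, v i k 0 = 0) → (∀ i k, v i k (-1) = 0) →
      ∃ D : FXY → C, IsDer phiXY D ∧ (∀ i, D (FreeGroup.of (Sum.inl i)) = 0) ∧
        D (FreeGroup.of (Sum.inr 0)) = 0 ∧
        ∀ i k n, D ((Aw (fun i => FreeGroup.of (Sum.inl i)) (fun k => FreeGroup.of (Sum.inr k)) 0 k) ^ n *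
          (Aw (fun i => FreeGroup.of (Sum.inl i)) (fun k => FreeGroup.of (Sum.inr k)) i k) ^ (-n))
            = v i k n)
    (X : ExtVia (MonoidHom.id GG) Q) :
    ∃ x y : Fin 4 → X.U, x 0 = 1 ∧ (∀ i, X.κ (x i) = GG.x i) ∧ (∀ k, X.κ (y k) = GG.y k) ∧
      ∀ i j k l n, lam x y i j k l n = 1 := by
  classical
  set fx' : Fin 4 → FXY := fun i => FreeGroup.of (Sum.inl i) with hfx'
  set fy' : Fin 4 → FXY := fun k => FreeGroup.of (Sum.inr k) with hfy'
  -- lifts of generators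
  have hx : ∀ i, ∃ u : X.U, X.κ u = GG.x i ∧ (i = 0 → u = 1) := by
    intro i
    by_cases hi : i = 0
    · exact ⟨1, by rw [hi, GG.rel.x0, map_one], fun _ => rfl⟩
    · obtain ⟨u, hu⟩ := X.surj (GG.x i)
      exact ⟨u, hu, fun h => absurd h hi⟩
  choose x₀ hx₀ hx₀1 using hx
  choose y₀ hy₀ using fun k => X.surj (GG.y k)
  let F : FXY →* X.U := FreeGroup.lift (Sum.elim x₀ y₀)
  have hFx : ∀ i, F (fx' i) = x₀ i := fun i => by simp [F, hfx']
  have hFy : ∀ k, F (fy' k) = y₀ k := fun k => by simp [F, hfy']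
  have hF : ∀ w, X.κ (F w) = phiXY w := by
    intro w
    have : X.κ.comp F = phiXY := by
      apply FreeGroup.ext_hom
      rintro (i | k)
      · simp [F, phiXY, hx₀]
      · simp [F, phiXY, hy₀]
    exact DFunLike.congr_fun this w
  have hφx : ∀ i, phiXY (fx' i) = GG.x i := fun i => by simp [phiXY, hfx']
  have hφy : ∀ k, phiXY (fy' k) = GG.y k := fun k => by simp [phiXY, hfy']
  have hφlam : ∀ i j k l n, phiXY (lam fx' fy' i j k l n) = 1 := by
    intro i j k l n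
    rw [map_lam]
    simp only [hφx, hφy]
    exact lam_GG i j k l n
  -- values of the loops
  have hm : ∀ i k n, ∃ q : Q, X.ι (Multiplicative.ofAdd q) = F (lam fx' fy' 0 i k 0 n) := by
    intro i k n
    have h1 : X.κ (F (lam fx' fy' 0 i k 0 n)) = 1 := by rw [hF, hφlam]
    obtain ⟨v, hv⟩ := (X.exact _).mp h1
    exact ⟨Multiplicative.toAdd v, hv⟩
  choose m hm using hm
  have hιinj : ∀ a b : Q, X.ι (Multiplicative.ofAdd a) = X.ι (Multiplicative.ofAdd b) → a = b :=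
    fun a b h => Multiplicative.ofAdd.injective (X.inj h)
  have hm0 : ∀ i k n, lam fx' fy' 0 i k 0 n = 1 → m i k n = 0 := by
    intro i k n h
    apply hιinj
    rw [hm, h, map_one, ofAdd_zero, map_one]
  -- lift to `C`
  have hv : ∀ i k n, ∃ c : C, p c = m i k n ∧ (m i k n = 0 → c = 0) := by
    intro i k n
    by_cases h : m i k n = 0
    · exact ⟨0, by rw [map_zero, h], fun _ => rfl⟩
    · obtain ⟨c, hc⟩ := hp (m i k n)
      exact ⟨c, hc, fun h' => absurd h' h⟩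
  choose v hv hv0 using hv
  obtain ⟨D, hD, hDx, hDy, hDv⟩ := hbeta v
    (fun k n => hv0 _ _ _ (hm0 _ _ _ (by simp [lam]))) (fun i n => hv0 _ _ _ (hm0 _ _ _ (by simp [lam])))
    (fun i k => hv0 _ _ _ (hm0 _ _ _ (by simp [lam])))
    (fun i k => hv0 _ _ _ (hm0 _ _ _ (lam_m1 _ _ _ _ _ _)))
  have hv00 : ∀ i n, v i 0 n = 0 := fun i n => hv0 _ _ _ (hm0 _ _ _ (by simp [lam]))
  have hD1 : D 1 = 0 := by
    have := hD 1 1
    rw [map_one, one_smul, mul_one] at this
    exact left_eq_add.mp this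
  have hDlam : ∀ i k n, D (lam fx' fy' 0 i k 0 n) = v i k n := by
    intro i k n
    rw [lam_col, hD, hDv i k n]
    have h2 : D ((Aw fx' fy' 0 0 ^ n * Aw fx' fy' i 0 ^ (-n))⁻¹) = 0 := by
      have h3 := hD (Aw fx' fy' 0 0 ^ n * Aw fx' fy' i 0 ^ (-n))
        (Aw fx' fy' 0 0 ^ n * Aw fx' fy' i 0 ^ (-n))⁻¹
      rw [mul_inv_cancel, hD1, hDv i 0 n, hv00, zero_add] at h3
      have h4 := congrArg (fun z => (phiXY (Aw fx' fy' 0 0 ^ n * Aw fx' fy' i 0 ^ (-n)))⁻¹ • z) h3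
      rw [smul_zero, inv_smul_smul] at h4
      exact h4.symm
    rw [h2, smul_zero, add_zero]
  let d : FXY → Q := fun w => - p (D w)
  have hd : ∀ a b, d (a * b) = d a + X.κ (F a) • d b := by
    intro a b
    simp only [d]
    rw [hD, map_add, hpg, hF, smul_neg, neg_add]
  let F' := twist X F d hd
  refine ⟨fun i => F' (fx' i), fun k => F' (fy' k), ?_, ?_, ?_, ?_⟩
  · change X.ι (Multiplicative.ofAdd (d (fx' 0))) * F (fx' 0) = 1
    have : d (fx' 0) = 0 := by simp only [d]; rw [show fx' 0 = FreeGroup.of (Sum.inl 0) from rfl, hDx]; simp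
    rw [this, hFx, hx₀1 0 rfl]; simp
  · intro i
    change X.κ (X.ι _ * F (fx' i)) = _
    rw [map_mul, (X.exact _).mpr ⟨_, rfl⟩, hFx, hx₀, one_mul]
  · intro k
    change X.κ (X.ι _ * F (fy' k)) = _
    rw [map_mul, (X.exact _).mpr ⟨_, rfl⟩, hFy, hy₀, one_mul]
  · intro i j k l n
    apply lam_all_of_base
    intro i k
    rw [← map_lam F' fx' fy']
    change X.ι (Multiplicative.ofAdd (d _)) * F _ = 1
    rw [← hm i k n, ← map_mul, ← ofAdd_add]
    have : d (lam fx' fy' 0 i k 0 n) + m i k n = 0 := by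
      simp only [d]
      rw [hDlam, hv]; simp
    rw [this]; simp

/-- D4, with D3 (`hbeta`) and N3 (`hlift`) as hypotheses: every extension splits over `Nbar`. -/
theorem split_Nbar_of {C Q : Type} [AddCommGroup C] [AddCommGroup Q] [DistribMulAction GG C]
    [DistribMulAction GG Q] (p : C →+ Q) (hp : Function.Surjective p)
    (hpg : ∀ (g : GG) (c : C), p (g • c) = g • p c)
    (hbeta : ∀ v : Fin 4 → Fin 4 → ℤ → C, (∀ k n, v 0 k n = 0) → (∀ i n, v i 0 n = 0) →
      (∀ i k, v i k 0 = 0) → (∀ i k, v i k (-1) = 0) →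
      ∃ D : FXY → C, IsDer phiXY D ∧ (∀ i, D (FreeGroup.of (Sum.inl i)) = 0) ∧
        D (FreeGroup.of (Sum.inr 0)) = 0 ∧
        ∀ i k n, D ((Aw (fun i => FreeGroup.of (Sum.inl i)) (fun k => FreeGroup.of (Sum.inr k)) 0 k) ^ n *
          (Aw (fun i => FreeGroup.of (Sum.inl i)) (fun k => FreeGroup.of (Sum.inr k)) i k) ^ (-n))
            = v i k n)
    (hlift : ∀ (H : Type) [Group H] (x y : Fin 4 → H), x 0 = 1 →
      (∀ i j k l n, lam x y i j k l n = 1) →
      ∃ f : Nbar →* H, (∀ i, f ⟨GG.x i, x_mem_Nbar i⟩ = x i) ∧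
        (∀ k, f ⟨GG.y k, y_mem_Nbar k⟩ = y k))
    (X : ExtVia (MonoidHom.id GG) Q) :
    ∃ s : Nbar →* X.U, ∀ n, X.κ (s n) = n := by
  obtain ⟨x, y, hx0, hx, hy, hl⟩ := split_values p hp hpg hbeta X
  obtain ⟨f, hfx, hfy⟩ := hlift X.U x y hx0 hl
  refine ⟨f, ?_⟩
  rintro ⟨g, hg⟩
  induction hg using Subgroup.closure_induction with
  | mem g hg =>
    rcases hg with ⟨i, rfl⟩ | ⟨k, rfl⟩
    · exact (congrArg X.κ (hfx i)).trans (hx i)
    · exact (congrArg X.κ (hfy k)).trans (hy k)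
  | one => exact (congrArg X.κ (map_one f)).trans (map_one X.κ)
  | mul a b ha hb iha ihb =>
    have h1 : f ⟨a * b, Subgroup.mul_mem _ ha hb⟩ = f ⟨a, ha⟩ * f ⟨b, hb⟩ :=
      map_mul f (⟨a, ha⟩ : Nbar) ⟨b, hb⟩
    exact (congrArg X.κ h1).trans ((map_mul X.κ _ _).trans (congrArg₂ (· * ·) iha ihb))
  | inv a ha iha =>
    have h1 : f ⟨a⁻¹, Subgroup.inv_mem _ ha⟩ = (f ⟨a, ha⟩)⁻¹ := map_inv f (⟨a, ha⟩ : Nbar)
    exact (congrArg X.κ h1).trans ((map_inv X.κ _).trans (congrArg (·⁻¹) iha))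

end Crest.Agent.R197
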