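import Mathlib
import Crest.Agent.R197.Defs

/-!
# Row 197, module N: definitions for the structure of `Nbar`, `Qbar` in `G`
-/

set_option autoImplicit false

namespace Crest.Agent.R197

/-- free group on four letters -/
abbrev F4 := FreeGroup (Fin 4)

/-- exponent sum -/
def chi : F4 →* Multiplicative ℤ := FreeGroup.lift fun _ => Multiplicative.ofAdd 1

@[simp] theorem chi_of (i : Fin 4) : chi (FreeGroup.of i) = Multiplicative.ofAdd 1 := by
  simp [chi]

/-- `S₄` acting on `F₄` by permuting letters -/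
def permAct : Equiv.Perm (Fin 4) →* MulAut F4 where
  toFun σ := FreeGroup.freeGroupCongr σ
  map_one' := by
    ext x
    simp
  map_mul' σ τ := by
    apply MulEquiv.toMonoidHom_injective
    apply FreeGroup.ext_hom
    intro a
    simp

@[simp] theorem permAct_of (σ : Equiv.Perm (Fin 4)) (i : Fin 4) :
    permAct σ (FreeGroup.of i) = FreeGroup.of (σ i) := by
  simp [permAct]

@[simp] theorem permAct_symm_of (σ : Equiv.Perm (Fin 4)) (i : Fin 4) :
    (permAct σ).symm (FreeGroup.of i) = FreeGroup.of (σ⁻¹ i) := by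
  rw [MulEquiv.symm_apply_eq]
  simp

@[simp] theorem permAct_inv_of (σ : Equiv.Perm (Fin 4)) (i : Fin 4) :
    permAct σ⁻¹ (FreeGroup.of i) = FreeGroup.of (σ⁻¹ i) := permAct_of _ _

/-- `F₄ ⋊ S₄` -/
abbrev Om1 := F4 ⋊[permAct] Equiv.Perm (Fin 4)
/-- the target of the retraction-like map of `G` -/
abbrev Om := Om1 × Om1

/-- images of the generators -/
def omx (i : Fin 4) : Om := (SemidirectProduct.inl (FreeGroup.of i * (FreeGroup.of 0)⁻¹), 1)
def omy (k : Fin 4) : Om :=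
  (SemidirectProduct.inl (FreeGroup.of 0)⁻¹, SemidirectProduct.inl (FreeGroup.of k))
def omr (α : Ltr) : Om :=
  (SemidirectProduct.inr (pX α)⁻¹ * SemidirectProduct.inl (FreeGroup.of 0)⁻¹,
    SemidirectProduct.inr (pY α)⁻¹)

theorem Aw_om (i k : Fin 4) : Aw omx omy i k =
    ((SemidirectProduct.inl (FreeGroup.of i)⁻¹, SemidirectProduct.inl (FreeGroup.of k)) : Om) := by
  simp only [Aw, omx, omy, Prod.inv_mk, Prod.mk_mul_mk, inv_one, mul_one, ← map_inv, ← map_mul]
  simp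

theorem Bw_om (i k : Fin 4) : Bw omx omy i k =
    ((SemidirectProduct.inl (FreeGroup.of 0 * (FreeGroup.of i)⁻¹ * (FreeGroup.of 0)⁻¹),
      SemidirectProduct.inl (FreeGroup.of k)) : Om) := by
  simp only [Bw, omx, omy, Prod.inv_mk, Prod.mk_mul_mk, inv_one, one_mul, ← map_inv, ← map_mul]
  simp

theorem lam_om (i j k l : Fin 4) (n : ℤ) : lam omx omy i j k l n = 1 := by
  simp only [lam, Aw_om]
  ext <;> simp [← map_zpow]

theorem relOm : RelG omx omy omr := by
  refine { x0 := ?_, hex := ?_, la := fun n => lam_om _ _ _ _ n, lb := fun n => lam_om _ _ _ _ n }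
  · simp [omx]
  · intro α i k _ _
    rw [Aw_om, Bw_om, omr]
    refine Prod.ext ?_ ?_
    · simp only [Prod.fst_mul]
      have h : SemidirectProduct.inl (FreeGroup.of i)⁻¹ * SemidirectProduct.inr (pX α)⁻¹ =
          (SemidirectProduct.inr (pX α)⁻¹ * SemidirectProduct.inl (FreeGroup.of (pX α i))⁻¹ : Om1) := by
        ext <;> simp
      rw [← mul_assoc, h, mul_assoc, mul_assoc, ← map_mul, ← map_mul]
      simp [mul_assoc]
    · simp only [Prod.snd_mul]
      ext <;> simp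

/-- the homomorphism `G → Ω` -/
def toOm : GG →* Om := GG.lift relOm

@[simp] theorem toOm_x (i : Fin 4) : toOm (GG.x i) = omx i := by simp [toOm]
@[simp] theorem toOm_y (k : Fin 4) : toOm (GG.y k) = omy k := by simp [toOm]
@[simp] theorem toOm_r (α : Ltr) : toOm (GG.r α) = omr α := by simp [toOm]

/-- the subgroup of `G` generated by the `x i` and the `y k` -/
def Nbar : Subgroup GG := Subgroup.closure (Set.range GG.x ∪ Set.range GG.y)

/-- the edge group of the letter `α` -/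
def Qbar (α : Ltr) : Subgroup GG :=
  Subgroup.closure {g | ∃ i k, inX α i ∧ inY α k ∧ g = Aw GG.x GG.y i k}

/-- `Λ_n^i = y_k^n (y_k x_i⁻¹)^{-n}` (independent of `k`) -/
def Lam (i : Fin 4) (n : ℤ) : GG := (Aw GG.x GG.y 0 0) ^ n * (Aw GG.x GG.y i 0) ^ (-n)

/-- the normal subgroup of `Nbar` generated by the `Λ_n^i` -/
def KK : Subgroup GG := Subgroup.closure {g | ∃ i n, g = Lam i n}

theorem x_mem_Nbar (i : Fin 4) : GG.x i ∈ Nbar := Subgroup.subset_closure (Or.inl ⟨i, rfl⟩)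
theorem y_mem_Nbar (k : Fin 4) : GG.y k ∈ Nbar := Subgroup.subset_closure (Or.inr ⟨k, rfl⟩)
theorem Aw_mem_Nbar (i k : Fin 4) : Aw GG.x GG.y i k ∈ Nbar :=
  Nbar.mul_mem (y_mem_Nbar k) (Nbar.inv_mem (x_mem_Nbar i))
theorem Bw_mem_Nbar (i k : Fin 4) : Bw GG.x GG.y i k ∈ Nbar :=
  Nbar.mul_mem (Nbar.inv_mem (x_mem_Nbar i)) (y_mem_Nbar k)
theorem Aw_mem_Qbar {α : Ltr} {i k : Fin 4} (hi : inX α i) (hk : inY α k) :
    Aw GG.x GG.y i k ∈ Qbar α := Subgroup.subset_closure ⟨i, k, hi, hk, rfl⟩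
theorem Qbar_le_Nbar (α : Ltr) : Qbar α ≤ Nbar := by
  rw [Qbar, Subgroup.closure_le]
  rintro g ⟨i, k, _, _, rfl⟩
  exact Aw_mem_Nbar i k
theorem Lam_mem_Nbar (i : Fin 4) (n : ℤ) : Lam i n ∈ Nbar :=
  Nbar.mul_mem (Nbar.zpow_mem (Aw_mem_Nbar _ _) _) (Nbar.zpow_mem (Aw_mem_Nbar _ _) _)
theorem KK_le_Nbar : KK ≤ Nbar := by
  rw [KK, Subgroup.closure_le]
  rintro g ⟨i, n, rfl⟩
  exact Lam_mem_Nbar i n

end Crest.Agent.R197
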