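import Mathlib
import Crest.Agent.R197.StructDefs

/-!
# Row 197, module N: structure of `Nbar`, `Qbar α` in `G`
-/

set_option autoImplicit false

namespace Crest.Agent.R197

/-! ## words (arbitrary groups) -/

section words
variable {H : Type*} [Group H]

theorem lam_zero (x y : Fin 4 → H) (i j k l : Fin 4) :
    lam x y i j k l 0 = 1 := by
  simp [lam]

theorem Bw_eq_conj (x y : Fin 4 → H) (i k : Fin 4) :
    Bw x y i k = (x i)⁻¹ * Aw x y i k * ((x i)⁻¹)⁻¹ := by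
  simp [Bw, Aw, mul_assoc]

theorem x_mul_inv (x y : Fin 4 → H) (i j k : Fin 4) :
    x i * (x j)⁻¹ = (Aw x y i k)⁻¹ * Aw x y j k := by
  simp [Aw, mul_assoc]

/-- (L1) -/
theorem Bw_word (x y : Fin 4 → H) (i j k l : Fin 4) (n : ℤ) :
    (Bw x y i k) ^ n * (Bw x y j k) ^ (-n) * (Bw x y j l) ^ n * (Bw x y i l) ^ (-n) =
      (x i)⁻¹ * lam x y i j k l (n - 1) * x i := by
  have h1 := x_mul_inv x y i j k
  have h2 := x_mul_inv x y j i l
  simp only [Bw_eq_conj, conj_zpow]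
  simp only [inv_inv]
  calc (x i)⁻¹ * Aw x y i k ^ n * x i * ((x j)⁻¹ * Aw x y j k ^ (-n) * x j) *
        ((x j)⁻¹ * Aw x y j l ^ n * x j) * ((x i)⁻¹ * Aw x y i l ^ (-n) * x i)
      = (x i)⁻¹ * Aw x y i k ^ n * (x i * (x j)⁻¹) * Aw x y j k ^ (-n) *
        Aw x y j l ^ n * (x j * (x i)⁻¹) * Aw x y i l ^ (-n) * x i := by
        simp [mul_assoc]
    _ = (x i)⁻¹ * lam x y i j k l (n - 1) * x i := by
        rw [h1, h2, lam]
        have e1 : Aw x y i k ^ (n - 1) = Aw x y i k ^ n * (Aw x y i k)⁻¹ := zpow_sub_one _ _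
        have e2 : Aw x y j k ^ (-(n - 1)) = Aw x y j k * Aw x y j k ^ (-n) := by
          rw [← zpow_one_add]; congr 1; ring
        have e3 : Aw x y j l ^ (n - 1) = Aw x y j l ^ n * (Aw x y j l)⁻¹ := zpow_sub_one _ _
        have e4 : Aw x y i l ^ (-(n - 1)) = Aw x y i l * Aw x y i l ^ (-n) := by
          rw [← zpow_one_add]; congr 1; ring
        rw [e1, e2, e3, e4]
        simp [mul_assoc]

theorem sq_iff (e : Fin 4 → Fin 4 → H) (i j k l : Fin 4) :
    e i k * (e j k)⁻¹ * e j l * (e i l)⁻¹ = 1 ↔ e i k * (e j k)⁻¹ = e i l * (e j l)⁻¹ := by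
  rw [mul_assoc, mul_eq_one_iff_eq_inv]
  simp

/-- nine squares imply all squares -/
theorem all_squares (e : Fin 4 → Fin 4 → H)
    (s1 : e 0 2 * (e 1 2)⁻¹ = e 0 3 * (e 1 3)⁻¹)
    (s2 : e 1 1 * (e 2 1)⁻¹ = e 1 2 * (e 2 2)⁻¹)
    (s3 : e 1 3 * (e 2 3)⁻¹ = e 1 0 * (e 2 0)⁻¹)
    (s4 : e 2 0 * (e 3 0)⁻¹ = e 2 1 * (e 3 1)⁻¹)
    (s5 : e 2 2 * (e 3 2)⁻¹ = e 2 3 * (e 3 3)⁻¹)
    (s6 : e 3 1 * (e 0 1)⁻¹ = e 3 2 * (e 0 2)⁻¹)
    (s7 : e 3 3 * (e 0 3)⁻¹ = e 3 0 * (e 0 0)⁻¹)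
    (s8 : e 0 1 * (e 1 1)⁻¹ = e 0 2 * (e 1 2)⁻¹)
    (s9 : e 1 0 * (e 2 0)⁻¹ = e 1 1 * (e 2 1)⁻¹) (i j k l : Fin 4) :
    e i k * (e j k)⁻¹ = e i l * (e j l)⁻¹ := by
  have tel : ∀ k, (e 0 k * (e 1 k)⁻¹) * (e 1 k * (e 2 k)⁻¹) * (e 2 k * (e 3 k)⁻¹) *
      (e 3 k * (e 0 k)⁻¹) = 1 := fun k => by simp [mul_assoc]
  have t0 := tel 0
  have t1 := tel 1
  have t2 := tel 2
  have t3 := tel 3
  -- rewrite everything in terms of values at `1`, `2`
  rw [← s8, ← s2, ← s6] at t2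
  rw [← s1, ← s8, s3, s9, ← s5, s7] at t3
  rw [s9, s4] at t0
  have a1 : e 2 2 * (e 3 2)⁻¹ = e 2 1 * (e 3 1)⁻¹ := by
    have := t2.trans t1.symm
    exact mul_left_cancel (mul_right_cancel this)
  rw [a1] at t3
  have a2 : e 3 0 * (e 0 0)⁻¹ = e 3 1 * (e 0 1)⁻¹ := mul_left_cancel (t3.trans t1.symm)
  rw [a2] at t0
  have a3 : e 0 0 * (e 1 0)⁻¹ = e 0 1 * (e 1 1)⁻¹ :=
    mul_right_cancel (mul_right_cancel (mul_right_cancel (t0.trans t1.symm)))
  -- constants
  have c01 : ∀ k, e 0 k * (e 1 k)⁻¹ = e 0 0 * (e 1 0)⁻¹ := by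
    intro k
    fin_cases k
    · rfl
    · exact a3.symm
    · exact s8.symm.trans a3.symm
    · exact s1.symm.trans (s8.symm.trans a3.symm)
  have c12 : ∀ k, e 1 k * (e 2 k)⁻¹ = e 1 0 * (e 2 0)⁻¹ := by
    intro k
    fin_cases k
    · rfl
    · exact s9.symm
    · exact s2.symm.trans s9.symm
    · exact s3
  have c23 : ∀ k, e 2 k * (e 3 k)⁻¹ = e 2 0 * (e 3 0)⁻¹ := by
    intro k
    fin_cases k
    · rfl
    · exact s4.symm
    · exact a1.trans s4.symm
    · exact s5.symm.trans (a1.trans s4.symm)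
  have c0 : ∀ i k, e 0 k * (e i k)⁻¹ = e 0 0 * (e i 0)⁻¹ := by
    intro i k
    fin_cases i
    · simp
    · exact c01 k
    · have := congrArg₂ (· * ·) (c01 k) (c12 k)
      simpa [mul_assoc] using this
    · have := congrArg₂ (· * ·) (congrArg₂ (· * ·) (c01 k) (c12 k)) (c23 k)
      simpa [mul_assoc] using this
  have c : ∀ i j k, e i k * (e j k)⁻¹ = e i 0 * (e j 0)⁻¹ := by
    intro i j k
    have h1 := congrArg (·⁻¹) (c0 i k)
    have h2 := congrArg₂ (· * ·) h1 (c0 j k)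
    simpa [mul_assoc] using h2
  rw [c i j k, c i j l]

theorem lam_eq_one_iff (x y : Fin 4 → H) (i j k l : Fin 4) (n : ℤ) :
    lam x y i j k l n = 1 ↔
      Aw x y i k ^ n * (Aw x y j k ^ n)⁻¹ = Aw x y i l ^ n * (Aw x y j l ^ n)⁻¹ := by
  rw [← sq_iff (fun i k => Aw x y i k ^ n)]
  simp [lam]

/-- shift along a letter -/
theorem r_conj_of_rel {x y : Fin 4 → H} {r : Ltr → H} (h : RelE x y r) {α : Ltr} {i k : Fin 4}
    (hi : inX α i) (hk : inY α k) :
    (r α)⁻¹ * Aw x y i k * r α = Bw x y (pX α i) (pY α k) := by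
  rw [mul_assoc, h.hex α i k hi hk]
  simp

theorem inX1 (α : Ltr) : inX α (x1 α) := Or.inl rfl
theorem inX2 (α : Ltr) : inX α (x2 α) := Or.inr rfl
theorem inY1 (α : Ltr) : inY α (y1 α) := Or.inl rfl
theorem inY2 (α : Ltr) : inY α (y2 α) := Or.inr rfl

/-- `r⁻¹ λ_n(α) r = x⁻¹ λ_{n-1}(α') x`. -/
theorem r_conj_lam {x y : Fin 4 → H} {r : Ltr → H} (h : RelE x y r) (α : Ltr) (n : ℤ) :
    (r α)⁻¹ * lam x y (x1 α) (x2 α) (y1 α) (y2 α) n * r α =
      (x (pX α (x1 α)))⁻¹ *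
        lam x y (pX α (x1 α)) (pX α (x2 α)) (pY α (y1 α)) (pY α (y2 α)) (n - 1) *
        x (pX α (x1 α)) := by
  rw [← Bw_word, ← r_conj_of_rel h (inX1 α) (inY1 α), ← r_conj_of_rel h (inX2 α) (inY1 α),
    ← r_conj_of_rel h (inX2 α) (inY2 α), ← r_conj_of_rel h (inX1 α) (inY2 α)]
  have e : ∀ (a : H) (m : ℤ), ((r α)⁻¹ * a * r α) ^ m = (r α)⁻¹ * a ^ m * r α := by
    intro a m
    have := conj_zpow (a := (r α)⁻¹) (b := a) (i := m)
    simpa using this
  simp only [e, lam]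
  simp [mul_assoc]

/-- faces: all scaled loops are trivial in `E` -/
theorem face_lam {x y : Fin 4 → H} {r : Ltr → H} (h : RelE x y r) (α : Ltr)
    (h1 : pX α = 1) (h2 : pY α = 1) (n : ℤ) :
    lam x y (x1 α) (x2 α) (y1 α) (y2 α) n = 1 := by
  have key : ∀ n : ℤ, lam x y (x1 α) (x2 α) (y1 α) (y2 α) n = 1 ↔
      lam x y (x1 α) (x2 α) (y1 α) (y2 α) (n - 1) = 1 := by
    intro n
    have := r_conj_lam h α n
    simp only [h1, h2, Equiv.Perm.coe_one, id_eq] at this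
    constructor
    · intro h0
      rw [h0] at this
      simp only [mul_one, inv_mul_cancel] at this
      have h3 := congrArg (fun t => x (x1 α) * t * (x (x1 α))⁻¹) this
      simpa [mul_assoc] using h3.symm
    · intro h0
      rw [h0] at this
      simp only [mul_one, inv_mul_cancel] at this
      have h3 := congrArg (fun t => r α * t * (r α)⁻¹) this
      simpa [mul_assoc] using h3
  induction n using Int.induction_on with
  | zero => exact lam_zero _ _ _ _ _ _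
  | succ n ih =>
    rw [key]
    simpa using ih
  | pred n ih =>
    exact (key _).1 ih

end words

/-! ## (N1) -/

theorem lam_eq_one_of_rel {H : Type*} [Group H] {x y : Fin 4 → H} {r : Ltr → H}
    (h : RelG x y r) (i j k l : Fin 4) (n : ℤ) : lam x y i j k l n = 1 := by
  rw [lam_eq_one_iff]
  have f := fun α h1 h2 => (lam_eq_one_iff x y _ _ _ _ n).1 (face_lam h.toRelE α h1 h2 n)
  exact all_squares (fun i k => Aw x y i k ^ n) (f 0 rfl rfl) (f 1 rfl rfl) (f 2 rfl rfl)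
    (f 3 rfl rfl) (f 4 rfl rfl) (f 5 rfl rfl) (f 6 rfl rfl)
    ((lam_eq_one_iff x y _ _ _ _ n).1 (h.la n)) ((lam_eq_one_iff x y _ _ _ _ n).1 (h.lb n)) i j k l

theorem lam_eq_one (i j k l : Fin 4) (n : ℤ) : lam GG.x GG.y i j k l n = 1 :=
  lam_eq_one_of_rel GG.rel i j k l n

theorem r_conj {α : Ltr} {i k : Fin 4} (hi : inX α i) (hk : inY α k) :
    (GG.r α)⁻¹ * Aw GG.x GG.y i k * GG.r α = Bw GG.x GG.y (pX α i) (pY α k) :=
  r_conj_of_rel GG.rel.toRelE hi hk

theorem Qbar_conj_mem {α : Ltr} {q : GG} (hq : q ∈ Qbar α) :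
    (GG.r α)⁻¹ * q * GG.r α ∈ Nbar := by
  have h : Qbar α ≤ Nbar.comap (MulAut.conj (GG.r α)⁻¹).toMonoidHom := by
    rw [Qbar, Subgroup.closure_le]
    rintro g ⟨i, k, hi, hk, rfl⟩
    simp only [Subgroup.coe_comap, Set.mem_preimage, MulEquiv.coe_toMonoidHom, MulAut.conj_apply,
      inv_inv, SetLike.mem_coe]
    rw [r_conj hi hk]
    exact Bw_mem_Nbar _ _
  simpa using h hq

/-! ## wreath products `(ℤ → H) ⋊ ℤ` -/

section wreath
variable {H : Type*} [Group H]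

/-- shift action of `ℤ` on `ℤ → H` -/
def shiftAct (H : Type*) [Group H] : Multiplicative ℤ →* MulAut (ℤ → H) where
  toFun s :=
    { toFun := fun f n => f (n - s.toAdd)
      invFun := fun f n => f (n + s.toAdd)
      left_inv := fun f => by funext n; simp
      right_inv := fun f => by funext n; simp
      map_mul' := fun f g => rfl }
  map_one' := by ext f n; simp
  map_mul' s t := by
    ext f n
    simp only [toAdd_mul, MulAut.mul_apply]
    change f _ = f _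
    congr 1
    ring

@[simp] theorem shiftAct_apply (s : Multiplicative ℤ) (f : ℤ → H) (n : ℤ) :
    shiftAct H s f n = f (n - s.toAdd) := rfl

@[simp] theorem shiftAct_symm_apply (s : Multiplicative ℤ) (f : ℤ → H) (n : ℤ) :
    (shiftAct H s).symm f n = f (n + s.toAdd) := rfl

/-- wreath product -/
abbrev Wr (H : Type*) [Group H] := (ℤ → H) ⋊[shiftAct H] Multiplicative ℤ

/-- generator -/
def tau : Wr H := SemidirectProduct.inr (Multiplicative.ofAdd 1)

/-- evaluation at `0` of elements of the base group -/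
theorem ev_mul (a b : Wr H) (ha : a.right = 1) : (a * b).left 0 = a.left 0 * b.left 0 := by
  simp [ha]

end wreath

/-! ## Bestvina-Brady group of `F₄ × F₄` -/

/-- `χ_X + χ_Y` -/
def chi2 : F4 × F4 →* Multiplicative ℤ := MonoidHom.coprod chi chi

@[simp] theorem chi2_apply (p q : F4) : chi2 (p, q) = chi p * chi q := rfl

/-- the Bestvina-Brady group -/
def BB : Subgroup (F4 × F4) := chi2.ker

theorem mem_BB (p q : F4) : (p, q) ∈ BB ↔ chi p * chi q = 1 := by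
  simp [BB, MonoidHom.mem_ker]

theorem a_mem_BB (i : Fin 4) : ((FreeGroup.of i * (FreeGroup.of 0)⁻¹, 1) : F4 × F4) ∈ BB := by
  simp [mem_BB]

theorem b_mem_BB (k : Fin 4) : (((FreeGroup.of 0)⁻¹, FreeGroup.of k) : F4 × F4) ∈ BB := by
  simp [mem_BB]

theorem c_mem_BB (i k : Fin 4) : (((FreeGroup.of i)⁻¹, FreeGroup.of k) : F4 × F4) ∈ BB := by
  simp [mem_BB]

section bblift
variable {H : Type*} [Group H] (x y : Fin 4 → H)

/-- `x_i ↦ (n ↦ y_0^n x_i y_0^{-n}, 1)` -/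
def hX : F4 →* Wr H :=
  FreeGroup.lift fun i => ⟨fun n => (y 0) ^ n * x i * (y 0) ^ (-n), Multiplicative.ofAdd 1⟩
/-- `y_k ↦ (const y_k, 1)` -/
def hY : F4 →* Wr H :=
  FreeGroup.lift fun k => ⟨fun _ => y k, Multiplicative.ofAdd 1⟩

variable {x y}

theorem conj_const (h0 : x 0 = 1) (hl : ∀ i j k l n, lam x y i j k l n = 1) (i k : Fin 4) (n : ℤ) :
    (y 0) ^ n * x i * (y 0) ^ (-n) = (y k) ^ n * x i * (y k) ^ (-n) := by
  have key : ∀ (k : Fin 4) (n : ℤ), (y k) ^ n * x i * (y k) ^ (-n) =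
      (Aw x y 0 k ^ n * (Aw x y i k ^ n)⁻¹) * (Aw x y 0 k ^ (n - 1) * (Aw x y i k ^ (n - 1))⁻¹)⁻¹ := by
    intro k n
    have e0 : Aw x y 0 k = y k := by simp [Aw, h0]
    have e1 : x i = (Aw x y i k)⁻¹ * y k := by simp [Aw]
    rw [e0]
    nth_rewrite 1 [e1]
    rw [zpow_sub_one, zpow_sub_one, zpow_neg]
    simp [mul_assoc]
  rw [key 0 n, key k n, (lam_eq_one_iff x y 0 i 0 k n).1 (hl _ _ _ _ _),
    (lam_eq_one_iff x y 0 i 0 k (n - 1)).1 (hl _ _ _ _ _)]

theorem hX_hY_commute (h0 : x 0 = 1) (hl : ∀ i j k l n, lam x y i j k l n = 1) (p q : F4) :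
    Commute (hX x y p) (hY y q) := by
  have gen : ∀ i k, Commute (hX x y (FreeGroup.of i)) (hY y (FreeGroup.of k)) := by
    intro i k
    rw [Commute, SemiconjBy, hX, hY, FreeGroup.lift_apply_of, FreeGroup.lift_apply_of]
    ext n
    · simp only [SemidirectProduct.mul_left, Pi.mul_apply, shiftAct_apply, toAdd_ofAdd]
      rw [conj_const h0 hl i k n, conj_const h0 hl i k (n - 1)]
      rw [zpow_sub_one, zpow_neg, zpow_neg, zpow_sub_one]
      have : y k * y k ^ n = y k ^ n * y k := (Commute.self_zpow _ _).eq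
      simp only [mul_inv_rev, inv_inv, mul_assoc]
      rw [← mul_assoc (y k) (y k ^ n), this]
      simp only [mul_assoc, mul_inv_cancel_left]
      have h2 : (y k ^ n)⁻¹ * y k = y k * (y k ^ n)⁻¹ := by
        have := (Commute.self_zpow (y k) (-n)).eq
        rw [zpow_neg] at this
        exact this.symm
      rw [h2]
    · simp
  have gen2 : ∀ i q, Commute (hX x y (FreeGroup.of i)) (hY y q) := by
    intro i q
    induction q using FreeGroup.induction_on with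
    | C1 => simp
    | of k => exact gen i k
    | inv_of k h => rw [map_inv]; exact h.inv_right
    | mul a b ha hb => rw [map_mul]; exact ha.mul_right hb
  induction p using FreeGroup.induction_on with
  | C1 => simp
  | of i => exact gen2 i q
  | inv_of i h => rw [map_inv]; exact h.inv_left
  | mul a b ha hb => rw [map_mul]; exact ha.mul_left hb

theorem hX_right (p : F4) : (hX x y p).right = chi p := by
  have : SemidirectProduct.rightHom.comp (hX x y) = chi := by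
    apply FreeGroup.ext_hom
    intro i
    simp [hX]
  exact DFunLike.congr_fun this p

theorem hY_right (q : F4) : (hY y q).right = chi q := by
  have : SemidirectProduct.rightHom.comp (hY y) = chi := by
    apply FreeGroup.ext_hom
    intro i
    simp [hY]
  exact DFunLike.congr_fun this q

/-- universal property of the Bestvina-Brady group (normalised form) -/
theorem bb_lift (h0 : x 0 = 1) (hl : ∀ i j k l n, lam x y i j k l n = 1) :
    ∃ f : BB →* H, (∀ i, f ⟨_, a_mem_BB i⟩ = x i) ∧ (∀ k, f ⟨_, b_mem_BB k⟩ = y k) := by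
  let Ψ : F4 × F4 →* Wr H := MonoidHom.noncommCoprod (hX x y) (hY y) (hX_hY_commute h0 hl)
  have hΨ : ∀ p q, Ψ (p, q) = hX x y p * hY y q := fun p q => rfl
  have hr : ∀ g : BB, (Ψ g).right = 1 := by
    rintro ⟨⟨p, q⟩, hg⟩
    rw [mem_BB] at hg
    simp [hΨ, hX_right, hY_right, hg]
  refine ⟨MonoidHom.mk' (fun g => (Ψ g).left 0) ?_, ?_, ?_⟩
  · intro a b
    simp only [Subgroup.coe_mul, map_mul]
    exact ev_mul _ _ (hr a)
  · intro i
    simp [hΨ, hX, h0, MonoidHom.mk'_apply]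
  · intro k
    simp [hΨ, hX, hY, h0, MonoidHom.mk'_apply]

/-- universal property of the Bestvina-Brady group (without normalisation) -/
theorem bb_lift' (hl : ∀ i j k l n, lam x y i j k l n = 1) :
    ∃ f : BB →* H, ∀ i k, f ⟨_, c_mem_BB i k⟩ = Aw x y i k := by
  have hA : ∀ i k, Aw (fun i => x i * (x 0)⁻¹) (fun k => y k * (x 0)⁻¹) i k = Aw x y i k := by
    intro i k
    simp [Aw]
  obtain ⟨f, hf1, hf2⟩ := bb_lift (x := fun i => x i * (x 0)⁻¹) (y := fun k => y k * (x 0)⁻¹)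
    (by simp) (by
      intro i j k l n
      have := hl i j k l n
      simpa only [lam, hA] using this)
  refine ⟨f, fun i k => ?_⟩
  have e : (⟨_, c_mem_BB i k⟩ : BB) = ⟨_, b_mem_BB k⟩ * (⟨_, a_mem_BB i⟩ : BB)⁻¹ := by
    apply Subtype.ext
    simp
  rw [e, map_mul, map_inv, hf1, hf2, ← hA]
  rfl

end bblift

/-! ### generation of Bestvina-Brady groups -/

/-- generators of the Bestvina-Brady group with index sets `I`, `K` -/
def TT (I K : Set (Fin 4)) : Subgroup (F4 × F4) :=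
  Subgroup.closure {g | ∃ i k, i ∈ I ∧ k ∈ K ∧ g = ((FreeGroup.of i)⁻¹, FreeGroup.of k)}

theorem TT_le_BB (I K : Set (Fin 4)) : TT I K ≤ BB := by
  rw [TT, Subgroup.closure_le]
  rintro g ⟨i, k, _, _, rfl⟩
  exact c_mem_BB i k

theorem mem_TT {I K : Set (Fin 4)} {i k : Fin 4} (hi : i ∈ I) (hk : k ∈ K) :
    ((FreeGroup.of i)⁻¹, FreeGroup.of k) ∈ TT I K :=
  Subgroup.subset_closure ⟨i, k, hi, hk, rfl⟩

theorem TT_conj {I K : Set (Fin 4)} {i₀ k₀ : Fin 4} (hi : i₀ ∈ I) (hk : k₀ ∈ K) (n : ℤ) (p : F4)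
    (h : (p, 1) ∈ TT I K) :
    (((FreeGroup.of i₀) ^ n * p * (FreeGroup.of i₀) ^ (-n), 1) : F4 × F4) ∈ TT I K := by
  have h1 := (TT I K).zpow_mem (mem_TT hi hk) (-n)
  have h2 := (TT I K).mul_mem ((TT I K).mul_mem h1 h) ((TT I K).inv_mem h1)
  have e : ((((FreeGroup.of i₀)⁻¹, FreeGroup.of k₀) : F4 × F4)) ^ (-n) * (p, 1) *
      ((((FreeGroup.of i₀)⁻¹, FreeGroup.of k₀) : F4 × F4) ^ (-n))⁻¹ =
      ((FreeGroup.of i₀) ^ n * p * (FreeGroup.of i₀) ^ (-n), 1) := by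
    ext <;> simp
  rwa [e] at h2

theorem q_part {I K : Set (Fin 4)} {i₀ : Fin 4} (hi : i₀ ∈ I) (q : F4)
    (hq : q ∈ Subgroup.closure {q : F4 | ∃ k, k ∈ K ∧ q = FreeGroup.of k}) :
    ((FreeGroup.of i₀) ^ (-(chi q).toAdd), q) ∈ TT I K := by
  induction hq using Subgroup.closure_induction with
  | mem q hq =>
    obtain ⟨k, hk', rfl⟩ := hq
    simpa using mem_TT hi hk'
  | one =>
    have : ((FreeGroup.of i₀) ^ (-(chi 1).toAdd), (1 : F4)) = 1 := by
      simp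
    rw [this]
    exact (TT I K).one_mem
  | mul a b _ _ ha hb =>
    have e : ((FreeGroup.of i₀) ^ (-(chi (a * b)).toAdd), a * b) =
        ((FreeGroup.of i₀) ^ (-(chi a).toAdd), a) * ((FreeGroup.of i₀) ^ (-(chi b).toAdd), b) := by
      rw [map_mul, toAdd_mul, neg_add, zpow_add]; rfl
    rw [e]
    exact (TT I K).mul_mem ha hb
  | inv a _ ha =>
    have e : ((FreeGroup.of i₀) ^ (-(chi (a⁻¹)).toAdd), a⁻¹) =
        ((FreeGroup.of i₀) ^ (-(chi a).toAdd), a)⁻¹ := by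
      rw [map_inv, toAdd_inv, zpow_neg, Prod.inv_mk]
    rw [e]
    exact (TT I K).inv_mem ha

theorem p_part {I K : Set (Fin 4)} {i₀ k₀ : Fin 4} (hi : i₀ ∈ I) (hk : k₀ ∈ K) (p : F4)
    (hp : p ∈ Subgroup.closure {p : F4 | ∃ i, i ∈ I ∧ p = FreeGroup.of i}) :
    (p * (FreeGroup.of i₀) ^ (-(chi p).toAdd), 1) ∈ TT I K := by
  induction hp using Subgroup.closure_induction with
  | mem p hp =>
    obtain ⟨i, hi', rfl⟩ := hp
    have h := (TT I K).mul_mem ((TT I K).inv_mem (mem_TT hi' hk)) (mem_TT hi hk)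
    simpa using h
  | one =>
    have : ((1 : F4) * (FreeGroup.of i₀) ^ (-(chi 1).toAdd), (1 : F4)) = 1 := by
      simp
    rw [this]
    exact (TT I K).one_mem
  | mul a b _ _ ha hb =>
    have hb' := TT_conj hi hk (chi a).toAdd _ hb
    have h := (TT I K).mul_mem ha hb'
    have e : (a * (FreeGroup.of i₀) ^ (-(chi a).toAdd), (1 : F4)) *
        ((FreeGroup.of i₀) ^ (chi a).toAdd * (b * (FreeGroup.of i₀) ^ (-(chi b).toAdd)) *
          (FreeGroup.of i₀) ^ (-(chi a).toAdd), 1) =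
        (a * b * (FreeGroup.of i₀) ^ (-(chi (a * b)).toAdd), 1) := by
      rw [map_mul, toAdd_mul, neg_add_rev, zpow_add]
      ext <;> simp [mul_assoc]
    rwa [e] at h
  | inv a _ ha =>
    have ha' := TT_conj hi hk (-(chi a).toAdd) _ ((TT I K).inv_mem ha)
    have e : ((FreeGroup.of i₀) ^ (-(chi a).toAdd) *
        ((a * (FreeGroup.of i₀) ^ (-(chi a).toAdd))⁻¹) *
          (FreeGroup.of i₀) ^ (-(-(chi a).toAdd)), (1 : F4)) =
        (a⁻¹ * (FreeGroup.of i₀) ^ (-(chi (a⁻¹)).toAdd), 1) := by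
      rw [map_inv, toAdd_inv]
      ext <;> simp [mul_assoc]
    rw [← e]
    simpa using ha'

theorem mem_TT_of {I K : Set (Fin 4)} {i₀ k₀ : Fin 4} (hi : i₀ ∈ I) (hk : k₀ ∈ K) (p q : F4)
    (hp : p ∈ Subgroup.closure {p : F4 | ∃ i, i ∈ I ∧ p = FreeGroup.of i})
    (hq : q ∈ Subgroup.closure {q : F4 | ∃ k, k ∈ K ∧ q = FreeGroup.of k})
    (h : chi p * chi q = 1) : (p, q) ∈ TT I K := by
  have h2 := (TT I K).mul_mem (p_part hi hk p hp) (q_part hi q hq)
  have e : (chi p).toAdd = - (chi q).toAdd := by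
    have := congrArg Multiplicative.toAdd h
    simp only [toAdd_mul, toAdd_one] at this
    omega
  simpa [e, mul_assoc] using h2

theorem closure_letters_univ :
    Subgroup.closure {p : F4 | ∃ i, i ∈ (Set.univ : Set (Fin 4)) ∧ p = FreeGroup.of i} = ⊤ := by
  rw [← FreeGroup.closure_range_of]
  congr 1
  ext p
  simp [Set.range, eq_comm]

/-! ## (N2) coordinates of `Nbar` in `F₄ × F₄` -/

/-- `F₄ × F₄ → Ω` -/
def inlP : F4 × F4 →* Om := MonoidHom.prodMap SemidirectProduct.inl SemidirectProduct.inl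

@[simp] theorem inlP_apply (p q : F4) :
    inlP (p, q) = (SemidirectProduct.inl p, SemidirectProduct.inl q) := rfl

theorem inlP_injective : Function.Injective inlP := by
  rintro ⟨p, q⟩ ⟨p', q'⟩ h
  simp only [inlP_apply, Prod.mk.injEq] at h
  exact Prod.ext (SemidirectProduct.inl_injective h.1) (SemidirectProduct.inl_injective h.2)

theorem toOm_mem_range (g : Nbar) : (toOm.comp Nbar.subtype) g ∈ inlP.range := by
  have h : Nbar ≤ inlP.range.comap toOm := by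
    rw [Nbar, Subgroup.closure_le]
    rintro g (⟨i, rfl⟩ | ⟨k, rfl⟩)
    · refine ⟨(FreeGroup.of i * (FreeGroup.of 0)⁻¹, 1), ?_⟩
      simp [omx]
    · refine ⟨((FreeGroup.of 0)⁻¹, FreeGroup.of k), ?_⟩
      simp [omy]
  exact h g.2

/-- the two coordinates of `Nbar` (the `S₄` parts are trivial on `Nbar`) -/
noncomputable def nXY : Nbar →* F4 × F4 :=
  (MonoidHom.ofInjective inlP_injective).symm.toMonoidHom.comp
    ((toOm.comp Nbar.subtype).codRestrict inlP.range toOm_mem_range)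

theorem inlP_nXY (g : Nbar) : inlP (nXY g) = toOm g := by
  have h := (MonoidHom.ofInjective inlP_injective).apply_symm_apply
    ((toOm.comp Nbar.subtype).codRestrict inlP.range toOm_mem_range g)
  exact congrArg Subtype.val h

theorem toOm_Nbar (g : Nbar) : toOm g =
    (SemidirectProduct.inl (nXY g).1, SemidirectProduct.inl (nXY g).2) := by
  rw [← inlP_nXY]
  rfl

theorem nXY_eq_of {g : Nbar} {p : F4 × F4} (h : toOm g = inlP p) : nXY g = p :=
  inlP_injective (by rw [inlP_nXY, h])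

theorem nXY_x (i : Fin 4) :
    nXY ⟨GG.x i, x_mem_Nbar i⟩ = (FreeGroup.of i * (FreeGroup.of 0)⁻¹, 1) :=
  nXY_eq_of (by simp [omx])

theorem nXY_y (k : Fin 4) :
    nXY ⟨GG.y k, y_mem_Nbar k⟩ = ((FreeGroup.of 0)⁻¹, FreeGroup.of k) :=
  nXY_eq_of (by simp [omy])

theorem nXY_A (i k : Fin 4) :
    nXY ⟨Aw GG.x GG.y i k, Aw_mem_Nbar i k⟩ = ((FreeGroup.of i)⁻¹, FreeGroup.of k) := by
  apply nXY_eq_of
  rw [map_Aw]
  simp only [toOm_x, toOm_y]
  rw [Aw_om]
  rfl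

theorem nbar_hom_ext {H : Type*} [Group H] {f g : Nbar →* H}
    (hx : ∀ i, f ⟨GG.x i, x_mem_Nbar i⟩ = g ⟨GG.x i, x_mem_Nbar i⟩)
    (hy : ∀ k, f ⟨GG.y k, y_mem_Nbar k⟩ = g ⟨GG.y k, y_mem_Nbar k⟩) : f = g := by
  have h : ∀ a (ha : a ∈ Nbar), f ⟨a, ha⟩ = g ⟨a, ha⟩ := by
    intro a ha
    induction ha using Subgroup.closure_induction with
    | mem a h =>
      rcases h with ⟨i, rfl⟩ | ⟨k, rfl⟩
      · exact hx i
      · exact hy k
    | one => exact (map_one f).trans (map_one g).symm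
    | mul a b ha' hb' ha hb =>
      have e1 : (⟨a * b, Nbar.mul_mem ha' hb'⟩ : Nbar) = ⟨a, ha'⟩ * ⟨b, hb'⟩ := rfl
      rw [e1, map_mul, map_mul, ha, hb]
    | inv a ha' ha =>
      have e1 : (⟨a⁻¹, Nbar.inv_mem ha'⟩ : Nbar) = (⟨a, ha'⟩ : Nbar)⁻¹ := rfl
      rw [e1, map_inv, map_inv, ha]
  ext ⟨a, ha⟩
  exact h a ha

theorem nXY_mem_BB (g : Nbar) : nXY g ∈ BB := by
  have h : chi2.comp nXY = 1 := by
    apply nbar_hom_ext
    · intro i
      simp [nXY_x]
    · intro k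
      simp [nXY_y]
  exact DFunLike.congr_fun h g

theorem nXY_injective : Function.Injective nXY := by
  obtain ⟨f, hf1, hf2⟩ := bb_lift (H := GG) (x := GG.x) (y := GG.y) GG.rel.x0 lam_eq_one
  have h : f.comp (nXY.codRestrict BB nXY_mem_BB) = Nbar.subtype := by
    apply nbar_hom_ext
    · intro i
      rw [MonoidHom.comp_apply]
      have : (nXY.codRestrict BB nXY_mem_BB) ⟨GG.x i, x_mem_Nbar i⟩ = ⟨_, a_mem_BB i⟩ :=
        Subtype.ext (nXY_x i)
      rw [this, hf1]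
      rfl
    · intro k
      rw [MonoidHom.comp_apply]
      have : (nXY.codRestrict BB nXY_mem_BB) ⟨GG.y k, y_mem_Nbar k⟩ = ⟨_, b_mem_BB k⟩ :=
        Subtype.ext (nXY_y k)
      rw [this, hf2]
      rfl
  intro a b hab
  apply Subtype.ext
  have ha := DFunLike.congr_fun h a
  have hb := DFunLike.congr_fun h b
  have e : (nXY.codRestrict BB nXY_mem_BB) a = (nXY.codRestrict BB nXY_mem_BB) b :=
    Subtype.ext hab
  rw [MonoidHom.comp_apply, e, ← MonoidHom.comp_apply, hb] at ha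
  exact ha.symm

/-- the image of `Nbar` is the Bestvina-Brady group of `F₄ × F₄` -/
theorem nXY_range (p q : F4) : (p, q) ∈ nXY.range ↔ chi p * chi q = 1 := by
  constructor
  · rintro ⟨g, hg⟩
    have := nXY_mem_BB g
    rwa [hg, mem_BB] at this
  · intro h
    have h1 := mem_TT_of (I := Set.univ) (K := Set.univ) (i₀ := 0) (k₀ := 0) trivial trivial p q
      (by rw [closure_letters_univ]; trivial) (by rw [closure_letters_univ]; trivial) h
    have h2 : TT Set.univ Set.univ ≤ nXY.range := by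
      rw [TT, Subgroup.closure_le]
      rintro g ⟨i, k, _, _, rfl⟩
      exact ⟨_, nXY_A i k⟩
    exact h2 h1

theorem toOm_injOn_Nbar (g : GG) (hg : g ∈ Nbar) (h : toOm g = 1) : g = 1 := by
  have h1 : nXY ⟨g, hg⟩ = 1 := nXY_eq_of (by simpa using h)
  have h2 := nXY_injective (h1.trans (map_one nXY).symm)
  exact congrArg Subtype.val h2

/-- `Qbar α` inside `Nbar` -/
theorem mem_Qbar_iff (α : Ltr) (g : Nbar) : (g : GG) ∈ Qbar α ↔
    (nXY g).1 ∈ Subgroup.closure {p : F4 | ∃ i, inX α i ∧ p = FreeGroup.of i} ∧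
    (nXY g).2 ∈ Subgroup.closure {q : F4 | ∃ k, inY α k ∧ q = FreeGroup.of k} := by
  constructor
  · obtain ⟨g, hg⟩ := g
    intro h
    change g ∈ Qbar α at h
    have key : ∀ (a : GG) (ha : a ∈ Qbar α) (ha' : a ∈ Nbar), (nXY ⟨a, ha'⟩).1 ∈
        Subgroup.closure {p : F4 | ∃ i, inX α i ∧ p = FreeGroup.of i} ∧
        (nXY ⟨a, ha'⟩).2 ∈ Subgroup.closure {q : F4 | ∃ k, inY α k ∧ q = FreeGroup.of k} := by
      intro a ha
      induction ha using Subgroup.closure_induction with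
      | mem a h =>
        obtain ⟨i, k, hi, hk, rfl⟩ := h
        intro _
        rw [nXY_A]
        exact ⟨Subgroup.inv_mem _ (Subgroup.subset_closure ⟨i, hi, rfl⟩),
          Subgroup.subset_closure ⟨k, hk, rfl⟩⟩
      | one =>
        intro h1
        have : (⟨1, h1⟩ : Nbar) = 1 := rfl
        rw [this, map_one]
        exact ⟨Subgroup.one_mem _, Subgroup.one_mem _⟩
      | mul a b ha' hb' ha hb =>
        intro h1
        have ea := Qbar_le_Nbar α ha'
        have eb := Qbar_le_Nbar α hb'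
        have : (⟨a * b, h1⟩ : Nbar) = ⟨a, ea⟩ * ⟨b, eb⟩ := rfl
        rw [this, map_mul]
        exact ⟨Subgroup.mul_mem _ (ha ea).1 (hb eb).1, Subgroup.mul_mem _ (ha ea).2 (hb eb).2⟩
      | inv a ha' ha =>
        intro h1
        have ea := Qbar_le_Nbar α ha'
        have : (⟨a⁻¹, h1⟩ : Nbar) = (⟨a, ea⟩ : Nbar)⁻¹ := rfl
        rw [this, map_inv]
        exact ⟨Subgroup.inv_mem _ (ha ea).1, Subgroup.inv_mem _ (ha ea).2⟩
    exact key g h hg
  · rintro ⟨h1, h2⟩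
    have h3 := nXY_mem_BB g
    have h4 : (nXY g) = ((nXY g).1, (nXY g).2) := rfl
    rw [h4, mem_BB] at h3
    have h5 := mem_TT_of (I := {i | inX α i}) (K := {k | inY α k}) (inX1 α) (inY1 α) _ _ h1 h2 h3
    have h6 : TT {i | inX α i} {k | inY α k} ≤ ((Qbar α).comap Nbar.subtype).map nXY := by
      rw [TT, Subgroup.closure_le]
      rintro g ⟨i, k, hi, hk, rfl⟩
      exact ⟨⟨_, Aw_mem_Nbar i k⟩, Aw_mem_Qbar hi hk, nXY_A i k⟩
    obtain ⟨g', hg', e⟩ := h6 h5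
    have := nXY_injective e
    rw [← this]
    exact hg'

/-! ## (N3) universal properties -/

theorem nbar_lift {H : Type*} [Group H] (x y : Fin 4 → H) (h0 : x 0 = 1)
    (hl : ∀ i j k l n, lam x y i j k l n = 1) :
    ∃ f : Nbar →* H, (∀ i, f ⟨GG.x i, x_mem_Nbar i⟩ = x i) ∧
      (∀ k, f ⟨GG.y k, y_mem_Nbar k⟩ = y k) := by
  obtain ⟨f, hf1, hf2⟩ := bb_lift h0 hl
  refine ⟨f.comp (nXY.codRestrict BB nXY_mem_BB), fun i => ?_, fun k => ?_⟩
  · rw [MonoidHom.comp_apply]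
    have : (nXY.codRestrict BB nXY_mem_BB) ⟨GG.x i, x_mem_Nbar i⟩ = ⟨_, a_mem_BB i⟩ :=
      Subtype.ext (nXY_x i)
    rw [this, hf1]
  · rw [MonoidHom.comp_apply]
    have : (nXY.codRestrict BB nXY_mem_BB) ⟨GG.y k, y_mem_Nbar k⟩ = ⟨_, b_mem_BB k⟩ :=
      Subtype.ext (nXY_y k)
    rw [this, hf2]

theorem nbar_lift' {H : Type*} [Group H] (x y : Fin 4 → H)
    (hl : ∀ i j k l n, lam x y i j k l n = 1) :
    ∃ f : Nbar →* H, ∀ i k, f ⟨Aw GG.x GG.y i k, Aw_mem_Nbar i k⟩ = Aw x y i k := by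
  obtain ⟨f, hf⟩ := bb_lift' hl
  refine ⟨f.comp (nXY.codRestrict BB nXY_mem_BB), fun i k => ?_⟩
  rw [MonoidHom.comp_apply]
  have : (nXY.codRestrict BB nXY_mem_BB) ⟨_, Aw_mem_Nbar i k⟩ = ⟨_, c_mem_BB i k⟩ :=
    Subtype.ext (nXY_A i k)
  rw [this, hf]

end Crest.Agent.R197
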