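import Mathlib
import Crest.Agent.R197.StructA

/-!
# Row 197, module N: structure of `Nbar`, `Qbar α`, `KK` in `G` and trees (second half)
-/

set_option autoImplicit false

namespace Crest.Agent.R197

theorem x1_ne_x2 (α : Ltr) : x1 α ≠ x2 α := by revert α; decide
theorem y1_ne_y2 (α : Ltr) : y1 α ≠ y2 α := by revert α; decide

theorem qbar_lift {H : Type*} [Group H] (α : Ltr) (a : Fin 4 → Fin 4 → H)
    (ha : a (x2 α) (y2 α) = a (x1 α) (y2 α) * (a (x1 α) (y1 α))⁻¹ * a (x2 α) (y1 α))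
    (hl : ∀ n : ℤ, (a (x1 α) (y1 α)) ^ n * (a (x2 α) (y1 α)) ^ (-n) *
      (a (x2 α) (y2 α)) ^ n * (a (x1 α) (y2 α)) ^ (-n) = 1) :
    ∃ f : Qbar α →* H, ∀ (i k : Fin 4) (hi : inX α i) (hk : inY α k),
      f ⟨Aw GG.x GG.y i k, Aw_mem_Qbar hi hk⟩ = a i k := by
  have hx12 := x1_ne_x2 α
  have hy12 := y1_ne_y2 α
  generalize hi0 : x1 α = i₀ at *
  generalize hj0 : x2 α = j₀ at *
  generalize hk0 : y1 α = k₀ at *
  generalize hl0 : y2 α = l₀ at *
  set x' : Fin 4 → H := fun m => if m = j₀ then (a j₀ k₀)⁻¹ * a i₀ k₀ else 1 with hx'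
  set y' : Fin 4 → H := fun m => if m = l₀ then a i₀ l₀ else a i₀ k₀ with hy'
  have hA : ∀ p m, Aw x' y' p m = if p = j₀ then (if m = l₀ then a j₀ l₀ else a j₀ k₀) else
      (if m = l₀ then a i₀ l₀ else a i₀ k₀) := by
    intro p m
    by_cases h1 : p = j₀ <;> by_cases h2 : m = l₀ <;> simp [Aw, hx', hy', h1, h2, ha, mul_assoc]
  have base : ∀ n : ℤ, a i₀ k₀ ^ n * (a j₀ k₀ ^ n)⁻¹ = a i₀ l₀ ^ n * (a j₀ l₀ ^ n)⁻¹ := by
    intro n
    have := (sq_iff (fun i k => a i k ^ n) i₀ j₀ k₀ l₀).1 (by simpa using hl n)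
    exact this
  have base' : ∀ n : ℤ, a j₀ k₀ ^ n * (a i₀ k₀ ^ n)⁻¹ = a j₀ l₀ ^ n * (a i₀ l₀ ^ n)⁻¹ := by
    intro n
    have := congrArg (·⁻¹) (base n)
    simpa using this
  obtain ⟨f, hf⟩ := nbar_lift' x' y' (by
    intro i j k l n
    rw [lam_eq_one_iff]
    simp only [hA]
    by_cases h1 : i = j₀ <;> by_cases h2 : j = j₀ <;> by_cases h3 : k = l₀ <;>
      by_cases h4 : l = l₀ <;> simp only [h1, h2, h3, h4, if_true, if_false, mul_inv_cancel]
    · exact (base' n).symm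
    · exact base' n
    · exact (base n).symm
    · exact base n)
  refine ⟨f.comp (Subgroup.inclusion (Qbar_le_Nbar α)), ?_⟩
  intro i k hi hk
  have e : (f.comp (Subgroup.inclusion (Qbar_le_Nbar α)))
      ⟨Aw GG.x GG.y i k, Aw_mem_Qbar hi hk⟩ = f ⟨Aw GG.x GG.y i k, Aw_mem_Nbar i k⟩ := rfl
  rw [e, hf, hA]
  unfold inX at hi
  unfold inY at hk
  rw [hi0, hj0] at hi
  rw [hk0, hl0] at hk
  rcases hi with rfl | rfl <;> rcases hk with rfl | rfl <;> simp [hx12, hy12]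

theorem Lam_eq (i k : Fin 4) (n : ℤ) :
    Lam i n = (Aw GG.x GG.y 0 k) ^ n * (Aw GG.x GG.y i k) ^ (-n) := by
  have h := (lam_eq_one_iff GG.x GG.y 0 i 0 k n).1 (lam_eq_one _ _ _ _ _)
  rw [Lam, zpow_neg, zpow_neg, h]

theorem Lam_zero_left (n : ℤ) : Lam 0 n = 1 := by
  rw [Lam, zpow_neg, mul_inv_cancel]

theorem Lam_zero_right (i : Fin 4) : Lam i 0 = 1 := by
  simp [Lam]

theorem Aw_zero (k : Fin 4) : Aw GG.x GG.y 0 k = GG.y k := by
  simp [Aw, GG.rel.x0]

theorem Lam_neg_one (i : Fin 4) : Lam i (-1) = (GG.x i)⁻¹ := by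
  rw [Lam, Aw_zero]
  simp [Aw]

theorem Lam_conj (i k : Fin 4) (n : ℤ) :
    GG.y k * Lam i n * (GG.y k)⁻¹ = Lam i (n + 1) * (Lam i 1)⁻¹ := by
  rw [Lam_eq i k n, Lam_eq i k (n + 1), Lam_eq i k 1, Aw_zero]
  have e1 : GG.y k ^ (n + 1) = GG.y k * GG.y k ^ n := by
    rw [add_comm, zpow_one_add]
  have e2 : Aw GG.x GG.y i k ^ (-(n + 1)) = Aw GG.x GG.y i k ^ (-n) * (Aw GG.x GG.y i k)⁻¹ := by
    rw [neg_add, ← sub_eq_add_neg, zpow_sub_one]
  rw [e1, e2]
  simp [mul_assoc]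

theorem Lam_mem_KK (i : Fin 4) (n : ℤ) : Lam i n ∈ KK := Subgroup.subset_closure ⟨i, n, rfl⟩

theorem nXY_Lam (i : Fin 4) (n : ℤ) : nXY ⟨Lam i n, Lam_mem_Nbar i n⟩ =
    ((FreeGroup.of 0) ^ (-n) * (FreeGroup.of i) ^ n, 1) := by
  have e : (⟨Lam i n, Lam_mem_Nbar i n⟩ : Nbar) =
      ⟨Aw GG.x GG.y 0 0, Aw_mem_Nbar 0 0⟩ ^ n * ⟨Aw GG.x GG.y i 0, Aw_mem_Nbar i 0⟩ ^ (-n) := by
    apply Subtype.ext
    rfl
  rw [e, map_mul, map_zpow, map_zpow, nXY_A, nXY_A]
  ext <;> simp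

theorem KK_le_ker : KK ≤ ((MonoidHom.snd F4 F4).comp nXY).ker.map Nbar.subtype := by
  rw [KK, Subgroup.closure_le]
  rintro g ⟨i, n, rfl⟩
  refine ⟨⟨Lam i n, Lam_mem_Nbar i n⟩, ?_, rfl⟩
  simp only [SetLike.mem_coe, MonoidHom.mem_ker, MonoidHom.comp_apply, nXY_Lam]
  rfl

theorem nXY_snd_of_mem_KK {g : GG} (hg : g ∈ KK) (hg' : g ∈ Nbar) : (nXY ⟨g, hg'⟩).2 = 1 := by
  obtain ⟨g', h1, h2⟩ := KK_le_ker hg
  have e : g' = ⟨g, hg'⟩ := Subtype.ext h2
  rw [← e]
  exact h1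

/-- `ker χ` on `F₄`, by generators -/
def L0 : Subgroup F4 := Subgroup.closure {p | ∃ (i : Fin 4) (n : ℤ), p = (FreeGroup.of 0) ^ (-n) * (FreeGroup.of i) ^ n}

theorem L0_conj (m : ℤ) {p : F4} (hp : p ∈ L0) :
    (FreeGroup.of 0) ^ (-m) * p * (FreeGroup.of 0) ^ m ∈ L0 := by
  induction hp using Subgroup.closure_induction with
  | mem p h =>
    obtain ⟨i, n, rfl⟩ := h
    have h1 : (FreeGroup.of 0) ^ (-(n + m)) * (FreeGroup.of i) ^ (n + m) ∈ L0 :=
      Subgroup.subset_closure ⟨i, _, rfl⟩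
    have h2 : (FreeGroup.of 0) ^ (-m) * (FreeGroup.of i) ^ m ∈ L0 :=
      Subgroup.subset_closure ⟨i, _, rfl⟩
    have h3 := L0.mul_mem h1 (L0.inv_mem h2)
    have e : (FreeGroup.of 0 : F4) ^ (-(n + m)) * (FreeGroup.of i) ^ (n + m) *
        ((FreeGroup.of 0) ^ (-m) * (FreeGroup.of i) ^ m)⁻¹ =
        (FreeGroup.of 0) ^ (-m) * ((FreeGroup.of 0) ^ (-n) * (FreeGroup.of i) ^ n) *
          (FreeGroup.of 0) ^ m := by
      rw [neg_add_rev, zpow_add, zpow_add, mul_inv_rev, zpow_neg _ m, inv_inv]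
      simp [mul_assoc]
    rwa [e] at h3
  | one => simp
  | mul a b _ _ ha hb =>
    have e : (FreeGroup.of 0 : F4) ^ (-m) * (a * b) * (FreeGroup.of 0) ^ m =
        ((FreeGroup.of 0) ^ (-m) * a * (FreeGroup.of 0) ^ m) *
        ((FreeGroup.of 0) ^ (-m) * b * (FreeGroup.of 0) ^ m) := by
      rw [zpow_neg]
      simp [mul_assoc]
    rw [e]
    exact L0.mul_mem ha hb
  | inv a _ ha =>
    have e : (FreeGroup.of 0 : F4) ^ (-m) * a⁻¹ * (FreeGroup.of 0) ^ m =
        ((FreeGroup.of 0) ^ (-m) * a * (FreeGroup.of 0) ^ m)⁻¹ := by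
      rw [zpow_neg]
      simp [mul_assoc]
    rw [e]
    exact L0.inv_mem ha

theorem L0_all (p : F4) : p * (FreeGroup.of 0) ^ (-(chi p).toAdd) ∈ L0 := by
  induction p using FreeGroup.induction_on with
  | C1 => simp
  | of i =>
    have h : (FreeGroup.of 0) ^ (-(-1 : ℤ)) * (FreeGroup.of i) ^ (-1 : ℤ) ∈ L0 :=
      Subgroup.subset_closure ⟨i, _, rfl⟩
    have h2 := L0.inv_mem h
    simpa using h2
  | inv_of i h =>
    have h : (FreeGroup.of 0) ^ (-(1 : ℤ)) * (FreeGroup.of i) ^ (1 : ℤ) ∈ L0 :=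
      Subgroup.subset_closure ⟨i, _, rfl⟩
    have h2 := L0_conj 0 (L0.inv_mem h)
    simpa using h2
  | mul a b ha hb =>
    have hb' := L0_conj (-(chi a).toAdd) hb
    have h := L0.mul_mem ha hb'
    have e : a * (FreeGroup.of 0) ^ (-(chi a).toAdd) *
        ((FreeGroup.of 0) ^ (-(-(chi a).toAdd)) * (b * (FreeGroup.of 0) ^ (-(chi b).toAdd)) *
          (FreeGroup.of 0) ^ (-(chi a).toAdd)) =
        (a * b * (FreeGroup.of 0) ^ (-(chi (a * b)).toAdd)) := by
      rw [map_mul, toAdd_mul, neg_add_rev, zpow_add, neg_neg, zpow_neg _ (chi a).toAdd]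
      simp [mul_assoc]
    rwa [e] at h

theorem mem_L0 {p : F4} (h : chi p = 1) : p ∈ L0 := by
  have := L0_all p
  simpa [h] using this

theorem mem_KK_iff (g : Nbar) : (g : GG) ∈ KK ↔ (nXY g).2 = 1 := by
  constructor
  · intro h
    exact nXY_snd_of_mem_KK h g.2
  · intro h
    have h3 := nXY_mem_BB g
    have h4 : (nXY g) = ((nXY g).1, (nXY g).2) := rfl
    rw [h4, mem_BB, h, map_one, mul_one] at h3
    have h5 : L0.map (MonoidHom.inl F4 F4) ≤ (KK.comap Nbar.subtype).map nXY := by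
      rw [L0, MonoidHom.map_closure, Subgroup.closure_le]
      rintro _ ⟨_, ⟨i, n, rfl⟩, rfl⟩
      exact ⟨⟨_, Lam_mem_Nbar i n⟩, Lam_mem_KK i n, nXY_Lam i n⟩
    obtain ⟨g', hg', e⟩ := h5 (Subgroup.mem_map_of_mem _ (mem_L0 h3))
    have e2 : nXY g' = nXY g := by
      rw [e, h4, h]
      rfl
    have := nXY_injective e2
    rw [← this]
    exact hg'

section KKlift
variable {H : Type*} [Group H]

/-- `F₄ → Wr H`, `i ↦ w_i τ w_i⁻¹` -/
def hK (w : Fin 4 → ℤ → H) : F4 →* Wr H :=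
  FreeGroup.lift fun i => SemidirectProduct.inl (w i) * tau * (SemidirectProduct.inl (w i))⁻¹

theorem hK_right (w : Fin 4 → ℤ → H) (p : F4) : (hK w p).right = chi p := by
  have : SemidirectProduct.rightHom.comp (hK w) = chi := by
    apply FreeGroup.ext_hom
    intro i
    simp [hK, tau]
  exact DFunLike.congr_fun this p

theorem tau_zpow (n : ℤ) : (tau : Wr H) ^ n = SemidirectProduct.inr (Multiplicative.ofAdd n) := by
  rw [tau, ← map_zpow, ← ofAdd_zsmul]
  simp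

theorem hK_left (w : Fin 4 → ℤ → H) (h0 : ∀ n, w 0 n = 1) (h0' : ∀ i, w i 0 = 1) (i : Fin 4)
    (n : ℤ) : (hK w ((FreeGroup.of 0) ^ (-n) * (FreeGroup.of i) ^ n)).left 0 = w i n := by
  have hw : w 0 = 1 := funext h0
  have e1 : hK w (FreeGroup.of 0) = tau := by
    simp [hK, hw]
  have e2 : hK w (FreeGroup.of i) ^ n =
      SemidirectProduct.inl (w i) * tau ^ n * (SemidirectProduct.inl (w i))⁻¹ := by
    rw [hK, FreeGroup.lift_apply_of, conj_zpow]
  rw [map_mul, map_zpow, map_zpow, e1, e2, tau_zpow, tau_zpow, ← map_inv]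
  simp [h0']

end KKlift

/-- `KK` is free on the `Λ_n^i`, `i ≠ 0`, `n ≠ 0` -/
theorem KK_lift {H : Type*} [Group H] (w : Fin 4 → ℤ → H) (h0 : ∀ n, w 0 n = 1)
    (h0' : ∀ i, w i 0 = 1) :
    ∃ f : KK →* H, ∀ i n, f ⟨Lam i n, Lam_mem_KK i n⟩ = w i n := by
  let ι : KK →* Nbar := Subgroup.inclusion KK_le_Nbar
  have hr : ∀ g : KK, (hK w (nXY (ι g)).1).right = 1 := by
    intro g
    rw [hK_right]
    have h1 : (nXY (ι g)).2 = 1 := nXY_snd_of_mem_KK g.2 _
    have h3 := nXY_mem_BB (ι g)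
    have h4 : (nXY (ι g)) = ((nXY (ι g)).1, (nXY (ι g)).2) := rfl
    rw [h4, mem_BB, h1, map_one, mul_one] at h3
    exact h3
  refine ⟨MonoidHom.mk' (fun g => (hK w (nXY (ι g)).1).left 0) ?_, ?_⟩
  · intro a b
    simp only [map_mul, Prod.fst_mul]
    exact ev_mul _ _ (hr a)
  · intro i n
    have e : ι ⟨Lam i n, Lam_mem_KK i n⟩ = ⟨Lam i n, Lam_mem_Nbar i n⟩ := rfl
    simp only [MonoidHom.mk'_apply, e, nXY_Lam]
    exact hK_left w h0 h0' i n

/-! ## (N4) trees -/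

theorem gen_GG : Subgroup.closure ((Nbar : Set GG) ∪ Set.range GG.r) = ⊤ := by
  rw [eq_top_iff, ← PresentedGroup.closure_range_of, Subgroup.closure_le]
  rintro _ ⟨g, rfl⟩
  apply Subgroup.subset_closure
  rcases g with i | k | α
  · exact Or.inl (x_mem_Nbar i)
  · exact Or.inl (y_mem_Nbar k)
  · exact Or.inr ⟨α, rfl⟩

/-- action by right translation on functions -/
def regAct (Γ H : Type*) [Group Γ] [Group H] : Γ →* MulAut (Γ → H) where
  toFun g :=
    { toFun := fun u h => u (h * g)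
      invFun := fun u h => u (h * g⁻¹)
      left_inv := fun u => by funext h; simp
      right_inv := fun u => by funext h; simp
      map_mul' := fun u v => rfl }
  map_one' := by ext u h; simp
  map_mul' s t := by
    ext u h
    simp [mul_assoc]

@[simp] theorem regAct_apply {Γ H : Type*} [Group Γ] [Group H] (g : Γ) (u : Γ → H) (h : Γ) :
    regAct Γ H g u h = u (h * g) := rfl

/-- the tree with vertices `G/Nbar` and edges `⨆ α, G/Qbar α`, `g Qbar α` from `g Nbar` to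
`g r_α Nbar`, is acyclic -/
theorem tree_acyclic {H : Type*} [Group H] (f : Ltr → GG → H)
    (hf : ∀ α g q, q ∈ Qbar α → f α (g * q) = f α g) :
    ∃ F : GG → H, (∀ g n, n ∈ Nbar → F (g * n) = F g) ∧
      ∀ α g, F (g * GG.r α) = F g * f α g := by
  let x' : Fin 4 → (GG → H) ⋊[regAct GG H] GG := fun i => SemidirectProduct.inr (GG.x i)
  let y' : Fin 4 → (GG → H) ⋊[regAct GG H] GG := fun k => SemidirectProduct.inr (GG.y k)
  let r' : Ltr → (GG → H) ⋊[regAct GG H] GG := fun α => ⟨f α, GG.r α⟩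
  have hA : ∀ i k, Aw x' y' i k = SemidirectProduct.inr (Aw GG.x GG.y i k) := fun i k =>
    (map_Aw _ _ _ _ _).symm
  have hB : ∀ i k, Bw x' y' i k = SemidirectProduct.inr (Bw GG.x GG.y i k) := fun i k =>
    (map_Bw _ _ _ _ _).symm
  have hL : ∀ i j k l n, lam x' y' i j k l n = 1 := by
    intro i j k l n
    have : lam x' y' i j k l n = SemidirectProduct.inr (lam GG.x GG.y i j k l n) :=
      (map_lam _ _ _ _ _ _ _ _).symm
    rw [this, lam_eq_one, map_one]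
  have hrel : RelG x' y' r' := by
    refine { x0 := ?_, hex := ?_, la := fun n => hL _ _ _ _ _, lb := fun n => hL _ _ _ _ _ }
    · simp [x', GG.rel.x0]
    · intro α i k hi hk
      rw [hA, hB]
      refine SemidirectProduct.ext ?_ ?_
      · funext h
        simp only [r', SemidirectProduct.mul_left, SemidirectProduct.left_inr,
          SemidirectProduct.right_inr, one_mul, regAct_apply, map_one, mul_one]
        exact hf α h _ (Aw_mem_Qbar hi hk)
      · exact GG.rel.hex α i k hi hk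
  let D := GG.lift hrel
  have hDr : ∀ g, (D g).right = g := by
    intro g
    have : SemidirectProduct.rightHom.comp D = MonoidHom.id GG := by
      apply GG.hom_ext
      · intro i; simp [D, x']
      · intro i; simp [D, y']
      · intro i; simp [D, r']
    exact DFunLike.congr_fun this g
  have hDN : Nbar ≤ D.eqLocus SemidirectProduct.inr := by
    rw [Nbar, Subgroup.closure_le]
    rintro _ (⟨i, rfl⟩ | ⟨k, rfl⟩)
    · exact GG.lift_x hrel i
    · exact GG.lift_y hrel k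
  refine ⟨fun g => (D g).left 1, ?_, ?_⟩
  · intro g n hn
    have : D n = SemidirectProduct.inr n := hDN hn
    simp [map_mul, this]
  · intro α g
    have h : D (GG.r α) = r' α := GG.lift_r hrel α
    simp only [map_mul, h, r', SemidirectProduct.mul_left, Pi.mul_apply, regAct_apply, hDr, one_mul]

theorem cayley_acyclic {H : Type*} [Group H] (f : Fin 4 → F4 → H) :
    ∃ F : F4 → H, ∀ i p, F (p * FreeGroup.of i) = F p * f i p := by
  let D : F4 →* (F4 → H) ⋊[regAct F4 H] F4 := FreeGroup.lift fun i => ⟨f i, FreeGroup.of i⟩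
  have hDr : ∀ g, (D g).right = g := by
    intro g
    have : SemidirectProduct.rightHom.comp D = MonoidHom.id F4 := by
      apply FreeGroup.ext_hom
      intro i
      simp [D]
    exact DFunLike.congr_fun this g
  refine ⟨fun g => (D g).left 1, ?_⟩
  intro i p
  have h : D (FreeGroup.of i) = ⟨f i, FreeGroup.of i⟩ := FreeGroup.lift_apply_of
  simp only [map_mul, h, SemidirectProduct.mul_left, Pi.mul_apply, regAct_apply, hDr, one_mul]

end Crest.Agent.R197
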