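import Mathlib
import Crest.Agent.R197.StructDefs

/-!
# Row 197, module N: INTERFACE (sorried). The proofs will be in `Struct.lean` with the same names.
Consumers: develop against this file, switch the import to `Crest.Agent.R197.Struct` at the end.
-/

set_option autoImplicit false

namespace Crest.Agent.R197

/-! ## words (arbitrary groups) -/

theorem lam_zero {H : Type*} [Group H] (x y : Fin 4 → H) (i j k l : Fin 4) :
    lam x y i j k l 0 = 1 := by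
  sorry

/-- (L1) -/
theorem Bw_word {H : Type*} [Group H] (x y : Fin 4 → H) (i j k l : Fin 4) (n : ℤ) :
    (Bw x y i k) ^ n * (Bw x y j k) ^ (-n) * (Bw x y j l) ^ n * (Bw x y i l) ^ (-n) =
      (x i)⁻¹ * lam x y i j k l (n - 1) * x i := by
  sorry

/-! ## (N1) -/

theorem lam_eq_one (i j k l : Fin 4) (n : ℤ) : lam GG.x GG.y i j k l n = 1 := by
  sorry

theorem r_conj {α : Ltr} {i k : Fin 4} (hi : inX α i) (hk : inY α k) :
    (GG.r α)⁻¹ * Aw GG.x GG.y i k * GG.r α = Bw GG.x GG.y (pX α i) (pY α k) := by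
  sorry

theorem Qbar_conj_mem {α : Ltr} {q : GG} (hq : q ∈ Qbar α) :
    (GG.r α)⁻¹ * q * GG.r α ∈ Nbar := by
  sorry

/-! ## (N2) coordinates of `Nbar` in `F₄ × F₄` -/

/-- the two coordinates of `Nbar` (the `S₄` parts are trivial on `Nbar`) -/
noncomputable def nXY : Nbar →* F4 × F4 := by
  sorry

theorem toOm_Nbar (g : Nbar) : toOm g =
    (SemidirectProduct.inl (nXY g).1, SemidirectProduct.inl (nXY g).2) := by
  sorry

theorem nXY_x (i : Fin 4) : nXY ⟨GG.x i, x_mem_Nbar i⟩ = (FreeGroup.of i * (FreeGroup.of 0)⁻¹, 1) := by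
  sorry

theorem nXY_y (k : Fin 4) : nXY ⟨GG.y k, y_mem_Nbar k⟩ = ((FreeGroup.of 0)⁻¹, FreeGroup.of k) := by
  sorry

theorem nXY_injective : Function.Injective nXY := by
  sorry

/-- the image of `Nbar` is the Bestvina-Brady group of `F₄ × F₄` -/
theorem nXY_range (p q : F4) : (p, q) ∈ nXY.range ↔ chi p * chi q = 1 := by
  sorry

theorem toOm_injOn_Nbar (g : GG) (hg : g ∈ Nbar) (h : toOm g = 1) : g = 1 := by
  sorry

/-- `Qbar α` inside `Nbar` -/
theorem mem_Qbar_iff (α : Ltr) (g : Nbar) : (g : GG) ∈ Qbar α ↔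
    (nXY g).1 ∈ Subgroup.closure {p : F4 | ∃ i, inX α i ∧ p = FreeGroup.of i} ∧
    (nXY g).2 ∈ Subgroup.closure {q : F4 | ∃ k, inY α k ∧ q = FreeGroup.of k} := by
  sorry

/-! ## (N3) universal properties -/

theorem nbar_lift {H : Type*} [Group H] (x y : Fin 4 → H) (h0 : x 0 = 1)
    (hl : ∀ i j k l n, lam x y i j k l n = 1) :
    ∃ f : Nbar →* H, (∀ i, f ⟨GG.x i, x_mem_Nbar i⟩ = x i) ∧
      (∀ k, f ⟨GG.y k, y_mem_Nbar k⟩ = y k) := by
  sorry

theorem qbar_lift {H : Type*} [Group H] (α : Ltr) (a : Fin 4 → Fin 4 → H)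
    (ha : a (x2 α) (y2 α) = a (x1 α) (y2 α) * (a (x1 α) (y1 α))⁻¹ * a (x2 α) (y1 α))
    (hl : ∀ n : ℤ, (a (x1 α) (y1 α)) ^ n * (a (x2 α) (y1 α)) ^ (-n) *
      (a (x2 α) (y2 α)) ^ n * (a (x1 α) (y2 α)) ^ (-n) = 1) :
    ∃ f : Qbar α →* H, ∀ (i k : Fin 4) (hi : inX α i) (hk : inY α k),
      f ⟨Aw GG.x GG.y i k, Aw_mem_Qbar hi hk⟩ = a i k := by
  sorry

theorem Lam_eq (i k : Fin 4) (n : ℤ) :
    Lam i n = (Aw GG.x GG.y 0 k) ^ n * (Aw GG.x GG.y i k) ^ (-n) := by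
  sorry

theorem Lam_zero_left (n : ℤ) : Lam 0 n = 1 := by
  sorry

theorem Lam_zero_right (i : Fin 4) : Lam i 0 = 1 := by
  sorry

theorem Lam_neg_one (i : Fin 4) : Lam i (-1) = (GG.x i)⁻¹ := by
  sorry

theorem Lam_conj (i k : Fin 4) (n : ℤ) :
    GG.y k * Lam i n * (GG.y k)⁻¹ = Lam i (n + 1) * (Lam i 1)⁻¹ := by
  sorry

theorem Lam_mem_KK (i : Fin 4) (n : ℤ) : Lam i n ∈ KK := Subgroup.subset_closure ⟨i, n, rfl⟩

/-- `KK` is free on the `Λ_n^i`, `i ≠ 0`, `n ≠ 0` -/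
theorem KK_lift {H : Type*} [Group H] (w : Fin 4 → ℤ → H) (h0 : ∀ n, w 0 n = 1)
    (h0' : ∀ i, w i 0 = 1) :
    ∃ f : KK →* H, ∀ i n, f ⟨Lam i n, Lam_mem_KK i n⟩ = w i n := by
  sorry

theorem mem_KK_iff (g : Nbar) : (g : GG) ∈ KK ↔ (nXY g).2 = 1 := by
  sorry

/-! ## (N4) trees -/

theorem gen_GG : Subgroup.closure ((Nbar : Set GG) ∪ Set.range GG.r) = ⊤ := by
  sorry

/-- the tree with vertices `G/Nbar` and edges `⨆ α, G/Qbar α`, `g Qbar α` from `g Nbar` to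
`g r_α Nbar`, is acyclic -/
theorem tree_acyclic {H : Type*} [Group H] (f : Ltr → GG → H)
    (hf : ∀ α g q, q ∈ Qbar α → f α (g * q) = f α g) :
    ∃ F : GG → H, (∀ g n, n ∈ Nbar → F (g * n) = F g) ∧
      ∀ α g, F (g * GG.r α) = F g * f α g := by
  sorry

theorem cayley_acyclic {H : Type*} [Group H] (f : Fin 4 → F4 → H) :
    ∃ F : F4 → H, ∀ i p, F (p * FreeGroup.of i) = F p * f i p := by
  sorry

end Crest.Agent.R197
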