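import Mathlib
import Crest.Agent.R197.Defs

/-! Row 197, module F'1: finite subpresentations. -/

set_option autoImplicit false

namespace Crest.Agent.R197

section SubPres

variable {I J : Type}

/-- every word uses only finitely many letters -/
theorem exists_support (w : FreeGroup I) :
    ∃ I₀ : Finset I, ∀ I' : Finset I, I₀ ⊆ I' →
      ∃ w' : FreeGroup I', FreeGroup.map Subtype.val w' = w := by
  classical
  induction w using FreeGroup.induction_on with
  | C1 => exact ⟨∅, fun I' _ => ⟨1, map_one _⟩⟩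
  | of x =>
    refine ⟨{x}, fun I' h => ⟨FreeGroup.of ⟨x, h (Finset.mem_singleton_self x)⟩, ?_⟩⟩
    simp
  | inv_of x ih =>
    obtain ⟨I₀, h₀⟩ := ih
    refine ⟨I₀, fun I' h => ?_⟩
    obtain ⟨w', hw'⟩ := h₀ I' h
    exact ⟨w'⁻¹, by rw [map_inv, hw']⟩
  | mul x y hx hy =>
    obtain ⟨I₁, h₁⟩ := hx
    obtain ⟨I₂, h₂⟩ := hy
    refine ⟨I₁ ∪ I₂, fun I' h => ?_⟩
    obtain ⟨a, ha⟩ := h₁ I' (Finset.union_subset_left h)
    obtain ⟨b, hb⟩ := h₂ I' (Finset.union_subset_right h)
    exact ⟨a * b, by rw [map_mul, ha, hb]⟩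

theorem map_val_injective (I' : Finset I) :
    Function.Injective (FreeGroup.map (Subtype.val : I' → I)) :=
  FreeGroup.map_injective Subtype.val_injective

/-- the relators (with index in `J'`) which are words in the letters `I'` -/
def relSet (r : J → FreeGroup I) (I' : Finset I) (J' : Finset J) : Set (FreeGroup I') :=
  {u | ∃ j ∈ J', FreeGroup.map Subtype.val u = r j}

/-- `w` is a consequence of the relators `J'` by a derivation using only the letters `I'` -/
def Der (r : J → FreeGroup I) (I' : Finset I) (J' : Finset J) (w : FreeGroup I) : Prop :=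
  ∃ w' : FreeGroup I', FreeGroup.map Subtype.val w' = w ∧
    w' ∈ Subgroup.normalClosure (relSet r I' J')

/-- the words which are derivable in all sufficiently large finite subpresentations -/
def evDer (r : J → FreeGroup I) : Subgroup (FreeGroup I) := by
  classical
  exact
  { carrier := {w | ∃ (I₀ : Finset I) (J₀ : Finset J), ∀ (I' : Finset I) (J' : Finset J),
      I₀ ⊆ I' → J₀ ⊆ J' → Der r I' J' w}
    one_mem' := ⟨∅, ∅, fun I' J' _ _ => ⟨1, map_one _, one_mem _⟩⟩
    mul_mem' := by
      rintro a b ⟨I₁, J₁, h₁⟩ ⟨I₂, J₂, h₂⟩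
      refine ⟨I₁ ∪ I₂, J₁ ∪ J₂, fun I' J' hI hJ => ?_⟩
      obtain ⟨a', ha, ha'⟩ := h₁ I' J' (Finset.union_subset_left hI) (Finset.union_subset_left hJ)
      obtain ⟨b', hb, hb'⟩ := h₂ I' J' (Finset.union_subset_right hI) (Finset.union_subset_right hJ)
      exact ⟨a' * b', by rw [map_mul, ha, hb], mul_mem ha' hb'⟩
    inv_mem' := by
      rintro a ⟨I₁, J₁, h₁⟩
      refine ⟨I₁, J₁, fun I' J' hI hJ => ?_⟩
      obtain ⟨a', ha, ha'⟩ := h₁ I' J' hI hJ
      exact ⟨a'⁻¹, by rw [map_inv, ha], inv_mem ha'⟩ }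

theorem mem_evDer {r : J → FreeGroup I} {w : FreeGroup I} :
    w ∈ evDer r ↔ ∃ (I₀ : Finset I) (J₀ : Finset J), ∀ (I' : Finset I) (J' : Finset J),
      I₀ ⊆ I' → J₀ ⊆ J' → Der r I' J' w := Iff.rfl

theorem evDer_normal (r : J → FreeGroup I) : (evDer r).Normal := by
  classical
  constructor
  intro w hw g
  rw [mem_evDer] at hw ⊢
  obtain ⟨I₁, J₁, h₁⟩ := hw
  obtain ⟨I₂, h₂⟩ := exists_support g
  refine ⟨I₁ ∪ I₂, J₁, fun I' J' hI hJ => ?_⟩
  obtain ⟨w', hw, hw'⟩ := h₁ I' J' (Finset.union_subset_left hI) hJ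
  obtain ⟨g', hg⟩ := h₂ I' (Finset.union_subset_right hI)
  exact ⟨g' * w' * g'⁻¹, by rw [map_mul, map_mul, map_inv, hw, hg],
    Subgroup.normalClosure_normal.conj_mem w' hw' g'⟩

theorem rel_mem_evDer (r : J → FreeGroup I) (j : J) : r j ∈ evDer r := by
  classical
  rw [mem_evDer]
  obtain ⟨I₀, h₀⟩ := exists_support (r j)
  refine ⟨I₀, {j}, fun I' J' hI hJ => ?_⟩
  obtain ⟨w', hw⟩ := h₀ I' hI
  exact ⟨w', hw, Subgroup.subset_normalClosure ⟨j, hJ (Finset.mem_singleton_self j), hw⟩⟩

theorem normalClosure_le_evDer (r : J → FreeGroup I) :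
    Subgroup.normalClosure (Set.range r) ≤ evDer r := by
  haveI := evDer_normal r
  apply Subgroup.normalClosure_le_normal
  rintro _ ⟨j, rfl⟩
  exact rel_mem_evDer r j

/-- **Finite subpresentations.**  A homomorphism from a finitely presented group to
`G = ⟨I | r⟩` factors through a finite subpresentation. -/
theorem exists_finite_subpresentation {I J G E₁ : Type} [Group G] [Group E₁]
    [Group.IsFinitelyPresented E₁] (π : FreeGroup I →* G) (r : J → FreeGroup I)
    (hs : Function.Surjective π) (hk : π.ker = Subgroup.normalClosure (Set.range r))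
    (g : E₁ →* G) :
    ∃ (I' : Finset I) (J' : Finset J) (r' : J' → FreeGroup I')
      (_ : ∀ j, FreeGroup.map Subtype.val (r' j) = r j)
      (g₁ : E₁ →* PresentedGroup (Set.range r')) (g₂ : PresentedGroup (Set.range r') →* G),
      (∀ w, g₂ (PresentedGroup.mk _ w) = π (FreeGroup.map Subtype.val w)) ∧ g₂.comp g₁ = g := by
  classical
  obtain ⟨n, φ, hφ, S, hSfin, hS⟩ := Group.IsFinitelyPresented.out (G := E₁)
  -- lifts of the generators
  choose t₀ ht₀ using fun i : Fin n => hs (g (φ (FreeGroup.of i)))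
  set t : FreeGroup (Fin n) →* FreeGroup I := FreeGroup.lift t₀ with ht
  have hπt : ∀ x, π (t x) = g (φ x) := by
    have : π.comp t = g.comp φ := by
      apply FreeGroup.ext_hom
      intro i
      simp [ht, ht₀]
    intro x
    exact DFunLike.congr_fun this x
  -- the relators of `E₁` are derivable
  have hSder : ∀ s ∈ S, t s ∈ evDer r := by
    intro s hsS
    apply normalClosure_le_evDer r
    rw [← hk, MonoidHom.mem_ker, hπt]
    have : s ∈ φ.ker := by rw [← hS]; exact Subgroup.subset_normalClosure hsS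
    rw [MonoidHom.mem_ker.mp this, map_one]
  have hSder' : ∀ s : S, ∃ (I₀ : Finset I) (J₀ : Finset J), ∀ (I' : Finset I) (J' : Finset J),
      I₀ ⊆ I' → J₀ ⊆ J' → Der r I' J' (t s) := fun s => mem_evDer.mp (hSder s s.2)
  choose IS JS hIJ using hSder'
  choose It hIt using fun i : Fin n => exists_support (t₀ i)
  choose Ir hIr using fun j : J => exists_support (r j)
  haveI : Fintype S := hSfin.fintype
  set J' : Finset J := Finset.univ.biUnion JS with hJ'
  set I' : Finset I := (Finset.univ.biUnion IS ∪ Finset.univ.biUnion It) ∪ J'.biUnion Ir with hI'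
  have hISI : ∀ s, IS s ⊆ I' := fun s =>
    ((Finset.subset_biUnion_of_mem IS (Finset.mem_univ s)).trans
      Finset.subset_union_left).trans Finset.subset_union_left
  have hItI : ∀ i, It i ⊆ I' := fun i =>
    ((Finset.subset_biUnion_of_mem It (Finset.mem_univ i)).trans
      Finset.subset_union_right).trans Finset.subset_union_left
  have hJSJ : ∀ s, JS s ⊆ J' := fun s => Finset.subset_biUnion_of_mem JS (Finset.mem_univ s)
  have hIrI : ∀ j : J', Ir j ⊆ I' := fun j =>
    (Finset.subset_biUnion_of_mem Ir j.2).trans Finset.subset_union_right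
  choose r' hr' using fun j : J' => hIr j I' (hIrI j)
  choose t₁ ht₁ using fun i : Fin n => hIt i I' (hItI i)
  set t' : FreeGroup (Fin n) →* FreeGroup I' := FreeGroup.lift t₁ with ht'
  have htt' : ∀ x, FreeGroup.map Subtype.val (t' x) = t x := by
    have : (FreeGroup.map Subtype.val).comp t' = t := by
      apply FreeGroup.ext_hom
      intro i
      simp [ht', ht, ht₁]
    intro x
    exact DFunLike.congr_fun this x
  have hrel : relSet r I' J' = Set.range r' := by
    ext u
    constructor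
    · rintro ⟨j, hj, hu⟩
      exact ⟨⟨j, hj⟩, map_val_injective I' (by rw [hr', hu])⟩
    · rintro ⟨j, rfl⟩
      exact ⟨j, j.2, hr' j⟩
  have hker : φ.ker ≤ ((PresentedGroup.mk (Set.range r')).comp t').ker := by
    rw [← hS]
    apply Subgroup.normalClosure_le_normal
    intro s hsS
    rw [SetLike.mem_coe, MonoidHom.mem_ker, MonoidHom.comp_apply, PresentedGroup.mk_eq_one_iff]
    obtain ⟨w', hw, hw'⟩ := hIJ ⟨s, hsS⟩ I' J' (hISI _) (hJSJ _)
    have : w' = t' s := map_val_injective I' (by rw [hw, htt'])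
    rw [← this, ← hrel]
    exact hw'
  let g₁ : E₁ →* PresentedGroup (Set.range r') :=
    φ.liftOfSurjective hφ ⟨(PresentedGroup.mk (Set.range r')).comp t', hker⟩
  have hg₁ : ∀ x, g₁ (φ x) = PresentedGroup.mk (Set.range r') (t' x) := fun x =>
    MonoidHom.liftOfRightInverse_comp_apply _ _ _ ⟨(PresentedGroup.mk (Set.range r')).comp t', hker⟩ x
  have hlift : ∀ w : FreeGroup I', FreeGroup.lift (fun i : I' => π (FreeGroup.of (i : I))) w =
      π (FreeGroup.map Subtype.val w) := by
    have : FreeGroup.lift (fun i : I' => π (FreeGroup.of (i : I))) =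
        π.comp (FreeGroup.map Subtype.val) := by
      apply FreeGroup.ext_hom
      intro i
      simp
    intro w
    exact DFunLike.congr_fun this w
  have hrr : ∀ u ∈ Set.range r', FreeGroup.lift (fun i : I' => π (FreeGroup.of (i : I))) u = 1 := by
    rintro _ ⟨j, rfl⟩
    rw [hlift, hr', ← MonoidHom.mem_ker, hk]
    exact Subgroup.subset_normalClosure ⟨j, rfl⟩
  let g₂ : PresentedGroup (Set.range r') →* G := PresentedGroup.toGroup hrr
  have hg₂ : ∀ w, g₂ (PresentedGroup.mk _ w) = π (FreeGroup.map Subtype.val w) := by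
    intro w
    rw [← hlift]
    rfl
  refine ⟨I', J', r', hr', g₁, g₂, hg₂, ?_⟩
  ext e
  obtain ⟨x, rfl⟩ := hφ e
  rw [MonoidHom.comp_apply, hg₁, hg₂, htt', hπt]

end SubPres

end Crest.Agent.R197
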