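import Mathlib
import Crest.Prelude.Def_ClassifyingComplex
import Crest.Agent.R197.TreeDefs

/-!
# Row 197, module T: product of three oriented trees, definitions

`Pt V E` = points of the realization of an oriented graph (vertices, and edges × (-1,1)).
`chi Γ c : ℝ → Pt V E` = characteristic map of the cell `c : V ⊕ E` (clamped to `[-1,1]`).
`Pr Γ` = product of three realizations, with the topology coinduced by all the maps
`cub Γ c : (Fin 3 → ℝ) → Pr Γ`.
`TreeAct G` = a group acting on three oriented graphs.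
-/

set_option autoImplicit false

namespace Crest.Agent.R197



/-- points of the realization of an oriented graph -/
inductive Pt (V E : Type) : Type
  | vert (v : V)
  | edge (e : E) (s : Set.Ioo (-1 : ℝ) 1)

section chi
variable {V E : Type} (Γ : OrGraph V E)

open Classical in
/-- characteristic map of a cell, defined on all of `ℝ` by clamping -/
noncomputable def chi : V ⊕ E → ℝ → Pt V E
  | .inl v, _ => .vert v
  | .inr e, s =>
    if h₁ : s ≤ -1 then .vert (Γ.o e)
    else if h₂ : 1 ≤ s then .vert (Γ.t e)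
    else .edge e ⟨s, lt_of_not_ge h₁, lt_of_not_ge h₂⟩

@[simp] theorem chi_inl (v : V) (s : ℝ) : chi Γ (.inl v) s = .vert v := rfl

theorem chi_le (e : E) {s : ℝ} (h : s ≤ -1) : chi Γ (.inr e) s = .vert (Γ.o e) := by
  simp [chi, h]

theorem chi_ge (e : E) {s : ℝ} (h : 1 ≤ s) : chi Γ (.inr e) s = .vert (Γ.t e) := by
  have h' : ¬ s ≤ -1 := by linarith
  simp [chi, h', h]

theorem chi_mid (e : E) {s : ℝ} (h : s ∈ Set.Ioo (-1 : ℝ) 1) :
    chi Γ (.inr e) s = .edge e ⟨s, h⟩ := by
  simp [chi, not_le.mpr h.1, not_le.mpr h.2]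

end chi

variable {V E : Fin 3 → Type} (Γ : ∀ i, OrGraph (V i) (E i))

/-- product of three realizations -/
def Pr (_Γ : ∀ i, OrGraph (V i) (E i)) : Type := ∀ i, Pt (V i) (E i)

/-- the cube of a triple of cells (defined on `ℝ³`, clamped) -/
noncomputable def cub (c : ∀ i, V i ⊕ E i) (x : Fin 3 → ℝ) : Pr Γ :=
  fun i => chi (Γ i) (c i) (x i)

theorem cub_apply (c : ∀ i, V i ⊕ E i) (x : Fin 3 → ℝ) (i : Fin 3) :
    cub Γ c x i = chi (Γ i) (c i) (x i) := rfl

/-- weak topology -/
noncomputable instance instTopPr : TopologicalSpace (Pr Γ) :=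
  ⨆ c : (∀ i, V i ⊕ E i), TopologicalSpace.coinduced (cub Γ c) inferInstance

theorem continuous_cub (c : ∀ i, V i ⊕ E i) : Continuous (cub Γ c) := by
  rw [continuous_iff_coinduced_le]
  exact le_iSup (fun c => TopologicalSpace.coinduced (cub Γ c) inferInstance) c

theorem continuous_Pr_iff {Z : Type*} [TopologicalSpace Z] {f : Pr Γ → Z} :
    Continuous f ↔ ∀ c, Continuous (f ∘ cub Γ c) := by
  rw [continuous_iSup_dom]
  exact forall_congr' fun c => continuous_coinduced_dom

theorem isOpen_Pr_iff {U : Set (Pr Γ)} : IsOpen U ↔ ∀ c, IsOpen (cub Γ c ⁻¹' U) := by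
  rw [isOpen_iSup_iff]
  exact forall_congr' fun c => isOpen_coinduced

theorem isClosed_Pr_iff {U : Set (Pr Γ)} : IsClosed U ↔ ∀ c, IsClosed (cub Γ c ⁻¹' U) := by
  rw [isClosed_iSup_iff]
  exact forall_congr' fun c => isClosed_coinduced

/-- the cell supporting a point of a graph -/
def Pt.cell {V E : Type} : Pt V E → V ⊕ E
  | .vert v => .inl v
  | .edge e _ => .inr e

/-- the coordinate of a point of a graph in its cell (`0` for vertices) -/
def Pt.pos {V E : Type} : Pt V E → ℝ
  | .vert _ => 0
  | .edge _ s => s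

theorem Pt.chi_cell_pos {V E : Type} (Γ : OrGraph V E) (p : Pt V E) :
    chi Γ p.cell p.pos = p := by
  cases p with
  | vert v => rfl
  | edge e s => exact chi_mid Γ e s.2

/-- depth function of a rooted tree: `v` is the deeper end of `e` -/
def Up {V E : Type} (Γ : OrGraph V E) (dep : V → ℕ) (e : E) (v : V) : Prop :=
  (Γ.t e = v ∧ dep (Γ.o e) + 1 = dep v) ∨ (Γ.o e = v ∧ dep (Γ.t e) + 1 = dep v)

/-- rooted tree structure -/
structure RootedAt {V E : Type} (Γ : OrGraph V E) (root : V) (dep : V → ℕ) : Prop where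
  dep_eq : ∀ v, dep v = 0 ↔ v = root
  edge : ∀ e, dep (Γ.o e) + 1 = dep (Γ.t e) ∨ dep (Γ.t e) + 1 = dep (Γ.o e)
  par_exists : ∀ v, v ≠ root → ∃ e, Up Γ dep e v
  par_unique : ∀ v e e', Up Γ dep e v → Up Γ dep e' v → e = e'

/-- A group acting on three oriented graphs. -/
structure TreeAct (G : Type) [Group G] where
  V : Fin 3 → Type
  E : Fin 3 → Type
  Γ : ∀ i, OrGraph (V i) (E i)
  actV : ∀ i, MulAction G (V i)
  actE : ∀ i, MulAction G (E i)
  o_smul : ∀ i (g : G) (e : E i), (Γ i).o (g • e) = g • (Γ i).o e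
  t_smul : ∀ i (g : G) (e : E i), (Γ i).t (g • e) = g • (Γ i).t e
  free : ∀ (v : ∀ i, V i) (g : G), (∀ i, g • v i = v i) → g = 1

attribute [instance] TreeAct.actV TreeAct.actE

section act
variable {G : Type} [Group G]

/-- action on the points of a graph -/
instance instActPt {V E : Type} [MulAction G V] [MulAction G E] : MulAction G (Pt V E) where
  smul g p := match p with
    | .vert v => .vert (g • v)
    | .edge e s => .edge (g • e) s
  one_smul p := by
    cases p with
    | vert v => show Pt.vert ((1 : G) • v) = _; rw [one_smul]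
    | edge e s => show Pt.edge ((1 : G) • e) s = _; rw [one_smul]
  mul_smul g h p := by
    cases p with
    | vert v => show Pt.vert ((g * h) • v) = Pt.vert (g • h • v); rw [mul_smul]
    | edge e s => show Pt.edge ((g * h) • e) s = Pt.edge (g • h • e) s; rw [mul_smul]

@[simp] theorem Pt.smul_vert {V E : Type} [MulAction G V] [MulAction G E] (g : G) (v : V) :
    g • (Pt.vert v : Pt V E) = Pt.vert (g • v) := rfl

@[simp] theorem Pt.smul_edge {V E : Type} [MulAction G V] [MulAction G E] (g : G) (e : E)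
    (s : Set.Ioo (-1 : ℝ) 1) : g • (Pt.edge e s : Pt V E) = Pt.edge (g • e) s := rfl

/-- action on the cells of a graph -/
def smulCell {V E : Type} [MulAction G V] [MulAction G E] (g : G) : V ⊕ E → V ⊕ E :=
  Sum.map (g • ·) (g • ·)

theorem smul_chi {V E : Type} [MulAction G V] [MulAction G E] (Γ : OrGraph V E)
    (ho : ∀ (g : G) (e : E), Γ.o (g • e) = g • Γ.o e)
    (ht : ∀ (g : G) (e : E), Γ.t (g • e) = g • Γ.t e) (g : G) (c : V ⊕ E) (s : ℝ) :
    g • chi Γ c s = chi Γ (smulCell g c) s := by
  rcases c with v | e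
  · rfl
  · by_cases h₁ : s ≤ -1
    · rw [chi_le Γ e h₁]
      show _ = chi Γ (.inr (g • e)) s
      rw [chi_le Γ _ h₁, ho]; rfl
    · by_cases h₂ : 1 ≤ s
      · rw [chi_ge Γ e h₂]
        show _ = chi Γ (.inr (g • e)) s
        rw [chi_ge Γ _ h₂, ht]; rfl
      · have h : s ∈ Set.Ioo (-1 : ℝ) 1 := ⟨lt_of_not_ge h₁, lt_of_not_ge h₂⟩
        rw [chi_mid Γ e h]
        show _ = chi Γ (.inr (g • e)) s
        rw [chi_mid Γ _ h]; rfl

variable (T : TreeAct G)

/-- action on the product -/
instance instActPr : MulAction G (Pr T.Γ) where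
  smul g p := fun i => g • (p i)
  one_smul p := by
    funext i
    show (1 : G) • p i = p i
    rw [one_smul]
  mul_smul g h p := by
    funext i
    show (g * h) • p i = g • h • p i
    rw [mul_smul]

theorem TreeAct.smul_apply (g : G) (p : Pr T.Γ) (i : Fin 3) : (g • p) i = g • (p i) := rfl

theorem TreeAct.smul_cub (g : G) (c : ∀ i, T.V i ⊕ T.E i) (x : Fin 3 → ℝ) :
    g • cub T.Γ c x = cub T.Γ (fun i => smulCell g (c i)) x := by
  funext i
  exact smul_chi (T.Γ i) (T.o_smul i) (T.t_smul i) g (c i) (x i)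

instance : ContinuousConstSMul G (Pr T.Γ) where
  continuous_const_smul g := by
    rw [continuous_Pr_iff]
    intro c
    have : (fun p : Pr T.Γ => g • p) ∘ cub T.Γ c = cub T.Γ (fun i => smulCell g (c i)) := by
      funext x
      exact T.smul_cub g c x
    rw [this]
    exact continuous_cub _ _

/-- the classifying space -/
abbrev TreeAct.X : Type := Quotient (MulAction.orbitRel G (Pr T.Γ))

/-- the projection -/
def TreeAct.proj : Pr T.Γ → T.X := Quotient.mk _

end act

end Crest.Agent.R197
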