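import Mathlib
import Crest.Agent.R197.TDefs

/-!
# Row 197, module T2: the product of three rooted trees is contractible
-/

set_option autoImplicit false

namespace Crest.Agent.R197

/-- piecewise characteristic paths in a graph -/
inductive Nice {V E : Type} (Γ : OrGraph V E) : (ℝ → Pt V E) → Prop
  | cell (c : V ⊕ E) (φ : ℝ → ℝ) (hφ : Continuous φ) : Nice Γ (fun s => chi Γ c (φ s))
  | glue (a : ℝ) (g₁ g₂ : ℝ → Pt V E) (h₁ : Nice Γ g₁) (h₂ : Nice Γ g₂) (h : g₁ a = g₂ a) :
      Nice Γ (fun s => if s ≤ a then g₁ s else g₂ s)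

section cont
variable {V E : Fin 3 → Type} (Γ : ∀ i, OrGraph (V i) (E i))

/-- product of three paths -/
def prodMap (h : ∀ i, ℝ → Pt (V i) (E i)) (s : Fin 3 → ℝ) : Pr Γ := fun i => h i (s i)

theorem continuous_prodMap_step (i : Fin 3) (h : ∀ i, ℝ → Pt (V i) (E i))
    (hc : ∀ (c : V i ⊕ E i) (φ : ℝ → ℝ), Continuous φ →
      Continuous (prodMap Γ (Function.update h i (fun s => chi (Γ i) c (φ s)))))
    (g : ℝ → Pt (V i) (E i)) (hg : Nice (Γ i) g) :
    Continuous (prodMap Γ (Function.update h i g)) := by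
  induction hg with
  | cell c φ hφ => exact hc c φ hφ
  | glue a g₁ g₂ h₁ h₂ hab ih₁ ih₂ =>
    have : prodMap Γ (Function.update h i (fun s => if s ≤ a then g₁ s else g₂ s)) =
        fun s => if s i ≤ a then prodMap Γ (Function.update h i g₁) s
          else prodMap Γ (Function.update h i g₂) s := by
      funext s
      by_cases hs : s i ≤ a
      · rw [if_pos hs]
        funext j
        by_cases hj : j = i
        · subst hj
          simp [prodMap, hs]
        · simp [prodMap, hj]
      · rw [if_neg hs]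
        funext j
        by_cases hj : j = i
        · subst hj
          simp [prodMap, hs]
        · simp [prodMap, hj]
    rw [this]
    refine Continuous.if_le ih₁ ih₂ (continuous_apply i) continuous_const ?_
    intro s hs
    funext j
    by_cases hj : j = i
    · subst hj
      simp [prodMap, hs, hab]
    · simp [prodMap, hj]

theorem continuous_prodMap (h : ∀ i, ℝ → Pt (V i) (E i)) (hn : ∀ i, Nice (Γ i) (h i)) :
    Continuous (prodMap Γ h) := by
  have e0 : h = Function.update h 0 (h 0) := (Function.update_eq_self 0 h).symm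
  rw [e0]
  refine continuous_prodMap_step Γ 0 h ?_ _ (hn 0)
  intro c₀ φ₀ hφ₀
  set k := Function.update h 0 (fun s => chi (Γ 0) c₀ (φ₀ s)) with hk
  have e1 : k = Function.update k 1 (h 1) := by
    funext j
    by_cases hj : j = 1
    · subst hj; simp [hk]
    · simp [hj]
  rw [e1]
  refine continuous_prodMap_step Γ 1 k ?_ _ (hn 1)
  intro c₁ φ₁ hφ₁
  set l := Function.update k 1 (fun s => chi (Γ 1) c₁ (φ₁ s)) with hl
  have e2 : l = Function.update l 2 (h 2) := by
    funext j
    by_cases hj : j = 2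
    · subst hj; simp [hl, hk]
    · simp [hj]
  rw [e2]
  refine continuous_prodMap_step Γ 2 l ?_ _ (hn 2)
  intro c₂ φ₂ hφ₂
  have : prodMap Γ (Function.update l 2 (fun s => chi (Γ 2) c₂ (φ₂ s))) =
      cub Γ (Fin.cons c₀ (Fin.cons c₁ (Fin.cons c₂ finZeroElim))) ∘
        (fun s : Fin 3 → ℝ => (![φ₀ (s 0), φ₁ (s 1), φ₂ (s 2)] : Fin 3 → ℝ)) := by
    funext s
    funext j
    fin_cases j
    · simp [prodMap, hl, hk, cub]
    · simp [prodMap, hl, hk, cub]
    · simp [prodMap, hl, hk, cub]
      rfl
  rw [this]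
  refine (continuous_cub Γ _).comp ?_
  refine continuous_pi fun j => ?_
  fin_cases j
  · exact hφ₀.comp (continuous_apply 0)
  · exact hφ₁.comp (continuous_apply 1)
  · exact hφ₂.comp (continuous_apply 2)

end cont

/-! ### geodesics to the root -/

section geod
variable {V E : Type} {Γ : OrGraph V E} {root : V} {dep : V → ℕ}

/-- cell map: the deeper end of a cell -/
noncomputable def Wc (Γ : OrGraph V E) (dep : V → ℕ) : V ⊕ E → V
  | .inl v => v
  | .inr e => if dep (Γ.o e) + 1 = dep (Γ.t e) then Γ.t e else Γ.o e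

/-- clamp to `[-1,1]` -/
noncomputable def clamp (s : ℝ) : ℝ := max (-1) (min 1 s)

theorem continuous_clamp : Continuous clamp := by unfold clamp; fun_prop

theorem clamp_of_mem {s : ℝ} (h : s ∈ Set.Ioo (-1 : ℝ) 1) : clamp s = s := by
  unfold clamp
  rw [min_eq_right h.2.le, max_eq_right h.1.le]

theorem clamp_of_le {s : ℝ} (h : s ≤ -1) : clamp s = -1 := by
  unfold clamp
  rw [min_eq_right (by linarith), max_eq_left h]

theorem clamp_of_ge {s : ℝ} (h : 1 ≤ s) : clamp s = 1 := by
  unfold clamp
  rw [min_eq_left h, max_eq_right (by norm_num)]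

/-- distance to the root -/
noncomputable def Lc (Γ : OrGraph V E) (dep : V → ℕ) : V ⊕ E → ℝ → ℝ
  | .inl v, _ => dep v
  | .inr e, s => if dep (Γ.o e) + 1 = dep (Γ.t e) then dep (Γ.o e) + (1 + clamp s) / 2
      else dep (Γ.t e) + (1 - clamp s) / 2

theorem continuous_Lc (c : V ⊕ E) : Continuous (Lc Γ dep c) := by
  rcases c with v | e
  · exact continuous_const
  · by_cases h : dep (Γ.o e) + 1 = dep (Γ.t e)
    · have : Lc Γ dep (.inr e) = fun s => (dep (Γ.o e) : ℝ) + (1 + clamp s) / 2 := by
        funext s; simp [Lc, h]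
      rw [this]
      have := continuous_clamp
      fun_prop
    · have : Lc Γ dep (.inr e) = fun s => (dep (Γ.t e) : ℝ) + (1 - clamp s) / 2 := by
        funext s; simp [Lc, h]
      rw [this]
      have := continuous_clamp
      fun_prop

theorem exists_hh (hr : RootedAt Γ root dep) :
    ∃ hh : V → ℝ → Pt V E, (∀ w, Nice Γ (hh w)) ∧ (∀ w, ∀ s ≤ 0, hh w s = .vert root) ∧
      (∀ w, hh w (dep w) = .vert w) ∧
      (∀ e, dep (Γ.o e) + 1 = dep (Γ.t e) →
        (∀ s ≤ (dep (Γ.o e) : ℝ), hh (Γ.t e) s = hh (Γ.o e) s) ∧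
        ∀ y, 0 < y → hh (Γ.t e) (dep (Γ.o e) + y) = chi Γ (.inr e) (2 * y - 1)) ∧
      (∀ e, dep (Γ.t e) + 1 = dep (Γ.o e) →
        (∀ s ≤ (dep (Γ.t e) : ℝ), hh (Γ.o e) s = hh (Γ.t e) s) ∧
        ∀ y, 0 < y → hh (Γ.o e) (dep (Γ.t e) + y) = chi Γ (.inr e) (1 - 2 * y)) := by
  have key : ∀ w : V, ∃ (u : V) (c : V ⊕ E) (φ : ℝ → ℝ), Continuous φ ∧
      chi Γ c (φ 0) = .vert u ∧ chi Γ c (φ 1) = .vert w ∧
      (w ≠ root → dep u + 1 = dep w) ∧
      (∀ e, Γ.t e = w → dep (Γ.o e) + 1 = dep w → u = Γ.o e ∧ c = .inr e ∧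
        ∀ y, φ y = 2 * y - 1) ∧
      (∀ e, Γ.o e = w → dep (Γ.t e) + 1 = dep w → u = Γ.t e ∧ c = .inr e ∧
        ∀ y, φ y = 1 - 2 * y) := by
    intro w
    by_cases hw : w = root
    · have h0 : dep w = 0 := (hr.dep_eq w).2 hw
      refine ⟨w, .inl w, id, continuous_id, rfl, rfl, fun h => absurd hw h, ?_, ?_⟩
      · intro e _ h; omega
      · intro e _ h; omega
    · obtain ⟨e, he⟩ := hr.par_exists w hw
      rcases he with ⟨h1, h2⟩ | ⟨h1, h2⟩
      · refine ⟨Γ.o e, .inr e, fun y => 2 * y - 1, by fun_prop, ?_, ?_, fun _ => h2, ?_, ?_⟩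
        · exact chi_le Γ e (by norm_num)
        · rw [chi_ge Γ e (by norm_num), h1]
        · intro e' h1' h2'
          have := hr.par_unique w e' e (Or.inl ⟨h1', h2'⟩) (Or.inl ⟨h1, h2⟩)
          subst this
          exact ⟨rfl, rfl, fun _ => rfl⟩
        · intro e' h1' h2'
          have := hr.par_unique w e' e (Or.inr ⟨h1', h2'⟩) (Or.inl ⟨h1, h2⟩)
          subst this
          exfalso
          rw [h1] at h2'
          omega
      · refine ⟨Γ.t e, .inr e, fun y => 1 - 2 * y, by fun_prop, ?_, ?_, fun _ => h2, ?_, ?_⟩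
        · exact chi_ge Γ e (by norm_num)
        · rw [chi_le Γ e (by norm_num), h1]
        · intro e' h1' h2'
          have := hr.par_unique w e' e (Or.inl ⟨h1', h2'⟩) (Or.inr ⟨h1, h2⟩)
          subst this
          exfalso
          rw [h1] at h2'
          omega
        · intro e' h1' h2'
          have := hr.par_unique w e' e (Or.inr ⟨h1', h2'⟩) (Or.inr ⟨h1, h2⟩)
          subst this
          exact ⟨rfl, rfl, fun _ => rfl⟩
  choose u c φ hφ hφ0 hφ1 hdep hup hdown using key
  let hn : ℕ → V → ℝ → Pt V E := fun n => Nat.rec (fun w _ => Pt.vert w)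
    (fun n ih w s => if s ≤ (n : ℝ) then ih (u w) s else chi Γ (c w) (φ w (s - n))) n
  have hn0 : ∀ w s, hn 0 w s = Pt.vert w := fun _ _ => rfl
  have hnS : ∀ n w s, hn (n + 1) w s =
      if s ≤ (n : ℝ) then hn n (u w) s else chi Γ (c w) (φ w (s - n)) := fun _ _ _ => rfl
  have hne : ∀ n w, dep w = n + 1 → w ≠ root := by
    intro n w h hw
    have := (hr.dep_eq w).2 hw
    omega
  have P3 : ∀ n w, dep w = n → hn n w n = .vert w := by
    intro n w h
    cases n with
    | zero => exact hn0 w ((0 : ℕ) : ℝ)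
    | succ n =>
      rw [hnS, if_neg (by push_cast; linarith)]
      have : ((n + 1 : ℕ) : ℝ) - n = 1 := by push_cast; ring
      rw [this, hφ1]
  have P1 : ∀ n w, dep w = n → Nice Γ (hn n w) := by
    intro n
    induction n with
    | zero =>
      intro w _
      exact Nice.cell (.inl w) id continuous_id
    | succ n ih =>
      intro w h
      have hu : dep (u w) = n := by
        have := hdep w (hne n w h); omega
      have : hn (n + 1) w = fun s => if s ≤ (n : ℝ) then hn n (u w) s
          else (fun s => chi Γ (c w) (φ w (s - n))) s := rfl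
      rw [this]
      refine Nice.glue n _ _ (ih _ hu) (Nice.cell (c w) (fun s => φ w (s - n)) ?_) ?_
      · exact (hφ w).comp (by fun_prop)
      · simp only [sub_self, hφ0]
        exact P3 n (u w) hu
  have P2 : ∀ n w, dep w = n → ∀ s ≤ (0 : ℝ), hn n w s = .vert root := by
    intro n
    induction n with
    | zero =>
      intro w h s _
      rw [hn0, (hr.dep_eq w).1 h]
    | succ n ih =>
      intro w h s hs
      have hu : dep (u w) = n := by
        have := hdep w (hne n w h); omega
      rw [hnS, if_pos (le_trans hs (by positivity))]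
      exact ih _ hu s hs
  refine ⟨fun w => hn (dep w) w, fun w => P1 _ w rfl, fun w => P2 _ w rfl, fun w => P3 _ w rfl,
    ?_, ?_⟩
  · intro e he
    obtain ⟨h1, h2, h3⟩ := hup (Γ.t e) e rfl he
    refine ⟨?_, ?_⟩
    · intro s hs
      show hn (dep (Γ.t e)) (Γ.t e) s = hn (dep (Γ.o e)) (Γ.o e) s
      rw [← he, hnS, if_pos hs, h1]
    · intro y hy
      show hn (dep (Γ.t e)) (Γ.t e) _ = _
      rw [← he, hnS, if_neg (by linarith), h2, h3]
      congr 2
      ring
  · intro e he
    obtain ⟨h1, h2, h3⟩ := hdown (Γ.o e) e rfl he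
    refine ⟨?_, ?_⟩
    · intro s hs
      show hn (dep (Γ.o e)) (Γ.o e) s = hn (dep (Γ.t e)) (Γ.t e) s
      rw [← he, hnS, if_pos hs, h1]
    · intro y hy
      show hn (dep (Γ.o e)) (Γ.o e) _ = _
      rw [← he, hnS, if_neg (by linarith), h2, h3]
      congr 2
      ring

/-- the contraction of a rooted tree, and its value on cells -/
theorem exists_contraction (hr : RootedAt Γ root dep) :
    ∃ hh : V → ℝ → Pt V E, (∀ w, Nice Γ (hh w)) ∧
      (∀ w, hh w 0 = .vert root) ∧
      (∀ (c : V ⊕ E) (s x : ℝ), 0 ≤ x → x ≤ 1 →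
        hh (Wc Γ dep (chi Γ c s).cell) (x * Lc Γ dep (chi Γ c s).cell (chi Γ c s).pos) =
          hh (Wc Γ dep c) (x * Lc Γ dep c s)) ∧
      (∀ p : Pt V E, hh (Wc Γ dep p.cell) (Lc Γ dep p.cell p.pos) = p) := by
  obtain ⟨hh, h1, h2, h3, h4, h5⟩ := exists_hh hr
  refine ⟨hh, h1, fun w => h2 w 0 le_rfl, ?_, ?_⟩
  · intro c s x hx0 hx1
    rcases c with v | e
    · rfl
    · have hxd : ∀ v : V, x * (dep v : ℝ) ≤ dep v := fun v =>
        mul_le_of_le_one_left (Nat.cast_nonneg _) hx1
      by_cases hs1 : s ≤ -1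
      · rw [chi_le Γ e hs1]
        show hh (Γ.o e) (x * (dep (Γ.o e) : ℝ)) = _
        by_cases h : dep (Γ.o e) + 1 = dep (Γ.t e)
        · simp only [Wc, Lc, if_pos h, clamp_of_le hs1]
          rw [show (dep (Γ.o e) : ℝ) + (1 + -1) / 2 = dep (Γ.o e) by ring]
          exact ((h4 e h).1 _ (hxd _)).symm
        · have h' := (hr.edge e).resolve_left h
          simp only [Wc, Lc, if_neg h, clamp_of_le hs1]
          congr 2
          rw [← h']
          push_cast
          ring
      · by_cases hs2 : 1 ≤ s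
        · rw [chi_ge Γ e hs2]
          show hh (Γ.t e) (x * (dep (Γ.t e) : ℝ)) = _
          by_cases h : dep (Γ.o e) + 1 = dep (Γ.t e)
          · simp only [Wc, Lc, if_pos h, clamp_of_ge hs2]
            congr 2
            rw [← h]
            push_cast
            ring
          · have h' := (hr.edge e).resolve_left h
            simp only [Wc, Lc, if_neg h, clamp_of_ge hs2]
            rw [show (dep (Γ.t e) : ℝ) + (1 - 1) / 2 = dep (Γ.t e) by ring]
            exact ((h5 e h').1 _ (hxd _)).symm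
        · rw [chi_mid Γ e ⟨lt_of_not_ge hs1, lt_of_not_ge hs2⟩]
          rfl
  · intro p
    cases p with
    | vert v => exact h3 v
    | edge e s =>
      obtain ⟨s, hs⟩ := s
      show hh (Wc Γ dep (.inr e)) (Lc Γ dep (.inr e) s) = _
      rw [← chi_mid Γ e hs]
      by_cases h : dep (Γ.o e) + 1 = dep (Γ.t e)
      · simp only [Wc, Lc, if_pos h, clamp_of_mem hs]
        rw [(h4 e h).2 _ (by linarith [hs.1])]
        congr 1
        ring
      · have h' := (hr.edge e).resolve_left h
        simp only [Wc, Lc, if_neg h, clamp_of_mem hs]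
        rw [(h5 e h').2 _ (by linarith [hs.2])]
        congr 1
        ring

end geod

/-- T2: the product of three rooted trees is contractible. -/
theorem contractible_Pr {V E : Fin 3 → Type} (Γ : ∀ i, OrGraph (V i) (E i))
    (root : ∀ i, V i) (dep : ∀ i, V i → ℕ) (hr : ∀ i, RootedAt (Γ i) (root i) (dep i)) :
    ContractibleSpace (Pr Γ) := by
  choose hh hN h0 hc h1 using fun i => exists_contraction (hr i)
  -- the formula
  let Hf : Pr Γ → ℝ → Pr Γ := fun p x i =>
    hh i (Wc (Γ i) (dep i) (p i).cell) (x * Lc (Γ i) (dep i) (p i).cell (p i).pos)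
  -- its value on cubes
  let HC : (∀ i, V i ⊕ E i) → (Fin 3 → ℝ) × unitInterval → Pr Γ := fun c z =>
    prodMap Γ (fun i => hh i (Wc (Γ i) (dep i) (c i)))
      (fun i => (z.2 : ℝ) * Lc (Γ i) (dep i) (c i) (z.1 i))
  have HCcont : ∀ c, Continuous (HC c) := by
    intro c
    refine (continuous_prodMap Γ _ (fun i => hN i _)).comp ?_
    refine continuous_pi fun i => ?_
    have := continuous_Lc (Γ := Γ i) (dep := dep i) (c i)
    fun_prop
  have HfC : ∀ c (s : Fin 3 → ℝ) (x : unitInterval), Hf (cub Γ c s) x = HC c (s, x) := by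
    intro c s x
    funext i
    exact hc i (c i) (s i) x x.2.1 x.2.2
  have HfP : ∀ p (x : unitInterval),
      Hf p x = HC (fun i => (p i).cell) (fun i => (p i).pos, x) := fun p x => rfl
  let K : Pr Γ → C(unitInterval, Pr Γ) := fun p => ⟨fun x => Hf p x, by
    have : (fun x : unitInterval => Hf p x) =
        fun x => HC (fun i => (p i).cell) (fun i => (p i).pos, x) := by
      funext x; exact HfP p x
    rw [this]
    exact (HCcont _).comp (by fun_prop)⟩
  have hK : Continuous K := by
    rw [continuous_Pr_iff]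
    intro c
    have : K ∘ cub Γ c = ⇑(ContinuousMap.curry ⟨HC c, HCcont c⟩) := by
      funext s
      ext x
      exact HfC c s x
    rw [this]
    exact ContinuousMap.continuous _
  have hU : Continuous (Function.uncurry fun p x => K p x) :=
    ContinuousMap.continuous_uncurry_of_continuous ⟨K, hK⟩
  rw [contractible_iff_id_nullhomotopic]
  refine ⟨fun i => Pt.vert (root i), ?_⟩
  refine ⟨{ toFun := fun z => K z.2 (unitInterval.symm z.1)
            continuous_toFun := ?_
            map_zero_left := ?_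
            map_one_left := ?_ }⟩
  · have h2 : Continuous (fun z : unitInterval × Pr Γ => (z.2, unitInterval.symm z.1)) :=
      continuous_snd.prodMk (unitInterval.continuous_symm.comp continuous_fst)
    exact hU.comp h2
  · intro p
    show Hf p ((unitInterval.symm 0 : unitInterval) : ℝ) = p
    rw [unitInterval.symm_zero]
    funext i
    show hh i _ (((1 : unitInterval) : ℝ) * _) = _
    rw [Set.Icc.coe_one, one_mul]
    exact h1 i (p i)
  · intro p
    show Hf p ((unitInterval.symm 1 : unitInterval) : ℝ) = _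
    rw [unitInterval.symm_one]
    funext i
    show hh i _ (((0 : unitInterval) : ℝ) * _) = _
    rw [Set.Icc.coe_zero, zero_mul]
    exact h0 i _

end Crest.Agent.R197
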