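import Mathlib

/-! # Row 197, module T7: `π₁` of the quotient by a covering action (helper898) -/

set_option autoImplicit false

namespace Crest.Agent.R197

/-- T7 (TPi1.lean): for a quotient covering map from a contractible space, the fundamental group
of the base is the group. -/
theorem pi1_X {G E X : Type} [Group G] [TopologicalSpace E] [TopologicalSpace X] [MulAction G E]
    [ContractibleSpace E] (p : E → X) (hp : IsQuotientCoveringMap p G) (x : X) :
    Nonempty (FundamentalGroup X x ≃* G) := by
  obtain ⟨e, he⟩ := hp.surjective x
  exact ⟨(hp.fundamentalGroupEquiv (x := x) ⟨e, he⟩).trans (MulEquiv.inv' G).symm⟩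

end Crest.Agent.R197
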