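import Mathlib

/-! Row 197: rooted structure of a tree given by plain functions `o t : E → V`
(connected + every integer function on edges is a coboundary). Independent of the graph structure used. -/

set_option autoImplicit false

namespace Crest.Agent.R197.RootCore

variable {V E : Type*} (o t : E → V)

/-- adjacency by an edge (either direction) -/
def Nb (a b : V) : Prop := ∃ e, (o e = a ∧ t e = b) ∨ (o e = b ∧ t e = a)

theorem Nb.symm' {a b : V} (h : Nb o t a b) : Nb o t b a := by
  obtain ⟨e, h | h⟩ := h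
  · exact ⟨e, Or.inr h⟩
  · exact ⟨e, Or.inl h⟩

/-- the simple graph -/
def sg : SimpleGraph V := SimpleGraph.fromRel (Nb o t)

theorem sg_adj_nb {a b : V} (h : (sg o t).Adj a b) : Nb o t a b := by
  obtain ⟨_, h | h⟩ := h
  · exact h
  · exact h.symm'

theorem sg_adj_of_nb {a b : V} (h : Nb o t a b) (hne : a ≠ b) : (sg o t).Adj a b :=
  ⟨hne, Or.inl h⟩

theorem sg_reachable (conn : ∀ u v : V, Relation.ReflTransGen (Nb o t) u v) (u v : V) :
    (sg o t).Reachable u v := by
  induction conn u v with
  | refl => exact SimpleGraph.Reachable.refl _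
  | tail _ h ih =>
    rename_i b c _
    by_cases hbc : b = c
    · subst hbc; exact ih
    · exact ih.trans (sg_adj_of_nb o t h hbc).reachable

/-- `v` is the deeper end of `e` -/
def UpC (dep : V → ℕ) (e : E) (v : V) : Prop :=
  (t e = v ∧ dep (o e) + 1 = dep v) ∨ (o e = v ∧ dep (t e) + 1 = dep v)

theorem rooted_core (conn : ∀ u v : V, Relation.ReflTransGen (Nb o t) u v)
    (acyc : ∀ f : E → ℤ, ∃ F : V → ℤ, ∀ e, F (t e) - F (o e) = f e) (root : V) :
    ∃ dep : V → ℕ, (∀ v, dep v = 0 ↔ v = root) ∧
      (∀ e, dep (o e) + 1 = dep (t e) ∨ dep (t e) + 1 = dep (o e)) ∧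
      (∀ v, v ≠ root → ∃ e, UpC o t dep e v) ∧
      (∀ v e e', UpC o t dep e v → UpC o t dep e' v → e = e') := by
  classical
  set G := sg o t with hG
  have hreach : ∀ u v, G.Reachable u v := sg_reachable o t conn
  have hnb : ∀ a b : V, Nb o t a b → G.dist a root ≤ G.dist b root + 1 := by
    intro a b hab
    by_cases hne : a = b
    · subst hne; omega
    · obtain ⟨p, hp⟩ := (hreach b root).exists_walk_length_eq_dist
      have := SimpleGraph.dist_le (SimpleGraph.Walk.cons (sg_adj_of_nb o t hab hne) p)
      simpa [hp] using this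
  have hpar : ∀ v, v ≠ root → ∃ w, Nb o t v w ∧ G.dist w root + 1 = G.dist v root := by
    intro v hv
    obtain ⟨p, hp⟩ := (hreach v root).exists_walk_length_eq_dist
    cases p with
    | nil => exact absurd rfl hv
    | cons h q =>
      rename_i w
      refine ⟨w, sg_adj_nb o t h, ?_⟩
      have h1 := SimpleGraph.dist_le q
      have h2 := hnb v w (sg_adj_nb o t h)
      simp only [SimpleGraph.Walk.length_cons] at hp
      omega
  have hzero : ∀ v, G.dist v root = 0 ↔ v = root := fun v =>
    (hreach v root).dist_eq_zero_iff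
  -- the function of an edge
  have key : ∀ e₀ : E, ∃ F : V → ℤ, (∀ e, e ≠ e₀ → F (t e) = F (o e)) ∧
      F (t e₀) = F (o e₀) + 1 ∧
      ∀ w, G.dist w root ≤ G.dist (o e₀) root → G.dist w root ≤ G.dist (t e₀) root →
        F w = F root := by
    intro e₀
    obtain ⟨F, hF⟩ := acyc (fun e => if e = e₀ then 1 else 0)
    have h1 : ∀ e, e ≠ e₀ → F (t e) = F (o e) := by
      intro e he
      have := hF e
      simp only [he, if_false] at this
      omega
    have h2 : F (t e₀) = F (o e₀) + 1 := by
      have := hF e₀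
      simp only [if_true] at this
      omega
    refine ⟨F, h1, h2, ?_⟩
    intro w
    induction hn : G.dist w root generalizing w with
    | zero =>
      intro _ _
      rw [(hzero w).mp hn]
    | succ n ih =>
      intro ho ht
      have hw : w ≠ root := by
        intro h
        rw [(hzero w).mpr h] at hn
        omega
      obtain ⟨w', ⟨e, he⟩, hd⟩ := hpar w hw
      have hn' : G.dist w' root = n := by omega
      have hee : e ≠ e₀ := by
        rintro rfl
        rcases he with ⟨h3, h4⟩ | ⟨h3, h4⟩
        · rw [h4] at ht; omega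
        · rw [h3] at ho; omega
      have := ih w' hn' (by omega) (by omega)
      have h5 := h1 e hee
      rcases he with ⟨h3, h4⟩ | ⟨h3, h4⟩
      · rw [h3, h4] at h5
        rw [← h5, this]
      · rw [h3, h4] at h5
        rw [h5, this]
  refine ⟨fun v => G.dist v root, hzero, ?_, ?_, ?_⟩
  · intro e
    obtain ⟨F, _, h2, h3⟩ := key e
    have h4 := hnb (o e) (t e) ⟨e, Or.inl ⟨rfl, rfl⟩⟩
    have h5 := hnb (t e) (o e) ⟨e, Or.inr ⟨rfl, rfl⟩⟩
    have h6 : G.dist (o e) root ≠ G.dist (t e) root := by
      intro h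
      have h7 := h3 (o e) le_rfl h.le
      have h8 := h3 (t e) h.ge le_rfl
      omega
    show G.dist (o e) root + 1 = G.dist (t e) root ∨ G.dist (t e) root + 1 = G.dist (o e) root
    omega
  · intro v hv
    obtain ⟨w, ⟨e, he⟩, hd⟩ := hpar v hv
    refine ⟨e, ?_⟩
    rcases he with ⟨h3, h4⟩ | ⟨h3, h4⟩
    · exact Or.inr ⟨h3, by rw [h4]; exact hd⟩
    · exact Or.inl ⟨h4, by rw [h3]; exact hd⟩
  · intro v e e' he he'
    by_contra hne
    obtain ⟨F, h1, h2, h3⟩ := key e
    have h1' := h1 e' (Ne.symm hne)
    have hv' : ∃ u', G.dist u' root + 1 = G.dist v root ∧ F v = F u' := by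
      rcases he' with ⟨h4, h5⟩ | ⟨h4, h5⟩
      · exact ⟨o e', h5, by rw [← h4, h1']⟩
      · exact ⟨t e', h5, by rw [← h4, h1']⟩
    obtain ⟨u', hu', hFu'⟩ := hv'
    rcases he with ⟨h4, h5⟩ | ⟨h4, h5⟩
    · have hd : G.dist (t e) root = G.dist v root := by rw [h4]
      have h5' : G.dist (o e) root + 1 = G.dist v root := h5
      have h6 := h3 (o e) le_rfl (by omega)
      have h7 := h3 u' (by omega) (by omega)
      rw [h4] at h2
      omega
    · have hd : G.dist (o e) root = G.dist v root := by rw [h4]
      have h5' : G.dist (t e) root + 1 = G.dist v root := h5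
      have h6 := h3 (t e) (by omega) le_rfl
      have h7 := h3 u' (by omega) (by omega)
      rw [h4] at h2
      omega

end Crest.Agent.R197.RootCore
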