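import Mathlib
import Crest.Prelude.Def_ClassifyingComplex
import Crest.Agent.R197.TDefs

/-!
# Row 197, module T: exact statements of the parts (NOT imported by proofs; each part goes to its own file)

T1 TRoot.lean      `exists_rooted`
T2 TContract.lean  `contractible_Pr`
T3 TCover.lean     `quotCover`
T4 THaus.lean      `t2_X`
T5 TCWBuild.lean   `cw_build` (abstract)
T6 TCW.lean        `cw_X`
T7 TPi1.lean       `pi1_X` (abstract)
T8 TMain.lean      assembly, `classifying_of_treeAct`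
T9 TInst.lean      the concrete `TreeAct GG`, `classifying_three`
-/

set_option autoImplicit false

namespace Crest.Agent.R197.TSkel

open Crest.Agent.R197

/-- T1 (TRoot.lean). -/
theorem exists_rooted {V E : Type} (Γ : OrGraph V E) (h : Γ.IsTreeish) (root : V) :
    ∃ dep : V → ℕ, RootedAt Γ root dep := by
  sorry

/-- T2 (TContract.lean). -/
theorem contractible_Pr {V E : Fin 3 → Type} (Γ : ∀ i, OrGraph (V i) (E i))
    (root : ∀ i, V i) (dep : ∀ i, V i → ℕ) (hr : ∀ i, RootedAt (Γ i) (root i) (dep i)) :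
    ContractibleSpace (Pr Γ) := by
  sorry

/-- T3 (TCover.lean). -/
theorem quotCover {G : Type} [Group G] (T : TreeAct G) : IsQuotientCoveringMap T.proj G := by
  sorry

/-- T4 (THaus.lean). -/
theorem t2_X {G : Type} [Group G] (T : TreeAct G) : T2Space T.X := by
  sorry

/-- T5 (TCWBuild.lean). -/
theorem cw_build {X : Type} [TopologicalSpace X] [T2Space X] (cell : ℕ → Type)
    (Φ : ∀ n, cell n → (Fin n → ℝ) → X)
    (cont : ∀ n i, ContinuousOn (Φ n i) (Metric.closedBall 0 1))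
    (inj : ∀ n i, Set.InjOn (Φ n i) (Metric.ball 0 1))
    (sat : ∀ n i x y, x ∈ Metric.ball (0 : Fin n → ℝ) 1 → y ∈ Metric.sphere (0 : Fin n → ℝ) 1 →
      Φ n i x ≠ Φ n i y)
    (disj : ∀ n m i j x y, x ∈ Metric.ball (0 : Fin n → ℝ) 1 → y ∈ Metric.ball (0 : Fin m → ℝ) 1 →
      Φ n i x = Φ m j y → (⟨n, i⟩ : Σ n, cell n) = ⟨m, j⟩)
    (bd : ∀ n i, ∃ I : Π m, Finset (cell m), ∀ x ∈ Metric.sphere (0 : Fin n → ℝ) 1,
      ∃ m, m < n ∧ ∃ j ∈ I m, ∃ y ∈ Metric.closedBall (0 : Fin m → ℝ) 1, Φ m j y = Φ n i x)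
    (weak : ∀ A : Set X, (∀ n i, IsClosed (Φ n i ⁻¹' A ∩ Metric.closedBall 0 1)) → IsClosed A)
    (un : ∀ x, ∃ n i, ∃ y ∈ Metric.closedBall (0 : Fin n → ℝ) 1, Φ n i y = x) :
    ∃ C : _root_.Topology.CWComplex (Set.univ : Set X),
      ∀ n, IsEmpty (cell n) → IsEmpty (_root_.Topology.RelCWComplex.cell (Set.univ : Set X) n) := by
  sorry

/-- T6 (TCW.lean). -/
theorem cw_X {G : Type} [Group G] (T : TreeAct G) :
    ∃ C : _root_.Topology.CWComplex (Set.univ : Set T.X),
      ∀ n, 3 < n → IsEmpty (_root_.Topology.RelCWComplex.cell (Set.univ : Set T.X) n) := by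
  sorry

/-- T7 (TPi1.lean). -/
theorem pi1_X {G E X : Type} [Group G] [TopologicalSpace E] [TopologicalSpace X] [MulAction G E]
    [ContractibleSpace E] (p : E → X) (hp : IsQuotientCoveringMap p G) (x : X) :
    Nonempty (FundamentalGroup X x ≃* G) := by
  sorry

/-- T8 (TMain.lean). -/
theorem classifying_of_treeAct {G : Type} [Group G] (T : TreeAct G)
    (hT : ∀ i, (T.Γ i).IsTreeish) (root : ∀ i, T.V i) :
    Crest.Topology.HasClassifyingComplex G 3 := by
  have hr : ∀ i, ∃ dep : T.V i → ℕ, RootedAt (T.Γ i) (root i) dep :=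
    fun i => exists_rooted (T.Γ i) (hT i) (root i)
  choose dep hdep using hr
  haveI hE : ContractibleSpace (Pr T.Γ) := contractible_Pr T.Γ root dep hdep
  have hp := quotCover T
  obtain ⟨C, hC⟩ := cw_X T
  refine ⟨T.X, inferInstance, C, t2_X T, hC, ⟨Pr T.Γ, inferInstance, T.proj, hE,
    hp.isCoveringMap, hp.surjective⟩, T.proj (fun i => Pt.vert (root i)), pi1_X T.proj hp _⟩

end Crest.Agent.R197.TSkel
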