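import Mathlib
import Crest.Agent.R197.Defs

/-!
# Row 197, word identities (L0), (L1), (L2)
-/

set_option autoImplicit false

namespace Crest.Agent.R197

section
variable {H : Type*} [Group H]

/-- conjugation of powers: `(x⁻¹ y)^n = x⁻¹ (y x⁻¹)^(n-1) y` -/
theorem inv_mul_zpow (x y : H) (n : ℤ) : (x⁻¹ * y) ^ n = x⁻¹ * (y * x⁻¹) ^ (n - 1) * y := by
  have h1 : x⁻¹ * y = x⁻¹ * (y * x⁻¹) * x := by group
  have h2 : (x⁻¹ * y) ^ n = x⁻¹ * (y * x⁻¹) ^ n * x := by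
    have : x⁻¹ * y = x⁻¹ * (y * x⁻¹) * (x⁻¹)⁻¹ := by group
    rw [this, conj_zpow, inv_inv]
  rw [h2]
  have h3 : (y * x⁻¹) ^ n = (y * x⁻¹) ^ (n - 1) * (y * x⁻¹) := by
    rw [← zpow_add_one]; congr 1; ring
  rw [h3]; group

theorem Bw_zpow (x y : Fin 4 → H) (i k : Fin 4) (n : ℤ) :
    (Bw x y i k) ^ n = (x i)⁻¹ * (Aw x y i k) ^ (n - 1) * y k :=
  inv_mul_zpow _ _ _

/-- (L0) scale zero -/
theorem lam_zero (x y : Fin 4 → H) (i j k l : Fin 4) : lam x y i j k l 0 = 1 := by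
  simp [lam]

/-- (L0) scale minus one -/
theorem lam_neg_one (x y : Fin 4 → H) (i j k l : Fin 4) : lam x y i j k l (-1) = 1 := by
  simp [lam, Aw]

/-- (L1) -/
theorem lamB (x y : Fin 4 → H) (i j k l : Fin 4) (n : ℤ) :
    (Bw x y i k) ^ n * (Bw x y j k) ^ (-n) * (Bw x y j l) ^ n * (Bw x y i l) ^ (-n) =
      (x i)⁻¹ * lam x y i j k l (n - 1) * x i := by
  have e1 : (Bw x y j k) ^ (-n) = (y k)⁻¹ * (Aw x y j k) ^ (-(n - 1)) * x j := by
    rw [zpow_neg, Bw_zpow, mul_inv_rev, mul_inv_rev, inv_inv, zpow_neg, mul_assoc]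
  have e2 : (Bw x y i l) ^ (-n) = (y l)⁻¹ * (Aw x y i l) ^ (-(n - 1)) * x i := by
    rw [zpow_neg, Bw_zpow, mul_inv_rev, mul_inv_rev, inv_inv, zpow_neg, mul_assoc]
  rw [e1, e2, Bw_zpow, Bw_zpow, lam]
  simp only [mul_assoc, mul_inv_cancel_left]

/-- swapping the two `y`-indices inverts -/
theorem lam_swap_y (x y : Fin 4 → H) (i j k l : Fin 4) (n : ℤ) :
    lam x y i j l k n = (lam x y i j k l n)⁻¹ := by
  simp only [lam, mul_inv_rev, zpow_neg, inv_inv, mul_assoc]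

/-- swapping the two `x`-indices: conjugate of the inverse -/
theorem lam_swap_x (x y : Fin 4 → H) (i j k l : Fin 4) (n : ℤ) :
    lam x y j i k l n =
      ((Aw x y j k) ^ n * (Aw x y i k) ^ (-n)) * (lam x y i j k l n)⁻¹ *
        ((Aw x y j k) ^ n * (Aw x y i k) ^ (-n))⁻¹ := by
  simp only [lam, mul_inv_rev, zpow_neg, inv_inv, mul_assoc, inv_mul_cancel_left,
    mul_inv_cancel, mul_one]

/-- conjugation relation in a group with the relations of `E` (L1 for letters) -/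
theorem RelE.conj {x y : Fin 4 → H} {r : Ltr → H} (h : RelE x y r) (α : Ltr) (i k : Fin 4)
    (hi : inX α i) (hk : inY α k) :
    (r α)⁻¹ * Aw x y i k * r α = Bw x y (pX α i) (pY α k) := by
  rw [mul_assoc, h.hex α i k hi hk, inv_mul_cancel_left]

theorem RelE.conj_zpow {x y : Fin 4 → H} {r : Ltr → H} (h : RelE x y r) (α : Ltr) (i k : Fin 4)
    (hi : inX α i) (hk : inY α k) (n : ℤ) :
    (r α)⁻¹ * (Aw x y i k) ^ n * r α = (Bw x y (pX α i) (pY α k)) ^ n := by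
  rw [← h.conj α i k hi hk]
  have : ∀ a : H, (r α)⁻¹ * a * r α = (r α)⁻¹ * a * ((r α)⁻¹)⁻¹ := by intro a; rw [inv_inv]
  rw [this, this, _root_.conj_zpow]

/-- the key recursion: `r_α⁻¹ lam_n(α) r_α = x_{i'}⁻¹ lam_{n-1}(α') x_{i'}` -/
theorem RelE.lam_conj {x y : Fin 4 → H} {r : Ltr → H} (h : RelE x y r) (α : Ltr)
    (i j k l : Fin 4) (hi : inX α i) (hj : inX α j) (hk : inY α k) (hl : inY α l) (n : ℤ) :
    (r α)⁻¹ * lam x y i j k l n * r α =
      (x (pX α i))⁻¹ * lam x y (pX α i) (pX α j) (pY α k) (pY α l) (n - 1) * x (pX α i) := by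
  rw [← lamB, ← h.conj_zpow α i k hi hk, ← h.conj_zpow α j k hj hk, ← h.conj_zpow α j l hj hl,
    ← h.conj_zpow α i l hi hl, lam]
  group

/-- face letters: `lam_n(f)=1` iff `lam_{n-1}(f)=1`, hence all are `1` -/
theorem RelE.lam_face {x y : Fin 4 → H} {r : Ltr → H} (h : RelE x y r) (α : Ltr)
    (hα : α.1 < 7) (n : ℤ) : lam x y (x1 α) (x2 α) (y1 α) (y2 α) n = 1 := by
  have hp : pX α = 1 ∧ pY α = 1 := by
    revert hα; revert α; decide
  have hstep : ∀ m : ℤ, (r α)⁻¹ * lam x y (x1 α) (x2 α) (y1 α) (y2 α) m * r α =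
      (x (x1 α))⁻¹ * lam x y (x1 α) (x2 α) (y1 α) (y2 α) (m - 1) * x (x1 α) := by
    intro m
    have := h.lam_conj α (x1 α) (x2 α) (y1 α) (y2 α) (Or.inl rfl) (Or.inr rfl) (Or.inl rfl)
      (Or.inr rfl) m
    rw [hp.1, hp.2] at this
    simpa using this
  induction n using Int.induction_on with
  | zero => exact lam_zero _ _ _ _ _ _
  | succ m ih =>
    have := hstep ((m : ℤ) + 1)
    rw [add_sub_cancel_right, ih] at this
    simp only [mul_one, inv_mul_cancel] at this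
    have h2 : lam x y (x1 α) (x2 α) (y1 α) (y2 α) ((m : ℤ) + 1) =
      r α * ((r α)⁻¹ * lam x y (x1 α) (x2 α) (y1 α) (y2 α) ((m : ℤ) + 1) * r α) * (r α)⁻¹ := by group
    rw [h2, this]; group
  | pred m ih =>
    have := hstep (-(m : ℤ))
    rw [ih] at this
    simp only [mul_one, inv_mul_cancel] at this
    have h2 : lam x y (x1 α) (x2 α) (y1 α) (y2 α) (-(m : ℤ) - 1) =
      x (x1 α) * ((x (x1 α))⁻¹ * lam x y (x1 α) (x2 α) (y1 α) (y2 α) (-(m : ℤ) - 1) * x (x1 α)) *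
        (x (x1 α))⁻¹ := by group
    rw [h2, ← this]; group

/-- the loop of a 4-cycle in an arbitrary `4 × 4` matrix of group elements -/
def Dm (e : Fin 4 → Fin 4 → H) (i j k l : Fin 4) : H := e i k * (e j k)⁻¹ * e j l * (e i l)⁻¹

theorem lam_eq_Dm (x y : Fin 4 → H) (i j k l : Fin 4) (n : ℤ) :
    lam x y i j k l n = Dm (fun i k => (Aw x y i k) ^ n) i j k l := by
  simp [lam, Dm]

/-- the normal form `Γ(u,v)` of a matrix with trivial faces (rows `i`, columns `k`) -/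
def Gam (u v : H) : Fin 4 → Fin 4 → H :=
  ![![1, 1, 1, 1], ![1, v * u⁻¹ * v⁻¹ * u, v, v], ![1, u, v * u, v], ![1, u, u, 1]]

/-- the normalised matrix -/
def normMat (e : Fin 4 → Fin 4 → H) (i k : Fin 4) : H :=
  (e 0 0 * (e i 0)⁻¹) * e i k * (e 0 k)⁻¹

theorem Dm_normMat (e : Fin 4 → Fin 4 → H) (i j k l : Fin 4) :
    Dm (normMat e) i j k l = (e 0 0 * (e i 0)⁻¹) * Dm e i j k l * (e 0 0 * (e i 0)⁻¹)⁻¹ := by
  simp only [Dm, normMat]; group

/-- (L2), matrix lemma -/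
theorem normMat_eq (e : Fin 4 → Fin 4 → H)
    (hf : ∀ α : Ltr, α.1 < 7 → Dm e (x1 α) (x2 α) (y1 α) (y2 α) = 1) :
    normMat e = Gam (normMat e 2 1) (normMat e 1 2) := by
  set g := normMat e with hg
  have hg0k : ∀ k, g 0 k = 1 := by intro k; simp only [hg, normMat]; group
  have hgi0 : ∀ i, g i 0 = 1 := by intro i; simp only [hg, normMat]; group
  have hD : ∀ α : Ltr, α.1 < 7 → Dm g (x1 α) (x2 α) (y1 α) (y2 α) = 1 := by
    intro α hα
    rw [hg, Dm_normMat, hf α hα]; group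
  have f0 : g 1 3 = g 1 2 := by
    have := hD 0 (by decide)
    simp only [Dm, x1, x2, y1, y2, Matrix.cons_val_zero, hg0k, inv_one, mul_one, one_mul] at this
    exact (inv_mul_eq_one.mp this).symm
  have f2 : g 2 3 = g 1 2 := by
    have := hD 2 (by decide)
    have h' : g 1 3 * (g 2 3)⁻¹ * g 2 0 * (g 1 0)⁻¹ = 1 := this
    rw [hgi0, hgi0, inv_one, mul_one, mul_one, f0] at h'
    exact (mul_inv_eq_one.mp h').symm
  have f3 : g 3 1 = g 2 1 := by
    have := hD 3 (by decide)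
    have h' : g 2 0 * (g 3 0)⁻¹ * g 3 1 * (g 2 1)⁻¹ = 1 := this
    rw [hgi0, hgi0, inv_one, one_mul, one_mul] at h'
    exact mul_inv_eq_one.mp h'
  have f5 : g 3 2 = g 2 1 := by
    have := hD 5 (by decide)
    have h' : g 3 1 * (g 0 1)⁻¹ * g 0 2 * (g 3 2)⁻¹ = 1 := this
    rw [hg0k, hg0k, inv_one, mul_one, mul_one, f3] at h'
    exact (mul_inv_eq_one.mp h').symm
  have f6 : g 3 3 = 1 := by
    have := hD 6 (by decide)
    have h' : g 3 3 * (g 0 3)⁻¹ * g 0 0 * (g 3 0)⁻¹ = 1 := this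
    rw [hg0k, hg0k, hgi0, inv_one, mul_one, mul_one, mul_one] at h'
    exact h'
  have f4 : g 2 2 = g 1 2 * g 2 1 := by
    have := hD 4 (by decide)
    have h' : g 2 2 * (g 3 2)⁻¹ * g 3 3 * (g 2 3)⁻¹ = 1 := this
    rw [f5, f6, f2, mul_one] at h'
    have h2 := mul_inv_eq_one.mp h'
    rw [← h2]; group
  have f1 : g 1 1 = g 1 2 * (g 2 1)⁻¹ * (g 1 2)⁻¹ * g 2 1 := by
    have := hD 1 (by decide)
    have h' : g 1 1 * (g 2 1)⁻¹ * g 2 2 * (g 1 2)⁻¹ = 1 := this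
    rw [f4] at h'
    have h2 := mul_inv_eq_one.mp h'
    have h3 : g 1 1 = g 1 2 * ((g 2 1)⁻¹ * (g 1 2 * g 2 1))⁻¹ := by
      rw [eq_mul_inv_iff_mul_eq, ← mul_assoc]; exact h2
    rw [h3]; group
  funext i k
  fin_cases i <;> fin_cases k <;> simp [Gam, hg0k, hgi0, f0, f2, f3, f5, f6, f4, f1]

theorem Dm_zero_normMat (e : Fin 4 → Fin 4 → H) (j k l : Fin 4) :
    Dm (normMat e) 0 j k l = Dm e 0 j k l := by
  rw [Dm_normMat]; group

/-- (L2): the loop `c` is a commutator of conjugates of the loops `a`, `b` -/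
theorem Dm_c_mem_commutator (e : Fin 4 → Fin 4 → H)
    (hf : ∀ α : Ltr, α.1 < 7 → Dm e (x1 α) (x2 α) (y1 α) (y2 α) = 1)
    (K : Subgroup H) [hK : K.Normal] (ha : Dm e 0 1 1 2 ∈ K) (hb : Dm e 1 2 0 1 ∈ K) :
    Dm e 0 1 0 1 ∈ ⁅K, K⁆ := by
  have hg := normMat_eq e hf
  set u := normMat e 2 1 with hu
  set v := normMat e 1 2 with hv
  have ea : Dm e 0 1 1 2 = u⁻¹ * v * u := by
    rw [← Dm_zero_normMat, hg]; simp only [Dm, Gam]; simp; group
  have eb : Dm (normMat e) 1 2 0 1 = v * u * v⁻¹ := by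
    rw [hg]; simp only [Dm, Gam]; simp; group
  have hvK : v ∈ K := by
    have := hK.conj_mem _ ha u
    rw [ea] at this
    have h2 : u * (u⁻¹ * v * u) * u⁻¹ = v := by group
    rwa [h2] at this
  have huK : u ∈ K := by
    have h1 := hK.conj_mem _ hb (e 0 0 * (e 1 0)⁻¹)
    rw [← Dm_normMat, eb] at h1
    have := hK.conj_mem _ h1 v⁻¹
    have h2 : v⁻¹ * (v * u * v⁻¹) * v⁻¹⁻¹ = u := by group
    rwa [h2] at this
  have ec : Dm e 0 1 0 1 = v * u⁻¹ * v⁻¹ * u⁻¹⁻¹ := by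
    rw [← Dm_zero_normMat, hg]; simp only [Dm, Gam]; simp
  rw [ec]
  exact Subgroup.commutator_mem_commutator hvK (K.inv_mem huK)

/-- (L2): if moreover `D_a = D_b = 1` then every loop is trivial -/
theorem Dm_eq_one (e : Fin 4 → Fin 4 → H)
    (hf : ∀ α : Ltr, α.1 < 7 → Dm e (x1 α) (x2 α) (y1 α) (y2 α) = 1)
    (ha : Dm e 0 1 1 2 = 1) (hb : Dm e 1 2 0 1 = 1) (i j k l : Fin 4) : Dm e i j k l = 1 := by
  have hg := normMat_eq e hf
  set u := normMat e 2 1 with hu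
  set v := normMat e 1 2 with hv
  have ea : Dm e 0 1 1 2 = u⁻¹ * v * u := by
    rw [← Dm_zero_normMat, hg]; simp only [Dm, Gam]; simp; group
  have eb : Dm (normMat e) 1 2 0 1 = v * u * v⁻¹ := by
    rw [hg]; simp only [Dm, Gam]; simp; group
  have hv1 : v = 1 := by
    rw [ha] at ea
    have : v = u * (u⁻¹ * v * u) * u⁻¹ := by group
    rw [this, ← ea]; group
  have hu1 : u = 1 := by
    rw [Dm_normMat, hb] at eb
    have : u = v⁻¹ * (v * u * v⁻¹) * v := by group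
    rw [this, ← eb]; group
  rw [hv1, hu1] at hg
  have hall : ∀ i k, normMat e i k = 1 := by
    intro i k
    rw [hg]
    fin_cases i <;> fin_cases k <;> simp [Gam]
  have h1 : Dm (normMat e) i j k l = 1 := by simp [Dm, hall]
  rw [Dm_normMat] at h1
  have : Dm e i j k l = (e 0 0 * (e i 0)⁻¹)⁻¹ * ((e 0 0 * (e i 0)⁻¹) * Dm e i j k l * (e 0 0 * (e i 0)⁻¹)⁻¹) *
      (e 0 0 * (e i 0)⁻¹) := by group
  rw [this, h1]; group

/-- version of (L2) for `lam` in a group with the relations of `E` -/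
theorem RelE.lam_c_mem {x y : Fin 4 → H} {r : Ltr → H} (h : RelE x y r) (n : ℤ)
    (K : Subgroup H) [K.Normal] (ha : lam x y 0 1 1 2 n ∈ K) (hb : lam x y 1 2 0 1 n ∈ K) :
    lam x y 0 1 0 1 n ∈ ⁅K, K⁆ := by
  rw [lam_eq_Dm] at *
  refine Dm_c_mem_commutator _ (fun α hα => ?_) K ha hb
  rw [← lam_eq_Dm]; exact h.lam_face α hα n

theorem RelE.lam_all {x y : Fin 4 → H} {r : Ltr → H} (h : RelE x y r) (n : ℤ)
    (ha : lam x y 0 1 1 2 n = 1) (hb : lam x y 1 2 0 1 n = 1) (i j k l : Fin 4) :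
    lam x y i j k l n = 1 := by
  rw [lam_eq_Dm] at *
  refine Dm_eq_one _ (fun α hα => ?_) ha hb i j k l
  rw [← lam_eq_Dm]; exact h.lam_face α hα n

/-- (N1) flatness -/
theorem lam_of_RelG {x y : Fin 4 → H} {r : Ltr → H} (h : RelG x y r) (i j k l : Fin 4) (n : ℤ) :
    lam x y i j k l n = 1 :=
  h.toRelE.lam_all n (h.la n) (h.lb n) i j k l

theorem lam_GG (i j k l : Fin 4) (n : ℤ) : lam GG.x GG.y i j k l n = 1 :=
  lam_of_RelG GG.rel i j k l n

/-- letter `a`: `r_a⁻¹ lam_n(a) r_a = lam_{n-1}(c)⁻¹` -/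
theorem RelE.lam_a {x y : Fin 4 → H} {r : Ltr → H} (h : RelE x y r) (n : ℤ) :
    (r 7)⁻¹ * lam x y 0 1 1 2 n * r 7 = (lam x y 0 1 0 1 (n - 1))⁻¹ := by
  have := h.lam_conj 7 0 1 1 2 (Or.inl rfl) (Or.inr rfl) (Or.inl rfl) (Or.inr rfl) n
  have e1 : pX 7 0 = 0 := by decide
  have e2 : pX 7 1 = 1 := by decide
  have e3 : pY 7 1 = 1 := by decide
  have e4 : pY 7 2 = 0 := by decide
  rw [e1, e2, e3, e4, h.x0, lam_swap_y x y 0 1 0 1] at this
  simpa using this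

/-- letter `b`: `r_b⁻¹ lam_n(b) r_b` is a conjugate of `lam_{n-1}(c)⁻¹` -/
theorem RelE.lam_b {x y : Fin 4 → H} {r : Ltr → H} (h : RelE x y r) (n : ℤ) :
    ∃ g : H, lam x y 1 2 0 1 n = g * (lam x y 0 1 0 1 (n - 1))⁻¹ * g⁻¹ := by
  have := h.lam_conj 8 1 2 0 1 (Or.inl rfl) (Or.inr rfl) (Or.inl rfl) (Or.inr rfl) n
  have e1 : pX 8 1 = 1 := by decide
  have e2 : pX 8 2 = 0 := by decide
  have e3 : pY 8 0 = 0 := by decide
  have e4 : pY 8 1 = 1 := by decide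
  rw [e1, e2, e3, e4, lam_swap_x x y 0 1 0 1] at this
  set t := (Aw x y 1 0) ^ (n - 1) * (Aw x y 0 0) ^ (-(n - 1)) with ht
  refine ⟨r 8 * (x 1)⁻¹ * t, ?_⟩
  have h2 : lam x y 1 2 0 1 n = r 8 * ((r 8)⁻¹ * lam x y 1 2 0 1 n * r 8) * (r 8)⁻¹ := by group
  rw [h2, this]; group

end

end Crest.Agent.R197
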