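import Crest.Agent.R197.Words

/-!
# Row 197, module C1: word identities and the matrix lemma
-/

set_option autoImplicit false

namespace Crest.Agent.R197

section words
variable {H : Type*} [Group H] (x y : Fin 4 → H)

theorem Dm_self_left (e : Fin 4 → Fin 4 → H) (i k l : Fin 4) : Dm e i i k l = 1 := by
  simp [Dm]

theorem Dm_self_right (e : Fin 4 → Fin 4 → H) (i j k : Fin 4) : Dm e i j k k = 1 := by
  simp [Dm]

theorem Dm_inv (e : Fin 4 → Fin 4 → H) (i j k l : Fin 4) : (Dm e i j k l)⁻¹ = Dm e i j l k := by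
  simp [Dm, mul_assoc]

theorem Dm_rot (e : Fin 4 → Fin 4 → H) (i j k l : Fin 4) :
    Dm e j i l k = (e i k * (e j k)⁻¹)⁻¹ * Dm e i j k l * (e i k * (e j k)⁻¹) := by
  simp only [Dm]; group

theorem Dm_swap (e : Fin 4 → Fin 4 → H) (i j k l : Fin 4) :
    Dm e j i k l = (e i k * (e j k)⁻¹)⁻¹ * (Dm e i j k l)⁻¹ * (e i k * (e j k)⁻¹) := by
  simp only [Dm]; group

@[simp] theorem lam_self_left (i k l : Fin 4) (n : ℤ) : lam x y i i k l n = 1 := by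
  rw [lam_eq_Dm, Dm_self_left]

@[simp] theorem lam_self_right (i j k : Fin 4) (n : ℤ) : lam x y i j k k n = 1 := by
  rw [lam_eq_Dm, Dm_self_right]

theorem lam_inv (i j k l : Fin 4) (n : ℤ) : (lam x y i j k l n)⁻¹ = lam x y i j l k n := by
  rw [lam_eq_Dm, lam_eq_Dm, Dm_inv]

theorem lam_rot (i j k l : Fin 4) (n : ℤ) :
    lam x y j i l k n =
      ((Aw x y i k) ^ n * ((Aw x y j k) ^ n)⁻¹)⁻¹ * lam x y i j k l n *
        ((Aw x y i k) ^ n * ((Aw x y j k) ^ n)⁻¹) := by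
  rw [lam_eq_Dm, lam_eq_Dm, Dm_rot]

theorem lam_swap (i j k l : Fin 4) (n : ℤ) :
    lam x y j i k l n =
      ((Aw x y i k) ^ n * ((Aw x y j k) ^ n)⁻¹)⁻¹ * (lam x y i j k l n)⁻¹ *
        ((Aw x y i k) ^ n * ((Aw x y j k) ^ n)⁻¹) := by
  rw [lam_eq_Dm, lam_eq_Dm, Dm_swap]

theorem lam_eq_one_iff_swap (i j k l : Fin 4) (n : ℤ) :
    lam x y j i k l n = 1 ↔ lam x y i j k l n = 1 := by
  have key : ∀ a b : H, a⁻¹ * b⁻¹ * a = 1 ↔ b = 1 := by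
    intro a b
    constructor
    · intro h
      have h1 : b⁻¹ = 1 := by
        calc b⁻¹ = a * (a⁻¹ * b⁻¹ * a) * a⁻¹ := by group
          _ = 1 := by rw [h]; group
      exact inv_eq_one.mp h1
    · rintro rfl; simp
  rw [lam_swap, key]

theorem lam_eq_one_iff_inv (i j k l : Fin 4) (n : ℤ) :
    lam x y i j l k n = 1 ↔ lam x y i j k l n = 1 := by
  rw [← lam_inv, inv_eq_one]

/-- membership in a normal subgroup is invariant under the symmetries -/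
theorem lam_mem_iff_swap (K : Subgroup H) [K.Normal] (i j k l : Fin 4) (n : ℤ) :
    lam x y j i k l n ∈ K ↔ lam x y i j k l n ∈ K := by
  have key : ∀ a b : H, a⁻¹ * b⁻¹ * a ∈ K ↔ b ∈ K := by
    intro a b
    constructor
    · intro h
      have h1 : a * (a⁻¹ * b⁻¹ * a) * a⁻¹ ∈ K := Subgroup.Normal.conj_mem inferInstance _ h a
      have h2 : a * (a⁻¹ * b⁻¹ * a) * a⁻¹ = b⁻¹ := by group
      rw [h2] at h1
      exact inv_mem_iff.mp h1
    · intro h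
      have h1 : a⁻¹ * b⁻¹ * a⁻¹⁻¹ ∈ K :=
        Subgroup.Normal.conj_mem inferInstance _ (inv_mem h) a⁻¹
      rwa [inv_inv] at h1
  rw [lam_swap, key]

theorem lam_mem_iff_inv (K : Subgroup H) (i j k l : Fin 4) (n : ℤ) :
    lam x y i j l k n ∈ K ↔ lam x y i j k l n ∈ K := by
  rw [← lam_inv, inv_mem_iff]

theorem Bw_eq_conj (i k : Fin 4) : Bw x y i k = (x i)⁻¹ * Aw x y i k * (x i)⁻¹⁻¹ := by
  simp [Bw, Aw, mul_assoc]

theorem Bw_zpow_conj (i k : Fin 4) (n : ℤ) : (Bw x y i k) ^ n = (x i)⁻¹ * (Aw x y i k) ^ n * x i := by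
  rw [Bw_eq_conj, conj_zpow, inv_inv]

/-- (L1) -/
theorem Bw_loop (i j k l : Fin 4) (n : ℤ) :
    (Bw x y i k) ^ n * (Bw x y j k) ^ (-n) * (Bw x y j l) ^ n * (Bw x y i l) ^ (-n) =
      (x i)⁻¹ * lam x y i j k l (n - 1) * x i := by
  have h1 : x i * (x j)⁻¹ = (Aw x y i k) ^ (-1 : ℤ) * (Aw x y j k) ^ (1 : ℤ) := by
    rw [zpow_neg_one, zpow_one]; simp only [Aw]; group
  have h2 : x j * (x i)⁻¹ = (Aw x y j l) ^ (-1 : ℤ) * (Aw x y i l) ^ (1 : ℤ) := by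
    rw [zpow_neg_one, zpow_one]; simp only [Aw]; group
  simp only [Bw_zpow_conj]
  calc (x i)⁻¹ * (Aw x y i k) ^ n * x i * ((x j)⁻¹ * (Aw x y j k) ^ (-n) * x j) *
        ((x j)⁻¹ * (Aw x y j l) ^ n * x j) * ((x i)⁻¹ * (Aw x y i l) ^ (-n) * x i)
      = (x i)⁻¹ * ((Aw x y i k) ^ n * (x i * (x j)⁻¹) * (Aw x y j k) ^ (-n) *
        ((Aw x y j l) ^ n * (x j * (x i)⁻¹) * (Aw x y i l) ^ (-n))) * x i := by group
    _ = (x i)⁻¹ * (((Aw x y i k) ^ n * (Aw x y i k) ^ (-1 : ℤ)) *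
        ((Aw x y j k) ^ (1 : ℤ) * (Aw x y j k) ^ (-n)) *
        (((Aw x y j l) ^ n * (Aw x y j l) ^ (-1 : ℤ)) *
        ((Aw x y i l) ^ (1 : ℤ) * (Aw x y i l) ^ (-n)))) * x i := by
          rw [h1, h2]; simp only [mul_assoc]
    _ = (x i)⁻¹ * lam x y i j k l (n - 1) * x i := by
          simp only [← zpow_add, lam]
          have e1 : n + -1 = n - 1 := by ring
          have e2 : 1 + -n = -(n - 1) := by ring
          rw [e1, e2]; simp only [mul_assoc]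

variable {x y} {r : Ltr → H}

theorem RelE.conj_r (h : RelE x y r) (α : Ltr) (i k : Fin 4) (hi : inX α i) (hk : inY α k) :
    (r α)⁻¹ * Aw x y i k * r α = Bw x y (pX α i) (pY α k) := by
  rw [mul_assoc, h.hex α i k hi hk, inv_mul_cancel_left]

theorem RelE.conj_r_zpow (h : RelE x y r) (α : Ltr) (i k : Fin 4) (hi : inX α i) (hk : inY α k)
    (n : ℤ) : (r α)⁻¹ * (Aw x y i k) ^ n * r α = (Bw x y (pX α i) (pY α k)) ^ n := by
  rw [← h.conj_r α i k hi hk]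
  have := _root_.conj_zpow (i := n) (a := (r α)⁻¹) (b := Aw x y i k)
  rw [inv_inv] at this
  exact this.symm

/-- (L1') for arbitrary index pairs inside the blocks of `α`. -/
theorem RelE.conj_lam' (h : RelE x y r) (α : Ltr) (i j k l : Fin 4) (hi : inX α i) (hj : inX α j)
    (hk : inY α k) (hl : inY α l) (n : ℤ) :
    (r α)⁻¹ * lam x y i j k l n * r α =
      (x (pX α i))⁻¹ * lam x y (pX α i) (pX α j) (pY α k) (pY α l) (n - 1) * x (pX α i) := by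
  rw [← Bw_loop, ← h.conj_r_zpow α i k hi hk, ← h.conj_r_zpow α j k hj hk,
    ← h.conj_r_zpow α j l hj hl, ← h.conj_r_zpow α i l hi hl, lam]
  group

/-- (L1') -/
theorem RelE.conj_lam (h : RelE x y r) (α : Ltr) (n : ℤ) :
    (r α)⁻¹ * lam x y (x1 α) (x2 α) (y1 α) (y2 α) n * r α =
      (x (pX α (x1 α)))⁻¹ *
        lam x y (pX α (x1 α)) (pX α (x2 α)) (pY α (y1 α)) (pY α (y2 α)) (n - 1) *
        x (pX α (x1 α)) :=
  h.conj_lam' α _ _ _ _ (Or.inl rfl) (Or.inr rfl) (Or.inl rfl) (Or.inr rfl) n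

/-- (L1') as an iff: `lam_n` of the source loop is in a normal subgroup iff `lam_{n-1}` of the target
loop is. -/
theorem RelE.lam_mem_iff (h : RelE x y r) (K : Subgroup H) [K.Normal] (α : Ltr) (n : ℤ) :
    lam x y (x1 α) (x2 α) (y1 α) (y2 α) n ∈ K ↔
      lam x y (pX α (x1 α)) (pX α (x2 α)) (pY α (y1 α)) (pY α (y2 α)) (n - 1) ∈ K := by
  have conj_iff : ∀ g a : H, g⁻¹ * a * g ∈ K ↔ a ∈ K := by
    intro g a
    constructor
    · intro h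
      have h1 : g * (g⁻¹ * a * g) * g⁻¹ ∈ K := Subgroup.Normal.conj_mem inferInstance _ h g
      have h2 : g * (g⁻¹ * a * g) * g⁻¹ = a := by group
      rwa [h2] at h1
    · intro h
      have h1 : g⁻¹ * a * g⁻¹⁻¹ ∈ K := Subgroup.Normal.conj_mem inferInstance _ h g⁻¹
      rwa [inv_inv] at h1
  rw [← conj_iff (r α), h.conj_lam α n, conj_iff]

theorem RelE.lam_eq_one_iff (h : RelE x y r) (α : Ltr) (n : ℤ) :
    lam x y (x1 α) (x2 α) (y1 α) (y2 α) n = 1 ↔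
      lam x y (pX α (x1 α)) (pX α (x2 α)) (pY α (y1 α)) (pY α (y2 α)) (n - 1) = 1 := by
  have := h.lam_mem_iff (⊥ : Subgroup H) α n
  simpa [Subgroup.mem_bot] using this

end words

/-! ### the matrix lemma -/

section matrix
variable {H : Type*} [Group H] (e : Fin 4 → Fin 4 → H)

/-- normalised matrix -/
def nrm (i k : Fin 4) : H := e 0 0 * (e i 0)⁻¹ * e i k * (e 0 k)⁻¹

theorem nrm_zero_left (k : Fin 4) : nrm e 0 k = 1 := by simp [nrm]
theorem nrm_zero_right (i : Fin 4) : nrm e i 0 = 1 := by simp [nrm]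

theorem Dm_nrm (i j k l : Fin 4) :
    Dm (nrm e) i j k l = (e 0 0 * (e i 0)⁻¹) * Dm e i j k l * (e 0 0 * (e i 0)⁻¹)⁻¹ := by
  simp only [Dm, nrm]; group

theorem Dm_eq_conj (i j k l : Fin 4) :
    Dm e i j k l = (e 0 0 * (e i 0)⁻¹)⁻¹ * Dm (nrm e) i j k l * (e 0 0 * (e i 0)⁻¹) := by
  rw [Dm_nrm]; group

/-- explicit normal form -/
theorem nrm_form (hf : ∀ α : Ltr, α < 7 → Dm e (x1 α) (x2 α) (y1 α) (y2 α) = 1) :
    nrm e 1 1 = nrm e 1 2 * (nrm e 2 1)⁻¹ * (nrm e 1 2)⁻¹ * nrm e 2 1 ∧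
    nrm e 1 3 = nrm e 1 2 ∧ nrm e 2 2 = nrm e 1 2 * nrm e 2 1 ∧ nrm e 2 3 = nrm e 1 2 ∧
    nrm e 3 1 = nrm e 2 1 ∧ nrm e 3 2 = nrm e 2 1 ∧ nrm e 3 3 = 1 := by
  have hD : ∀ α : Ltr, α < 7 → Dm (nrm e) (x1 α) (x2 α) (y1 α) (y2 α) = 1 := by
    intro α hα
    rw [Dm_nrm, hf α hα]; group
  have f0 := hD 0 (by decide)
  have f1 := hD 1 (by decide)
  have f2 := hD 2 (by decide)
  have f3 := hD 3 (by decide)
  have f4 := hD 4 (by decide)
  have f5 := hD 5 (by decide)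
  have f6 := hD 6 (by decide)
  simp only [x1, x2, y1, y2] at f0 f1 f2 f3 f4 f5 f6
  change Dm (nrm e) 0 1 2 3 = 1 at f0
  change Dm (nrm e) 1 2 1 2 = 1 at f1
  change Dm (nrm e) 1 2 3 0 = 1 at f2
  change Dm (nrm e) 2 3 0 1 = 1 at f3
  change Dm (nrm e) 2 3 2 3 = 1 at f4
  change Dm (nrm e) 3 0 1 2 = 1 at f5
  change Dm (nrm e) 3 0 3 0 = 1 at f6
  simp only [Dm, nrm_zero_left, nrm_zero_right, one_mul, mul_one, inv_one] at f0 f1 f2 f3 f4 f5 f6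
  have g13 : nrm e 1 3 = nrm e 1 2 := (inv_mul_eq_one.mp f0).symm
  have g23 : nrm e 2 3 = nrm e 1 2 := by
    have := mul_inv_eq_one.mp f2
    rw [← this, g13]
  have g31 : nrm e 3 1 = nrm e 2 1 := mul_inv_eq_one.mp f3
  have g32 : nrm e 3 2 = nrm e 2 1 := by
    have := mul_inv_eq_one.mp f5
    rw [← this, g31]
  have g33 : nrm e 3 3 = 1 := f6
  have g22 : nrm e 2 2 = nrm e 1 2 * nrm e 2 1 := by
    rw [g32, g33, g23, mul_one] at f4
    have h := mul_inv_eq_one.mp f4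
    rw [← h]; group
  have g11 : nrm e 1 1 = nrm e 1 2 * (nrm e 2 1)⁻¹ * (nrm e 1 2)⁻¹ * nrm e 2 1 := by
    rw [g22] at f1
    have h := mul_inv_eq_one.mp f1
    have h2 : nrm e 1 1 = nrm e 1 2 * (nrm e 1 2 * nrm e 2 1)⁻¹ * nrm e 2 1 := by
      calc nrm e 1 1 = (nrm e 1 1 * (nrm e 2 1)⁻¹ * (nrm e 1 2 * nrm e 2 1)) *
            (nrm e 1 2 * nrm e 2 1)⁻¹ * nrm e 2 1 := by group
        _ = _ := by rw [h]
    rw [h2]; group
  exact ⟨g11, g13, g22, g23, g31, g32, g33⟩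

/-- values of `D` on the letters `a`, `b`, `c`. -/
theorem Dm_abc (hf : ∀ α : Ltr, α < 7 → Dm e (x1 α) (x2 α) (y1 α) (y2 α) = 1) :
    Dm (nrm e) 0 1 1 2 = (nrm e 2 1)⁻¹ * nrm e 1 2 * nrm e 2 1 ∧
    Dm (nrm e) 1 2 0 1 = nrm e 1 2 * nrm e 2 1 * (nrm e 1 2)⁻¹ ∧
    Dm (nrm e) 0 1 0 1 = nrm e 1 2 * (nrm e 2 1)⁻¹ * (nrm e 1 2)⁻¹ * nrm e 2 1 := by
  obtain ⟨g11, g13, g22, g23, g31, g32, g33⟩ := nrm_form e hf
  refine ⟨?_, ?_, ?_⟩
  · simp only [Dm, nrm_zero_left, nrm_zero_right, g11]; group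
  · simp only [Dm, nrm_zero_left, nrm_zero_right, g11]; group
  · simp only [Dm, nrm_zero_left, nrm_zero_right, g11]; group

/-- (L2), commutator part -/
theorem Dm_c_mem (hf : ∀ α : Ltr, α < 7 → Dm e (x1 α) (x2 α) (y1 α) (y2 α) = 1)
    (K : Subgroup H) [K.Normal] (ha : Dm e 0 1 1 2 ∈ K) (hb : Dm e 1 2 0 1 ∈ K) :
    Dm e 0 1 0 1 ∈ ⁅K, K⁆ := by
  obtain ⟨ea, eb, ec⟩ := Dm_abc e hf
  have ha' : Dm (nrm e) 0 1 1 2 ∈ K := by
    rw [Dm_nrm]; exact Subgroup.Normal.conj_mem inferInstance _ ha _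
  have hb' : Dm (nrm e) 1 2 0 1 ∈ K := by
    rw [Dm_nrm]; exact Subgroup.Normal.conj_mem inferInstance _ hb _
  have hv : nrm e 1 2 ∈ K := by
    have h1 : nrm e 2 1 * Dm (nrm e) 0 1 1 2 * (nrm e 2 1)⁻¹ ∈ K :=
      Subgroup.Normal.conj_mem inferInstance _ ha' _
    have h2 : nrm e 2 1 * Dm (nrm e) 0 1 1 2 * (nrm e 2 1)⁻¹ = nrm e 1 2 := by
      rw [ea]; group
    rwa [h2] at h1
  have hu : nrm e 2 1 ∈ K := by
    have h1 : (nrm e 1 2)⁻¹ * Dm (nrm e) 1 2 0 1 * ((nrm e 1 2)⁻¹)⁻¹ ∈ K :=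
      Subgroup.Normal.conj_mem inferInstance _ hb' _
    have h2 : (nrm e 1 2)⁻¹ * Dm (nrm e) 1 2 0 1 * ((nrm e 1 2)⁻¹)⁻¹ = nrm e 2 1 := by
      rw [eb]; group
    rwa [h2] at h1
  have hc : Dm (nrm e) 0 1 0 1 ∈ ⁅K, K⁆ := by
    have h1 := Subgroup.commutator_mem_commutator hv (inv_mem hu)
    rw [commutatorElement_def, inv_inv] at h1
    rw [ec]; exact h1
  rw [Dm_eq_conj]
  have := Subgroup.Normal.conj_mem (H := ⁅K, K⁆) inferInstance _ hc (e 0 0 * (e 0 0)⁻¹)⁻¹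
  rwa [inv_inv] at this

/-- (L2), flatness part -/
theorem Dm_flat (hf : ∀ α : Ltr, α < 7 → Dm e (x1 α) (x2 α) (y1 α) (y2 α) = 1)
    (ha : Dm e 0 1 1 2 = 1) (hb : Dm e 1 2 0 1 = 1) (i j k l : Fin 4) : Dm e i j k l = 1 := by
  obtain ⟨g11, g13, g22, g23, g31, g32, g33⟩ := nrm_form e hf
  obtain ⟨ea, eb, ec⟩ := Dm_abc e hf
  rw [Dm_nrm, ha] at ea
  rw [Dm_nrm, hb] at eb
  have hv : nrm e 1 2 = 1 := by
    have h1 : nrm e 1 2 = nrm e 2 1 * ((nrm e 2 1)⁻¹ * nrm e 1 2 * nrm e 2 1) * (nrm e 2 1)⁻¹ := by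
      group
    rw [h1, ← ea]; group
  have hu : nrm e 2 1 = 1 := by
    have h1 : nrm e 2 1 = (nrm e 1 2)⁻¹ * (nrm e 1 2 * nrm e 2 1 * (nrm e 1 2)⁻¹) * nrm e 1 2 := by
      group
    rw [h1, ← eb]; group
  rw [hu, hv] at g11 g22
  rw [hv] at g13 g23
  rw [hu] at g31 g32
  simp only [mul_one, inv_one] at g11 g22
  have hall : ∀ i k : Fin 4, nrm e i k = 1 := by
    intro i k
    fin_cases i <;> fin_cases k <;>
      first
        | exact nrm_zero_left e _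
        | exact nrm_zero_right e _
        | assumption
  rw [Dm_eq_conj]
  simp only [Dm, hall]
  group

end matrix

section matrixlam
variable {H : Type*} [Group H] {x y : Fin 4 → H}

/-- (L2) for the scaled loops: commutator part -/
theorem lam_c_mem (n : ℤ) (hf : ∀ α : Ltr, α < 7 → lam x y (x1 α) (x2 α) (y1 α) (y2 α) n = 1)
    (K : Subgroup H) [K.Normal] (ha : lam x y 0 1 1 2 n ∈ K) (hb : lam x y 1 2 0 1 n ∈ K) :
    lam x y 0 1 0 1 n ∈ ⁅K, K⁆ := by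
  simp only [lam_eq_Dm] at *
  exact Dm_c_mem _ hf K ha hb

/-- (L2) for the scaled loops: flatness part -/
theorem lam_flat (n : ℤ) (hf : ∀ α : Ltr, α < 7 → lam x y (x1 α) (x2 α) (y1 α) (y2 α) n = 1)
    (ha : lam x y 0 1 1 2 n = 1) (hb : lam x y 1 2 0 1 n = 1) (i j k l : Fin 4) :
    lam x y i j k l n = 1 := by
  simp only [lam_eq_Dm] at *
  exact Dm_flat _ hf ha hb i j k l

/-- face letters: the scaled loops vanish at all scales in `E` -/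
theorem RelE.lam_face_of_lt {r : Ltr → H} (h : RelE x y r) (α : Ltr) (hα : α < 7) (n : ℤ) :
    lam x y (x1 α) (x2 α) (y1 α) (y2 α) n = 1 := by
  have hp : pX α = 1 ∧ pY α = 1 := by
    have : ∀ α : Ltr, α < 7 → pX α = 1 ∧ pY α = 1 := by decide
    exact this α hα
  have step : ∀ n : ℤ, lam x y (x1 α) (x2 α) (y1 α) (y2 α) n = 1 ↔
      lam x y (x1 α) (x2 α) (y1 α) (y2 α) (n - 1) = 1 := by
    intro n
    have := h.lam_eq_one_iff α n
    rwa [hp.1, hp.2] at this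
  induction n using Int.induction_on with
  | zero => simp [lam_zero]
  | succ n ih => rw [step]; simpa using ih
  | pred n ih =>
    have := (step (-(n : ℤ))).mp ih
    exact this

/-- letter `a`: `lam_n(a)` against `lam_{n-1}(c)` -/
theorem RelE.conj_lam_a {r : Ltr → H} (h : RelE x y r) (n : ℤ) :
    (r 7)⁻¹ * lam x y 0 1 1 2 n * r 7 = (x 0)⁻¹ * lam x y 0 1 1 0 (n - 1) * x 0 := by
  have := h.conj_lam 7 n
  have e1 : x1 7 = 0 := rfl
  have e2 : x2 7 = 1 := rfl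
  have e3 : y1 7 = 1 := rfl
  have e4 : y2 7 = 2 := rfl
  have e5 : pX 7 = 1 := rfl
  have e6 : pY 7 1 = 1 := by decide
  have e7 : pY 7 2 = 0 := by decide
  rw [e1, e2, e3, e4, e5, e6, e7] at this
  exact this

/-- letter `b`: `lam_n(b)` against `lam_{n-1}(c)` -/
theorem RelE.conj_lam_b {r : Ltr → H} (h : RelE x y r) (n : ℤ) :
    (r 8)⁻¹ * lam x y 1 2 0 1 n * r 8 = (x 1)⁻¹ * lam x y 1 0 0 1 (n - 1) * x 1 := by
  have := h.conj_lam 8 n
  have e1 : x1 8 = 1 := rfl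
  have e2 : x2 8 = 2 := rfl
  have e3 : y1 8 = 0 := rfl
  have e4 : y2 8 = 1 := rfl
  have e5 : pY 8 = 1 := rfl
  have e6 : pX 8 1 = 1 := by decide
  have e7 : pX 8 2 = 0 := by decide
  rw [e1, e2, e3, e4, e5, e6, e7] at this
  exact this

theorem RelE.lam_a_mem_iff {r : Ltr → H} (h : RelE x y r) (K : Subgroup H) [K.Normal] (n : ℤ) :
    lam x y 0 1 1 2 n ∈ K ↔ lam x y 0 1 0 1 (n - 1) ∈ K := by
  have h1 := h.lam_mem_iff K 7 n
  have e1 : x1 7 = 0 := rfl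
  have e2 : x2 7 = 1 := rfl
  have e3 : y1 7 = 1 := rfl
  have e4 : y2 7 = 2 := rfl
  have e5 : pX 7 = 1 := rfl
  have e6 : pY 7 1 = 1 := by decide
  have e7 : pY 7 2 = 0 := by decide
  rw [e1, e2, e3, e4, e5, e6, e7] at h1
  rw [h1]
  exact lam_mem_iff_inv x y K 0 1 0 1 (n - 1)

theorem RelE.lam_b_mem_iff {r : Ltr → H} (h : RelE x y r) (K : Subgroup H) [K.Normal] (n : ℤ) :
    lam x y 1 2 0 1 n ∈ K ↔ lam x y 0 1 0 1 (n - 1) ∈ K := by
  have h1 := h.lam_mem_iff K 8 n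
  have e1 : x1 8 = 1 := rfl
  have e2 : x2 8 = 2 := rfl
  have e3 : y1 8 = 0 := rfl
  have e4 : y2 8 = 1 := rfl
  have e5 : pY 8 = 1 := rfl
  have e6 : pX 8 1 = 1 := by decide
  have e7 : pX 8 2 = 0 := by decide
  rw [e1, e2, e3, e4, e5, e6, e7] at h1
  rw [h1]
  exact lam_mem_iff_swap x y K 0 1 0 1 (n - 1)

end matrixlam

end Crest.Agent.R197
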