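import Mathlib

/-!
Row 197: the group of labelled permutations (right actions with labels in a group).
-/

set_option autoImplicit false

namespace Crest.Agent.R197

/-- Labelled permutations.  Composition is from left to right:
`(a * b)` first applies `a`, then `b`, and the labels multiply along the path. -/
@[ext] structure Wr (S W : Type*) where
  perm : Equiv.Perm S
  lab : S → W

namespace Wr

variable {S W : Type*} [Group W]

instance : Mul (Wr S W) := ⟨fun a b => ⟨a.perm.trans b.perm, fun g => a.lab g * b.lab (a.perm g)⟩⟩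
instance : One (Wr S W) := ⟨⟨Equiv.refl S, fun _ => 1⟩⟩
instance : Inv (Wr S W) := ⟨fun a => ⟨a.perm.symm, fun g => (a.lab (a.perm.symm g))⁻¹⟩⟩

@[simp] theorem mul_perm (a b : Wr S W) (g : S) : (a * b).perm g = b.perm (a.perm g) := rfl
@[simp] theorem mul_lab (a b : Wr S W) (g : S) :
    (a * b).lab g = a.lab g * b.lab (a.perm g) := rfl
@[simp] theorem one_perm (g : S) : (1 : Wr S W).perm g = g := rfl
@[simp] theorem one_lab (g : S) : (1 : Wr S W).lab g = 1 := rfl
@[simp] theorem inv_perm (a : Wr S W) : (a⁻¹).perm = a.perm.symm := rfl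
@[simp] theorem inv_lab (a : Wr S W) (g : S) :
    (a⁻¹).lab g = (a.lab (a.perm.symm g))⁻¹ := rfl

instance : Group (Wr S W) where
  mul_assoc a b c := by
    ext g <;> simp [mul_assoc]
  one_mul a := by ext g <;> simp
  mul_one a := by ext g <;> simp
  inv_mul_cancel a := by ext g <;> simp

/-- The subgroup of elements with trivial permutation and labels in `V`. -/
def labIn (S : Type*) {W : Type*} [Group W] (V : Subgroup W) : Subgroup (Wr S W) where
  carrier := {a | (∀ g, a.perm g = g) ∧ ∀ g, a.lab g ∈ V}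
  one_mem' := ⟨fun _ => rfl, fun _ => V.one_mem⟩
  mul_mem' := by
    rintro a b ⟨ha, ha'⟩ ⟨hb, hb'⟩
    exact ⟨fun g => by simp [ha, hb], fun g => V.mul_mem (ha' g) (hb' _)⟩
  inv_mem' := by
    rintro a ⟨ha, ha'⟩
    refine ⟨fun g => ?_, fun g => V.inv_mem (ha' _)⟩
    rw [inv_perm, Equiv.symm_apply_eq, ha]

theorem mem_labIn {V : Subgroup W} {a : Wr S W} :
    a ∈ labIn S V ↔ (∀ g, a.perm g = g) ∧ ∀ g, a.lab g ∈ V := Iff.rfl

instance labIn_normal (V : Subgroup W) [V.Normal] : (labIn S V).Normal where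
  conj_mem := by
    rintro a ⟨ha, ha'⟩ b
    refine ⟨fun g => ?_, fun g => ?_⟩
    · simp [ha]
    · simp only [mul_lab, inv_lab, mul_perm, ha, Equiv.symm_apply_apply]
      exact Subgroup.Normal.conj_mem ‹_› _ (ha' _) _

/-- evaluation of the label is a homomorphism on `labIn` -/
theorem commutator_labIn_le (V V' V'' : Subgroup W) (h : ⁅V, V'⁆ ≤ V'') :
    ⁅labIn S V, labIn S V'⁆ ≤ labIn S V'' := by
  rw [Subgroup.commutator_le]
  rintro a ⟨ha, ha'⟩ b ⟨hb, hb'⟩
  have hb2 : ∀ g, b.perm.symm g = g := fun g => by rw [Equiv.symm_apply_eq, hb]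
  have ha2 : ∀ g, a.perm.symm g = g := fun g => by rw [Equiv.symm_apply_eq, ha]
  refine ⟨fun g => ?_, fun g => ?_⟩
  · simp [commutatorElement_def, ha, hb, ha2, hb2]
  · simp only [commutatorElement_def, mul_lab, inv_lab, mul_perm, inv_perm, ha, hb, ha2, hb2]
    exact h (Subgroup.commutator_mem_commutator (ha' g) (hb' g))

end Wr

end Crest.Agent.R197
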